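import Vale.Agent.P215.Am.Mean
import Vale.Agent.P215.H788.SGDefs

/-!
# P215, route A: the groups in the class `SG` are amenable

Groups of subexponential growth are amenable, and the class of amenable groups is closed under
isomorphism, subgroups, quotients, extensions and directed unions.
-/

namespace Vale.Agent.P215.Am

open Vale.Agent.P185.H564 H788
open scoped Pointwise

/-! ### Subgroups and quotients -/

open Classical in
/-- The image of almost invariant probabilities under a map `f : G → K` such that each element of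
`K` is realized by an element of `G`. -/
theorem reiter_map {G K : Type} [Group G] [Group K] (f : G → K) (l : K → G)
    (hl : ∀ g k, f (g * l k) = f g * k) (hG : Reiter G) : Reiter K := by
  intro H ε hε
  obtain ⟨μ, h0, h1, h2⟩ := hG (H.image l) ε hε
  have key : ∀ (U : Finset G), μ.support ⊆ U → ∀ x : K,
      μ.mapDomain f x = ∑ g ∈ U, if f g = x then μ g else 0 := by
    intro U hU x
    rw [Finsupp.mapDomain, Finsupp.sum_apply, Finsupp.sum]
    rw [Finset.sum_subset hU]
    · refine Finset.sum_congr rfl fun g _ => ?_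
      rw [Finsupp.single_apply]
    · intro g _ hg
      rw [Finsupp.notMem_support_iff] at hg
      rw [hg]
      simp
  refine ⟨μ.mapDomain f, ?_, ?_, ?_⟩
  · intro x
    rw [key _ subset_rfl]
    refine Finset.sum_nonneg fun g _ => ?_
    split_ifs
    · exact h0 g
    · exact le_rfl
  · rw [Finsupp.sum_mapDomain_index (by simp) (by simp)]
    exact h1
  · intro k hk s
    set h := l k with hh
    have hf : ∀ g x, f (g * h⁻¹) = x * k⁻¹ ↔ f g = x := by
      intro g x
      have h3 := hl (g * h⁻¹) k
      rw [← hh, inv_mul_cancel_right] at h3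
      rw [h3, eq_mul_inv_iff_mul_eq]
    set U : Finset G := μ.support ∪ μ.support.image (fun g => g * h) with hU
    have h3 : ∀ x : K, μ.mapDomain f (x * k⁻¹) =
        ∑ g ∈ U, if f g = x then μ (g * h⁻¹) else 0 := by
      intro x
      rw [key _ subset_rfl]
      have h4 : ∑ g ∈ μ.support.image (fun g => g * h), (if f g = x then μ (g * h⁻¹) else 0) =
          ∑ g ∈ μ.support, if f g = x * k⁻¹ then μ g else 0 := by
        rw [Finset.sum_image (fun a _ b _ hab => mul_right_cancel hab)]
        refine Finset.sum_congr rfl fun g _ => ?_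
        have h5 := hf (g * h) x
        rw [mul_inv_cancel_right] at h5
        rw [mul_inv_cancel_right]
        by_cases h6 : f (g * h) = x
        · rw [if_pos h6, if_pos (h5.2 h6)]
        · rw [if_neg h6, if_neg (fun h7 => h6 (h5.1 h7))]
      rw [← h4]
      refine Finset.sum_subset Finset.subset_union_right ?_
      intro g _ hg
      have h5 : μ (g * h⁻¹) = 0 := by
        by_contra h6
        refine hg (Finset.mem_image.2 ⟨g * h⁻¹, Finsupp.mem_support_iff.2 h6, ?_⟩)
        exact inv_mul_cancel_right g h
      rw [h5, ite_self]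
    have h4 : ∀ x : K, |μ.mapDomain f (x * k⁻¹) - μ.mapDomain f x| ≤
        ∑ g ∈ U, if f g = x then |μ (g * h⁻¹) - μ g| else 0 := by
      intro x
      rw [h3, key U Finset.subset_union_left, ← Finset.sum_sub_distrib]
      refine (Finset.abs_sum_le_sum_abs _ _).trans (Finset.sum_le_sum fun g _ => ?_)
      split_ifs
      · exact le_rfl
      · simp
    calc ∑ x ∈ s, |μ.mapDomain f (x * k⁻¹) - μ.mapDomain f x|
        ≤ ∑ x ∈ s, ∑ g ∈ U, (if f g = x then |μ (g * h⁻¹) - μ g| else 0) :=
          Finset.sum_le_sum fun x _ => h4 x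
      _ = ∑ g ∈ U, ∑ x ∈ s, (if f g = x then |μ (g * h⁻¹) - μ g| else 0) := Finset.sum_comm
      _ ≤ ∑ g ∈ U, |μ (g * h⁻¹) - μ g| := by
          refine Finset.sum_le_sum fun g _ => ?_
          rw [Finset.sum_ite_eq]
          split_ifs
          · exact le_rfl
          · exact abs_nonneg _
      _ ≤ ε := h2 h (Finset.mem_image_of_mem l hk) U

theorem reiter_of_isAmenable {G : Type} [Group G] (h : IsAmenable G) : Reiter G :=
  @reiter_of_folner G _ (fun a b => Classical.propDecidable (a = b)) h

/-- Quotients of amenable groups are amenable. -/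
theorem IsAmenable.of_surjective {G K : Type} [Group G] [Group K] (f : G →* K)
    (hf : Function.Surjective f) (h : IsAmenable G) : IsAmenable K := by
  obtain ⟨l, hl⟩ := hf.hasRightInverse
  refine isAmenable_of_reiter (reiter_map f l ?_ (reiter_of_isAmenable h))
  intro g k
  rw [map_mul, hl]

/-- Subgroups of amenable groups are amenable. -/
theorem IsAmenable.subgroup {G : Type} [Group G] (K : Subgroup G) (h : IsAmenable G) :
    IsAmenable K := by
  let r : G → G := fun g => (Quotient.out (QuotientGroup.mk g : G ⧸ K))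
  have hr : ∀ g, (r g)⁻¹ * g ∈ K := by
    intro g
    rw [← QuotientGroup.eq]
    exact Quotient.out_eq (QuotientGroup.mk g : G ⧸ K)
  have hr2 : ∀ g (k : K), r (g * k) = r g := by
    intro g k
    have h1 : (QuotientGroup.mk (g * k) : G ⧸ K) = QuotientGroup.mk g := by
      rw [QuotientGroup.eq, mul_inv_rev, inv_mul_cancel_right]
      exact K.inv_mem k.2
    change Quotient.out (QuotientGroup.mk (g * k) : G ⧸ K) = Quotient.out (QuotientGroup.mk g : G ⧸ K)
    rw [h1]
  refine isAmenable_of_reiter (reiter_map (fun g => (⟨(r g)⁻¹ * g, hr g⟩ : K)) (fun k => (k : G)) ?_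
    (reiter_of_isAmenable h))
  intro g k
  apply Subtype.ext
  simp only [Subgroup.coe_mul]
  rw [hr2, mul_assoc]

/-! ### Directed unions -/

theorem card_symmDiff_val {G : Type} [Group G] (K : Subgroup G) [DecidableEq K] [DecidableEq G]
    (D : Finset K) (s : K) :
    (symmDiff ((D.image Subtype.val).image (fun a => (s : G) * a)) (D.image Subtype.val)).card =
      (symmDiff (D.image (fun a => s * a)) D).card := by
  have hinj : Function.Injective (Subtype.val : K → G) := Subtype.val_injective
  have h4 : (D.image Subtype.val).image (fun a => (s : G) * a) =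
      (D.image (fun a => s * a)).image Subtype.val := by
    rw [Finset.image_image, Finset.image_image]
    rfl
  rw [h4, ← Finset.image_symmDiff _ _ hinj, Finset.card_image_of_injective _ hinj]

/-- Directed unions of amenable groups are amenable. -/
theorem IsAmenable.directedUnion {G : Type} [Group G] {ι : Type} [Nonempty ι] (S : ι → Subgroup G)
    (dir : Directed (· ≤ ·) S) (union : ∀ g : G, ∃ i, g ∈ S i) (h : ∀ i, IsAmenable (S i)) :
    IsAmenable G := by
  classical
  intro F ε hε
  have h1 : ∃ i, ∀ g ∈ F, g ∈ S i := by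
    induction F using Finset.induction_on with
    | empty =>
      obtain ⟨i⟩ := ‹Nonempty ι›
      exact ⟨i, by simp⟩
    | insert a F _ ih =>
      obtain ⟨i, hi⟩ := ih
      obtain ⟨j, hj⟩ := union a
      obtain ⟨k, hk1, hk2⟩ := dir i j
      refine ⟨k, fun g hg => ?_⟩
      rcases Finset.mem_insert.1 hg with rfl | hg
      · exact hk2 hj
      · exact hk1 (hi g hg)
  obtain ⟨i, hi⟩ := h1
  obtain ⟨D, hD, h2⟩ := h i (F.subtype (fun g => g ∈ S i)) ε hε
  refine ⟨D.image Subtype.val, hD.image _, fun s hs => ?_⟩
  have h3 := h2 ⟨s, hi s hs⟩ (Finset.mem_subtype.2 hs)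
  have h4 := @card_symmDiff_val G _ (S i) (fun a b => Classical.propDecidable (a = b))
    (fun a b => Classical.propDecidable (a = b)) D ⟨s, hi s hs⟩
  have h5 : (D.image (Subtype.val : S i → G)).card = D.card :=
    Finset.card_image_of_injective _ Subtype.val_injective
  rw [h5]
  exact (congrArg (Nat.cast : ℕ → ℝ) h4).trans_lt h3

/-! ### Subexponential growth -/

/-- Groups of subexponential growth are amenable. -/
theorem IsAmenable.of_subexp {G : Type} [Group G] (h : SubexpGrowth G) : IsAmenable G := by
  classical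
  intro S ε hε
  set T : Set G := insert 1 (S : Set G) with hT
  have hTf : T.Finite := S.finite_toSet.insert 1
  have hTn : ∀ n : ℕ, (T ^ n).Finite := by
    intro n
    induction n with
    | zero => rw [pow_zero]; exact Set.finite_one
    | succ n ih => rw [pow_succ]; exact ih.mul hTf
  have h1 : (1 : G) ∈ T := Set.mem_insert _ _
  have h1n : ∀ n : ℕ, (1 : G) ∈ T ^ n := fun n => Set.one_mem_pow h1
  have hmono : ∀ n : ℕ, T ^ n ⊆ T ^ (n + 1) := fun n => Set.pow_subset_pow_right h1 (Nat.le_succ n)
  set a : ℕ → ℝ := fun n => ((T ^ n).ncard : ℝ) with ha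
  have ha1 : ∀ n, 1 ≤ a n := by
    intro n
    have h2 : 1 ≤ (T ^ n).ncard := (Set.ncard_pos (hTn n)).2 ⟨1, h1n n⟩
    change (1 : ℝ) ≤ ((T ^ n).ncard : ℝ)
    exact_mod_cast h2
  set δ : ℝ := ε / 3 with hδ
  have hδ0 : 0 < δ := by positivity
  obtain ⟨n, hn⟩ : ∃ n, a (n + 1) ≤ (1 + δ) * a n := by
    by_contra hc
    push Not at hc
    have h2 : ∀ n, (1 + δ) ^ n ≤ a n := by
      intro n
      induction n with
      | zero => simpa using ha1 0
      | succ n ih =>
        rw [pow_succ, mul_comm]
        exact (mul_le_mul_of_nonneg_left ih (by positivity)).trans (hc n).le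
    obtain ⟨n₀, h3⟩ := h T hTf (1 + δ / 2) (by linarith)
    have h4 := (h2 (n₀ + 1)).trans (h3 (n₀ + 1) (Nat.le_succ n₀))
    have h5 : (1 + δ / 2) ^ (n₀ + 1) < (1 + δ) ^ (n₀ + 1) :=
      pow_lt_pow_left₀ (by linarith) (by positivity) (Nat.succ_ne_zero n₀)
    linarith
  refine ⟨(hTn n).toFinset, ⟨1, (hTn n).mem_toFinset.2 (h1n n)⟩, fun s hs => ?_⟩
  set A := (hTn n).toFinset with hA
  set B := (hTn (n + 1)).toFinset with hB
  have hAB : A ⊆ B := by
    intro x hx
    exact (hTn (n + 1)).mem_toFinset.2 (hmono n ((hTn n).mem_toFinset.1 hx))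
  have hsB : A.image (fun a => s * a) ⊆ B := by
    intro x hx
    obtain ⟨y, hy, rfl⟩ := Finset.mem_image.1 hx
    refine (hTn (n + 1)).mem_toFinset.2 ?_
    rw [pow_succ']
    exact Set.mul_mem_mul (Set.mem_insert_of_mem _ hs) ((hTn n).mem_toFinset.1 hy)
  have hAc : (A.card : ℝ) = a n := by
    rw [ha, hA]
    simp only
    rw [Set.ncard_eq_toFinset_card _ (hTn n)]
  have hBc : (B.card : ℝ) = a (n + 1) := by
    rw [ha, hB]
    simp only
    rw [Set.ncard_eq_toFinset_card _ (hTn (n + 1))]
  have hsc : (A.image (fun a => s * a)).card = A.card :=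
    Finset.card_image_of_injective _ (mul_right_injective s)
  have h2 : symmDiff (A.image (fun a => s * a)) A ⊆
      (B \ A.image (fun a => s * a)) ∪ (B \ A) := by
    intro x hx
    rcases Finset.mem_symmDiff.1 hx with ⟨h3, h4⟩ | ⟨h3, h4⟩
    · exact Finset.mem_union_right _ (Finset.mem_sdiff.2 ⟨hsB h3, h4⟩)
    · exact Finset.mem_union_left _ (Finset.mem_sdiff.2 ⟨hAB h3, h4⟩)
  have h3 : ((symmDiff (A.image (fun a => s * a)) A).card : ℝ) ≤
      ((B \ A.image (fun a => s * a)).card : ℝ) + ((B \ A).card : ℝ) := by
    have h4 := (Finset.card_le_card h2).trans (Finset.card_union_le _ _)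
    exact_mod_cast h4
  have h4 : ((B \ A).card : ℝ) = B.card - A.card := by
    rw [Finset.card_sdiff_of_subset hAB, Nat.cast_sub (Finset.card_le_card hAB)]
  have h5 : ((B \ A.image (fun a => s * a)).card : ℝ) = B.card - A.card := by
    rw [Finset.card_sdiff_of_subset hsB, Nat.cast_sub (Finset.card_le_card hsB), hsc]
  have h6 := ha1 n
  calc ((symmDiff (A.image (fun a => s * a)) A).card : ℝ)
      ≤ 2 * (a (n + 1) - a n) := by
        rw [h4, h5] at h3
        rw [← hAc, ← hBc]
        linarith
    _ ≤ 2 * (δ * a n) := by linarith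
    _ < ε * A.card := by
        rw [hAc, hδ]
        nlinarith

/-- **The groups in the class `SG` are amenable.** -/
theorem isAmenable_of_SG {G : Type} [Group G] (h : SG G) : IsAmenable G := by
  induction h with
  | subexp h => exact IsAmenable.of_subexp h
  | equiv e _ ih => exact ih.of_surjective e.toMonoidHom e.surjective
  | subgroup H _ ih => exact ih.subgroup H
  | quotient N _ ih => exact ih.of_surjective (QuotientGroup.mk' N) (QuotientGroup.mk'_surjective N)
  | extension N _ _ ih1 ih2 => exact IsAmenable.extension N ih1 ih2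
  | directedUnion S dir union _ ih => exact IsAmenable.directedUnion S dir union ih

end Vale.Agent.P215.Am
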