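import Mathlib

/-!
# P215, route A: labelled systems and their moves (interface combinatorics / geometry)

A labelled system `S : LabSys Γ` describes a plumbed body: `S.V` is the finite set of three-legged
branches, `S.K` the finite set of darts (preimages of the double points); the dart `k` lies on the
leg number `S.leg k` of the branch `S.vert k`; the double point of `k` has the other preimage
`S.flip k`; `S.t k` is its label (start at the base point, go to `k`, jump to `flip k`, return).

The geometric moves are

* `split i`: every branch `v` is replaced by one branch for each dart on its leg `i`;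
* `remove v`: a branch which has a leg without darts is removed (contracted along that leg);
* `push u a b n`: the branch `u` is contracted and all darts opposite to its legs `a` and `b` are
  pushed off, which creates new double points.

`Final`: the system can be contracted such that all remaining labels are trivial.
-/

namespace Vale.Agent.P215.Am

/-- A finite labelled system. -/
structure LabSys (Γ : Type) [Group Γ] where
  /-- the branches -/
  V : Type
  /-- the darts -/
  K : Type
  fV : Fintype V
  dV : DecidableEq V
  fK : Fintype K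
  dK : DecidableEq K
  /-- the branch of a dart -/
  vert : K → V
  /-- the leg of a dart -/
  leg : K → Fin 3
  /-- the opposite dart -/
  flip : K → K
  flip_flip : ∀ k, flip (flip k) = k
  flip_ne : ∀ k, flip k ≠ k
  /-- the label -/
  t : K → Γ
  t_flip : ∀ k, t (flip k) = (t k)⁻¹

attribute [instance] LabSys.fV LabSys.dV LabSys.fK LabSys.dK

namespace LabSys

variable {Γ : Type} [Group Γ] (S : LabSys Γ)

/-- All legs of all branches carry at least one dart. -/
def Full : Prop := ∀ (v : S.V) (l : Fin 3), ∃ k, S.vert k = v ∧ S.leg k = l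

/-! ### Splitting -/

/-- `c` is the index of a piece of the branch of `k` (for the splitting along the legs number `i`)
in which a copy of the dart `k` survives. -/
def IsOver (i : Fin 3) (k c : S.K) : Prop :=
  S.leg c = i ∧ S.vert c = S.vert k ∧ (S.leg k = i → c = k)

instance (i : Fin 3) (k c : S.K) : Decidable (S.IsOver i k c) := by
  unfold IsOver; infer_instance

/-- **Splitting all branches along their legs number `i`**: the branch `v` is replaced by one branch
for each dart `c` on the leg `(v, i)`, namely `c`.  The new darts are the triples `(k, c, c')`, with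
`c` over the branch of `k` and `c'` over the branch of `flip k`; the dart `k` on a leg `i` survives
only in the piece `c = k`. -/
def split (i : Fin 3) : LabSys Γ where
  V := {c : S.K // S.leg c = i}
  K := {x : S.K × S.K × S.K // S.IsOver i x.1 x.2.1 ∧ S.IsOver i (S.flip x.1) x.2.2}
  fV := inferInstance
  dV := inferInstance
  fK := inferInstance
  dK := inferInstance
  vert x := ⟨x.1.2.1, x.2.1.1⟩
  leg x := S.leg x.1.1
  flip x := ⟨(S.flip x.1.1, x.1.2.2, x.1.2.1), x.2.2, by rw [S.flip_flip]; exact x.2.1⟩
  flip_flip x := by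
    apply Subtype.ext
    simp [S.flip_flip]
  flip_ne x h := S.flip_ne x.1.1 (congrArg (fun y => y.1.1) h)
  t x := S.t x.1.1
  t_flip x := S.t_flip x.1.1

theorem split_full {i : Fin 3} (h : S.Full) : (S.split i).Full := by
  rintro ⟨c, hc⟩ l
  by_cases hl : l = i
  · subst hl
    obtain ⟨c', h1, h2⟩ := h (S.vert (S.flip c)) l
    by_cases h3 : S.leg (S.flip c) = l
    · exact ⟨⟨(c, c, S.flip c), ⟨hc, rfl, fun _ => rfl⟩, ⟨h3, rfl, fun _ => rfl⟩⟩, rfl, hc⟩
    · exact ⟨⟨(c, c, c'), ⟨hc, rfl, fun _ => rfl⟩, ⟨h2, h1, fun h => absurd h h3⟩⟩, rfl, hc⟩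
  · obtain ⟨k, h1, h2⟩ := h (S.vert c) l
    obtain ⟨c', h3, h4⟩ := h (S.vert (S.flip k)) i
    have hk : S.leg k ≠ i := fun h => hl (h2 ▸ h)
    by_cases h5 : S.leg (S.flip k) = i
    · exact ⟨⟨(k, c, S.flip k), ⟨hc, h1.symm, fun h => absurd h hk⟩, ⟨h5, rfl, fun _ => rfl⟩⟩,
        rfl, h2⟩
    · exact ⟨⟨(k, c, c'), ⟨hc, h1.symm, fun h => absurd h hk⟩, ⟨h4, h3, fun h => absurd h h5⟩⟩,
        rfl, h2⟩

/-! ### Removing a branch -/

/-- **Removing a branch** `v` together with all darts on it and the opposite darts. -/
def remove (v : S.V) : LabSys Γ where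
  V := {w : S.V // w ≠ v}
  K := {k : S.K // S.vert k ≠ v ∧ S.vert (S.flip k) ≠ v}
  fV := inferInstance
  dV := inferInstance
  fK := inferInstance
  dK := inferInstance
  vert k := ⟨S.vert k.1, k.2.1⟩
  leg k := S.leg k.1
  flip k := ⟨S.flip k.1, k.2.2, by rw [S.flip_flip]; exact k.2.1⟩
  flip_flip k := Subtype.ext (S.flip_flip k.1)
  flip_ne k h := S.flip_ne k.1 (congrArg Subtype.val h)
  t k := S.t k.1
  t_flip k := S.t_flip k.1

/-! ### Pushing off -/

/-- The leg `(u, a)` has no double point with the branch `u` itself. -/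
def NoSelf (u : S.V) (a : Fin 3) : Prop :=
  ∀ k, S.vert k = u → S.leg k = a → S.vert (S.flip k) ≠ u

/-- The new double points of `push`: a dart `k` opposite to the leg `(u, a)`, a dart `m` opposite to
the leg `(u, b)`, and a number. -/
abbrev PushPair (u : S.V) (a b : Fin 3) (n : ℕ) : Type :=
  {x : S.K × S.K × Fin n // (S.vert (S.flip x.1) = u ∧ S.leg (S.flip x.1) = a) ∧
    (S.vert (S.flip x.2.1) = u ∧ S.leg (S.flip x.2.1) = b)}

/-- **Contracting the branch `u` and pushing off** the darts opposite to its legs `a` and `b`: the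
branch `u` and all its darts disappear, and for each dart `k` opposite to `(u, a)` and each dart `m`
opposite to `(u, b)` there are `n` new double points, between the branches of `k` and `m`, with the
label `t k * (t m)⁻¹`. The new dart `(p, false)` is a part of the dart `k = p.1.1` and `(p, true)` is
a part of `m = p.1.2.1`. -/
def push (u : S.V) (a b : Fin 3) (n : ℕ) (ha : S.NoSelf u a) (hb : S.NoSelf u b) : LabSys Γ where
  V := {w : S.V // w ≠ u}
  K := {k : S.K // S.vert k ≠ u ∧ S.vert (S.flip k) ≠ u} ⊕ (S.PushPair u a b n × Bool)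
  fV := inferInstance
  dV := inferInstance
  fK := inferInstance
  dK := inferInstance
  vert
    | .inl k => ⟨S.vert k.1, k.2.1⟩
    | .inr (p, false) => ⟨S.vert p.1.1, by
        have := ha (S.flip p.1.1) p.2.1.1 p.2.1.2
        rwa [S.flip_flip] at this⟩
    | .inr (p, true) => ⟨S.vert p.1.2.1, by
        have := hb (S.flip p.1.2.1) p.2.2.1 p.2.2.2
        rwa [S.flip_flip] at this⟩
  leg
    | .inl k => S.leg k.1
    | .inr (p, false) => S.leg p.1.1
    | .inr (p, true) => S.leg p.1.2.1
  flip
    | .inl k => .inl ⟨S.flip k.1, k.2.2, by rw [S.flip_flip]; exact k.2.1⟩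
    | .inr (p, false) => .inr (p, true)
    | .inr (p, true) => .inr (p, false)
  flip_flip := by
    rintro (k | ⟨p, _ | _⟩)
    · exact congrArg Sum.inl (Subtype.ext (S.flip_flip k.1))
    · rfl
    · rfl
  flip_ne := by
    rintro (k | ⟨p, _ | _⟩) h
    · exact S.flip_ne k.1 (congrArg Subtype.val (Sum.inl.inj h))
    · cases h
    · cases h
  t
    | .inl k => S.t k.1
    | .inr (p, false) => S.t p.1.1 * (S.t p.1.2.1)⁻¹
    | .inr (p, true) => S.t p.1.2.1 * (S.t p.1.1)⁻¹
  t_flip := by
    rintro (k | ⟨p, _ | _⟩)
    · exact S.t_flip k.1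
    · simp
    · simp

/-- **The final condition**: there is a choice of a leg of each branch such that all double points
between chosen legs have trivial labels. -/
def Final : Prop :=
  ∃ p : S.V → Fin 3, ∀ k, S.leg k = p (S.vert k) →
    S.leg (S.flip k) = p (S.vert (S.flip k)) → S.t k = 1

end LabSys

/-- A group is **amenable** if it satisfies the Følner condition. -/
def Amenable (Γ : Type) [Group Γ] : Prop :=
  ∀ (S : Finset Γ) (ε : ℝ), 0 < ε → ∃ F : Finset Γ, F.Nonempty ∧
    ∀ s ∈ S, {f ∈ (F : Set Γ) | f * s ∉ F}.ncard ≤ ε * F.card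

/-- **The combinatorial theorem** (owner: helper570, flow: helper586).  Let `R₁`, `R₂` be classes of
labelled systems over an amenable group with `R₁ ⊆ R₂`, `R₁` closed under removing branches with
an empty leg and under splitting (of systems without empty legs), `R₂` closed under pushing off. If
`R₁` is non-empty then `R₂` contains a system which satisfies the final condition. -/
def CombStatement : Prop :=
  ∀ (Γ : Type) [Group Γ], Amenable Γ → ∀ R₁ R₂ : LabSys Γ → Prop,
    (∀ S v l, R₁ S → (∀ k, S.vert k = v → S.leg k ≠ l) → R₁ (S.remove v)) →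
    (∀ S i, R₁ S → S.Full → R₁ (S.split i)) →
    (∀ S, R₁ S → R₂ S) →
    (∀ S u a b, a ≠ b → ∀ (ha : S.NoSelf u a) (hb : S.NoSelf u b), R₂ S →
      ∃ n, R₂ (S.push u a b n ha hb)) →
    ∀ S₀, R₁ S₀ → ∃ S, R₂ S ∧ S.Final

end Vale.Agent.P215.Am
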