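import Vale.Agent.P215.Am.AmenableDefs
import Vale.Agent.P215.Am.LabSys
import Vale.Agent.P196.H697.Ext

/-!
# P215: amenable groups

Amenability of discrete groups: the condition of Folner, and invariant means.
-/

namespace Vale.Agent.P215.Am

open scoped commutatorElement

theorem isAmenable_iff_P196 {G : Type} [Group G] : IsAmenable G ↔ Vale.Agent.P196.IsAmenable G :=
  Iff.rfl

open Classical in
/-- Finite sets which are almost invariant under multiplication from the right. -/
theorem IsAmenable.right {G : Type} [Group G] (h : IsAmenable G) (S : Finset G) {ε : ℝ} (hε : 0 < ε) :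
    ∃ F : Finset G, F.Nonempty ∧
      ∀ s ∈ S, ((F.filter (fun f => f * s ∉ F)).card : ℝ) < ε * F.card := by
  obtain ⟨D, hD, hF⟩ := Vale.Agent.P196.H697.isAmenable_iff_bd.1 (isAmenable_iff_P196.1 h)
    (S.image fun s => s⁻¹) ε hε
  refine ⟨D.image fun d => d⁻¹, hD.image _, fun s hs => ?_⟩
  have h1 := hF s⁻¹ (Finset.mem_image_of_mem _ hs)
  rw [Vale.Agent.P196.H697.bd_eq] at h1
  have hc : (D.image fun d => d⁻¹).card = D.card :=
    Finset.card_image_of_injective _ inv_injective
  rw [hc]
  refine lt_of_le_of_lt ?_ h1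
  have : ((D.image fun d => d⁻¹).filter fun f => f * s ∉ D.image fun d => d⁻¹) ⊆
      (D.filter fun x => s⁻¹ * x ∉ D).image fun d => d⁻¹ := by
    intro f hf
    obtain ⟨hf1, hf2⟩ := Finset.mem_filter.1 hf
    obtain ⟨d, hd, rfl⟩ := Finset.mem_image.1 hf1
    refine Finset.mem_image.2 ⟨d, Finset.mem_filter.2 ⟨hd, fun h3 => hf2 ?_⟩, rfl⟩
    exact Finset.mem_image.2 ⟨_, h3, by rw [mul_inv_rev, inv_inv]⟩
  exact_mod_cast (Finset.card_le_card this).trans Finset.card_image_le

/-- The form of the condition of Folner which is used for labelled systems. -/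
theorem IsAmenable.amenable {G : Type} [Group G] (h : IsAmenable G) : Amenable G := by
  classical
  intro S ε hε
  obtain ⟨F, hF, h1⟩ := h.right S hε
  refine ⟨F, hF, fun s hs => ?_⟩
  have h2 : {f ∈ (F : Set G) | f * s ∉ F} = ((F.filter (fun f => f * s ∉ F) : Finset G) : Set G) := by
    ext f
    simp
  rw [h2, Set.ncard_coe_finset]
  exact (h1 s hs).le

/-- Groups with commuting elements are amenable. -/
theorem IsAmenable.of_comm {G : Type} [Group G] (h : ∀ a b : G, a * b = b * a) : IsAmenable G :=
  Vale.Agent.P196.H697.isAmenable_of_comm G h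

/-- Extensions. -/
theorem IsAmenable.extension {G : Type} [Group G] (N : Subgroup G) [N.Normal] (h1 : IsAmenable N)
    (h2 : IsAmenable (G ⧸ N)) : IsAmenable G :=
  Vale.Agent.P196.H697.isAmenable_of_ext N h1 h2

theorem IsAmenable.of_derivedSeries (n : ℕ) :
    ∀ (G : Type) [Group G], derivedSeries G n = ⊥ → IsAmenable G := by
  induction n with
  | zero =>
    intro G _ h
    apply IsAmenable.of_comm
    intro a b
    have h1 : ∀ x : G, x = 1 := by
      intro x
      have : x ∈ derivedSeries G 0 := by
        rw [derivedSeries_zero]; exact Subgroup.mem_top x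
      rwa [h, Subgroup.mem_bot] at this
    rw [h1 a, h1 b]
  | succ n ih =>
    intro G _ h
    refine IsAmenable.extension (derivedSeries G n) ?_ ?_
    · apply IsAmenable.of_comm
      rintro ⟨a, ha⟩ ⟨b, hb⟩
      apply Subtype.ext
      have h1 : ⁅a, b⁆ ∈ derivedSeries G (n + 1) := by
        rw [derivedSeries_succ]
        exact Subgroup.commutator_mem_commutator ha hb
      rw [h, Subgroup.mem_bot, commutatorElement_eq_one_iff_mul_comm] at h1
      exact h1
    · apply ih
      rw [← map_derivedSeries_eq (QuotientGroup.mk'_surjective (derivedSeries G n)) n, eq_bot_iff]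
      rintro _ ⟨a, ha, rfl⟩
      rw [Subgroup.mem_bot]
      exact (QuotientGroup.eq_one_iff a).2 ha

/-- Solvable groups are amenable. -/
theorem IsAmenable.of_isSolvable {G : Type} [Group G] (h : Group.IsSolvable G) : IsAmenable G := by
  obtain ⟨n, hn⟩ := (Group.isSolvable_def G).1 h
  exact IsAmenable.of_derivedSeries n G hn

end Vale.Agent.P215.Am
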