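import Vale.Agent.P215.Am.SGAmen
import Vale.Agent.P215.Am.Amenable
import Vale.Agent.P215.H788.Gdelta

/-!
# P215, route A: amenability is given by countably many open conditions

Hence there are continuum many amenable groups with two generators outside the class `SG`.
-/

noncomputable section

namespace Vale.Agent.P215.Am

open Vale.Agent.P185.H564 H788

open Classical in
/-- The image of an almost invariant probability. -/
theorem push_bound {G K : Type} [Group G] [Group K] (f : G → K) (μ : G →₀ ℝ) (h : G) (k : K)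
    (hf : ∀ g ∈ μ.support, f (g * h) = f g * k) {ε : ℝ}
    (hb : ∀ s : Finset G, ∑ g ∈ s, |μ (g * h⁻¹) - μ g| ≤ ε) (s : Finset K) :
    ∑ x ∈ s, |μ.mapDomain f (x * k⁻¹) - μ.mapDomain f x| ≤ ε := by
  have key : ∀ (U : Finset G), μ.support ⊆ U → ∀ x : K,
      μ.mapDomain f x = ∑ g ∈ U, if f g = x then μ g else 0 := by
    intro U hU x
    rw [Finsupp.mapDomain, Finsupp.sum_apply, Finsupp.sum]
    rw [Finset.sum_subset hU]
    · refine Finset.sum_congr rfl fun g _ => ?_
      rw [Finsupp.single_apply]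
    · intro g _ hg
      rw [Finsupp.notMem_support_iff] at hg
      rw [hg]
      simp
  set U : Finset G := μ.support ∪ μ.support.image (fun g => g * h) with hU
  have h3 : ∀ x : K, μ.mapDomain f (x * k⁻¹) =
      ∑ g ∈ U, if f g = x then μ (g * h⁻¹) else 0 := by
    intro x
    rw [key _ subset_rfl]
    have h4 : ∑ g ∈ μ.support.image (fun g => g * h), (if f g = x then μ (g * h⁻¹) else 0) =
        ∑ g ∈ μ.support, if f g = x * k⁻¹ then μ g else 0 := by
      rw [Finset.sum_image (fun a _ b _ hab => mul_right_cancel hab)]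
      refine Finset.sum_congr rfl fun g hg => ?_
      have h5 : f g = x * k⁻¹ ↔ f (g * h) = x := by
        rw [hf g hg, eq_mul_inv_iff_mul_eq]
      rw [mul_inv_cancel_right]
      by_cases h6 : f (g * h) = x
      · rw [if_pos h6, if_pos (h5.2 h6)]
      · rw [if_neg h6, if_neg (fun h7 => h6 (h5.1 h7))]
    rw [← h4]
    refine Finset.sum_subset Finset.subset_union_right ?_
    intro g _ hg
    have h5 : μ (g * h⁻¹) = 0 := by
      by_contra h6
      refine hg (Finset.mem_image.2 ⟨g * h⁻¹, Finsupp.mem_support_iff.2 h6, ?_⟩)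
      exact inv_mul_cancel_right g h
    rw [h5, ite_self]
  have h4 : ∀ x : K, |μ.mapDomain f (x * k⁻¹) - μ.mapDomain f x| ≤
      ∑ g ∈ U, if f g = x then |μ (g * h⁻¹) - μ g| else 0 := by
    intro x
    rw [h3, key U Finset.subset_union_left, ← Finset.sum_sub_distrib]
    refine (Finset.abs_sum_le_sum_abs _ _).trans (Finset.sum_le_sum fun g _ => ?_)
    split_ifs
    · exact le_rfl
    · simp
  calc ∑ x ∈ s, |μ.mapDomain f (x * k⁻¹) - μ.mapDomain f x|
      ≤ ∑ x ∈ s, ∑ g ∈ U, (if f g = x then |μ (g * h⁻¹) - μ g| else 0) :=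
        Finset.sum_le_sum fun x _ => h4 x
    _ = ∑ g ∈ U, ∑ x ∈ s, (if f g = x then |μ (g * h⁻¹) - μ g| else 0) := Finset.sum_comm
    _ ≤ ∑ g ∈ U, |μ (g * h⁻¹) - μ g| := by
        refine Finset.sum_le_sum fun g _ => ?_
        rw [Finset.sum_ite_eq]
        split_ifs
        · exact le_rfl
        · exact abs_nonneg _
    _ ≤ ε := hb U

/-- An almost invariant probability for the elements `g i`. -/
def AlmostInv {r : ℕ} (Γ : Type) [Group Γ] (g : Fin r → Γ) (ε : ℝ) : Prop :=
  ∃ ν : Γ →₀ ℝ, (∀ x, 0 ≤ ν x) ∧ (ν.sum fun _ a => a) = 1 ∧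
    ∀ i, ∀ s : Finset Γ, ∑ x ∈ s, |ν (x * (g i)⁻¹) - ν x| ≤ ε

/-- The data of the class of amenable groups. -/
def amenData : OpenData where
  I := ℕ × ℕ
  P := fun i => FreeGroup (Fin i.1)
  DD := fun i => {S | S.Finite ∧ ∀ (Γ : Type) [Group Γ] (φ : FreeGroup (Fin i.1) →* Γ),
    (∀ s ∈ S, φ s = 1) → AlmostInv Γ (fun j => φ (FreeGroup.of j)) (1 / ((i.2 : ℝ) + 1))}
  countable := inferInstance
  fg := fun i => inferInstance
  finite := fun _ _ hS => hS.1

theorem reiter_of_class {Γ : Type} [Group Γ] (h : amenData.Class Γ) : Reiter Γ := by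
  classical
  intro H ε hε
  obtain ⟨k, hk⟩ := exists_nat_one_div_lt hε
  let e := H.equivFin
  obtain ⟨S, hS, h1⟩ := h (H.card, k) (FreeGroup.lift fun j => ((e.symm j : H) : Γ))
  obtain ⟨ν, h2, h3, h4⟩ := hS.2 Γ _ h1
  refine ⟨ν, h2, h3, fun x hx s => ?_⟩
  have h5 := h4 (e ⟨x, hx⟩) s
  simp only [FreeGroup.lift_apply_of, Equiv.symm_apply_apply] at h5
  exact h5.trans hk.le

theorem class_of_reiter {Γ : Type} [Group Γ] (h : Reiter Γ) : amenData.Class Γ := by
  classical
  rintro ⟨r, k⟩ (φ : FreeGroup (Fin r) →* Γ)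
  have hR : Reiter φ.range := reiter_of_isAmenable ((isAmenable_of_reiter h).subgroup φ.range)
  let g : Fin r → φ.range := fun j => φ.rangeRestrict (FreeGroup.of j)
  obtain ⟨σ, hσ⟩ := φ.rangeRestrict_surjective.hasRightInverse
  obtain ⟨ν, h0, h1, h2⟩ := hR (Finset.univ.image g) (1 / ((k : ℝ) + 1)) (by positivity)
  have h3 : ∀ v : φ.range, φ (σ v) = v := fun v => congrArg Subtype.val (hσ v)
  have h5 : ∀ (u : φ.range) (j : Fin r),
      φ ((σ (u * g j))⁻¹ * (σ u * FreeGroup.of j)) = 1 := by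
    intro u j
    have h6 : φ ((σ (u * g j))⁻¹ * (σ u * FreeGroup.of j)) =
        (φ (σ (u * g j)))⁻¹ * (φ (σ u) * φ (FreeGroup.of j)) := by
      simp only [map_mul, map_inv]
    rw [h6, h3, h3, inv_mul_eq_one]
    rfl
  refine ⟨{w | ∃ u ∈ ν.support, ∃ j, w = (σ (u * g j))⁻¹ * (σ u * FreeGroup.of j)}, ⟨?_, ?_⟩, ?_⟩
  · refine Set.Finite.subset ((ν.support ×ˢ (Finset.univ : Finset (Fin r))).image
      (fun x => (σ (x.1 * g x.2))⁻¹ * (σ x.1 * FreeGroup.of x.2))).finite_toSet ?_
    rintro w ⟨u, hu, j, rfl⟩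
    simp only [Finset.coe_image, Set.mem_image, Finset.mem_coe, Finset.mem_product]
    exact ⟨(u, j), ⟨hu, Finset.mem_univ _⟩, rfl⟩
  · intro Γ' _ φ' hφ'
    have h3 : ∀ u ∈ ν.support, ∀ j, φ' (σ (u * g j)) = φ' (σ u) * φ' (FreeGroup.of j) := by
      intro u hu j
      have h4 := hφ' _ ⟨u, hu, j, rfl⟩
      rw [map_mul, map_inv, inv_mul_eq_one, map_mul] at h4
      exact h4
    refine ⟨ν.mapDomain fun u => φ' (σ u), ?_, ?_, ?_⟩
    · intro x
      rw [Finsupp.mapDomain, Finsupp.sum_apply, Finsupp.sum]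
      refine Finset.sum_nonneg fun u _ => ?_
      rw [Finsupp.single_apply]
      split_ifs
      · exact h0 u
      · exact le_rfl
    · rw [Finsupp.sum_mapDomain_index (by simp) (by simp)]
      exact h1
    · intro j s
      exact push_bound (fun u => φ' (σ u)) ν (g j) (φ' (FreeGroup.of j))
        (fun u hu => h3 u hu j)
        (fun s => h2 (g j) (Finset.mem_image_of_mem _ (Finset.mem_univ j)) s) s
  · rintro _ ⟨u, -, j, rfl⟩
    exact h5 u j

/-- Amenability is given by countably many open conditions. -/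
theorem isAmenable_iff_class (Γ : Type) [Group Γ] : IsAmenable Γ ↔ amenData.Class Γ :=
  ⟨fun h => class_of_reiter (reiter_of_isAmenable h), fun h => isAmenable_of_reiter (reiter_of_class h)⟩

/-- The amenable marked groups form a `G_δ` set. -/
theorem isGδ_amenable (n : ℕ) : IsGδ {N : MarkedGroup n | IsAmenable N.Grp} := by
  have : {N : MarkedGroup n | IsAmenable N.Grp} = {N : MarkedGroup n | amenData.Class N.Grp} := by
    ext N
    exact isAmenable_iff_class N.Grp
  rw [this]
  exact amenData.isGδ_class n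

/-- There are continuum many pairwise non-isomorphic amenable groups with two generators outside
the class `SG`. -/
theorem exists_amenable_family :
    ∃ (Γ : (ℕ → Bool) → Type) (_ : ∀ s, Group (Γ s)),
      (∀ s, ∃ g : Fin 2 → Γ s, Subgroup.closure (Set.range g) = ⊤) ∧
      (∀ s, IsAmenable (Γ s)) ∧ (∀ s, ¬ SG (Γ s)) ∧
      ∀ s s', s ≠ s' → IsEmpty (Γ s ≃* Γ s') := by
  obtain ⟨Γ, i, h1, h2, h3, h4⟩ := amenData.exists_family fun Γ _ _ hsol =>
    (isAmenable_iff_class Γ).1 (IsAmenable.of_isSolvable hsol)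
  exact ⟨Γ, i, h1, fun s => (isAmenable_iff_class (Γ s)).2 (h2 s), h3, h4⟩

end Vale.Agent.P215.Am
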