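import Mathlib

/-!
# P215: amenable groups, definitions

A discrete group is amenable if it has a left invariant mean, or equivalently if it satisfies the
condition of Folner.
-/

namespace Vale.Agent.P215.Am

open Classical in
/-- **Amenable** groups, by the condition of Folner: for every finite set `S` and every `ε > 0`
there is a nonempty finite set `A` with `|s A ∆ A| < ε |A|` for all `s` in `S`. -/
def IsAmenable (G : Type) [Group G] : Prop :=
  ∀ (S : Finset G) (ε : ℝ), 0 < ε → ∃ A : Finset G, A.Nonempty ∧
    ∀ s ∈ S, ((symmDiff (A.image (fun a => s * a)) A).card : ℝ) < ε * A.card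

end Vale.Agent.P215.Am
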