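import Mathlib

/-!
# P215, route A: path cocycles and potentials

A homomorphism `φ` from the fundamental group of `X` to `Γ` is turned into a function `c` from
paths of `X` to `Γ`, multiplicative and invariant under homotopies.  A continuous map `f : Y → X`
from a simply connected space has a *potential* `h : Y → Γ`, with `c (f ∘ γ) = h(γ 0)⁻¹ h(γ 1)`.
-/

noncomputable section

namespace Vale.Agent.P215.Am

open Topology unitInterval CategoryTheory

/-- A multiplicative homotopy invariant function from paths to a group. -/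
structure Coc (X : Type) [TopologicalSpace X] (Γ : Type) [Group Γ] where
  /-- the value on a path -/
  val : ∀ {p q : X}, Path p q → Γ
  homotopic : ∀ {p q : X} (γ γ' : Path p q), γ.Homotopic γ' → val γ = val γ'
  trans : ∀ {p q r : X} (γ : Path p q) (γ' : Path q r), val (γ.trans γ') = val γ * val γ'

namespace Coc

variable {X : Type} [TopologicalSpace X] {Γ : Type} [Group Γ] (c : Coc X Γ)

theorem refl (p : X) : c.val (Path.refl p) = 1 := by
  have h := c.trans (Path.refl p) (Path.refl p)
  rw [Path.refl_trans_refl] at h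
  exact (mul_eq_left.1 h.symm)

theorem symm {p q : X} (γ : Path p q) : c.val γ.symm = (c.val γ)⁻¹ := by
  have h : c.val (γ.trans γ.symm) = 1 := by
    rw [← c.refl p]
    exact c.homotopic _ _ ⟨(Path.Homotopy.reflTransSymm γ).symm⟩
  rw [c.trans] at h
  exact (inv_eq_of_mul_eq_one_right h).symm

theorem cast {p q p' q' : X} (γ : Path p q) (hp : p' = p) (hq : q' = q) :
    c.val (γ.cast hp hq) = c.val γ := by
  subst hp hq
  rfl

end Coc

section OfHom

variable {X : Type} [TopologicalSpace X] {Γ : Type} [Group Γ] {x₀ : X}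

open Classical in
/-- The chosen path from the base point. -/
def rho (x₀ : X) (p : X) (h : Joined x₀ p) : Path x₀ p := h.somePath

/-- The loop of a path. -/
def loopOf {x₀ p q : X} (a : Path x₀ p) (γ : Path p q) (b : Path x₀ q) : FundamentalGroup X x₀ :=
  FundamentalGroup.fromPath (Path.Homotopic.Quotient.mk ((a.trans γ).trans b.symm))

theorem loopOf_eq {x₀ p q : X} (a : Path x₀ p) (γ : Path p q) (b : Path x₀ q) :
    loopOf a γ b = ((Path.Homotopic.Quotient.mk a).trans (Path.Homotopic.Quotient.mk γ)).trans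
      (Path.Homotopic.Quotient.mk b).symm := rfl

theorem loopOf_trans {x₀ p q r : X} (a : Path x₀ p) (γ : Path p q) (b : Path x₀ q)
    (γ' : Path q r) (d : Path x₀ r) :
    loopOf a (γ.trans γ') d = loopOf b γ' d * loopOf a γ b := by
  rw [FundamentalGroup.mul_def]
  change ((Path.Homotopic.Quotient.mk a).trans ((Path.Homotopic.Quotient.mk γ).trans
    (Path.Homotopic.Quotient.mk γ'))).trans (Path.Homotopic.Quotient.mk d).symm =
    (((Path.Homotopic.Quotient.mk a).trans (Path.Homotopic.Quotient.mk γ)).trans
      (Path.Homotopic.Quotient.mk b).symm).trans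
      (((Path.Homotopic.Quotient.mk b).trans (Path.Homotopic.Quotient.mk γ')).trans
      (Path.Homotopic.Quotient.mk d).symm)
  simp only [Path.Homotopic.Quotient.trans_assoc]
  congr 2
  rw [← Path.Homotopic.Quotient.trans_assoc, Path.Homotopic.Quotient.symm_trans,
    Path.Homotopic.Quotient.refl_trans]

open Classical in
/-- The path cocycle of a homomorphism. -/
def Coc.ofHom (φ : FundamentalGroup X x₀ →* Γ) : Coc X Γ where
  val {p q} γ := if h : Joined x₀ p then
      (φ (loopOf h.somePath γ (h.trans ⟨γ⟩).somePath))⁻¹ else 1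
  homotopic {p q} γ γ' hh := by
    by_cases h : Joined x₀ p
    · rw [dif_pos h, dif_pos h]
      congr 2
      rw [loopOf_eq, loopOf_eq, Path.Homotopic.Quotient.eq.2 hh]
    · rw [dif_neg h, dif_neg h]
  trans {p q r} γ γ' := by
    by_cases h : Joined x₀ p
    · have hq : Joined x₀ q := h.trans ⟨γ⟩
      rw [dif_pos h, dif_pos h, dif_pos hq, ← mul_inv_rev, ← map_mul, ← loopOf_trans]
    · have hq : ¬ Joined x₀ q := fun hq => h (hq.trans ⟨γ.symm⟩)
      rw [dif_neg h, dif_neg h, dif_neg hq, one_mul]

open Classical in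
/-- If the cocycle of `φ` is trivial on a loop, then `φ` is trivial on all its conjugates. -/
theorem map_conj_eq_one (φ : FundamentalGroup X x₀ →* Γ) {p : X} (a : Path x₀ p) (γ : Path p p)
    (h : (Coc.ofHom φ).val γ = 1) :
    φ (FundamentalGroup.fromPath (Path.Homotopic.Quotient.mk ((a.trans γ).trans a.symm))) = 1 := by
  have hp : Joined x₀ p := ⟨a⟩
  change (if h : Joined x₀ p then
      (φ (loopOf h.somePath γ (h.trans ⟨γ⟩).somePath))⁻¹ else 1) = 1 at h
  rw [dif_pos hp, inv_eq_one] at h
  change φ (loopOf a γ a) = 1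
  have h1 : ∀ {p q r : X} (u : Path.Homotopic.Quotient p q) (v : Path.Homotopic.Quotient p r),
      u.trans (u.symm.trans v) = v := by
    intro p q r u v
    rw [← Path.Homotopic.Quotient.trans_assoc, Path.Homotopic.Quotient.trans_symm,
      Path.Homotopic.Quotient.refl_trans]
  have h2 : loopOf a γ a = (loopOf a (Path.refl p) hp.somePath)⁻¹ *
      loopOf hp.somePath γ hp.somePath * (loopOf a (Path.refl p) hp.somePath) := by
    have h3 : loopOf a γ a = loopOf a ((Path.refl p).trans (γ.trans (Path.refl p))) a := by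
      rw [loopOf_eq, loopOf_eq]
      congr 2
      change _ = (Path.Homotopic.Quotient.mk (Path.refl p)).trans
        ((Path.Homotopic.Quotient.mk γ).trans (Path.Homotopic.Quotient.mk (Path.refl p)))
      change _ = (Path.Homotopic.Quotient.refl p).trans
        ((Path.Homotopic.Quotient.mk γ).trans (Path.Homotopic.Quotient.refl p))
      rw [Path.Homotopic.Quotient.refl_trans, Path.Homotopic.Quotient.trans_refl]
    rw [h3, loopOf_trans a (Path.refl p) hp.somePath, loopOf_trans hp.somePath γ hp.somePath]
    congr 2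
    rw [eq_inv_iff_mul_eq_one]
    rw [← loopOf_trans, loopOf_eq]
    change ((Path.Homotopic.Quotient.mk a).trans ((Path.Homotopic.Quotient.refl p).trans
      (Path.Homotopic.Quotient.refl p))).trans (Path.Homotopic.Quotient.mk a).symm = _
    rw [Path.Homotopic.Quotient.refl_trans, Path.Homotopic.Quotient.trans_refl,
      Path.Homotopic.Quotient.trans_symm]
    rfl
  rw [h2, map_mul, map_mul, map_inv, h, mul_one, inv_mul_cancel]

end OfHom

/-! ### Potentials -/

section Pot

variable {X Y Z : Type} [TopologicalSpace X] [TopologicalSpace Y] [TopologicalSpace Z]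
  {Γ : Type} [Group Γ] (c : Coc X Γ)

/-- `h` is a potential of the continuous map `f`. -/
def IsPot (f : Y → X) (h : Y → Γ) : Prop :=
  ∀ (hf : Continuous f) {p q : Y} (γ : Path p q), c.val (γ.map hf) = (h p)⁻¹ * h q

variable {c}

theorem IsPot.comp {f : Y → X} {h : Y → Γ} (hp : IsPot c f h) (hf : Continuous f) {g : Z → Y}
    (hg : Continuous g) : IsPot c (f ∘ g) (h ∘ g) := by
  intro _ p q γ
  exact hp hf (γ.map hg)

theorem IsPot.mul_left {f : Y → X} {h : Y → Γ} (hp : IsPot c f h) (g : Γ) :
    IsPot c f (fun y => g * h y) := by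
  intro hf p q γ
  rw [hp hf γ]
  group

theorem IsPot.congr {f f' : Y → X} {h h' : Y → Γ} (hp : IsPot c f h) (hf : ∀ y, f y = f' y)
    (hh : ∀ y, h y = h' y) : IsPot c f' h' := by
  have h1 : f = f' := funext hf
  have h2 : h = h' := funext hh
  rwa [← h1, ← h2]

theorem exists_isPot [SimplyConnectedSpace Y] (c : Coc X Γ) (f : Y → X) (hf : Continuous f)
    (y₀ : Y) (g : Γ) : ∃ h : Y → Γ, IsPot c f h ∧ h y₀ = g := by
  let h : Y → Γ := fun y => c.val ((PathConnectedSpace.somePath y₀ y).map hf)
  have h1 : IsPot c f h := by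
    intro _ p q γ
    have h2 : ((PathConnectedSpace.somePath y₀ p).trans γ).Homotopic
        (PathConnectedSpace.somePath y₀ q) := SimplyConnectedSpace.paths_homotopic _ _
    have h3 := c.homotopic _ _ (h2.map ⟨f, hf⟩)
    have h4 : c.val (((PathConnectedSpace.somePath y₀ p).trans γ).map hf) =
        c.val ((PathConnectedSpace.somePath y₀ p).map hf) * c.val (γ.map hf) := by
      rw [Path.map_trans, c.trans]
    have h5 : h q = h p * c.val (γ.map hf) := by
      rw [← h4]
      exact h3.symm
    rw [h5, inv_mul_cancel_left]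
  refine ⟨fun y => (g * (h y₀)⁻¹) * h y, h1.mul_left _, ?_⟩
  change g * (h y₀)⁻¹ * h y₀ = g
  rw [inv_mul_cancel_right]

theorem IsPot.unique [PathConnectedSpace Y] {f : Y → X} (hf : Continuous f) {h h' : Y → Γ}
    (hp : IsPot c f h) (hp' : IsPot c f h') (y₀ y : Y) : h' y * (h y)⁻¹ = h' y₀ * (h y₀)⁻¹ := by
  have h1 := hp hf (PathConnectedSpace.somePath y₀ y)
  have h2 := hp' hf (PathConnectedSpace.somePath y₀ y)
  rw [h1] at h2
  have h3 : h' y = h' y₀ * ((h y₀)⁻¹ * h y) := by
    rw [h2]
    group
  rw [h3]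
  group

/-- A potential is constant along a path on which the map is constant. -/
theorem IsPot.eq_of_const {f : Y → X} (hf : Continuous f) {h : Y → Γ} (hp : IsPot c f h)
    {p q : Y} (γ : Path p q) (hγ : ∀ t, f (γ t) = f p) : h p = h q := by
  have h1 := hp hf γ
  have h2 : γ.map hf = (Path.refl (f p)).cast rfl (by simpa using hγ 1) := by
    ext t
    simpa using hγ t
  rw [h2, c.cast, c.refl] at h1
  exact (inv_mul_eq_one.1 h1.symm)

/-- Two paths with the same image have the same potential difference. -/
theorem IsPot.eq_of_comp {f : Y → X} {f' : Z → X} (hf : Continuous f) (hf' : Continuous f')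
    {h : Y → Γ} {h' : Z → Γ} (hp : IsPot c f h) (hp' : IsPot c f' h') {p q : Y} (γ : Path p q)
    {p' q' : Z} (γ' : Path p' q') (hγ : ∀ t, f (γ t) = f' (γ' t)) :
    (h p)⁻¹ * h q = (h' p')⁻¹ * h' q' := by
  rw [← hp hf γ, ← hp' hf' γ']
  have h2 : γ.map hf = (γ'.map hf').cast (by simpa using hγ 0) (by simpa using hγ 1) := by
    ext t
    simpa using hγ t
  rw [h2, c.cast]

end Pot

end Vale.Agent.P215.Am
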