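import Vale.Agent.P215.H788.Defs
import Vale.Agent.P215.Am.Coc

/-!
# P215, route A: boxes, morphisms, singular systems

`Q = Disc × Disc` is the four-cube.  A *box* is an embedding `P : Q → Q` which meets the boundary
`Circ × Disc` not at all and is open relative to its vertical sides `Circ × Disc`.

A *singular system* in `(X, e)` is a continuous map `F : Q → X`, equal to `e` on `Circ × Disc`,
with disjoint boxes `box k` (`k ∈ K`, `flip` a fixed point free involution of `K`) such that
`F (box k (x, y)) = F (box (flip k) (y, x))`, and no other coincidences.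
-/

noncomputable section

namespace Vale.Agent.P215.Am

open Vale.Agent.P215.H788 Set Topology unitInterval

/-- The four-cube. -/
abbrev Q : Type := Disc × Disc

/-- The norm of a point of the disc. -/
def nm (x : Disc) : ℝ := ‖(x : ℝ × ℝ)‖

theorem continuous_nm : Continuous nm := by
  unfold nm
  fun_prop

theorem nm_le (x : Disc) : nm x ≤ 1 := mem_closedBall_zero_iff.1 x.2

theorem nm_nonneg (x : Disc) : 0 ≤ nm x := norm_nonneg _

theorem nm_circ (z : Circ) : nm z.toDisc = 1 := by
  exact mem_sphere_zero_iff_norm.1 z.2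

/-- A boundary point of the disc is a point of the circle. -/
theorem exists_circ {x : Disc} (h : nm x = 1) : ∃ z : Circ, z.toDisc = x :=
  ⟨⟨x.1, by simpa [nm] using h⟩, rfl⟩

/-- The interior of the disc. -/
def int : Set Disc := {x | nm x < 1}

theorem isOpen_int : IsOpen int := isOpen_lt continuous_nm continuous_const

/-- The part `{‖x‖ < 1} × Disc` of the cube. -/
def core : Set Q := {p | nm p.1 < 1}

theorem isOpen_core : IsOpen core := isOpen_lt (continuous_nm.comp continuous_fst) continuous_const

theorem not_mem_core {p : Q} : p ∉ core ↔ nm p.1 = 1 := by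
  have := nm_le p.1
  change ¬ (nm p.1 < 1) ↔ _
  rw [not_lt]
  exact ⟨fun h => le_antisymm this h, fun h => h.symm.le⟩

/-- A little square. -/
structure IsSq (f : Disc → Disc) : Prop where
  cont : Continuous f
  inj : Function.Injective f
  isOpen : IsOpen (f '' int)
  maps : ∀ x ∈ int, f x ∈ int

/-- A box. -/
structure IsBox (P : Q → Q) : Prop where
  cont : Continuous P
  inj : Function.Injective P
  isOpen : IsOpen (P '' core)
  mem : ∀ p, P p ∈ core

/-- A morphism of the cube: an embedding which is the identity on `Circ × Disc`. -/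
structure IsMor (ψ : Q → Q) : Prop where
  cont : Continuous ψ
  inj : Function.Injective ψ
  bd : ∀ x y, nm x = 1 → ψ (x, y) = (x, y)

theorem IsMor.id : IsMor id := ⟨continuous_id, Function.injective_id, fun _ _ _ => rfl⟩

theorem IsMor.comp {ψ ψ' : Q → Q} (h : IsMor ψ) (h' : IsMor ψ') : IsMor (ψ ∘ ψ') where
  cont := h.cont.comp h'.cont
  inj := h.inj.comp h'.inj
  bd x y hx := by
    change ψ (ψ' (x, y)) = _
    rw [h'.bd x y hx, h.bd x y hx]

theorem IsSq.id : IsSq (fun x => x) :=
  ⟨continuous_id, Function.injective_id, by simpa using isOpen_int, fun _ h => h⟩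

theorem isClosedEmbedding_of {f : Q → Q} (hc : Continuous f) (hi : Function.Injective f) :
    IsClosedEmbedding f := hc.isClosedEmbedding hi

theorem isClosedEmbedding_sq {f : Disc → Disc} (hc : Continuous f) (hi : Function.Injective f) :
    IsClosedEmbedding f := hc.isClosedEmbedding hi

/-- The image under a box of an open subset of the core is open. -/
theorem IsBox.isOpen_image {P : Q → Q} (hP : IsBox P) {U : Set Q} (hU : IsOpen U)
    (hUc : U ⊆ core) : IsOpen (P '' U) := by
  obtain ⟨O, hO, rfl⟩ := (isClosedEmbedding_of hP.cont hP.inj).isInducing.isOpen_iff.1 hU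
  have h : P '' (P ⁻¹' O) = O ∩ P '' core := by
    ext q
    constructor
    · rintro ⟨p, hp, rfl⟩
      exact ⟨hp, p, hUc hp, rfl⟩
    · rintro ⟨hq, p, hp, rfl⟩
      exact ⟨p, hq, rfl⟩
  rw [h]
  exact hO.inter hP.isOpen

theorem IsSq.isOpen_image {f : Disc → Disc} (hf : IsSq f) {U : Set Disc} (hU : IsOpen U)
    (hUc : U ⊆ int) : IsOpen (f '' U) := by
  obtain ⟨O, hO, rfl⟩ := (isClosedEmbedding_sq hf.cont hf.inj).isInducing.isOpen_iff.1 hU
  have h : f '' (f ⁻¹' O) = O ∩ f '' int := by
    ext q
    constructor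
    · rintro ⟨p, hp, rfl⟩
      exact ⟨hp, p, hUc hp, rfl⟩
    · rintro ⟨hq, p, hp, rfl⟩
      exact ⟨p, hq, rfl⟩
  rw [h]
  exact hO.inter hf.isOpen

theorem IsSq.comp {f g : Disc → Disc} (hf : IsSq f) (hg : IsSq g) : IsSq (fun x => f (g x)) where
  cont := hf.cont.comp hg.cont
  inj := hf.inj.comp hg.inj
  isOpen := by
    have : (fun x => f (g x)) '' int = f '' (g '' int) := by rw [image_image]
    rw [this]
    exact hf.isOpen_image hg.isOpen (by rintro _ ⟨x, hx, rfl⟩; exact hg.maps x hx)
  maps x hx := hf.maps _ (hg.maps x hx)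

/-- A box composed with a box is a box. -/
theorem IsBox.comp {P P' : Q → Q} (hP : IsBox P) (hP' : IsBox P') : IsBox (fun p => P (P' p)) where
  cont := hP.cont.comp hP'.cont
  inj := hP.inj.comp hP'.inj
  isOpen := by
    have : (fun p => P (P' p)) '' core = P '' (P' '' core) := by rw [image_image]
    rw [this]
    exact hP.isOpen_image hP'.isOpen (by rintro _ ⟨x, hx, rfl⟩; exact hP'.mem x)
  mem p := hP.mem _

/-- A box restricted to a little square in the first direction is a box. -/
theorem IsBox.comp_sq {P : Q → Q} (hP : IsBox P) {f : Disc → Disc} (hf : IsSq f) :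
    IsBox (fun p => P (f p.1, p.2)) where
  cont := hP.cont.comp ((hf.cont.comp continuous_fst).prodMk continuous_snd)
  inj p q h := by
    have h1 := hP.inj h
    simp only [Prod.mk.injEq] at h1
    exact Prod.ext (hf.inj h1.1) h1.2
  isOpen := by
    have : (fun p : Q => P (f p.1, p.2)) '' core = P '' ((f '' int) ×ˢ univ) := by
      ext q
      constructor
      · rintro ⟨p, hp, rfl⟩
        exact ⟨(f p.1, p.2), ⟨⟨p.1, hp, rfl⟩, mem_univ _⟩, rfl⟩
      · rintro ⟨⟨a, b⟩, ⟨⟨x, hx, hxa⟩, -⟩, rfl⟩
        refine ⟨(x, b), hx, ?_⟩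
        simp only
        rw [hxa]
    rw [this]
    refine hP.isOpen_image (hf.isOpen.prod isOpen_univ) ?_
    rintro ⟨a, b⟩ ⟨⟨x, hx, hxa⟩, -⟩
    simp only at hxa
    subst hxa
    exact hf.maps x hx
  mem p := hP.mem _

/-- The vertical box over a little square in the interior. -/
theorem isBox_vert {s : Disc → Disc} (hs : IsSq s) (h : ∀ x, s x ∈ int) :
    IsBox (fun p => (s p.1, p.2)) where
  cont := (hs.cont.comp continuous_fst).prodMk continuous_snd
  inj p q h := by
    simp only [Prod.mk.injEq] at h
    exact Prod.ext (hs.inj h.1) h.2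
  isOpen := by
    have : (fun p : Q => (s p.1, p.2)) '' core = (s '' int) ×ˢ univ := by
      ext ⟨a, b⟩
      constructor
      · rintro ⟨p, hp, hq⟩
        simp only [Prod.mk.injEq] at hq
        exact ⟨⟨p.1, hp, hq.1⟩, mem_univ _⟩
      · rintro ⟨⟨x, hx, hxa⟩, -⟩
        refine ⟨(x, b), hx, ?_⟩
        simp only at hxa ⊢
        rw [hxa]
    rw [this]
    exact hs.isOpen.prod isOpen_univ
  mem p := h _

/-! ### Patching -/

theorem continuousOn_range_of {A B C : Type} [TopologicalSpace A] [TopologicalSpace B]
    [TopologicalSpace C] {e : A → B} (he : IsEmbedding e) {f : B → C} (h : Continuous (f ∘ e)) :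
    ContinuousOn f (range e) := by
  rw [continuousOn_iff_continuous_domRestrict]
  have h1 : (range e).domRestrict f = (f ∘ e) ∘ he.toHomeomorph.symm := by
    funext b
    obtain ⟨a, ha⟩ := he.toHomeomorph.surjective b
    rw [← ha]
    simp only [Function.comp_apply, Homeomorph.symm_apply_apply]
    rfl
  rw [h1]
  exact h.comp he.toHomeomorph.symm.continuous

section Patch

variable {J : Type} (B : J → Q → Q) {X : Type}

open Classical in
/-- Replace a map on the images of the boxes `B j`. -/
def patch (F : Q → X) (G : J → Q → X) (p : Q) : X :=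
  if h : ∃ j q, B j q = p then G h.choose h.choose_spec.choose else F p

variable {B}

theorem patch_box (hB : ∀ j, IsBox (B j)) (hd : ∀ j k p q, B j p = B k q → j = k)
    (F : Q → X) (G : J → Q → X) (j : J) (q : Q) : patch B F G (B j q) = G j q := by
  have h : ∃ i r, B i r = B j q := ⟨j, q, rfl⟩
  rw [patch, dif_pos h]
  have h1 : B h.choose h.choose_spec.choose = B j q := h.choose_spec.choose_spec
  have h2 : h.choose = j := hd _ _ _ _ h1
  generalize h.choose_spec.choose = r at h1 ⊢
  generalize h.choose = i at h1 h2 ⊢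
  subst h2
  rw [(hB i).inj h1]

theorem patch_off (F : Q → X) (G : J → Q → X) {p : Q} (h : ∀ j q, B j q ≠ p) :
    patch B F G p = F p := by
  rw [patch, dif_neg]
  rintro ⟨j, q, hq⟩
  exact h j q hq

/-- Outside of the open cores of the boxes the patched map is the old one. -/
theorem patch_off' (hB : ∀ j, IsBox (B j)) (hd : ∀ j k p q, B j p = B k q → j = k)
    (F : Q → X) (G : J → Q → X) (hFG : ∀ j q, nm q.1 = 1 → G j q = F (B j q)) {p : Q}
    (h : ∀ j, ∀ q ∈ core, B j q ≠ p) : patch B F G p = F p := by
  by_cases h1 : ∃ j q, B j q = p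
  · obtain ⟨j, q, rfl⟩ := h1
    rw [patch_box hB hd]
    refine hFG j q ?_
    rw [← not_mem_core]
    intro hq
    exact h j q hq rfl
  · push Not at h1
    exact patch_off F G h1

/-- Continuity of a family of patched maps. -/
theorem continuous_patch {T : Type} [TopologicalSpace T] [Finite J] [TopologicalSpace X]
    (hB : ∀ j, IsBox (B j)) (hd : ∀ j k p q, B j p = B k q → j = k)
    (F : T → Q → X) (hF : Continuous fun z : T × Q => F z.1 z.2) (G : T → J → Q → X)
    (hG : ∀ j, Continuous fun z : T × Q => G z.1 j z.2)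
    (hFG : ∀ t j q, nm q.1 = 1 → G t j q = F t (B j q)) :
    Continuous fun z : T × Q => patch B (F z.1) (G z.1) z.2 := by
  let A : Option J → Set (T × Q) := fun o => match o with
    | none => univ ×ˢ (⋃ j, B j '' core)ᶜ
    | some j => univ ×ˢ range (B j)
  have hcov : ⋃ o, A o = univ := by
    rw [eq_univ_iff_forall]
    rintro ⟨t, p⟩
    rw [mem_iUnion]
    by_cases h : ∃ j, p ∈ range (B j)
    · obtain ⟨j, hj⟩ := h
      exact ⟨some j, mem_univ _, hj⟩
    · refine ⟨none, mem_univ _, ?_⟩
      rw [mem_compl_iff, mem_iUnion]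
      rintro ⟨j, q, -, hq⟩
      exact h ⟨j, q, hq⟩
  have hcl : ∀ o, IsClosed (A o) := by
    rintro (_ | j)
    · exact isClosed_univ.prod (isOpen_iUnion fun j => (hB j).isOpen).isClosed_compl
    · exact isClosed_univ.prod (isClosedEmbedding_of (hB j).cont (hB j).inj).isClosed_range
  refine (locallyFinite_of_finite A).continuous hcov hcl ?_
  rintro (_ | j)
  · refine hF.continuousOn.congr ?_
    rintro ⟨t, p⟩ ⟨-, hp⟩
    refine patch_off' hB hd (F t) (G t) (hFG t) ?_
    intro j q hq hqp
    apply hp
    rw [mem_iUnion]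
    exact ⟨j, q, hq, hqp⟩
  · have hemb : IsClosedEmbedding (Prod.map id (B j) : T × Q → T × Q) :=
      IsClosedEmbedding.prodMap IsClosedEmbedding.id (isClosedEmbedding_of (hB j).cont (hB j).inj)
    have hr : A (some j) = range (Prod.map id (B j) : T × Q → T × Q) := by
      rw [range_prodMap, range_id]
    rw [hr]
    intro z hz
    have h1 : Continuous ((fun z : T × Q => patch B (F z.1) (G z.1) z.2) ∘
        (Prod.map id (B j) : T × Q → T × Q)) := by
      have h2 : ((fun z : T × Q => patch B (F z.1) (G z.1) z.2) ∘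
        (Prod.map id (B j) : T × Q → T × Q)) = fun z : T × Q => G z.1 j z.2 := by
        funext ⟨t, q⟩
        exact patch_box hB hd (F t) (G t) j q
      rw [h2]
      exact hG j
    exact continuousOn_range_of hemb.isEmbedding h1 z hz

end Patch

end Vale.Agent.P215.Am
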