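import Vale.Agent.P215.Am.BoxLib

/-!
# P215, route A: the two hooked legs

In the cube `Q` with the coordinates `(x, y, z, w)` the leg box `beta1` is the tube of an arch
hanging from the top `z = 1` of the three-cube (times `w`), with its bar along `x`; the leg box
`beta2 = τ ∘ beta1` is the tube of an arch standing on the bottom `z = -1`, with its bar along `y`;
`τ (x, y, z, w) = (y, x, -z, w)`.  The two arches are hooked.

* `beta1 ((a₁, a₂), (s, w)) = (Y, a₁ / 8, (4 |Y| - 1)⁺ - r, w)`,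
* `beta2 ((a₁, a₂), (s, w)) = (a₁ / 8, Y, r - (4 |Y| - 1)⁺, w)`,

with `r = lev a = 1/4 + a₂ / 8` and `Y = Yf s r`: in the middle `Y = s / 2` (this is the bar
`|Y| ≤ 1/4`), near the ends `|Y| = |s| - 1/2 + r / 4`, so that `(4 |Y| - 1) - r = 4 |s| - 3`.
-/

noncomputable section

namespace Vale.Agent.P215.Am

open Vale.Agent.P215.H788 Set Topology

/-- The symmetry `(x, y, z, w) ↦ (y, x, -z, w)` of the cube. -/
def tau (p : Q) : Q := qpt (cy p) (cx p) (-cz p) (cw p)

@[fun_prop]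
theorem continuous_tau : Continuous tau := by unfold tau; fun_prop

@[simp] theorem cx_tau (p : Q) : cx (tau p) = cy p := clp_of_abs (abs_cy p)
@[simp] theorem cy_tau (p : Q) : cy (tau p) = cx p := clp_of_abs (abs_cx p)
@[simp] theorem cz_tau (p : Q) : cz (tau p) = -cz p :=
  clp_of_abs (by rw [abs_neg]; exact abs_cz p)
@[simp] theorem cw_tau (p : Q) : cw (tau p) = cw p := clp_of_abs (abs_cw p)

@[simp] theorem tau_tau (p : Q) : tau (tau p) = p := by
  apply Q_ext <;> simp

theorem tau_injective : Function.Injective tau := fun p q h => by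
  rw [← tau_tau p, h, tau_tau]

/-! ### The profile of the arch -/

/-- The position on the arch at level `r` for the parameter `s`. -/
def Yf (s r : ℝ) : ℝ := s / 2 + max 0 (s / 2 - (1 / 2 - r / 4)) - max 0 (-s / 2 - (1 / 2 - r / 4))

/-- The inverse of `Yf`; for `|x| = 1` it does not depend on `r`. -/
def Sf (x r : ℝ) : ℝ := 2 * x - max 0 (min (x - 1 / 2 + min r (3 / 8) / 4) (2 - 2 * x)) +
  max 0 (min (-x - 1 / 2 + min r (3 / 8) / 4) (2 + 2 * x))

@[fun_prop]
theorem continuous_Yf {A : Type*} [TopologicalSpace A] {f g : A → ℝ} (hf : Continuous f)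
    (hg : Continuous g) : Continuous fun a => Yf (f a) (g a) := by
  unfold Yf
  fun_prop

@[fun_prop]
theorem continuous_Sf {A : Type*} [TopologicalSpace A] {f g : A → ℝ} (hf : Continuous f)
    (hg : Continuous g) : Continuous fun a => Sf (f a) (g a) := by
  unfold Sf
  fun_prop

theorem Sf_Yf {s r : ℝ} (h : |s| ≤ 1) (h1 : 1 / 8 ≤ r) (h2 : r ≤ 3 / 8) : Sf (Yf s r) r = s := by
  unfold Sf Yf; grind

theorem Yf_Sf {x r : ℝ} (h : |x| ≤ 1 / 2 + r / 4) (h2 : r ≤ 3 / 8) : Yf (Sf x r) r = x := by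
  unfold Sf Yf; grind

theorem Yf_strictMono {s s' r : ℝ} (hs : s < s') : Yf s r < Yf s' r := by
  unfold Yf; grind

theorem Sf_strictMono {x x' r : ℝ} (h : -1 ≤ x) (h' : x' ≤ 1) (hz : -1 ≤ r) (hx : x < x') :
    Sf x r < Sf x' r := by
  unfold Sf; grind

theorem abs_Sf_le {x r : ℝ} (h : |x| ≤ 1) (hz : -1 ≤ r) : |Sf x r| ≤ 2 := by
  unfold Sf; grind

theorem abs_Yf_le {s r : ℝ} (h : |s| ≤ 1) (h1 : 1 / 8 ≤ r) (h2 : r ≤ 3 / 8) :
    |Yf s r| ≤ 1 / 2 + r / 4 := by
  unfold Yf; grind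

/-- In the middle, `Yf s r = s / 2`. -/
theorem Yf_mid {s r : ℝ} (h : |s| ≤ 13 / 16) (h2 : r ≤ 3 / 8) : Yf s r = s / 2 := by
  unfold Yf; grind

/-! ### The legs -/

/-- The level of a point of the cap. -/
def lev (a : Disc) : ℝ := 1 / 4 + a.1.2 / 8

@[fun_prop]
theorem continuous_lev : Continuous lev := by unfold lev; fun_prop

theorem lev_ge (a : Disc) : 1 / 8 ≤ lev a := by
  have := disc_abs2 a
  unfold lev; grind

theorem lev_le (a : Disc) : lev a ≤ 3 / 8 := by
  have := disc_abs2 a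
  unfold lev; grind

/-- The first leg box: the arch hanging from the top. -/
def beta1 (p : Q) : Q :=
  qpt (Yf (cz p) (lev p.1)) (cx p / 8) (max 0 (4 * |Yf (cz p) (lev p.1)| - 1) - lev p.1) (cw p)

/-- The second leg box: the arch standing on the bottom. -/
def beta2 (p : Q) : Q := tau (beta1 p)

@[fun_prop]
theorem continuous_beta1 : Continuous beta1 := by unfold beta1; fun_prop

@[fun_prop]
theorem continuous_beta2 : Continuous beta2 := continuous_tau.comp continuous_beta1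

theorem abs_Yf_cz (p : Q) : |Yf (cz p) (lev p.1)| ≤ 1 / 2 + lev p.1 / 4 :=
  abs_Yf_le (abs_cz p) (lev_ge p.1) (lev_le p.1)

@[simp] theorem cx_beta1 (p : Q) : cx (beta1 p) = Yf (cz p) (lev p.1) := by
  have h1 := lev_ge p.1
  have h2 := lev_le p.1
  have h3 := abs_Yf_cz p
  exact clp_of_abs (by grind)

@[simp] theorem cy_beta1 (p : Q) : cy (beta1 p) = cx p / 8 := by
  have h4 := abs_cx p
  exact clp_of_abs (by grind)

@[simp] theorem cz_beta1 (p : Q) : cz (beta1 p) =
    max 0 (4 * |Yf (cz p) (lev p.1)| - 1) - lev p.1 := by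
  have h1 := lev_ge p.1
  have h2 := lev_le p.1
  have h3 := abs_Yf_cz p
  exact clp_of_abs (by grind)

@[simp] theorem cw_beta1 (p : Q) : cw (beta1 p) = cw p := clp_of_abs (abs_cw p)

@[simp] theorem cx_beta2 (p : Q) : cx (beta2 p) = cx p / 8 := by simp [beta2]
@[simp] theorem cy_beta2 (p : Q) : cy (beta2 p) = Yf (cz p) (lev p.1) := by simp [beta2]
@[simp] theorem cz_beta2 (p : Q) : cz (beta2 p) =
    lev p.1 - max 0 (4 * |Yf (cz p) (lev p.1)| - 1) := by simp [beta2]
@[simp] theorem cw_beta2 (p : Q) : cw (beta2 p) = cw p := by simp [beta2]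

theorem tau_beta1 (p : Q) : tau (beta1 p) = beta2 p := rfl

@[simp] theorem tau_beta2 (p : Q) : tau (beta2 p) = beta1 p := tau_tau _

theorem beta1_injective : Function.Injective beta1 := by
  intro p q h
  have hx := congrArg cx h
  have hy := congrArg cy h
  have hz := congrArg cz h
  have hw := congrArg cw h
  simp only [cx_beta1, cy_beta1, cz_beta1, cw_beta1] at hx hy hz hw
  rw [hx] at hz
  have h1 : lev p.1 = lev q.1 := by linarith
  have h2 : cz p = cz q := by
    rw [← Sf_Yf (abs_cz p) (lev_ge p.1) (lev_le p.1), hx, h1,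
      Sf_Yf (abs_cz q) (lev_ge q.1) (lev_le q.1)]
  have h3 : cy p = cy q := by unfold lev at h1; unfold cy; linarith
  exact Q_ext (by linarith) h3 h2 hw

theorem beta2_injective : Function.Injective beta2 := tau_injective.comp beta1_injective

/-- The inverse of the first leg box. -/
def beta1Inv (q : Q) : Q :=
  qpt (8 * cy q) (8 * (max 0 (4 * |cx q| - 1) - cz q - 1 / 4))
    (Sf (cx q) (max 0 (4 * |cx q| - 1) - cz q)) (cw q)

/-- The image of the first leg box. -/
theorem beta1_beta1Inv {q : Q} (h1 : |cy q| ≤ 1 / 8)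
    (h2 : 1 / 8 ≤ max 0 (4 * |cx q| - 1) - cz q) (h3 : max 0 (4 * |cx q| - 1) - cz q ≤ 3 / 8) :
    beta1 (beta1Inv q) = q := by
  have hz := abs_cz q
  unfold beta1Inv
  set r := max 0 (4 * |cx q| - 1) - cz q with hr
  have h4 : |cx q| ≤ 1 / 2 + r / 4 := by grind
  have h5 : |Sf (cx q) r| ≤ 1 := by unfold Sf; grind
  have e1 : clp (8 * cy q) = 8 * cy q := clp_of_abs (by grind)
  have e2 : clp (8 * (r - 1 / 4)) = 8 * (r - 1 / 4) := clp_of_abs (by grind)
  have e3 : clp (Sf (cx q) r) = Sf (cx q) r := clp_of_abs h5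
  have e5 : lev (dpt (8 * cy q) (8 * (r - 1 / 4))) = r := by
    unfold lev
    rw [dpt_2, e2]
    ring
  have e6 : Yf (Sf (cx q) r) r = cx q := Yf_Sf h4 h3
  apply Q_ext
  · rw [cx_beta1, qpt_fst, cz_qpt, e3, e5, e6]
  · rw [cy_beta1, cx_qpt, e1]; ring
  · rw [cz_beta1, qpt_fst, cz_qpt, e3, e5, e6]; rw [hr]; ring
  · rw [cw_beta1, cw_qpt, clp_cw]

theorem mem_range_beta1 {q : Q} : q ∈ range beta1 ↔ |cy q| ≤ 1 / 8 ∧
    1 / 8 ≤ max 0 (4 * |cx q| - 1) - cz q ∧ max 0 (4 * |cx q| - 1) - cz q ≤ 3 / 8 := by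
  constructor
  · rintro ⟨p, rfl⟩
    have h1 := abs_cx p
    have h2 := lev_ge p.1
    have h3 := lev_le p.1
    simp only [cx_beta1, cy_beta1, cz_beta1]
    refine ⟨?_, ?_, ?_⟩ <;> grind
  · rintro ⟨h1, h2, h3⟩
    exact ⟨_, beta1_beta1Inv h1 h2 h3⟩

theorem beta1_image_core : beta1 '' core = {q | |cy q| < 1 / 8 ∧
    1 / 8 < max 0 (4 * |cx q| - 1) - cz q ∧ max 0 (4 * |cx q| - 1) - cz q < 3 / 8} := by
  ext q
  constructor
  · rintro ⟨p, hp, rfl⟩
    rw [mem_core_iff] at hp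
    simp only [mem_ofPred_eq, cx_beta1, cy_beta1, cz_beta1]
    have e : p.1.1.2 = cy p := rfl
    unfold lev
    rw [e]
    refine ⟨?_, ?_, ?_⟩ <;> grind
  · rintro ⟨h1, h2, h3⟩
    refine ⟨_, ?_, beta1_beta1Inv h1.le h2.le h3.le⟩
    rw [mem_core_iff]
    unfold beta1Inv
    rw [cx_qpt, cy_qpt, clp_of_abs, clp_of_abs]
    · constructor <;> grind
    · grind
    · grind

theorem isBox_beta1 : IsBox beta1 where
  cont := continuous_beta1
  inj := beta1_injective
  isOpen := by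
    rw [beta1_image_core]
    have h1 : IsOpen {q : Q | |cy q| < 1 / 8} := isOpen_lt (by fun_prop) continuous_const
    have h2 : IsOpen {q : Q | 1 / 8 < max 0 (4 * |cx q| - 1) - cz q} :=
      isOpen_lt continuous_const (by fun_prop)
    have h3 : IsOpen {q : Q | max 0 (4 * |cx q| - 1) - cz q < 3 / 8} :=
      isOpen_lt (by fun_prop) continuous_const
    exact h1.inter (h2.inter h3)
  mem p := by
    rw [mem_core_iff, cx_beta1, cy_beta1]
    have h1 := lev_ge p.1
    have h2 := lev_le p.1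
    have h3 := abs_Yf_cz p
    have h4 := abs_cx p
    constructor <;> grind

/-- The symmetry as a homeomorphism. -/
def tauHomeo : Q ≃ₜ Q where
  toFun := tau
  invFun := tau
  left_inv := tau_tau
  right_inv := tau_tau
  continuous_toFun := continuous_tau
  continuous_invFun := continuous_tau

theorem tau_mem_core {p : Q} (h : p ∈ core) : tau p ∈ core := by
  rw [mem_core_iff] at h ⊢
  rw [cx_tau, cy_tau]
  exact ⟨h.2, h.1⟩

theorem isBox_beta2 : IsBox beta2 :=
  isBox_beta1.homeo_comp tauHomeo fun _ h => tau_mem_core h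

theorem mem_range_beta2 {q : Q} : q ∈ range beta2 ↔ |cx q| ≤ 1 / 8 ∧
    1 / 8 ≤ max 0 (4 * |cy q| - 1) + cz q ∧ max 0 (4 * |cy q| - 1) + cz q ≤ 3 / 8 := by
  have h : q ∈ range beta2 ↔ tau q ∈ range beta1 := by
    constructor
    · rintro ⟨p, rfl⟩
      exact ⟨p, (tau_tau _).symm⟩
    · rintro ⟨p, hp⟩
      exact ⟨p, by rw [beta2, hp, tau_tau]⟩
  rw [h, mem_range_beta1, cx_tau, cy_tau, cz_tau, sub_neg_eq_add]

/-- The legs are disjoint. -/
theorem beta1_ne_beta2 (p q : Q) : beta1 p ≠ beta2 q := by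
  intro h
  have h1 : beta1 p ∈ range beta1 := ⟨p, rfl⟩
  have h2 : beta1 p ∈ range beta2 := ⟨q, h.symm⟩
  rw [mem_range_beta1] at h1
  rw [mem_range_beta2] at h2
  grind

/-- The ends of the legs are in the faces `z = 1` and `z = -1`. -/
theorem cz_beta1_end {p : Q} (h : |cz p| = 1) : cz (beta1 p) = 1 := by
  have h1 := lev_ge p.1
  have h2 := lev_le p.1
  rw [cz_beta1]
  unfold Yf
  grind

theorem cz_beta2_end {p : Q} (h : |cz p| = 1) : cz (beta2 p) = -1 := by
  rw [← tau_beta1, cz_tau, cz_beta1_end h]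

/-- The leg boxes map `Disc × Circ` to `Disc × Circ`. -/
theorem nm_beta1 {p : Q} (h : nm p.2 = 1) : nm (beta1 p).2 = 1 := by
  rw [nm_eq_one_iff] at h ⊢
  rcases h with h | h
  · exact Or.inl (by change |cz (beta1 p)| = 1; rw [cz_beta1_end h, abs_one])
  · exact Or.inr (by change |cw (beta1 p)| = 1; rw [cw_beta1]; exact h)

theorem nm_beta2 {p : Q} (h : nm p.2 = 1) : nm (beta2 p).2 = 1 := by
  rw [nm_eq_one_iff] at h ⊢
  rcases h with h | h
  · exact Or.inl (by change |cz (beta2 p)| = 1; rw [cz_beta2_end h, abs_neg, abs_one])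
  · exact Or.inr (by change |cw (beta2 p)| = 1; rw [cw_beta2]; exact h)

end Vale.Agent.P215.Am
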