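import Vale.Agent.P215.Am.Basic

/-!
# P215, route A: general library for explicit maps of the four-cube

* coordinates `cx cy cz cw : Q → ℝ`, their bounds, `Q_ext`;
* the clamped constructors `dpt x y : Disc`, `qpt x y z w : Q` (total, jointly continuous; no proof
  terms in definitions; coordinates are as expected when they are in range);
* `ramp a b t` (`0` up to `a`, `1` from `b` on, affine in between), `lerp`, `pl` (polygonal functions
  as sums of ramps) with continuity, bounds, (strict) monotonicity;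
* shears: maps which change one coordinate by a function increasing in this coordinate, with the
  other coordinates as parameters: injectivity, continuity, homeomorphisms;
* criteria for `IsSq`, `IsBox`, `IsMor`.
-/

set_option linter.unusedVariables false

noncomputable section

namespace Vale.Agent.P215.Am

open Vale.Agent.P215.H788 Set Topology

/-! ### Discs and coordinates -/

theorem disc_abs1 (u : Disc) : |u.1.1| ≤ 1 := by
  have h := nm_le u
  unfold nm at h
  rw [Prod.norm_def] at h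
  exact le_trans (le_max_left _ _) h

theorem disc_abs2 (u : Disc) : |u.1.2| ≤ 1 := by
  have h := nm_le u
  unfold nm at h
  rw [Prod.norm_def] at h
  exact le_trans (le_max_right _ _) h

theorem disc_mem1 (u : Disc) : u.1.1 ∈ Icc (-1 : ℝ) 1 := abs_le.1 (disc_abs1 u)

theorem disc_mem2 (u : Disc) : u.1.2 ∈ Icc (-1 : ℝ) 1 := abs_le.1 (disc_abs2 u)

theorem disc_ext {u v : Disc} (h1 : u.1.1 = v.1.1) (h2 : u.1.2 = v.1.2) : u = v :=
  Subtype.ext (Prod.ext h1 h2)

theorem nm_eq (u : Disc) : nm u = max |u.1.1| |u.1.2| := by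
  unfold nm
  rw [Prod.norm_def]
  rfl

theorem nm_lt_iff {u : Disc} {r : ℝ} : nm u < r ↔ |u.1.1| < r ∧ |u.1.2| < r := by
  rw [nm_eq, max_lt_iff]

theorem nm_le_iff {u : Disc} {r : ℝ} : nm u ≤ r ↔ |u.1.1| ≤ r ∧ |u.1.2| ≤ r := by
  rw [nm_eq, max_le_iff]

theorem nm_eq_one_iff {u : Disc} : nm u = 1 ↔ |u.1.1| = 1 ∨ |u.1.2| = 1 := by
  have h1 := disc_abs1 u
  have h2 := disc_abs2 u
  rw [nm_eq]
  constructor
  · intro h
    rcases max_choice |u.1.1| |u.1.2| with h3 | h3
    · exact Or.inl (h3 ▸ h)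
    · exact Or.inr (h3 ▸ h)
  · rintro (h | h)
    · rw [h]; exact max_eq_left h2
    · rw [h]; exact max_eq_right h1

theorem mem_int_iff {u : Disc} : u ∈ int ↔ |u.1.1| < 1 ∧ |u.1.2| < 1 := nm_lt_iff

/-- Clamp a real number to `[-1, 1]`. -/
def clp (t : ℝ) : ℝ := max (-1) (min 1 t)

theorem clp_mem (t : ℝ) : clp t ∈ Icc (-1 : ℝ) 1 :=
  ⟨le_max_left _ _, max_le (by norm_num) (min_le_left _ _)⟩

theorem abs_clp (t : ℝ) : |clp t| ≤ 1 := abs_le.2 (clp_mem t)

theorem clp_of_mem {t : ℝ} (h : t ∈ Icc (-1 : ℝ) 1) : clp t = t := by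
  unfold clp
  rw [min_eq_right h.2, max_eq_right h.1]

theorem clp_of_abs {t : ℝ} (h : |t| ≤ 1) : clp t = t := clp_of_mem (abs_le.1 h)

@[fun_prop]
theorem continuous_clp : Continuous clp := by
  unfold clp
  fun_prop

/-- The point of the disc with given coordinates (clamped). -/
def dpt (x y : ℝ) : Disc := ⟨(clp x, clp y), by
  rw [mem_closedBall_zero_iff, Prod.norm_def]
  exact max_le (abs_clp x) (abs_clp y)⟩

@[simp] theorem dpt_1 (x y : ℝ) : (dpt x y).1.1 = clp x := rfl
@[simp] theorem dpt_2 (x y : ℝ) : (dpt x y).1.2 = clp y := rfl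

theorem dpt_self (u : Disc) : dpt u.1.1 u.1.2 = u :=
  disc_ext (clp_of_mem (disc_mem1 u)) (clp_of_mem (disc_mem2 u))

theorem dpt_eq {x y : ℝ} {u : Disc} (h1 : x = u.1.1) (h2 : y = u.1.2) : dpt x y = u := by
  rw [h1, h2, dpt_self]

theorem dpt_1' {x y : ℝ} (h : |x| ≤ 1) : (dpt x y).1.1 = x := clp_of_abs h
theorem dpt_2' {x y : ℝ} (h : |y| ≤ 1) : (dpt x y).1.2 = y := clp_of_abs h

theorem dpt_inj {x y x' y' : ℝ} (hx : |x| ≤ 1) (hy : |y| ≤ 1) (hx' : |x'| ≤ 1) (hy' : |y'| ≤ 1)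
    (h : dpt x y = dpt x' y') : x = x' ∧ y = y' := by
  have h1 := congrArg (fun u : Disc => u.1.1) h
  have h2 := congrArg (fun u : Disc => u.1.2) h
  simp only [dpt_1, dpt_2] at h1 h2
  rw [clp_of_abs hx, clp_of_abs hx'] at h1
  rw [clp_of_abs hy, clp_of_abs hy'] at h2
  exact ⟨h1, h2⟩

theorem continuous_dpt' : Continuous fun p : ℝ × ℝ => dpt p.1 p.2 :=
  Continuous.subtype_mk (by fun_prop) _

@[fun_prop]
theorem _root_.Continuous.dpt {X : Type*} [TopologicalSpace X] {f g : X → ℝ} (hf : Continuous f)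
    (hg : Continuous g) : Continuous fun p => dpt (f p) (g p) :=
  continuous_dpt'.comp (hf.prodMk hg)

/-- The four coordinates. -/
def cx (p : Q) : ℝ := p.1.1.1
/-- The four coordinates. -/
def cy (p : Q) : ℝ := p.1.1.2
/-- The four coordinates. -/
def cz (p : Q) : ℝ := p.2.1.1
/-- The four coordinates. -/
def cw (p : Q) : ℝ := p.2.1.2

@[fun_prop] theorem continuous_cx : Continuous cx := by unfold cx; fun_prop
@[fun_prop] theorem continuous_cy : Continuous cy := by unfold cy; fun_prop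
@[fun_prop] theorem continuous_cz : Continuous cz := by unfold cz; fun_prop
@[fun_prop] theorem continuous_cw : Continuous cw := by unfold cw; fun_prop

theorem abs_cx (p : Q) : |cx p| ≤ 1 := disc_abs1 p.1
theorem abs_cy (p : Q) : |cy p| ≤ 1 := disc_abs2 p.1
theorem abs_cz (p : Q) : |cz p| ≤ 1 := disc_abs1 p.2
theorem abs_cw (p : Q) : |cw p| ≤ 1 := disc_abs2 p.2

theorem cx_mem (p : Q) : cx p ∈ Icc (-1 : ℝ) 1 := disc_mem1 p.1
theorem cy_mem (p : Q) : cy p ∈ Icc (-1 : ℝ) 1 := disc_mem2 p.1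
theorem cz_mem (p : Q) : cz p ∈ Icc (-1 : ℝ) 1 := disc_mem1 p.2
theorem cw_mem (p : Q) : cw p ∈ Icc (-1 : ℝ) 1 := disc_mem2 p.2

theorem Q_ext {p q : Q} (hx : cx p = cx q) (hy : cy p = cy q) (hz : cz p = cz q)
    (hw : cw p = cw q) : p = q := Prod.ext (disc_ext hx hy) (disc_ext hz hw)

/-- The point of the four-cube with given coordinates (clamped). -/
def qpt (x y z w : ℝ) : Q := (dpt x y, dpt z w)

@[simp] theorem qpt_fst (x y z w : ℝ) : (qpt x y z w).1 = dpt x y := rfl
@[simp] theorem qpt_snd (x y z w : ℝ) : (qpt x y z w).2 = dpt z w := rfl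

@[simp] theorem cx_qpt (x y z w : ℝ) : cx (qpt x y z w) = clp x := rfl
@[simp] theorem cy_qpt (x y z w : ℝ) : cy (qpt x y z w) = clp y := rfl
@[simp] theorem cz_qpt (x y z w : ℝ) : cz (qpt x y z w) = clp z := rfl
@[simp] theorem cw_qpt (x y z w : ℝ) : cw (qpt x y z w) = clp w := rfl

@[simp] theorem clp_cx (p : Q) : clp (cx p) = cx p := clp_of_abs (abs_cx p)
@[simp] theorem clp_cy (p : Q) : clp (cy p) = cy p := clp_of_abs (abs_cy p)
@[simp] theorem clp_cz (p : Q) : clp (cz p) = cz p := clp_of_abs (abs_cz p)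
@[simp] theorem clp_cw (p : Q) : clp (cw p) = cw p := clp_of_abs (abs_cw p)

@[simp] theorem qpt_self (p : Q) : qpt (cx p) (cy p) (cz p) (cw p) = p :=
  Q_ext (clp_cx p) (clp_cy p) (clp_cz p) (clp_cw p)

@[simp] theorem qpt_self' (p : Q) : qpt p.1.1.1 p.1.1.2 p.2.1.1 p.2.1.2 = p := qpt_self p

theorem qpt_inj {x y z w x' y' z' w' : ℝ} (hx : |x| ≤ 1) (hy : |y| ≤ 1) (hz : |z| ≤ 1)
    (hw : |w| ≤ 1) (hx' : |x'| ≤ 1) (hy' : |y'| ≤ 1) (hz' : |z'| ≤ 1) (hw' : |w'| ≤ 1)
    (h : qpt x y z w = qpt x' y' z' w') : x = x' ∧ y = y' ∧ z = z' ∧ w = w' := by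
  obtain ⟨h1, h2⟩ := Prod.ext_iff.1 h
  obtain ⟨h3, h4⟩ := dpt_inj hx hy hx' hy' h1
  obtain ⟨h5, h6⟩ := dpt_inj hz hw hz' hw' h2
  exact ⟨h3, h4, h5, h6⟩

@[fun_prop]
theorem _root_.Continuous.qpt {X : Type*} [TopologicalSpace X] {f g h k : X → ℝ}
    (hf : Continuous f) (hg : Continuous g) (hh : Continuous h) (hk : Continuous k) :
    Continuous fun p => qpt (f p) (g p) (h p) (k p) :=
  (hf.dpt hg).prodMk (hh.dpt hk)

theorem mem_core_iff {p : Q} : p ∈ core ↔ |cx p| < 1 ∧ |cy p| < 1 := nm_lt_iff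

theorem not_mem_core_iff {p : Q} : p ∉ core ↔ |cx p| = 1 ∨ |cy p| = 1 := by
  rw [not_mem_core]
  exact nm_eq_one_iff

/-! ### Ramps -/

/-- The function which is `0` up to `a`, `1` from `b` on and affine in between. -/
def ramp (a b t : ℝ) : ℝ := max 0 (min 1 ((t - a) / (b - a)))

theorem ramp_nonneg (a b t : ℝ) : 0 ≤ ramp a b t := le_max_left _ _

theorem ramp_le_one (a b t : ℝ) : ramp a b t ≤ 1 := max_le zero_le_one (min_le_left _ _)

theorem ramp_mem (a b t : ℝ) : ramp a b t ∈ Icc (0 : ℝ) 1 := ⟨ramp_nonneg a b t, ramp_le_one a b t⟩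

theorem ramp_of_le {a b t : ℝ} (hab : a < b) (h : t ≤ a) : ramp a b t = 0 := by
  unfold ramp
  refine max_eq_left (le_trans (min_le_right _ _) ?_)
  exact div_nonpos_of_nonpos_of_nonneg (by linarith) (by linarith)

theorem ramp_of_ge {a b t : ℝ} (hab : a < b) (h : b ≤ t) : ramp a b t = 1 := by
  unfold ramp
  rw [min_eq_left, max_eq_right zero_le_one]
  rw [le_div_iff₀ (by linarith)]
  linarith

theorem ramp_of_mem {a b t : ℝ} (hab : a < b) (h1 : a ≤ t) (h2 : t ≤ b) :
    ramp a b t = (t - a) / (b - a) := by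
  unfold ramp
  rw [min_eq_right, max_eq_right]
  · exact div_nonneg (by linarith) (by linarith)
  · rw [div_le_one (by linarith)]
    linarith

theorem ramp_mono {a b : ℝ} (hab : a < b) : Monotone (ramp a b) := by
  intro s t h
  unfold ramp
  have h1 : (s - a) / (b - a) ≤ (t - a) / (b - a) :=
    div_le_div_of_nonneg_right (by linarith) (by linarith)
  exact max_le_max le_rfl (min_le_min le_rfl h1)

theorem ramp_eq_zero_iff {a b t : ℝ} (hab : a < b) : ramp a b t = 0 ↔ t ≤ a := by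
  refine ⟨fun h => ?_, ramp_of_le hab⟩
  by_contra h1
  push Not at h1
  rcases le_total t b with h2 | h2
  · rw [ramp_of_mem hab h1.le h2] at h
    have : 0 < (t - a) / (b - a) := div_pos (by linarith) (by linarith)
    linarith
  · rw [ramp_of_ge hab h2] at h
    norm_num at h

theorem ramp_eq_one_iff {a b t : ℝ} (hab : a < b) : ramp a b t = 1 ↔ b ≤ t := by
  refine ⟨fun h => ?_, ramp_of_ge hab⟩
  by_contra h1
  push Not at h1
  rcases le_total t a with h2 | h2
  · rw [ramp_of_le hab h2] at h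
    norm_num at h
  · rw [ramp_of_mem hab h2 h1.le] at h
    have : (t - a) / (b - a) < 1 := by
      rw [div_lt_one (by linarith)]
      linarith
    linarith

@[fun_prop]
theorem continuous_ramp (a b : ℝ) : Continuous (ramp a b) := by
  unfold ramp
  fun_prop

@[fun_prop]
theorem continuous_ramp_comp (a b : ℝ) {X : Type*} [TopologicalSpace X] {f : X → ℝ}
    (hf : Continuous f) : Continuous fun p => ramp a b (f p) := (continuous_ramp a b).comp hf

/-- Joint continuity in the parameters. -/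
theorem _root_.Continuous.ramp {X : Type*} [TopologicalSpace X] {a b f : X → ℝ}
    (ha : Continuous a) (hb : Continuous b) (hf : Continuous f) (h : ∀ p, a p < b p) :
    Continuous fun p => ramp (a p) (b p) (f p) := by
  unfold Am.ramp
  refine continuous_const.max (continuous_const.min ?_)
  exact (hf.sub ha).div (hb.sub ha) fun p => by linarith [h p]

/-- The ramp is strictly increasing on `[a, b]`. -/
theorem ramp_strictMonoOn {a b : ℝ} (hab : a < b) : StrictMonoOn (ramp a b) (Icc a b) := by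
  intro s hs t ht h
  rw [ramp_of_mem hab hs.1 hs.2, ramp_of_mem hab ht.1 ht.2]
  exact div_lt_div_of_pos_right (by linarith) (by linarith)

theorem ramp_inj {a b s t : ℝ} (hab : a < b) (hs : s ∈ Icc a b) (ht : t ∈ Icc a b)
    (h : ramp a b s = ramp a b t) : s = t := (ramp_strictMonoOn hab).injOn hs ht h

/-- Affine interpolation. -/
def lerp (l u v : ℝ) : ℝ := (1 - l) * u + l * v

@[simp] theorem lerp_zero (u v : ℝ) : lerp 0 u v = u := by simp [lerp]
@[simp] theorem lerp_one (u v : ℝ) : lerp 1 u v = v := by simp [lerp]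
@[simp] theorem lerp_self (l u : ℝ) : lerp l u u = u := by simp [lerp]; ring

theorem lerp_mem {l u v a b : ℝ} (hl : l ∈ Icc (0 : ℝ) 1) (hu : u ∈ Icc a b) (hv : v ∈ Icc a b) :
    lerp l u v ∈ Icc a b := by
  unfold lerp
  constructor <;> nlinarith [hl.1, hl.2, hu.1, hu.2, hv.1, hv.2]

theorem abs_lerp {l u v r : ℝ} (hl : l ∈ Icc (0 : ℝ) 1) (hu : |u| ≤ r) (hv : |v| ≤ r) :
    |lerp l u v| ≤ r := abs_le.2 (lerp_mem hl (abs_le.1 hu) (abs_le.1 hv))

theorem lerp_lt {l u v u' v' : ℝ} (hl : l ∈ Icc (0 : ℝ) 1) (hu : u < u') (hv : v < v') :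
    lerp l u v < lerp l u' v' := by
  unfold lerp
  rcases hl.1.eq_or_lt with h | h
  · rw [← h]; linarith
  · nlinarith [hl.2, mul_lt_mul_of_pos_left hv h]

theorem lerp_le {l u v u' v' : ℝ} (hl : l ∈ Icc (0 : ℝ) 1) (hu : u ≤ u') (hv : v ≤ v') :
    lerp l u v ≤ lerp l u' v' := by
  unfold lerp
  nlinarith [hl.2, hl.1]

@[fun_prop]
theorem _root_.Continuous.lerp {X : Type*} [TopologicalSpace X] {l u v : X → ℝ}
    (hl : Continuous l) (hu : Continuous u) (hv : Continuous v) :
    Continuous fun p => lerp (l p) (u p) (v p) := by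
  unfold Am.lerp
  fun_prop

/-- Case distinction for a ramp (to be used with `rcases`, then `rw`/`simp only` and `nlinarith`). -/
theorem ramp_cases {a b : ℝ} (hab : a < b) (t : ℝ) :
    (t ≤ a ∧ ramp a b t = 0) ∨ (a ≤ t ∧ t ≤ b ∧ (b - a) * ramp a b t = t - a) ∨
      (b ≤ t ∧ ramp a b t = 1) := by
  rcases le_total t a with h | h
  · exact Or.inl ⟨h, ramp_of_le hab h⟩
  · rcases le_total t b with h' | h'
    · refine Or.inr (Or.inl ⟨h, h', ?_⟩)
      rw [ramp_of_mem hab h h', mul_div_cancel₀ _ (by linarith)]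
    · exact Or.inr (Or.inr ⟨h', ramp_of_ge hab h'⟩)

/-! ### Polygonal functions -/

/-- The polygonal function with nodes `(a, u)`, `(b, v)`, constant outside of `[a, b]`. -/
def pl2 (a b u v t : ℝ) : ℝ := u + (v - u) * ramp a b t

/-- The polygonal function with nodes `(a, u)`, `(b, v)`, `(c, w)`. -/
def pl3 (a b c u v w t : ℝ) : ℝ := u + (v - u) * ramp a b t + (w - v) * ramp b c t

/-- The polygonal function with four nodes. -/
def pl4 (a b c d u v w x t : ℝ) : ℝ :=
  u + (v - u) * ramp a b t + (w - v) * ramp b c t + (x - w) * ramp c d t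

section PL

variable {a b c d u v w x t : ℝ}

theorem pl2_of_le (hab : a < b) (h : t ≤ a) : pl2 a b u v t = u := by
  unfold pl2; rw [ramp_of_le hab h]; ring

theorem pl2_of_ge (hab : a < b) (h : b ≤ t) : pl2 a b u v t = v := by
  unfold pl2; rw [ramp_of_ge hab h]; ring

theorem pl2_of_mem (hab : a < b) (h1 : a ≤ t) (h2 : t ≤ b) :
    pl2 a b u v t = u + (v - u) * ((t - a) / (b - a)) := by
  unfold pl2; rw [ramp_of_mem hab h1 h2]

/-- The defining equation without division. -/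
theorem pl2_mul (hab : a < b) (h1 : a ≤ t) (h2 : t ≤ b) :
    (b - a) * (pl2 a b u v t - u) = (v - u) * (t - a) := by
  rw [pl2_of_mem hab h1 h2]
  have : b - a ≠ 0 := by linarith
  field_simp
  ring

theorem pl2_mem (huv : u ≤ v) : pl2 a b u v t ∈ Icc u v := by
  unfold pl2
  have h := ramp_mem a b t
  constructor <;> nlinarith [h.1, h.2]

theorem pl2_monotone (hab : a < b) (huv : u ≤ v) : Monotone (pl2 a b u v) := by
  intro s t h
  unfold pl2
  have := ramp_mono hab h
  nlinarith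

theorem pl2_strictMonoOn (hab : a < b) (huv : u < v) : StrictMonoOn (pl2 a b u v) (Icc a b) := by
  intro s hs t ht h
  unfold pl2
  have := ramp_strictMonoOn hab hs ht h
  nlinarith

/-- The inverse of a polygonal function is the polygonal function with exchanged nodes. -/
theorem pl2_pl2 (hab : a < b) (huv : u < v) (ht : t ∈ Icc a b) :
    pl2 u v a b (pl2 a b u v t) = t := by
  have h1 : pl2 a b u v t ∈ Icc u v := pl2_mem huv.le
  rw [pl2_of_mem huv h1.1 h1.2, pl2_of_mem hab ht.1 ht.2]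
  have h2 : b - a ≠ 0 := by linarith
  have h3 : v - u ≠ 0 := by linarith
  field_simp
  ring

theorem _root_.Continuous.pl2 {X : Type*} [TopologicalSpace X] {a b u v f : X → ℝ}
    (ha : Continuous a) (hb : Continuous b) (hu : Continuous u) (hv : Continuous v)
    (hf : Continuous f) (h : ∀ p, a p < b p) :
    Continuous fun p => pl2 (a p) (b p) (u p) (v p) (f p) := by
  unfold Am.pl2
  exact hu.add ((hv.sub hu).mul (ha.ramp hb hf h))

@[fun_prop]
theorem continuous_pl2 (a b u v : ℝ) {X : Type*} [TopologicalSpace X] {f : X → ℝ}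
    (hf : Continuous f) : Continuous fun p => pl2 a b u v (f p) := by
  unfold Am.pl2
  fun_prop

theorem pl3_of_le_mid (hab : a < b) (hbc : b < c) (h : t ≤ b) :
    pl3 a b c u v w t = pl2 a b u v t := by
  unfold pl3 pl2; rw [ramp_of_le hbc h]; ring

theorem pl3_of_mid_le (hab : a < b) (hbc : b < c) (h : b ≤ t) :
    pl3 a b c u v w t = pl2 b c v w t := by
  unfold pl3 pl2; rw [ramp_of_ge hab h]; ring

theorem pl3_of_le (hab : a < b) (hbc : b < c) (h : t ≤ a) : pl3 a b c u v w t = u := by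
  rw [pl3_of_le_mid hab hbc (h.trans hab.le), pl2_of_le hab h]

theorem pl3_mid (hab : a < b) (hbc : b < c) : pl3 a b c u v w b = v := by
  rw [pl3_of_le_mid hab hbc le_rfl, pl2_of_ge hab le_rfl]

theorem pl3_of_ge (hab : a < b) (hbc : b < c) (h : c ≤ t) : pl3 a b c u v w t = w := by
  rw [pl3_of_mid_le hab hbc (hbc.le.trans h), pl2_of_ge hbc h]

theorem pl3_mem (huv : u ≤ v) (hvw : v ≤ w) : pl3 a b c u v w t ∈ Icc u w := by
  unfold pl3
  have h := ramp_mem a b t
  have h' := ramp_mem b c t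
  constructor <;> nlinarith [h.1, h.2, h'.1, h'.2, mul_le_mul_of_nonneg_left h.2 (sub_nonneg.2 huv),
    mul_le_mul_of_nonneg_left h'.2 (sub_nonneg.2 hvw), mul_nonneg (sub_nonneg.2 huv) h.1,
    mul_nonneg (sub_nonneg.2 hvw) h'.1]

theorem pl3_monotone (hab : a < b) (hbc : b < c) (huv : u ≤ v) (hvw : v ≤ w) :
    Monotone (pl3 a b c u v w) := by
  intro s t h
  unfold pl3
  have h1 := ramp_mono hab h
  have h2 := ramp_mono hbc h
  nlinarith

theorem pl3_strictMonoOn (hab : a < b) (hbc : b < c) (huv : u < v) (hvw : v < w) :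
    StrictMonoOn (pl3 a b c u v w) (Icc a c) := by
  intro s hs t ht h
  rcases le_total t b with h1 | h1
  · rw [pl3_of_le_mid hab hbc h1, pl3_of_le_mid hab hbc (h.le.trans h1)]
    exact pl2_strictMonoOn hab huv ⟨hs.1, h.le.trans h1⟩ ⟨ht.1, h1⟩ h
  · rcases le_total b s with h2 | h2
    · rw [pl3_of_mid_le hab hbc h1, pl3_of_mid_le hab hbc h2]
      exact pl2_strictMonoOn hbc hvw ⟨h2, hs.2⟩ ⟨h1, ht.2⟩ h
    · rw [pl3_of_mid_le hab hbc h1, pl3_of_le_mid hab hbc h2]
      have e1 : pl2 a b u v s ≤ v := (pl2_mem huv.le).2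
      have e2 : v ≤ pl2 b c v w t := (pl2_mem hvw.le).1
      rcases h2.lt_or_eq with h3 | h3
      · have := pl2_strictMonoOn hab huv ⟨hs.1, h2⟩ ⟨hab.le, le_rfl⟩ h3
        rw [pl2_of_ge hab le_rfl] at this
        exact this.trans_le e2
      · have h4 : b < t := h3 ▸ h
        have := pl2_strictMonoOn hbc hvw ⟨le_rfl, hbc.le⟩ ⟨h1, ht.2⟩ h4
        rw [pl2_of_le hbc le_rfl] at this
        exact e1.trans_lt this

/-- The inverse of a polygonal function is the polygonal function with exchanged nodes. -/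
theorem pl3_pl3 (hab : a < b) (hbc : b < c) (huv : u < v) (hvw : v < w) (ht : t ∈ Icc a c) :
    pl3 u v w a b c (pl3 a b c u v w t) = t := by
  rcases le_total t b with h1 | h1
  · rw [pl3_of_le_mid hab hbc h1, pl3_of_le_mid huv hvw (pl2_mem huv.le).2,
      pl2_pl2 hab huv ⟨ht.1, h1⟩]
  · rw [pl3_of_mid_le hab hbc h1, pl3_of_mid_le huv hvw (pl2_mem hvw.le).1,
      pl2_pl2 hbc hvw ⟨h1, ht.2⟩]

theorem _root_.Continuous.pl3 {X : Type*} [TopologicalSpace X] {a b c u v w f : X → ℝ}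
    (ha : Continuous a) (hb : Continuous b) (hc : Continuous c) (hu : Continuous u)
    (hv : Continuous v) (hw : Continuous w) (hf : Continuous f) (h : ∀ p, a p < b p)
    (h' : ∀ p, b p < c p) :
    Continuous fun p => pl3 (a p) (b p) (c p) (u p) (v p) (w p) (f p) := by
  unfold Am.pl3
  exact (hu.add ((hv.sub hu).mul (ha.ramp hb hf h))).add ((hw.sub hv).mul (hb.ramp hc hf h'))

@[fun_prop]
theorem continuous_pl3 (a b c u v w : ℝ) {X : Type*} [TopologicalSpace X] {f : X → ℝ}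
    (hf : Continuous f) : Continuous fun p => pl3 a b c u v w (f p) := by
  unfold Am.pl3
  fun_prop

theorem pl4_of_le_mid (hab : a < b) (hbc : b < c) (hcd : c < d) (h : t ≤ c) :
    pl4 a b c d u v w x t = pl3 a b c u v w t := by
  unfold pl4 pl3; rw [ramp_of_le hcd h]; ring

theorem pl4_of_mid_le (hab : a < b) (hbc : b < c) (hcd : c < d) (h : b ≤ t) :
    pl4 a b c d u v w x t = pl3 b c d v w x t := by
  unfold pl4 pl3; rw [ramp_of_ge hab h]; ring

theorem pl4_of_le (hab : a < b) (hbc : b < c) (hcd : c < d) (h : t ≤ a) :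
    pl4 a b c d u v w x t = u := by
  rw [pl4_of_le_mid hab hbc hcd (by linarith), pl3_of_le hab hbc h]

theorem pl4_of_ge (hab : a < b) (hbc : b < c) (hcd : c < d) (h : d ≤ t) :
    pl4 a b c d u v w x t = x := by
  rw [pl4_of_mid_le hab hbc hcd (by linarith), pl3_of_ge hbc hcd h]

theorem pl4_node1 (hab : a < b) (hbc : b < c) (hcd : c < d) : pl4 a b c d u v w x b = v := by
  rw [pl4_of_le_mid hab hbc hcd hbc.le, pl3_mid hab hbc]

theorem pl4_node2 (hab : a < b) (hbc : b < c) (hcd : c < d) : pl4 a b c d u v w x c = w := by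
  rw [pl4_of_mid_le hab hbc hcd hbc.le, pl3_mid hbc hcd]

theorem pl4_mem (huv : u ≤ v) (hvw : v ≤ w) (hwx : w ≤ x) : pl4 a b c d u v w x t ∈ Icc u x := by
  have h1 : pl3 a b c u v w t ∈ Icc u w := pl3_mem huv hvw
  have h2 : pl4 a b c d u v w x t = pl3 a b c u v w t + (x - w) * ramp c d t := by
    unfold pl4 pl3; ring
  have h3 := ramp_mem c d t
  rw [h2]
  constructor <;> nlinarith [h1.1, h1.2, h3.1, h3.2, mul_nonneg (sub_nonneg.2 hwx) h3.1,
    mul_le_mul_of_nonneg_left h3.2 (sub_nonneg.2 hwx)]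

theorem pl4_strictMonoOn (hab : a < b) (hbc : b < c) (hcd : c < d) (huv : u < v) (hvw : v < w)
    (hwx : w < x) : StrictMonoOn (pl4 a b c d u v w x) (Icc a d) := by
  intro s hs t ht h
  rcases le_total t c with h1 | h1
  · rw [pl4_of_le_mid hab hbc hcd h1, pl4_of_le_mid hab hbc hcd (h.le.trans h1)]
    exact pl3_strictMonoOn hab hbc huv hvw ⟨hs.1, h.le.trans h1⟩ ⟨ht.1, h1⟩ h
  · rcases le_total b s with h2 | h2
    · rw [pl4_of_mid_le hab hbc hcd (h2.trans h.le), pl4_of_mid_le hab hbc hcd h2]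
      exact pl3_strictMonoOn hbc hcd hvw hwx ⟨h2, hs.2⟩ ⟨h2.trans h.le, ht.2⟩ h
    · rw [pl4_of_mid_le hab hbc hcd (hbc.le.trans h1),
        pl4_of_le_mid hab hbc hcd (h2.trans hbc.le), pl3_of_le_mid hab hbc h2]
      have e1 : pl2 a b u v s ≤ v := (pl2_mem huv.le).2
      have := pl3_strictMonoOn hbc hcd hvw hwx ⟨le_rfl, (hbc.trans hcd).le⟩
        ⟨hbc.le.trans h1, ht.2⟩ (hbc.trans_le h1)
      rw [pl3_of_le hbc hcd le_rfl] at this
      exact e1.trans_lt this

/-- The inverse of a polygonal function is the polygonal function with exchanged nodes. -/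
theorem pl4_pl4 (hab : a < b) (hbc : b < c) (hcd : c < d) (huv : u < v) (hvw : v < w)
    (hwx : w < x) (ht : t ∈ Icc a d) : pl4 u v w x a b c d (pl4 a b c d u v w x t) = t := by
  rcases le_total t c with h1 | h1
  · rw [pl4_of_le_mid hab hbc hcd h1, pl4_of_le_mid huv hvw hwx (pl3_mem huv.le hvw.le).2,
      pl3_pl3 hab hbc huv hvw ⟨ht.1, h1⟩]
  · rw [pl4_of_mid_le hab hbc hcd (hbc.le.trans h1),
      pl4_of_mid_le huv hvw hwx (pl3_mem hvw.le hwx.le).1,
      pl3_pl3 hbc hcd hvw hwx ⟨hbc.le.trans h1, ht.2⟩]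

theorem _root_.Continuous.pl4 {X : Type*} [TopologicalSpace X] {a b c d u v w x f : X → ℝ}
    (ha : Continuous a) (hb : Continuous b) (hc : Continuous c) (hd : Continuous d)
    (hu : Continuous u) (hv : Continuous v) (hw : Continuous w) (hx : Continuous x)
    (hf : Continuous f) (h : ∀ p, a p < b p) (h' : ∀ p, b p < c p) (h'' : ∀ p, c p < d p) :
    Continuous fun p => pl4 (a p) (b p) (c p) (d p) (u p) (v p) (w p) (x p) (f p) := by
  unfold Am.pl4
  exact ((hu.add ((hv.sub hu).mul (ha.ramp hb hf h))).add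
    ((hw.sub hv).mul (hb.ramp hc hf h'))).add ((hx.sub hw).mul (hc.ramp hd hf h''))

@[fun_prop]
theorem continuous_pl4 (a b c d u v w x : ℝ) {X : Type*} [TopologicalSpace X] {f : X → ℝ}
    (hf : Continuous f) : Continuous fun p => pl4 a b c d u v w x (f p) := by
  unfold Am.pl4
  fun_prop

end PL

/-! ### Shears

`gx g p` changes the first coordinate of `p` to `g p`, and so on. -/

section Shear

/-- `g` is strictly increasing in the first coordinate. -/
def IncX (g : Q → ℝ) : Prop :=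
  ∀ p q, cy p = cy q → cz p = cz q → cw p = cw q → cx p < cx q → g p < g q
/-- `g` is strictly increasing in the second coordinate. -/
def IncY (g : Q → ℝ) : Prop :=
  ∀ p q, cx p = cx q → cz p = cz q → cw p = cw q → cy p < cy q → g p < g q
/-- `g` is strictly increasing in the third coordinate. -/
def IncZ (g : Q → ℝ) : Prop :=
  ∀ p q, cx p = cx q → cy p = cy q → cw p = cw q → cz p < cz q → g p < g q
/-- `g` is strictly increasing in the fourth coordinate. -/
def IncW (g : Q → ℝ) : Prop :=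
  ∀ p q, cx p = cx q → cy p = cy q → cz p = cz q → cw p < cw q → g p < g q

/-- Change the first coordinate. -/
def setX (g : Q → ℝ) (p : Q) : Q := qpt (g p) (cy p) (cz p) (cw p)
/-- Change the second coordinate. -/
def setY (g : Q → ℝ) (p : Q) : Q := qpt (cx p) (g p) (cz p) (cw p)
/-- Change the third coordinate. -/
def setZ (g : Q → ℝ) (p : Q) : Q := qpt (cx p) (cy p) (g p) (cw p)
/-- Change the fourth coordinate. -/
def setW (g : Q → ℝ) (p : Q) : Q := qpt (cx p) (cy p) (cz p) (g p)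

variable {g : Q → ℝ}

@[simp] theorem cx_setX (p : Q) : cx (setX g p) = clp (g p) := rfl
@[simp] theorem cy_setX (p : Q) : cy (setX g p) = cy p := clp_cy p
@[simp] theorem cz_setX (p : Q) : cz (setX g p) = cz p := clp_cz p
@[simp] theorem cw_setX (p : Q) : cw (setX g p) = cw p := clp_cw p
@[simp] theorem cx_setY (p : Q) : cx (setY g p) = cx p := clp_cx p
@[simp] theorem cy_setY (p : Q) : cy (setY g p) = clp (g p) := rfl
@[simp] theorem cz_setY (p : Q) : cz (setY g p) = cz p := clp_cz p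
@[simp] theorem cw_setY (p : Q) : cw (setY g p) = cw p := clp_cw p
@[simp] theorem cx_setZ (p : Q) : cx (setZ g p) = cx p := clp_cx p
@[simp] theorem cy_setZ (p : Q) : cy (setZ g p) = cy p := clp_cy p
@[simp] theorem cz_setZ (p : Q) : cz (setZ g p) = clp (g p) := rfl
@[simp] theorem cw_setZ (p : Q) : cw (setZ g p) = cw p := clp_cw p
@[simp] theorem cx_setW (p : Q) : cx (setW g p) = cx p := clp_cx p
@[simp] theorem cy_setW (p : Q) : cy (setW g p) = cy p := clp_cy p
@[simp] theorem cz_setW (p : Q) : cz (setW g p) = cz p := clp_cz p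
@[simp] theorem cw_setW (p : Q) : cw (setW g p) = clp (g p) := rfl

@[simp] theorem setZ_fst (p : Q) : (setZ g p).1 = p.1 := disc_ext (clp_cx p) (clp_cy p)
@[simp] theorem setW_fst (p : Q) : (setW g p).1 = p.1 := disc_ext (clp_cx p) (clp_cy p)
@[simp] theorem setX_snd (p : Q) : (setX g p).2 = p.2 := disc_ext (clp_cz p) (clp_cw p)
@[simp] theorem setY_snd (p : Q) : (setY g p).2 = p.2 := disc_ext (clp_cz p) (clp_cw p)

@[fun_prop] theorem continuous_setX (hg : Continuous g) : Continuous (setX g) := by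
  unfold setX; fun_prop
@[fun_prop] theorem continuous_setY (hg : Continuous g) : Continuous (setY g) := by
  unfold setY; fun_prop
@[fun_prop] theorem continuous_setZ (hg : Continuous g) : Continuous (setZ g) := by
  unfold setZ; fun_prop
@[fun_prop] theorem continuous_setW (hg : Continuous g) : Continuous (setW g) := by
  unfold setW; fun_prop

theorem setX_inj (hg : ∀ p, |g p| ≤ 1) (hm : IncX g) : Function.Injective (setX g) := by
  intro p q h
  have h1 := congrArg cx h
  have h2 := congrArg cy h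
  have h3 := congrArg cz h
  have h4 := congrArg cw h
  simp only [cx_setX, cy_setX, cz_setX, cw_setX] at h1 h2 h3 h4
  rw [clp_of_abs (hg p), clp_of_abs (hg q)] at h1
  refine Q_ext ?_ h2 h3 h4
  rcases lt_trichotomy (cx p) (cx q) with h5 | h5 | h5
  · exact absurd h1 (hm p q h2 h3 h4 h5).ne
  · exact h5
  · exact absurd h1 (hm q p h2.symm h3.symm h4.symm h5).ne'

theorem setY_inj (hg : ∀ p, |g p| ≤ 1) (hm : IncY g) : Function.Injective (setY g) := by
  intro p q h
  have h1 := congrArg cx h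
  have h2 := congrArg cy h
  have h3 := congrArg cz h
  have h4 := congrArg cw h
  simp only [cx_setY, cy_setY, cz_setY, cw_setY] at h1 h2 h3 h4
  rw [clp_of_abs (hg p), clp_of_abs (hg q)] at h2
  refine Q_ext h1 ?_ h3 h4
  rcases lt_trichotomy (cy p) (cy q) with h5 | h5 | h5
  · exact absurd h2 (hm p q h1 h3 h4 h5).ne
  · exact h5
  · exact absurd h2 (hm q p h1.symm h3.symm h4.symm h5).ne'

theorem setZ_inj (hg : ∀ p, |g p| ≤ 1) (hm : IncZ g) : Function.Injective (setZ g) := by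
  intro p q h
  have h1 := congrArg cx h
  have h2 := congrArg cy h
  have h3 := congrArg cz h
  have h4 := congrArg cw h
  simp only [cx_setZ, cy_setZ, cz_setZ, cw_setZ] at h1 h2 h3 h4
  rw [clp_of_abs (hg p), clp_of_abs (hg q)] at h3
  refine Q_ext h1 h2 ?_ h4
  rcases lt_trichotomy (cz p) (cz q) with h5 | h5 | h5
  · exact absurd h3 (hm p q h1 h2 h4 h5).ne
  · exact h5
  · exact absurd h3 (hm q p h1.symm h2.symm h4.symm h5).ne'

theorem setW_inj (hg : ∀ p, |g p| ≤ 1) (hm : IncW g) : Function.Injective (setW g) := by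
  intro p q h
  have h1 := congrArg cx h
  have h2 := congrArg cy h
  have h3 := congrArg cz h
  have h4 := congrArg cw h
  simp only [cx_setW, cy_setW, cz_setW, cw_setW] at h1 h2 h3 h4
  rw [clp_of_abs (hg p), clp_of_abs (hg q)] at h4
  refine Q_ext h1 h2 h3 ?_
  rcases lt_trichotomy (cw p) (cw q) with h5 | h5 | h5
  · exact absurd h4 (hm p q h1 h2 h3 h5).ne
  · exact h5
  · exact absurd h4 (hm q p h1.symm h2.symm h3.symm h5).ne'

/-- Intermediate values along a coordinate: a continuous function on `[-1, 1]` with values `-1`, `1`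
at the ends takes all values of `[-1, 1]`. -/
theorem exists_of_ends {f : ℝ → ℝ} (hf : Continuous f) (h0 : f (-1) = -1) (h1 : f 1 = 1) {t : ℝ}
    (ht : |t| ≤ 1) : ∃ s, |s| ≤ 1 ∧ f s = t := by
  have h := intermediate_value_Icc (show (-1 : ℝ) ≤ 1 by norm_num) hf.continuousOn
  rw [h0, h1] at h
  obtain ⟨s, hs, hst⟩ := h (abs_le.1 ht)
  exact ⟨s, abs_le.2 hs, hst⟩

theorem setX_surj (hg : Continuous g) (h0 : ∀ p, cx p = -1 → g p = -1)
    (h1 : ∀ p, cx p = 1 → g p = 1) : Function.Surjective (setX g) := by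
  intro q
  obtain ⟨s, hs, hst⟩ := exists_of_ends (f := fun s => g (qpt s (cy q) (cz q) (cw q)))
    (by fun_prop) (h0 _ (clp_of_abs (by norm_num))) (h1 _ (clp_of_abs (by norm_num))) (abs_cx q)
  refine ⟨qpt s (cy q) (cz q) (cw q), ?_⟩
  refine Q_ext ?_ ?_ ?_ ?_
  · rw [cx_setX, hst, clp_cx]
  · simp
  · simp
  · simp

theorem setY_surj (hg : Continuous g) (h0 : ∀ p, cy p = -1 → g p = -1)
    (h1 : ∀ p, cy p = 1 → g p = 1) : Function.Surjective (setY g) := by
  intro q
  obtain ⟨s, hs, hst⟩ := exists_of_ends (f := fun s => g (qpt (cx q) s (cz q) (cw q)))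
    (by fun_prop) (h0 _ (clp_of_abs (by norm_num))) (h1 _ (clp_of_abs (by norm_num))) (abs_cy q)
  refine ⟨qpt (cx q) s (cz q) (cw q), ?_⟩
  refine Q_ext ?_ ?_ ?_ ?_
  · simp
  · rw [cy_setY, hst, clp_cy]
  · simp
  · simp

theorem setZ_surj (hg : Continuous g) (h0 : ∀ p, cz p = -1 → g p = -1)
    (h1 : ∀ p, cz p = 1 → g p = 1) : Function.Surjective (setZ g) := by
  intro q
  obtain ⟨s, hs, hst⟩ := exists_of_ends (f := fun s => g (qpt (cx q) (cy q) s (cw q)))
    (by fun_prop) (h0 _ (clp_of_abs (by norm_num))) (h1 _ (clp_of_abs (by norm_num))) (abs_cz q)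
  refine ⟨qpt (cx q) (cy q) s (cw q), ?_⟩
  refine Q_ext ?_ ?_ ?_ ?_
  · simp
  · simp
  · rw [cz_setZ, hst, clp_cz]
  · simp

theorem setW_surj (hg : Continuous g) (h0 : ∀ p, cw p = -1 → g p = -1)
    (h1 : ∀ p, cw p = 1 → g p = 1) : Function.Surjective (setW g) := by
  intro q
  obtain ⟨s, hs, hst⟩ := exists_of_ends (f := fun s => g (qpt (cx q) (cy q) (cz q) s))
    (by fun_prop) (h0 _ (clp_of_abs (by norm_num))) (h1 _ (clp_of_abs (by norm_num))) (abs_cw q)
  refine ⟨qpt (cx q) (cy q) (cz q) s, ?_⟩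
  refine Q_ext ?_ ?_ ?_ ?_
  · simp
  · simp
  · simp
  · rw [cw_setW, hst, clp_cw]

/-- A continuous bijection of the four-cube is a homeomorphism. -/
def homeoOf (f : Q → Q) (hc : Continuous f) (hi : Function.Injective f)
    (hs : Function.Surjective f) : Q ≃ₜ Q :=
  hc.homeoOfEquivCompactToT2 (f := Equiv.ofBijective f ⟨hi, hs⟩)

@[simp] theorem homeoOf_apply (f : Q → Q) (hc : Continuous f) (hi : Function.Injective f)
    (hs : Function.Surjective f) (p : Q) : homeoOf f hc hi hs p = f p := rfl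

end Shear

/-! ### Criteria -/

section Criteria

/-- The image of a relatively open part `V` of a compact set `S` under a map which is injective on
`S` and maps `S` onto the cube is open. -/
theorem isOpen_image_of_surj {A B : Type*} [TopologicalSpace A] [TopologicalSpace B] [T2Space B]
    {f : A → B} {S V : Set A} (hS : IsCompact S) (hf : ContinuousOn f S) (hi : InjOn f S)
    (hs : f '' S = univ) (hVS : V ⊆ S) (hV : ∃ U, IsOpen U ∧ V = S ∩ U) : IsOpen (f '' V) := by
  obtain ⟨U, hU, rfl⟩ := hV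
  have h : f '' (S ∩ U) = (f '' (S \ U))ᶜ := by
    ext y
    constructor
    · rintro ⟨x, ⟨hx, hxU⟩, rfl⟩ ⟨x', ⟨hx', hx'U⟩, h⟩
      exact hx'U (hi hx' hx h ▸ hxU)
    · intro hy
      obtain ⟨x, hx, rfl⟩ : y ∈ f '' S := hs ▸ mem_univ y
      refine ⟨x, ⟨hx, ?_⟩, rfl⟩
      by_contra hxU
      exact hy ⟨x, ⟨hx, hxU⟩, rfl⟩
  rw [h, isOpen_compl_iff]
  have h1 : IsCompact (S \ U) := hS.diff hU
  exact (h1.image_of_continuousOn (hf.mono sdiff_subset)).isClosed

/-- A set is open if its complement is the image of a compact set. -/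
theorem isOpen_of_compl_image {A B : Type*} [TopologicalSpace A] [TopologicalSpace B] [T2Space B]
    {f : A → B} {K : Set A} {V : Set B} (hK : IsCompact K) (hf : ContinuousOn f K)
    (h : Vᶜ = f '' K) : IsOpen V := by
  rw [← isClosed_compl_iff, h]
  exact (hK.image_of_continuousOn hf).isClosed

/-- A box composed with a homeomorphism which preserves the core is a box. -/
theorem IsBox.homeo_comp {P : Q → Q} (hP : IsBox P) (H : Q ≃ₜ Q) (hH : ∀ p, p ∈ core → H p ∈ core) :
    IsBox (fun p => H (P p)) where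
  cont := H.continuous.comp hP.cont
  inj := H.injective.comp hP.inj
  isOpen := by
    have : (fun p => H (P p)) '' core = H '' (P '' core) := by rw [image_image]
    rw [this]
    exact H.isOpenMap _ hP.isOpen
  mem p := hH _ (hP.mem p)

/-- A map of the disc which acts separately on both coordinates. -/
def psq (f g : ℝ → ℝ) (u : Disc) : Disc := dpt (f u.1.1) (g u.1.2)

theorem continuous_psq {f g : ℝ → ℝ} (hf : Continuous f) (hg : Continuous g) :
    Continuous (psq f g) := by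
  unfold psq
  fun_prop

/-- Product squares: `f`, `g` strictly increasing on `[-1, 1]`, with values in `[-1, 1]`. -/
theorem isSq_psq {f g : ℝ → ℝ} (hf : Continuous f) (hg : Continuous g)
    (hfm : StrictMonoOn f (Icc (-1) 1)) (hgm : StrictMonoOn g (Icc (-1) 1))
    (hf1 : -1 ≤ f (-1)) (hf2 : f 1 ≤ 1) (hg1 : -1 ≤ g (-1)) (hg2 : g 1 ≤ 1) : IsSq (psq f g) := by
  have m1 : (-1 : ℝ) ∈ Icc (-1 : ℝ) 1 := by norm_num
  have m2 : (1 : ℝ) ∈ Icc (-1 : ℝ) 1 := by norm_num
  have hfr : ∀ t ∈ Icc (-1 : ℝ) 1, |f t| ≤ 1 := fun t ht => abs_le.2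
    ⟨hf1.trans (hfm.monotoneOn m1 ht ht.1), (hfm.monotoneOn ht m2 ht.2).trans hf2⟩
  have hgr : ∀ t ∈ Icc (-1 : ℝ) 1, |g t| ≤ 1 := fun t ht => abs_le.2
    ⟨hg1.trans (hgm.monotoneOn m1 ht ht.1), (hgm.monotoneOn ht m2 ht.2).trans hg2⟩
  have hlt : ∀ t, |t| < 1 → f (-1) < f t ∧ f t < f 1 ∧ g (-1) < g t ∧ g t < g 1 := by
    intro t ht
    obtain ⟨h1, h2⟩ := abs_lt.1 ht
    have h3 : t ∈ Icc (-1 : ℝ) 1 := ⟨h1.le, h2.le⟩
    exact ⟨hfm m1 h3 h1, hfm h3 m2 h2, hgm m1 h3 h1, hgm h3 m2 h2⟩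
  refine ⟨continuous_psq hf hg, ?_, ?_, ?_⟩
  · intro u v h
    obtain ⟨h1, h2⟩ := dpt_inj (hfr _ (disc_mem1 u)) (hgr _ (disc_mem2 u)) (hfr _ (disc_mem1 v))
      (hgr _ (disc_mem2 v)) h
    exact disc_ext (hfm.injOn (disc_mem1 u) (disc_mem1 v) h1)
      (hgm.injOn (disc_mem2 u) (disc_mem2 v) h2)
  · have : psq f g '' int = {u : Disc | f (-1) < u.1.1 ∧ u.1.1 < f 1 ∧ g (-1) < u.1.2 ∧
        u.1.2 < g 1} := by
      ext v
      constructor
      · rintro ⟨u, hu, rfl⟩
        rw [mem_int_iff] at hu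
        have h1 := hlt _ hu.1
        have h2 := hlt _ hu.2
        change f (-1) < clp _ ∧ clp _ < f 1 ∧ g (-1) < clp _ ∧ clp _ < g 1
        rw [clp_of_abs (hfr _ (disc_mem1 u)), clp_of_abs (hgr _ (disc_mem2 u))]
        exact ⟨h1.1, h1.2.1, h2.2.2.1, h2.2.2.2⟩
      · rintro ⟨h1, h2, h3, h4⟩
        obtain ⟨s, hs, hs'⟩ := intermediate_value_Icc (show (-1 : ℝ) ≤ 1 by norm_num)
          hf.continuousOn ⟨h1.le, h2.le⟩
        obtain ⟨t, ht, ht'⟩ := intermediate_value_Icc (show (-1 : ℝ) ≤ 1 by norm_num)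
          hg.continuousOn ⟨h3.le, h4.le⟩
        have e1 : s ≠ -1 := by rintro rfl; exact h1.ne hs'
        have e2 : s ≠ 1 := by rintro rfl; exact h2.ne' hs'
        have e3 : t ≠ -1 := by rintro rfl; exact h3.ne ht'
        have e4 : t ≠ 1 := by rintro rfl; exact h4.ne' ht'
        refine ⟨dpt s t, ?_, ?_⟩
        · rw [mem_int_iff, dpt_1' (abs_le.2 hs), dpt_2' (abs_le.2 ht), abs_lt, abs_lt]
          exact ⟨⟨lt_of_le_of_ne hs.1 e1.symm, lt_of_le_of_ne hs.2 e2⟩,
            ⟨lt_of_le_of_ne ht.1 e3.symm, lt_of_le_of_ne ht.2 e4⟩⟩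
        · refine dpt_eq ?_ ?_
          · rw [dpt_1' (abs_le.2 hs), hs']
          · rw [dpt_2' (abs_le.2 ht), ht']
    rw [this]
    have c1 : Continuous fun u : Disc => u.1.1 := by fun_prop
    have c2 : Continuous fun u : Disc => u.1.2 := by fun_prop
    exact (isOpen_lt continuous_const c1).inter ((isOpen_lt c1 continuous_const).inter
      ((isOpen_lt continuous_const c2).inter (isOpen_lt c2 continuous_const)))
  · intro u hu
    rw [mem_int_iff] at hu ⊢
    have h1 := hlt _ hu.1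
    have h2 := hlt _ hu.2
    change |clp _| < 1 ∧ |clp _| < 1
    rw [clp_of_abs (hfr _ (disc_mem1 u)), clp_of_abs (hgr _ (disc_mem2 u)), abs_lt, abs_lt]
    exact ⟨⟨hf1.trans_lt h1.1, h1.2.1.trans_le hf2⟩,
      ⟨hg1.trans_lt h2.2.2.1, h2.2.2.2.trans_le hg2⟩⟩

/-- If moreover `-1 < f (-1)` etc., the square is contained in the interior. -/
theorem psq_mem_int {f g : ℝ → ℝ} (hfm : StrictMonoOn f (Icc (-1) 1))
    (hgm : StrictMonoOn g (Icc (-1) 1)) (hf1 : -1 < f (-1)) (hf2 : f 1 < 1) (hg1 : -1 < g (-1))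
    (hg2 : g 1 < 1) (u : Disc) : psq f g u ∈ int := by
  have m1 : (-1 : ℝ) ∈ Icc (-1 : ℝ) 1 := by norm_num
  have m2 : (1 : ℝ) ∈ Icc (-1 : ℝ) 1 := by norm_num
  have a1 := hf1.trans_le (hfm.monotoneOn m1 (disc_mem1 u) (disc_mem1 u).1)
  have a2 := (hfm.monotoneOn (disc_mem1 u) m2 (disc_mem1 u).2).trans_lt hf2
  have a3 := hg1.trans_le (hgm.monotoneOn m1 (disc_mem2 u) (disc_mem2 u).1)
  have a4 := (hgm.monotoneOn (disc_mem2 u) m2 (disc_mem2 u).2).trans_lt hg2
  rw [mem_int_iff]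
  change |clp _| < 1 ∧ |clp _| < 1
  rw [clp_of_mem ⟨a1.le, a2.le⟩, clp_of_mem ⟨a3.le, a4.le⟩, abs_lt, abs_lt]
  exact ⟨⟨a1, a2⟩, ⟨a3, a4⟩⟩

end Criteria

end Vale.Agent.P215.Am
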