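import Vale.Agent.P215.Am.Vert
import Vale.Agent.P215.Am.LabSys

/-!
# P215, route A: realizations of labelled systems, and the local data for splitting and contraction
-/

noncomputable section

namespace Vale.Agent.P215.Am

open Vale.Agent.P215.H788 Set Topology

/-- A little square whose first coordinate separates vertical lines: the first coordinate of
`f u` is in `(-1, 1)` and determines the first coordinate of `u`. -/
structure IsXSq (f : Disc → Disc) : Prop extends IsSq f where
  xinj : ∀ u v, (f u).1.1 = (f v).1.1 → u.1.1 = v.1.1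
  xint : ∀ u, |(f u).1.1| < 1

theorem IsXSq.comp {f g : Disc → Disc} (hf : IsXSq f) (hg : IsXSq g) :
    IsXSq (fun x => f (g x)) where
  toIsSq := hf.toIsSq.comp hg.toIsSq
  xinj _ _ h := hg.xinj _ _ (hf.xinj _ _ h)
  xint _ := hf.xint _

/-- Three disjoint leg boxes. -/
structure IsLegs (L : Fin 3 → Q → Q) : Prop where
  isBox : ∀ i, IsBox (L i)
  disj : ∀ i j p q, L i p = L j q → i = j

/-- **Splitting of a branch with the legs `L` along the leg `i`**, which carries darts at the
squares `q d`, `d ∈ D`: the new branches sit over the squares `s d`. -/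
structure LegSplit (L : Fin 3 → Q → Q) (i : Fin 3) {D : Type} (q : D → Disc → Disc) where
  /-- the morphism -/
  ψ : Q → Q
  mor : IsMor ψ
  /-- the new branches -/
  s : D → Disc → Disc
  fam : IsFam s
  /-- the part of the leg `i` which is covered by the new branch -/
  g : D → Disc → Disc
  /-- the position of the dart in the new branch -/
  τ : D → Disc → Disc
  /-- the positions of the new branches in the fibres of the other legs -/
  f : Fin 3 → D → Disc → Disc
  g_inj : ∀ d, Function.Injective (g d)
  g_τ : ∀ d x, g d (τ d x) = q d x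
  isXSq_τ : ∀ d, IsXSq (τ d)
  isXSq_f : ∀ j, j ≠ i → ∀ d, IsXSq (f j d)
  f_sep : ∀ j, j ≠ i → ∀ d d' x y, (f j d x).1.1 = (f j d' y).1.1 → d = d'
  spec_self : ∀ d x y, ψ (vert (s d) (L i (x, y))) = L i (g d x, y)
  spec_other : ∀ j, j ≠ i → ∀ d x y, ψ (vert (s d) (L j (x, y))) = L j (x, f j d y)
  cover_self : ∀ d p x y, ψ p = L i (q d x, y) → ∃ r, p = vert (s d) (L i r)
  cover_other : ∀ j, j ≠ i → ∀ p r, ψ p = L j r → ∃ d r', p = vert (s d) (L j r')

/-- **Contraction of a branch with the legs `L` along the leg `i`.** -/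
structure LegContract (L : Fin 3 → Q → Q) (i : Fin 3) where
  /-- the morphism -/
  ψ : Q → Q
  mor : IsMor ψ
  /-- the index set of the parallel copies of the cap -/
  E : Type
  finE : Finite E
  /-- the parallel copies -/
  s : E → Disc → Disc
  fam : IsFam s
  /-- the identification of the copy with the cap -/
  r : E → Disc → Disc
  isSq_r : ∀ c, IsSq (r c)
  surj_r : ∀ c, Function.Surjective (r c)
  int_r : ∀ c x, r c x ∈ int → x ∈ int
  /-- the positions of the parallel copies -/
  f : E → Disc → Disc
  isSq_f : ∀ c, IsSq (f c)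
  spec : ∀ c x y, ψ (vert (s c) (x, y)) = L i (r c x, f c y)
  cover : ∀ p r', ψ p = L i r' → ∃ c q, p = vert (s c) q
  miss : ∀ j, j ≠ i → ∀ p r', ψ p ≠ L j r'

variable {Γ : Type} [Group Γ]

/-- The positions of a labelled system in the cube: the branch `b` sits over the square `s b`, the
dart `k` on the square `q k` of its leg. -/
structure Pos (L : Fin 3 → Q → Q) (S : LabSys Γ) where
  hL : IsLegs L
  /-- the squares of the branches -/
  s : S.V → Disc → Disc
  fam : IsFam s
  /-- the squares of the darts -/
  q : S.K → Disc → Disc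
  isSq : ∀ k, IsSq (q k)
  disj : ∀ k l x y, S.vert k = S.vert l → S.leg k = S.leg l → q k x = q l y → k = l

namespace Pos

variable {L : Fin 3 → Q → Q} {S : LabSys Γ} (P : Pos L S)

/-- The boxes of the darts. -/
def darts : Darts S.K where
  flip := S.flip
  flip_flip := S.flip_flip
  flip_ne := S.flip_ne
  box k p := vert (P.s (S.vert k)) (L (S.leg k) (P.q k p.1, p.2))
  isBox k := (P.fam.isBox (S.vert k)).comp ((P.hL.isBox (S.leg k)).comp_sq (P.isSq k))
  disj k l p q h := by
    have h1 := P.fam.vert_disj _ _ _ _ h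
    rw [h1] at h
    have h2 := vert_inj (P.fam.isSq _).inj h
    have h3 := P.hL.disj _ _ _ _ h2
    rw [h3] at h2
    have h4 := (P.hL.isBox _).inj h2
    simp only [Prod.mk.injEq] at h4
    exact P.disj _ _ _ _ h1 h3 h4.1

theorem darts_box (k : S.K) (x y : Disc) :
    P.darts.box k (x, y) = vert (P.s (S.vert k)) (L (S.leg k) (P.q k x, y)) := rfl

theorem darts_flip (k : S.K) : P.darts.flip k = S.flip k := rfl

/-- The squares of the darts are separated by the first coordinate. -/
structure IsSep : Prop where
  isXSq : ∀ k, IsXSq (P.q k)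
  sep : ∀ k l x y, S.vert k = S.vert l → S.leg k = S.leg l → (P.q k x).1.1 = (P.q l y).1.1 → k = l

end Pos

section Rz

variable {X : Type} [TopologicalSpace X] (e : Circ × Disc → X) (c : Coc X Γ)
  (L : Fin 3 → Q → Q)

/-- The labelled system `S` is realized in `(X, e)`. -/
def Rz (S : LabSys Γ) : Prop :=
  ∃ (P : Pos L S) (F : Q → X), IsReal e P.darts F ∧ IsLabel c P.darts F S.t

/-- The labelled system `S` is realized in `(X, e)`, with separated squares. -/
def RzSep (S : LabSys Γ) : Prop :=
  ∃ (P : Pos L S) (F : Q → X), P.IsSep ∧ IsReal e P.darts F ∧ IsLabel c P.darts F S.t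

theorem RzSep.rz {e : Circ × Disc → X} {c : Coc X Γ} {L : Fin 3 → Q → Q} {S : LabSys Γ}
    (h : RzSep e c L S) : Rz e c L S := by
  obtain ⟨P, F, -, h1, h2⟩ := h
  exact ⟨P, F, h1, h2⟩

end Rz

end Vale.Agent.P215.Am
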