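import Vale.Agent.P215.Am.BoxLib
import Vale.Agent.P215.Am.Geo

/-!
# P215, route A: the two-leg data

`TwoLeg` collects all explicit maps of the four-cube which are needed: two leg boxes `b true`,
`b false` (with collars: the legs are `leg k = b k ∘ vert (scl c)`, `c < 1`), the splitting along
either leg (`Split2`), the contraction along either leg (`Contract2`), and the contraction with
push-off (`push`).

The next stage is inserted in the leg `false`; the three legs of a branch are
`leg true`, `leg false ∘ leg false`, `leg false ∘ leg true`, see `ThreeLeg.lean`.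
-/

noncomputable section

namespace Vale.Agent.P215.Am

open Vale.Agent.P215.H788 Set Topology

/-- The map `u ↦ c u` of the disc. -/
def scl (c : ℝ) (u : Disc) : Disc := dpt (c * u.1.1) (c * u.1.2)

/-- The map `(x, y) ↦ b (c x, y)`. -/
def small (c : ℝ) (b : Q → Q) (p : Q) : Q := b (vert (scl c) p)

/-- A map of the disc which acts separately on both coordinates, and is strictly increasing in both
of them. -/
structure IsInc (f : Disc → Disc) : Prop where
  fst : ∀ u v, (f u).1.1 < (f v).1.1 ↔ u.1.1 < v.1.1
  snd : ∀ u v, (f u).1.2 < (f v).1.2 ↔ u.1.2 < v.1.2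

/-- A box which is a three-dimensional box times the last coordinate. -/
structure WProd (B : Q → Q) : Prop where
  w : ∀ x y, (B (x, y)).2.1.2 = y.1.2
  fst : ∀ x y y', y.1.1 = y'.1.1 → (B (x, y)).1 = (B (x, y')).1
  snd : ∀ x y y', y.1.1 = y'.1.1 → (B (x, y)).2.1.1 = (B (x, y')).2.1.1

/-- **Two-leg splitting** along the leg `small c b` which carries the squares `q d`; the (thick) leg
`b'` is copied. -/
structure Split2 (b b' : Q → Q) (c : ℝ) {D : Type} (q : D → Disc → Disc) where
  /-- the morphism -/
  ψ : Q → Q
  mor : IsMor ψ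
  /-- the new pieces -/
  s : D → Disc → Disc
  fam : IsFam s
  inc_s : ∀ d, IsInc (s d)
  sep_s : ∀ d d' x y, (s d x).1.1 = (s d' y).1.1 → d = d'
  /-- the part of the leg which is covered by the new piece -/
  g : D → Disc → Disc
  inc_g : ∀ d, IsInc (g d)
  /-- the position of the square in the new piece -/
  τ : D → Disc → Disc
  g_τ : ∀ d x, g d (τ d x) = q d x
  isXSq_τ : ∀ d, IsXSq (τ d)
  /-- the positions of the copies of the other leg: strips -/
  f : D → Disc → Disc
  isXSq_f : ∀ d, IsXSq (f d)
  inc_f : ∀ d, IsInc (f d)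
  f_snd : ∀ d y, (f d y).1.2 = y.1.2
  f_sep : ∀ d d' x y, (f d x).1.1 = (f d' y).1.1 → d = d'
  spec_self : ∀ d x y, ψ (vert (s d) (small c b (x, y))) = small c b (g d x, y)
  spec_other : ∀ d x y, ψ (vert (s d) (b' (x, y))) = b' (x, f d y)
  cover_self : ∀ d p x y, ψ p = small c b (q d x, y) → ∃ r, p = vert (s d) (small c b r)
  cover_other : ∀ p r, ψ p = b' r → ∃ d r', p = vert (s d) (b' r')

/-- **Two-leg contraction** along the leg `a`, missing the leg `a'`. -/
structure Contract2 (a a' : Q → Q) where
  /-- the morphism -/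
  ψ : Q → Q
  mor : IsMor ψ
  /-- the index set of the parallel copies of the cap -/
  E : Type
  finE : Finite E
  neE : Nonempty E
  /-- the parallel copies -/
  s : E → Disc → Disc
  fam : IsFam s
  /-- the positions of the parallel copies -/
  f : E → Disc → Disc
  isSq_f : ∀ c, IsSq (f c)
  spec : ∀ c x y, ψ (vert (s c) (x, y)) = a (x, f c y)
  cover : ∀ p r, ψ p = a r → ∃ c q, p = vert (s c) q
  miss : ∀ p r, ψ p ≠ a' r

/-- **The two-leg data.** -/
structure TwoLeg where
  /-- the scale of the legs in the thick legs -/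
  c : ℝ
  c_pos : 0 < c
  c_lt : c < 1
  /-- the thick legs -/
  b : Bool → Q → Q
  isBox : ∀ k, IsBox (b k)
  disj : ∀ p q, b true p ≠ b false q
  wprod : ∀ k, WProd (b k)
  split : ∀ (k : Bool) {D : Type} [Finite D] [Nonempty D] (q : D → Disc → Disc),
    (∀ d, IsXSq (q d)) → (∀ d d' x y, (q d x).1.1 = (q d' y).1.1 → d = d') →
      Nonempty (Split2 (b k) (b !k) c q)
  contract : ∀ k : Bool, Nonempty (Contract2 (small c (b k)) (small c (b !k)))
  push : ∃ P : PushDatum (fun k => small c (b k)) true false,
    ∀ p, P.TB p = small c (b false) p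

end Vale.Agent.P215.Am
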