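import Vale.Agent.P215.Am.Beta
import Vale.Agent.P215.Am.TwoLeg

/-!
# P215, route A: contraction of the two-leg piece along one of its legs

`kap1`: the cube is squeezed onto a sheet near the top `z = 1` which passes above the second leg
`beta2` (the arch standing on the bottom) and crosses the two ends of the first leg `beta1`; by a
shear in the direction `x` the crossing is made exact.  `kap2` is the image of `kap1` under the
symmetry `tau`.

* `contract_beta1 c`, `contract_beta2 c`: the contractions for the legs `small c beta1`,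
  `small c beta2`, `0 < c ≤ 1`, in the form `Contract2` of `TwoLeg.lean`;
* `contract_beta1_one`, `contract_beta2_one`: the same for `beta1`, `beta2` themselves.
-/

set_option linter.unusedVariables false

noncomputable section

namespace Vale.Agent.P215.Am.Contr

open Vale.Agent.P215.H788 Set Topology

/-! ### Real functions

`u` is the coordinate transversal to the leg which is crossed, `v` the coordinate along its bar. -/

/-- The depth of the sheet. -/
def mf (u v : ℝ) : ℝ := max 0 (max (4 * |u| - 1) (8 * |v| - 6))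

/-- The height of the sheet. -/
def gzf (u v z : ℝ) : ℝ := max (1 - (1 - z) / 8 - mf u v) z

/-- The cut-off. -/
def eta0 (v : ℝ) : ℝ := 1 / 4 * (ramp (1 / 4) (1 / 2) v - ramp (5 / 8) (3 / 4) v)

/-- The size of the shear. -/
def eta (u v : ℝ) : ℝ := (1 - ramp (1 / 8) (1 / 4) |u|) * (eta0 v - eta0 (-v))

/-- The shear. -/
def gxf (u v z : ℝ) : ℝ := v - min (1 - z) (1 / 4) * eta u v

theorem gzf_abs {x y z : ℝ} (hz : |z| ≤ 1) : |gzf x y z| ≤ 1 := by
  rw [abs_le] at hz ⊢
  unfold gzf mf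
  refine ⟨hz.1.trans (le_max_right _ _), max_le ?_ hz.2⟩
  have : (0 : ℝ) ≤ max 0 (max (4 * |x| - 1) (8 * |y| - 6)) := le_max_left _ _
  linarith [hz.2]

theorem gzf_lt {x y z z' : ℝ} (h : z < z') : gzf x y z < gzf x y z' := by
  unfold gzf
  refine max_lt ?_ ?_
  · exact lt_of_lt_of_le (by linarith) (le_max_left _ _)
  · exact lt_of_lt_of_le h (le_max_right _ _)

theorem gzf_bd {x y z : ℝ} (hz : |z| ≤ 1) (h : |x| = 1 ∨ |y| = 1) : gzf x y z = z := by
  unfold gzf mf
  grind

theorem gzf_of_small {x y z : ℝ} (hx : |x| ≤ 1 / 4) (hy : |y| ≤ 3 / 4) (hz : z ≤ 1) :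
    gzf x y z = 1 - (1 - z) / 8 := by
  unfold gzf mf
  grind

theorem gzf_ge {x y z : ℝ} (hz : |z| ≤ 1) : 3 / 4 - mf x y ≤ gzf x y z := by
  unfold gzf
  grind

theorem eta0_of_le {y : ℝ} (h : y ≤ 1 / 4) : eta0 y = 0 := by
  unfold eta0
  rw [ramp_of_le (by norm_num) h, ramp_of_le (by norm_num) (by linarith)]
  norm_num

theorem eta0_of_ge {y : ℝ} (h : 3 / 4 ≤ y) : eta0 y = 0 := by
  unfold eta0
  rw [ramp_of_ge (by norm_num) (by linarith), ramp_of_ge (by norm_num) h]
  norm_num

theorem eta0_mid {y : ℝ} (h : 1 / 2 ≤ y) (h' : y ≤ 5 / 8) : eta0 y = 1 / 4 := by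
  unfold eta0
  rw [ramp_of_ge (by norm_num) h, ramp_of_le (by norm_num) h']
  norm_num

theorem eta0_nonneg (y : ℝ) : 0 ≤ eta0 y := by
  unfold eta0
  rcases le_total y (1 / 2) with h | h
  · rw [ramp_of_le (a := 5 / 8) (by norm_num) (by linarith)]
    have := ramp_nonneg (1 / 4) (1 / 2) y
    linarith
  · rw [ramp_of_ge (a := 1 / 4) (by norm_num) h]
    have := ramp_le_one (5 / 8) (3 / 4) y
    linarith

theorem eta0_le (y : ℝ) : eta0 y ≤ 1 / 4 := by
  unfold eta0
  have := ramp_le_one (1 / 4) (1 / 2) y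
  have := ramp_nonneg (5 / 8) (3 / 4) y
  linarith

/-- Lipschitz bound for ramps. -/
theorem ramp_sub_le {a b s t : ℝ} (hab : a < b) (h : s ≤ t) :
    (b - a) * (ramp a b t - ramp a b s) ≤ t - s := by
  rcases ramp_cases hab s with ⟨h1, h2⟩ | ⟨h1, h1', h2⟩ | ⟨h1, h2⟩ <;>
  rcases ramp_cases hab t with ⟨h3, h4⟩ | ⟨h3, h3', h4⟩ | ⟨h3, h4⟩ <;>
  nlinarith

theorem eta_sub_le {x y y' : ℝ} (h : y ≤ y') : eta x y' - eta x y ≤ 2 * (y' - y) := by
  have h1 := ramp_sub_le (a := 1 / 4) (b := 1 / 2) (by norm_num) h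
  have h2 := ramp_sub_le (a := 1 / 4) (b := 1 / 2) (by norm_num) (neg_le_neg h)
  have h3 := ramp_mono (a := 5 / 8) (b := 3 / 4) (by norm_num) h
  have h4 := ramp_mono (a := 5 / 8) (b := 3 / 4) (by norm_num) (neg_le_neg h)
  have h5 := ramp_mem (1 / 8) (1 / 4) |x|
  have h6 : eta0 y' - eta0 (-y') - (eta0 y - eta0 (-y)) ≤ 2 * (y' - y) := by
    unfold eta0
    linarith
  have h7 : eta x y' - eta x y = (1 - ramp (1 / 8) (1 / 4) |x|) *
      (eta0 y' - eta0 (-y') - (eta0 y - eta0 (-y))) := by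
    unfold eta
    ring
  rw [h7]
  nlinarith [h5.1, h5.2]

theorem gxf_lt {x y y' z : ℝ} (hz : z ≤ 1) (h : y < y') : gxf x y z < gxf x y' z := by
  unfold gxf
  have h1 := eta_sub_le (x := x) h.le
  have h2 : 0 ≤ min (1 - z) (1 / 4) := le_min (by linarith) (by norm_num)
  have h3 : min (1 - z) (1 / 4) ≤ 1 / 4 := min_le_right _ _
  nlinarith

theorem eta_neg (x y : ℝ) : eta x (-y) = -eta x y := by
  unfold eta
  rw [neg_neg]
  ring

theorem gxf_neg (x y z : ℝ) : gxf x (-y) z = -gxf x y z := by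
  unfold gxf
  rw [eta_neg]
  ring

theorem eta_of_nonneg {x y : ℝ} (h : 0 ≤ y) :
    eta x y = (1 - ramp (1 / 8) (1 / 4) |x|) * eta0 y := by
  unfold eta
  rw [eta0_of_le (y := -y) (by linarith), sub_zero]

theorem eta_nonneg {x y : ℝ} (h : 0 ≤ y) : 0 ≤ eta x y := by
  rw [eta_of_nonneg h]
  exact mul_nonneg (sub_nonneg.2 (ramp_le_one _ _ _)) (eta0_nonneg _)

theorem eta_le {x y : ℝ} (h : 0 ≤ y) : eta x y ≤ 1 / 4 := by
  rw [eta_of_nonneg h]
  have h1 := ramp_mem (1 / 8) (1 / 4) |x|
  have h2 := eta0_nonneg y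
  have h3 := eta0_le y
  nlinarith [h1.1, h1.2]

theorem gxf_mem {x y z : ℝ} (hz : z ≤ 1) (h : 0 ≤ y) :
    y - 1 / 16 ≤ gxf x y z ∧ gxf x y z ≤ y := by
  unfold gxf
  have h1 := eta_nonneg (x := x) h
  have h2 := eta_le (x := x) h
  have h3 : 0 ≤ min (1 - z) (1 / 4) := le_min (by linarith) (by norm_num)
  have h4 : min (1 - z) (1 / 4) ≤ 1 / 4 := min_le_right _ _
  constructor <;> nlinarith

theorem gxf_abs {x y z : ℝ} (hz : z ≤ 1) (hy : |y| ≤ 1) : |gxf x y z| ≤ 1 := by
  rcases le_total 0 y with h | h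
  · have h1 := gxf_mem (x := x) hz h
    rw [abs_le] at hy ⊢
    constructor <;> linarith [h1.1, h1.2, hy.2]
  · have h1 := gxf_mem (x := x) (y := -y) hz (by linarith)
    rw [gxf_neg] at h1
    rw [abs_le] at hy ⊢
    constructor <;> linarith [h1.1, h1.2, hy.1]

theorem abs_gxf_ge {x y z : ℝ} (hz : z ≤ 1) : |y| - 1 / 16 ≤ |gxf x y z| := by
  rcases le_total 0 y with h | h
  · have h1 := gxf_mem (x := x) hz h
    rw [abs_of_nonneg h]
    exact h1.1.trans (le_abs_self _)
  · have h1 := gxf_mem (x := x) (y := -y) hz (by linarith)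
    rw [gxf_neg] at h1
    rw [abs_of_nonpos h]
    exact h1.1.trans (neg_le_abs _)

theorem gxf_of_le {x y z : ℝ} (h : |y| ≤ 1 / 4) : gxf x y z = y := by
  rw [abs_le] at h
  unfold gxf eta
  rw [eta0_of_le (by linarith), eta0_of_le (by linarith)]
  ring

theorem gxf_of_x {x y z : ℝ} (h : 1 / 4 ≤ |x|) : gxf x y z = y := by
  unfold gxf eta
  rw [ramp_of_ge (by norm_num) h]
  ring

theorem gxf_of_ge {x y z : ℝ} (h : 3 / 4 ≤ |y|) : gxf x y z = y := by
  rcases le_abs'.1 h with h | h
  · unfold gxf eta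
    rw [eta0_of_le (by linarith), eta0_of_ge (y := -y) (by linarith)]
    ring
  · unfold gxf eta
    rw [eta0_of_ge (by linarith), eta0_of_le (y := -y) (by linarith)]
    ring

theorem gxf_mid {x y z : ℝ} (hx : |x| ≤ 1 / 8) (h : 1 / 2 ≤ y) (h' : y ≤ 5 / 8)
    (hz : 3 / 4 ≤ z) : gxf x y z = y - (1 - z) / 4 := by
  unfold gxf
  rw [eta_of_nonneg (by linarith), eta0_mid h h', ramp_of_le (by norm_num) hx,
    min_eq_left (by linarith)]
  ring

/-- The sign of a copy. -/
def sg (c : Bool) : ℝ := if c then 1 else -1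

theorem gxf_sg (x y z : ℝ) (c : Bool) : gxf x (sg c * y) z = sg c * gxf x y z := by
  cases c
  · simp only [sg, Bool.false_eq_true, if_false, neg_one_mul]
    exact gxf_neg x y z
  · simp only [sg, if_true, one_mul]

theorem abs_sg_mul (c : Bool) (t : ℝ) : |sg c * t| = |t| := by
  cases c <;> simp [sg]

theorem sg_mul_sg (c : Bool) (t : ℝ) : sg c * (sg c * t) = t := by
  cases c <;> simp [sg]

theorem exists_sg (t : ℝ) : ∃ c : Bool, t = sg c * |t| := by
  rcases le_total 0 t with h | h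
  · exact ⟨true, by simp [sg, abs_of_nonneg h]⟩
  · exact ⟨false, by simp [sg, abs_of_nonpos h]⟩

/-! ### The morphism `kap1` -/

/-- Squeeze the cube onto a sheet near the top. -/
def squeeze : Q → Q := setZ fun p => gzf (cy p) (cx p) (cz p)

/-- Make the crossing with the first leg exact. -/
def xshear : Q → Q := setX fun p => gxf (cy p) (cx p) (cz p)

/-- The contraction along the first leg. -/
def kap1 : Q → Q := xshear ∘ squeeze

theorem isMor_squeeze : IsMor squeeze where
  cont := continuous_setZ (by unfold gzf mf; fun_prop)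
  inj := setZ_inj (fun p => gzf_abs (abs_cz p)) (by
    intro p q h1 h2 _ h4
    simp only
    rw [h1, h2]
    exact gzf_lt h4)
  bd x y hx := by
    rw [nm_eq_one_iff] at hx
    have h : gzf (cy (x, y)) (cx (x, y)) (cz (x, y)) = cz (x, y) :=
      gzf_bd (abs_cz (x, y)) hx.symm
    refine Q_ext ?_ ?_ ?_ ?_
    · simp [squeeze]
    · simp [squeeze]
    · simp only [squeeze, cz_setZ]
      rw [h, clp_cz]
    · simp [squeeze]

theorem isMor_xshear : IsMor xshear where
  cont := continuous_setX (by unfold gxf eta eta0; fun_prop)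
  inj := setX_inj (fun p => gxf_abs (cz_mem p).2 (abs_cx p)) (by
    intro p q h1 h2 _ h4
    simp only
    rw [h1, h2]
    exact gxf_lt (cz_mem q).2 h4)
  bd x y hx := by
    have h : gxf (cy (x, y)) (cx (x, y)) (cz (x, y)) = cx (x, y) := by
      rw [nm_eq_one_iff] at hx
      change |cx (x, y)| = 1 ∨ |cy (x, y)| = 1 at hx
      rcases hx with hx | hx
      · exact gxf_of_ge (by rw [hx]; norm_num)
      · exact gxf_of_x (by rw [hx]; norm_num)
    refine Q_ext ?_ ?_ ?_ ?_
    · simp only [xshear, cx_setX]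
      rw [h, clp_cx]
    · simp [xshear]
    · simp [xshear]
    · simp [xshear]

theorem isMor_kap1 : IsMor kap1 := isMor_xshear.comp isMor_squeeze

theorem cy_kap1 (p : Q) : cy (kap1 p) = cy p := by simp [kap1, xshear, squeeze]

theorem cw_kap1 (p : Q) : cw (kap1 p) = cw p := by simp [kap1, xshear, squeeze]

theorem cz_kap1 (p : Q) : cz (kap1 p) = gzf (cy p) (cx p) (cz p) := by
  simp only [kap1, xshear, squeeze, Function.comp_apply, cz_setX, cz_setZ]
  exact clp_of_abs (gzf_abs (abs_cz p))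

theorem cx_kap1 (p : Q) : cx (kap1 p) = gxf (cy p) (cx p) (gzf (cy p) (cx p) (cz p)) := by
  simp only [kap1, xshear, squeeze, Function.comp_apply, cx_setX, cy_setZ, cx_setZ, cz_setZ]
  rw [clp_of_abs (gzf_abs (abs_cz p))]
  exact clp_of_abs (gxf_abs (abs_le.1 (gzf_abs (abs_cz p))).2 (abs_cx p))

/-- The two parallel copies in the contraction along the first leg. -/
def s1 (c : Bool) (a : Disc) : Disc := dpt (sg c * (9 / 16 + a.1.2 / 32)) (a.1.1 / 8)

/-- The positions of the parallel copies. -/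
def f1 (c : Bool) (v : Disc) : Disc := dpt (sg c * (1 - (1 - v.1.1) / 32)) v.1.2

theorem s1_1 (c : Bool) (a : Disc) : (s1 c a).1.1 = sg c * (9 / 16 + a.1.2 / 32) := by
  have h := disc_abs2 a
  refine dpt_1' ?_
  rw [abs_sg_mul]
  grind

theorem s1_2 (c : Bool) (a : Disc) : (s1 c a).1.2 = a.1.1 / 8 := by
  have h := disc_abs1 a
  refine dpt_2' ?_
  grind

theorem f1_1 (c : Bool) (v : Disc) : (f1 c v).1.1 = sg c * (1 - (1 - v.1.1) / 32) := by
  have h := disc_abs1 v
  refine dpt_1' ?_
  rw [abs_sg_mul]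
  grind

theorem f1_2 (c : Bool) (v : Disc) : (f1 c v).1.2 = v.1.2 := by
  have h := disc_abs2 v
  exact dpt_2' h

theorem Yf_sg {s r : ℝ} (hs : 15 / 16 ≤ s) (hr : 1 / 8 ≤ r) (hr' : r ≤ 3 / 8) (c : Bool) :
    Yf (sg c * s) r = sg c * (s - 1 / 2 + r / 4) := by
  cases c
  · simp only [sg, Bool.false_eq_true, if_false, neg_one_mul]
    unfold Yf
    grind
  · simp only [sg, if_true, one_mul]
    unfold Yf
    grind

theorem spec1 (c : Bool) (x y : Disc) : kap1 (vert (s1 c) (x, y)) = beta1 (x, f1 c y) := by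
  have ha1 := disc_mem1 x
  have ha2 := disc_mem2 x
  have hv1 := disc_mem1 y
  have hr1 := lev_ge x
  have hr2 := lev_le x
  have ex : cx (vert (s1 c) (x, y)) = sg c * (9 / 16 + x.1.2 / 32) := s1_1 c x
  have ey : cy (vert (s1 c) (x, y)) = x.1.1 / 8 := s1_2 c x
  have ez : cz (vert (s1 c) (x, y)) = y.1.1 := rfl
  have ew : cw (vert (s1 c) (x, y)) = y.1.2 := rfl
  have el : lev x = 1 / 4 + x.1.2 / 8 := rfl
  have hY : Yf (cz (x, f1 c y)) (lev x) = sg c * (9 / 16 + x.1.2 / 32 - (1 - y.1.1) / 32) := by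
    change Yf (f1 c y).1.1 (lev x) = _
    rw [f1_1, Yf_sg (by linarith [hv1.1]) hr1 hr2, el]
    ring
  have hz : gzf (x.1.1 / 8) (sg c * (9 / 16 + x.1.2 / 32)) y.1.1 = 1 - (1 - y.1.1) / 8 := by
    refine gzf_of_small ?_ ?_ hv1.2
    · rw [abs_le]; constructor <;> linarith [ha1.1, ha1.2]
    · rw [abs_sg_mul, abs_le]; constructor <;> linarith [ha2.1, ha2.2]
  refine Q_ext ?_ ?_ ?_ ?_
  · rw [cx_kap1, ex, ey, ez, hz, cx_beta1, gxf_sg, gxf_mid, hY]
    · ring
    · rw [abs_le]; constructor <;> linarith [ha1.1, ha1.2]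
    · linarith [ha2.1]
    · linarith [ha2.2]
    · linarith [hv1.1]
  · rw [cy_kap1, ey, cy_beta1]
    rfl
  · rw [cz_kap1, ex, ey, ez, hz, cz_beta1, hY, abs_sg_mul, abs_of_nonneg, max_eq_right, el]
    · ring
    · linarith [ha2.1, hv1.1]
    · linarith [ha2.1, hv1.1]
  · rw [cw_kap1, ew, cw_beta1]
    exact (f1_2 c y).symm

theorem cover1 (p r : Q) (h : kap1 p = beta1 r) : ∃ c q, p = vert (s1 c) q ∧ q.1 = r.1 := by
  have hx := congrArg cx h
  have hy := congrArg cy h
  have hz := congrArg cz h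
  rw [cx_kap1, cx_beta1] at hx
  rw [cy_kap1, cy_beta1] at hy
  rw [cz_kap1, cz_beta1] at hz
  have hr1 := lev_ge r.1
  have hr2 := lev_le r.1
  have hY := abs_Yf_cz r
  have hcx := abs_cx r
  have hpz := abs_cz p
  set Y := Yf (cz r) (lev r.1) with hYd
  -- the height
  have hg1 : |gzf (cy p) (cx p) (cz p)| ≤ 1 := gzf_abs hpz
  have h1 : |cx p| - 1 / 16 ≤ |Y| := by
    rw [← hx]
    exact abs_gxf_ge (abs_le.1 hg1).2
  have h2 : |cx p| ≤ 3 / 4 := by linarith
  have h3 : |cy p| ≤ 1 / 8 := by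
    rw [hy, abs_div]
    norm_num
    linarith
  have h4 : gzf (cy p) (cx p) (cz p) = 1 - (1 - cz p) / 8 :=
    gzf_of_small (by linarith) h2 (abs_le.1 hpz).2
  rw [h4] at hx hz
  obtain ⟨hpz1, hpz2⟩ := abs_le.1 hpz
  have h5 : 4 * |Y| - 1 - lev r.1 = 1 - (1 - cz p) / 8 := by
    rcases le_total 0 (4 * |Y| - 1) with h | h
    · rw [max_eq_right h] at hz
      linarith
    · rw [max_eq_left h] at hz
      linarith
  obtain ⟨c, hc⟩ := exists_sg Y
  -- the point of the sheet over which `Y` lies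
  have h6 : gxf (cy p) (sg c * (1 / 2 + lev r.1 / 4)) (1 - (1 - cz p) / 8) = Y := by
    rw [gxf_sg, gxf_mid h3 (by linarith) (by linarith) (by linarith), hc]
    congr 1
    linarith
  have h7 : cx p = sg c * (1 / 2 + lev r.1 / 4) := by
    rcases lt_trichotomy (cx p) (sg c * (1 / 2 + lev r.1 / 4)) with h8 | h8 | h8
    · have h9 := gxf_lt (x := cy p) (z := 1 - (1 - cz p) / 8) (by linarith) h8
      rw [hx, h6] at h9
      exact absurd h9 (lt_irrefl _)
    · exact h8
    · have h9 := gxf_lt (x := cy p) (z := 1 - (1 - cz p) / 8) (by linarith) h8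
      rw [hx, h6] at h9
      exact absurd h9 (lt_irrefl _)
  refine ⟨c, (r.1, p.2), ?_, rfl⟩
  refine Q_ext ?_ ?_ rfl rfl
  · rw [h7]
    change _ = (s1 c r.1).1.1
    rw [s1_1]
    unfold lev
    ring
  · rw [hy]
    change _ = (s1 c r.1).1.2
    rw [s1_2]
    rfl

theorem miss1 (p r : Q) : kap1 p ≠ beta2 r := by
  intro h
  have hx := congrArg cx h
  have hy := congrArg cy h
  have hz := congrArg cz h
  rw [cx_kap1, cx_beta2] at hx
  rw [cy_kap1, cy_beta2] at hy
  rw [cz_kap1, cz_beta2, ← hy] at hz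
  have hr2 := lev_le r.1
  have hcx := abs_cx r
  have hpz := abs_cz p
  have hg1 : |gzf (cy p) (cx p) (cz p)| ≤ 1 := gzf_abs hpz
  have h1 : |cx p| - 1 / 16 ≤ |cx r / 8| := by
    rw [← hx]
    exact abs_gxf_ge (abs_le.1 hg1).2
  have h2 : |cx r / 8| ≤ 1 / 8 := by
    rw [abs_div]
    norm_num
    linarith
  have h3 := gzf_ge (x := cy p) (y := cx p) hpz
  rw [hz] at h3
  have h4 : mf (cy p) (cx p) = max 0 (4 * |cy p| - 1) := by
    unfold mf
    grind
  rw [h4] at h3
  linarith

/-! ### Squares -/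

/-- The reflection of the disc in its first coordinate. -/
def negX (u : Disc) : Disc := dpt (-u.1.1) u.1.2

/-- The exchange of the two coordinates of the disc. -/
def swapD (u : Disc) : Disc := dpt u.1.2 u.1.1

theorem negX_1 (u : Disc) : (negX u).1.1 = -u.1.1 :=
  dpt_1' (by rw [abs_neg]; exact disc_abs1 u)

theorem negX_2 (u : Disc) : (negX u).1.2 = u.1.2 := dpt_2' (disc_abs2 u)

theorem swapD_1 (u : Disc) : (swapD u).1.1 = u.1.2 := dpt_1' (disc_abs2 u)

theorem swapD_2 (u : Disc) : (swapD u).1.2 = u.1.1 := dpt_2' (disc_abs1 u)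

@[simp] theorem negX_negX (u : Disc) : negX (negX u) = u :=
  disc_ext (by rw [negX_1, negX_1, neg_neg]) (by rw [negX_2, negX_2])

@[simp] theorem swapD_swapD (u : Disc) : swapD (swapD u) = u :=
  disc_ext (by rw [swapD_1, swapD_2]) (by rw [swapD_2, swapD_1])

theorem isSq_invol {f : Disc → Disc} (hc : Continuous f) (hf : ∀ x, f (f x) = x)
    (hm : ∀ x ∈ int, f x ∈ int) : IsSq f where
  cont := hc
  inj x y h := by rw [← hf x, h, hf]
  isOpen := by
    have : f '' int = int := by
      ext x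
      constructor
      · rintro ⟨y, hy, rfl⟩
        exact hm y hy
      · intro hx
        exact ⟨f x, hm x hx, hf x⟩
    rw [this]
    exact isOpen_int
  maps := hm

theorem isSq_negX : IsSq negX :=
  isSq_invol (by unfold negX; fun_prop) negX_negX fun x hx => by
    rw [mem_int_iff] at hx ⊢
    rw [negX_1, negX_2, abs_neg]
    exact hx

theorem isSq_swapD : IsSq swapD :=
  isSq_invol (by unfold swapD; fun_prop) swapD_swapD fun x hx => by
    rw [mem_int_iff] at hx ⊢
    rw [swapD_1, swapD_2]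
    exact hx.symm

theorem tau_eq (p : Q) : tau p = (swapD p.1, negX p.2) := rfl

theorem isSq_s1 (c : Bool) : IsSq (s1 c) := by
  have h1 : IsSq (fun a => psq (fun t => 9 / 16 + t / 32) (fun t => t / 8) (swapD a)) := by
    refine IsSq.comp (isSq_psq (by fun_prop) (by fun_prop) ?_ ?_ (by norm_num) (by norm_num)
      (by norm_num) (by norm_num)) isSq_swapD
    · intro s _ t _ h
      simp only
      linarith
    · intro s _ t _ h
      simp only
      linarith
  have h2 : s1 true = fun a => psq (fun t => 9 / 16 + t / 32) (fun t => t / 8) (swapD a) := by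
    funext a
    unfold psq s1
    rw [swapD_1, swapD_2]
    simp [sg]
  cases c
  · have h3 : s1 false = fun a => negX (s1 true a) := by
      funext a
      refine disc_ext ?_ ?_
      · rw [negX_1, s1_1, s1_1]
        simp [sg]
      · rw [negX_2, s1_2, s1_2]
    rw [h3]
    exact isSq_negX.comp (h2 ▸ h1)
  · rw [h2]
    exact h1

theorem isSq_f1 (c : Bool) : IsSq (f1 c) := by
  have h2 : f1 true = psq (fun t => 1 - (1 - t) / 32) (fun t => t) := by
    funext a
    unfold psq f1
    simp [sg]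
  have h1 : IsSq (f1 true) := by
    rw [h2]
    refine isSq_psq (by fun_prop) (by fun_prop) ?_ ?_ (by norm_num) (by norm_num)
      (by norm_num) (by norm_num)
    · intro s _ t _ h
      simp only
      linarith
    · intro s _ t _ h
      exact h
  cases c
  · have h3 : f1 false = fun a => negX (f1 true a) := by
      funext a
      refine disc_ext ?_ ?_
      · rw [negX_1, f1_1, f1_1]
        simp [sg]
      · rw [negX_2, f1_2, f1_2]
    rw [h3]
    exact isSq_negX.comp h1
  · exact h1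

theorem isFam_s1 : IsFam s1 where
  isSq := isSq_s1
  int c x := by
    rw [mem_int_iff, s1_1, s1_2, abs_sg_mul]
    have h1 := disc_abs1 x
    have h2 := disc_abs2 x
    constructor <;> grind
  disj c d x y h := by
    have h1 := congrArg (fun u : Disc => u.1.1) h
    simp only [s1_1] at h1
    have h2 := disc_abs2 x
    have h3 := disc_abs2 y
    cases c <;> cases d <;> simp only [sg, Bool.false_eq_true, if_false, if_true] at h1 ⊢ <;> grind

theorem isSq_scl {c : ℝ} (h0 : 0 < c) (h1 : c ≤ 1) : IsSq (scl c) := by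
  have h : scl c = psq (fun t => c * t) (fun t => c * t) := rfl
  rw [h]
  refine isSq_psq (by fun_prop) (by fun_prop) ?_ ?_ (by linarith) (by linarith)
    (by linarith) (by linarith)
  · intro s _ t _ h
    exact mul_lt_mul_of_pos_left h h0
  · intro s _ t _ h
    exact mul_lt_mul_of_pos_left h h0

theorem IsFam.comp_isSq {C : Type} {s : C → Disc → Disc} (hs : IsFam s) {g : Disc → Disc}
    (hg : IsSq g) : IsFam (fun c x => s c (g x)) where
  isSq c := (hs.isSq c).comp hg
  int c x := hs.int _ _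
  disj c d x y h := hs.disj _ _ _ _ h

/-! ### The symmetric contraction -/

/-- The contraction along the second leg. -/
def kap2 (p : Q) : Q := tau (kap1 (tau p))

/-- The two parallel copies in the contraction along the second leg. -/
def s2 (c : Bool) (a : Disc) : Disc := swapD (s1 c a)

/-- The positions of the parallel copies. -/
def f2 (c : Bool) (v : Disc) : Disc := f1 c (negX v)

theorem nm_swapD (u : Disc) : nm (swapD u) = nm u := by
  rw [nm_eq, nm_eq, swapD_1, swapD_2, max_comm]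

theorem isMor_tau_conj {ψ : Q → Q} (h : IsMor ψ) : IsMor fun p => tau (ψ (tau p)) where
  cont := continuous_tau.comp (h.cont.comp continuous_tau)
  inj := tau_injective.comp (h.inj.comp tau_injective)
  bd x y hx := by
    have h1 : tau (x, y) = (swapD x, negX y) := rfl
    change tau (ψ (tau (x, y))) = (x, y)
    rw [h1, h.bd _ _ (by rw [nm_swapD, hx]), ← h1, tau_tau]

theorem isMor_kap2 : IsMor kap2 := isMor_tau_conj isMor_kap1

theorem tau_vert_s2 (c : Bool) (q : Q) : tau (vert (s2 c) q) = vert (s1 c) (q.1, negX q.2) := by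
  rw [tau_eq]
  simp only [vert, s2, swapD_swapD]

theorem spec2 (c : Bool) (x y : Disc) : kap2 (vert (s2 c) (x, y)) = beta2 (x, f2 c y) := by
  unfold kap2 beta2 f2
  rw [tau_vert_s2, spec1]

theorem cover2 (p r : Q) (h : kap2 p = beta2 r) : ∃ c q, p = vert (s2 c) q ∧ q.1 = r.1 := by
  obtain ⟨c, q, h1, h2⟩ := cover1 (tau p) r (tau_injective h)
  refine ⟨c, (q.1, negX q.2), ?_, h2⟩
  apply tau_injective
  rw [h1, tau_vert_s2, negX_negX]

theorem miss2 (p r : Q) : kap2 p ≠ beta1 r := by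
  intro h
  apply miss1 (tau p) r
  rw [← tau_beta1, ← h]
  exact (tau_tau _).symm

theorem isFam_s2 : IsFam s2 where
  isSq c := isSq_swapD.comp (isSq_s1 c)
  int c x := isSq_swapD.maps _ (isFam_s1.int c x)
  disj c d x y h := isFam_s1.disj c d x y (isSq_swapD.inj h)

theorem isSq_f2 (c : Bool) : IsSq (f2 c) := (isSq_f1 c).comp isSq_negX

/-! ### The two contractions -/

/-- Contraction along the leg `small c beta1`, for `0 < c ≤ 1`. -/
def contract1 {c : ℝ} (h0 : 0 < c) (h1 : c ≤ 1) :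
    Contract2 (small c beta1) (small c beta2) where
  ψ := kap1
  mor := isMor_kap1
  E := Bool
  finE := inferInstance
  neE := inferInstance
  s k x := s1 k (scl c x)
  fam := IsFam.comp_isSq isFam_s1 (isSq_scl h0 h1)
  f := f1
  isSq_f := isSq_f1
  spec k x y := spec1 k (scl c x) y
  cover p r h := by
    obtain ⟨k, q, h2, h3⟩ := cover1 p _ h
    refine ⟨k, (r.1, q.2), ?_⟩
    rw [h2]
    exact Prod.ext (congrArg (s1 k) h3) rfl
  miss p r := miss1 p _

/-- Contraction along the leg `small c beta2`, for `0 < c ≤ 1`. -/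
def contract2 {c : ℝ} (h0 : 0 < c) (h1 : c ≤ 1) :
    Contract2 (small c beta2) (small c beta1) where
  ψ := kap2
  mor := isMor_kap2
  E := Bool
  finE := inferInstance
  neE := inferInstance
  s k x := s2 k (scl c x)
  fam := IsFam.comp_isSq isFam_s2 (isSq_scl h0 h1)
  f := f2
  isSq_f := isSq_f2
  spec k x y := spec2 k (scl c x) y
  cover p r h := by
    obtain ⟨k, q, h2, h3⟩ := cover2 p _ h
    refine ⟨k, (r.1, q.2), ?_⟩
    rw [h2]
    exact Prod.ext (congrArg (s2 k) h3) rfl
  miss p r := miss2 p _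

/-- Contraction along the leg `beta1`. -/
def contract1' : Contract2 beta1 beta2 where
  ψ := kap1
  mor := isMor_kap1
  E := Bool
  finE := inferInstance
  neE := inferInstance
  s := s1
  fam := isFam_s1
  f := f1
  isSq_f := isSq_f1
  spec := spec1
  cover p r h := by
    obtain ⟨k, q, h2, -⟩ := cover1 p _ h
    exact ⟨k, q, h2⟩
  miss := miss1

/-- Contraction along the leg `beta2`. -/
def contract2' : Contract2 beta2 beta1 where
  ψ := kap2
  mor := isMor_kap2
  E := Bool
  finE := inferInstance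
  neE := inferInstance
  s := s2
  fam := isFam_s2
  f := f2
  isSq_f := isSq_f2
  spec := spec2
  cover p r h := by
    obtain ⟨k, q, h2, -⟩ := cover2 p _ h
    exact ⟨k, q, h2⟩
  miss := miss2

end Vale.Agent.P215.Am.Contr
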