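import Vale.Agent.P215.Am.SplitAll

/-!
# P215, route A: removal of a branch with an empty leg, and the final contraction
-/

noncomputable section

namespace Vale.Agent.P215.Am

open Vale.Agent.P215.H788 Set Topology

variable {Γ : Type} [Group Γ] {X : Type} [TopologicalSpace X] {e : Circ × Disc → X}
  {c : Coc X Γ} {L : Fin 3 → Q → Q}

/-! ### Removal -/

section Remove

variable {S : LabSys Γ} (P : Pos L S) (v : S.V) {l : Fin 3} (C : LegContract L l)
  (hv : ∀ k, S.vert k = v → S.leg k ≠ l)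

/-- The pull-back of the removal of a branch with an empty leg. -/
def removePB : PullBack P.darts {k : S.K // S.vert k ≠ v} where
  ψ := P.tot fun w => if w = v then C.ψ else id
  mor := P.isMor_tot fun w => by
    split_ifs
    · exact C.mor
    · exact IsMor.id
  foot k := k.1
  box k := P.darts.box k.1
  f _ x := x
  isBox k := P.darts.isBox k.1
  isSq _ := IsSq.id
  disj i j p q h := Subtype.ext (P.darts.disj _ _ _ _ h)
  spec k x y := by
    rw [P.darts_box, P.tot_vert, if_neg k.2]
    rfl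
  cover := by
    rintro k p ⟨x, y⟩ h
    rw [P.darts_box] at h
    obtain ⟨q', rfl, h1⟩ := P.tot_cover _ h
    by_cases hk : S.vert k = v
    · rw [if_pos hk] at h1
      exact absurd h1 (C.miss _ (hv k hk) _ _)
    · rw [if_neg hk] at h1
      simp only [id] at h1
      subst h1
      exact ⟨⟨k, hk⟩, (x, y), rfl, rfl⟩

/-- The positions after the removal. -/
def removePos : Pos L (S.remove v) where
  hL := P.hL
  s w := P.s w.1
  fam := P.fam.reindex _ Subtype.val_injective
  q k := P.q k.1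
  isSq k := P.isSq k.1
  disj _ _ _ _ hv hl h := Subtype.ext (P.disj _ _ _ _ (congrArg Subtype.val hv) hl h)

/-- The index sets agree. -/
def removeEquiv : (S.remove v).K ≃ (removePB P v C hv).Idx where
  toFun k := ⟨(⟨k.1, k.2.1⟩, ⟨S.flip k.1, k.2.2⟩), rfl⟩
  invFun z := ⟨z.1.1.1, z.1.1.2, by
    have h1 := z.1.2.2
    have h2 : z.1.2.1 = S.flip z.1.1.1 := z.2
    rw [h2] at h1
    exact h1⟩
  left_inv _ := rfl
  right_inv z := by
    obtain ⟨⟨⟨k, h⟩, ⟨k', h'⟩⟩, hk⟩ := z
    have hk' : k' = S.flip k := hk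
    subst hk'
    rfl

/-- **Branches with an empty leg can be removed.** -/
theorem RzSep.remove {S : LabSys Γ} (v : S.V) {l : Fin 3} (C : LegContract L l)
    (hv : ∀ k, S.vert k = v → S.leg k ≠ l) (h : RzSep e c L S) : RzSep e c L (S.remove v) := by
  obtain ⟨P, F, hP, hF, hl⟩ := h
  have hflip : ∀ k, removeEquiv P v C hv ((removePos P v).darts.flip k) =
      (removePB P v C hv).darts.flip (removeEquiv P v C hv k) := by
    rintro ⟨k, h1, h2⟩
    apply Subtype.ext
    refine Prod.ext rfl ?_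
    apply Subtype.ext
    exact S.flip_flip k
  have hbox : ∀ k p, (removePos P v).darts.box k p =
      (removePB P v C hv).darts.box (removeEquiv P v C hv k) p := fun _ _ => rfl
  refine ⟨removePos P v, F ∘ (removePB P v C hv).ψ, ⟨fun k => hP.isXSq _, ?_⟩, ?_, ?_⟩
  · intro k l x y h1 h2 h3
    exact Subtype.ext (hP.sep _ _ _ _ (congrArg Subtype.val h1) h2 h3)
  · exact ((removePB P v C hv).isReal hF).reindex _ hflip hbox
  · exact ((removePB P v C hv).isLabel hF hl).reindex _ hflip hbox

end Remove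

/-! ### Contraction -/

namespace LegContract

variable {i : Fin 3} (C : LegContract L i)

/-- The identification of a copy with the cap, as a homeomorphism. -/
def rH (a : C.E) : Disc ≃ₜ Disc :=
  Continuous.homeoOfEquivCompactToT2
    (f := Equiv.ofBijective (C.r a) ⟨(C.isSq_r a).inj, C.surj_r a⟩) (C.isSq_r a).cont

theorem rH_apply (a : C.E) (x : Disc) : C.rH a x = C.r a x := rfl

theorem r_rH_symm (a : C.E) (x : Disc) : C.r a ((C.rH a).symm x) = x := by
  rw [← rH_apply, Homeomorph.apply_symm_apply]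

theorem isSq_symm (a : C.E) {q : Disc → Disc} (hq : IsSq q) : IsSq fun x => (C.rH a).symm (q x) where
  cont := (C.rH a).symm.continuous.comp hq.cont
  inj := (C.rH a).symm.injective.comp hq.inj
  isOpen := by
    have h : (fun x => (C.rH a).symm (q x)) '' int = (C.rH a) ⁻¹' (q '' int) := by
      ext y
      constructor
      · rintro ⟨x, hx, rfl⟩
        exact ⟨x, hx, by rw [Homeomorph.apply_symm_apply]⟩
      · rintro ⟨x, hx, hxy⟩
        refine ⟨x, hx, ?_⟩
        simp only
        rw [hxy, Homeomorph.symm_apply_apply]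
    rw [h]
    exact hq.isOpen.preimage (C.rH a).continuous
  maps x hx := C.int_r a _ (by rw [r_rH_symm]; exact hq.maps x hx)

end LegContract

section Contract

variable {S : LabSys Γ} (P : Pos L S) (p : S.V → Fin 3) (C : ∀ i, LegContract L i)

/-- The index set of the double points before pairing. -/
abbrev CIdx : Type :=
  {z : (Σ v : S.V, (C (p v)).E) × S.K // S.vert z.2 = z.1.1 ∧ S.leg z.2 = p z.1.1}

/-- The pull-back of the contraction along the legs `p v`. -/
def contractPB : PullBack P.darts (CIdx p C) where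
  ψ := P.tot fun v => (C (p v)).ψ
  mor := P.isMor_tot fun v => (C (p v)).mor
  foot z := z.1.2
  box z u := vert (P.s z.1.1.1) (vert ((C (p z.1.1.1)).s z.1.1.2)
    (((C (p z.1.1.1)).rH z.1.1.2).symm (P.q z.1.2 u.1), u.2))
  f z := (C (p z.1.1.1)).f z.1.1.2
  isBox z := ((P.fam.isBox _).comp ((C _).fam.isBox _)).comp_sq
    ((C (p z.1.1.1)).isSq_symm z.1.1.2 (P.isSq z.1.2))
  isSq z := (C _).isSq_f _
  disj := by
    rintro ⟨⟨⟨v, a⟩, k⟩, hk1, hk2⟩ ⟨⟨⟨w, b⟩, l⟩, hl1, hl2⟩ x y h
    simp only at h hk1 hk2 hl1 hl2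
    have h1 := P.fam.vert_disj _ _ _ _ h
    subst h1
    have h2 := vert_inj (P.fam.isSq _).inj h
    have h3 := (C (p v)).fam.vert_disj _ _ _ _ h2
    subst h3
    have h4 := vert_inj ((C (p v)).fam.isSq _).inj h2
    simp only [Prod.mk.injEq] at h4
    have h5 := ((C (p v)).rH a).symm.injective h4.1
    have h6 := P.disj _ _ _ _ (hk1.trans hl1.symm) (hk2.trans hl2.symm) h5
    subst h6
    rfl
  spec := by
    rintro ⟨⟨⟨v, a⟩, k⟩, hk1, hk2⟩ x y
    simp only at hk1 hk2 ⊢
    rw [P.tot_vert, (C (p v)).spec, LegContract.r_rH_symm, P.darts_box, hk1, hk2]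
  cover := by
    rintro k u ⟨x, y⟩ h
    rw [P.darts_box] at h
    obtain ⟨u', rfl, h1⟩ := P.tot_cover _ h
    by_cases hk : S.leg k = p (S.vert k)
    · rw [hk] at h1
      obtain ⟨a, ⟨z, w⟩, rfl⟩ := (C _).cover _ _ h1
      rw [(C _).spec] at h1
      have h2 := (P.hL.isBox _).inj h1
      simp only [Prod.mk.injEq] at h2
      refine ⟨⟨(⟨S.vert k, a⟩, k), rfl, hk⟩, (x, w), rfl, ?_⟩
      simp only
      rw [← h2.1, ← LegContract.rH_apply, Homeomorph.symm_apply_apply]
    · exact absurd h1 ((C _).miss _ hk _ _)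

/-- **The final contraction.** -/
theorem Rz.final {S : LabSys Γ} (C : ∀ i, LegContract L i) {x₀ : X}
    (φ : FundamentalGroup X x₀ →* Γ) (h : Rz e (Coc.ofHom φ) L S) (hS : S.Final) :
    ∃ D : FramedDisc X e, D.Kills φ := by
  obtain ⟨P, F, hF, hl⟩ := h
  obtain ⟨p, hp⟩ := hS
  have : ∀ v : S.V, Finite (C (p v)).E := fun v => (C (p v)).finE
  have : Finite (CIdx p C) := inferInstance
  have : Finite (contractPB P p C).Idx := inferInstance
  refine exists_framedDisc ((contractPB P p C).isReal hF)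
    (fun z x => P.s z.1.1.1.1.1 ((C (p z.1.1.1.1.1)).s z.1.1.1.1.2
      (((C (p z.1.1.1.1.1)).rH z.1.1.1.1.2).symm (P.q z.1.1.1.2
        ((contractPB P p C).f z.1.2 x))))) ?_ φ ?_
  · intro z x y
    rfl
  · have h1 := (contractPB P p C).isLabel hF hl
    have h2 : (fun ij : (contractPB P p C).Idx => S.t ((contractPB P p C).foot ij.1.1)) =
        fun _ => 1 := by
      funext z
      obtain ⟨⟨⟨⟨⟨v, a⟩, k⟩, hk1, hk2⟩, ⟨⟨⟨w, b⟩, l⟩, hl1, hl2⟩⟩, hz⟩ := z
      have hz' : l = S.flip k := hz
      subst hz'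
      simp only at hk1 hk2 hl1 hl2
      change S.t k = 1
      apply hp k
      · rw [hk2, hk1]
      · rw [hl2, hl1]
    rw [h2] at h1
    exact h1

end Contract

end Vale.Agent.P215.Am
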