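import Vale.Agent.P215.Am.LabSys

/-!
# P215, route A: elimination of the walkers

An admissible family of states of the branches of a labelled system (`Adm`) leads, by push-offs at
the walkers, to a system which satisfies the final condition (`exists_final`).
-/

namespace Vale.Agent.P215.Am

/-- The states of the branches. `N l`: contract along the leg `l`. `X l`: a sink, contracted along
its exit leg `l`. `W i a b g`: the `i`-th branch of the walk of a sink, entered through the leg `a`
and left through the leg `b`, with the product `g` of the labels so far. -/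
inductive St (Γ : Type)
  | N (l : Fin 3)
  | X (l : Fin 3)
  | W (i : ℕ) (a b : Fin 3) (g : Γ)

/-- The roles of the legs. -/
inductive Role (Γ : Type)
  | dead
  | ptr
  | out (i : ℕ) (g : Γ)
  | inn (i : ℕ) (g : Γ)

/-- The leg along which a branch is contracted. -/
def St.chosen {Γ : Type} : St Γ → Fin 3
  | .N l => l
  | .X l => l
  | .W _ a _ _ => a

variable {Γ : Type} [Group Γ]

/-- The role of the leg `l` of a branch in the state `s`. -/
def role (s : St Γ) (l : Fin 3) : Role Γ :=
  match s with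
  | .N l' => if l = l' then .ptr else .dead
  | .X l' => if l = l' then .out 0 1 else .dead
  | .W i a b g => if l = a then .inn i g else if l = b then .out i g else .dead

/-- The allowed pairs of roles at the two ends of a dart with label `t`. -/
def Rel : Role Γ → Role Γ → Γ → Prop
  | .dead, .dead, _ => True
  | .dead, .ptr, _ => True
  | .ptr, .dead, _ => True
  | .out i g, .inn j g', t => i < j ∧ g * t = g'
  | .inn j g', .out i g, t => i < j ∧ g * t⁻¹ = g'
  | .out _ g, .ptr, t => g * t = 1
  | .ptr, .out _ g, t => g * t⁻¹ = 1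
  | _, _, _ => False

theorem Rel.symm {r r' : Role Γ} {t : Γ} (h : Rel r r' t) : Rel r' r t⁻¹ := by
  rcases r with _ | _ | ⟨i1, g1⟩ | ⟨i1, g1⟩ <;> rcases r' with _ | _ | ⟨i2, g2⟩ | ⟨i2, g2⟩ <;>
    simpa [Rel] using h

/-- Composition of the relation through a walker. -/
theorem Rel.comp {r r' : Role Γ} {i : ℕ} {g : Γ} {t t' : Γ} (h : Rel r (.inn i g) t)
    (h' : Rel (.out i g) r' t') : Rel r r' (t * t') := by
  rcases r with _ | _ | ⟨i1, g1⟩ | ⟨i1, g1⟩ <;> rcases r' with _ | _ | ⟨i2, g2⟩ | ⟨i2, g2⟩ <;>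
    simp only [Rel] at h h' ⊢
  · rw [← h.2] at h'
    rw [← mul_assoc]; exact h'
  · obtain ⟨h1, h2⟩ := h
    obtain ⟨h3, h4⟩ := h'
    refine ⟨h1.trans h3, ?_⟩
    rw [← h4, ← h2, mul_assoc]

namespace LabSys

/-- The states are admissible. -/
structure Adm (S : LabSys Γ) (st : S.V → St Γ) : Prop where
  rel : ∀ k, Rel (role (st (S.vert k)) (S.leg k))
    (role (st (S.vert (S.flip k))) (S.leg (S.flip k))) (S.t k)
  ne : ∀ v i a b g, st v = .W i a b g → a ≠ b

theorem Adm.noSelf_in {S : LabSys Γ} {st : S.V → St Γ} (h : S.Adm st) {u : S.V} {i : ℕ}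
    {a b : Fin 3} {g : Γ} (hu : st u = .W i a b g) : S.NoSelf u a := by
  have hab := h.ne u i a b g hu
  intro k hk hl hself
  have h1 := h.rel k
  rw [hk, hl, hself, hu] at h1
  have e1 : role (St.W i a b g) a = .inn i g := by simp [role]
  rw [e1] at h1
  by_cases h2 : S.leg (S.flip k) = a
  · rw [h2, e1] at h1; exact h1
  · by_cases h3 : S.leg (S.flip k) = b
    · have e2 : role (St.W i a b g) b = .out i g := by simp [role, hab.symm]
      rw [h3, e2] at h1
      exact lt_irrefl _ h1.1
    · have e3 : role (St.W i a b g) (S.leg (S.flip k)) = .dead := by simp [role, h2, h3]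
      rw [e3] at h1; exact h1

theorem Adm.noSelf_out {S : LabSys Γ} {st : S.V → St Γ} (h : S.Adm st) {u : S.V} {i : ℕ}
    {a b : Fin 3} {g : Γ} (hu : st u = .W i a b g) : S.NoSelf u b := by
  have hab := h.ne u i a b g hu
  intro k hk hl hself
  have h1 := h.rel k
  rw [hk, hl, hself, hu] at h1
  have e1 : role (St.W i a b g) a = .inn i g := by simp [role]
  have e2 : role (St.W i a b g) b = .out i g := by simp [role, hab.symm]
  rw [e2] at h1
  by_cases h2 : S.leg (S.flip k) = a
  · rw [h2, e1] at h1; exact lt_irrefl _ h1.1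
  · by_cases h3 : S.leg (S.flip k) = b
    · rw [h3, e2] at h1; exact h1
    · have e3 : role (St.W i a b g) (S.leg (S.flip k)) = .dead := by simp [role, h2, h3]
      rw [e3] at h1; exact h1

theorem Adm.push {S : LabSys Γ} {st : S.V → St Γ} (h : S.Adm st) {u : S.V} {i : ℕ}
    {a b : Fin 3} {g : Γ} (hu : st u = .W i a b g) (n : ℕ) (ha : S.NoSelf u a)
    (hb : S.NoSelf u b) :
    (S.push u a b n ha hb).Adm (fun v => st v.1) := by
  have hab := h.ne u i a b g hu
  have key : ∀ k m : S.K, (S.vert (S.flip k) = u ∧ S.leg (S.flip k) = a) →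
      (S.vert (S.flip m) = u ∧ S.leg (S.flip m) = b) →
      Rel (role (st (S.vert k)) (S.leg k)) (role (st (S.vert m)) (S.leg m))
        (S.t k * (S.t m)⁻¹) := by
    rintro k m ⟨hk, hk'⟩ ⟨hm, hm'⟩
    have h1 := h.rel k
    have h2 := h.rel (S.flip m)
    rw [hk, hk', hu] at h1
    rw [hm, hm', hu, S.flip_flip, S.t_flip] at h2
    have e1 : role (St.W i a b g) a = .inn i g := by simp [role]
    have e2 : role (St.W i a b g) b = .out i g := by simp [role, hab.symm]
    rw [e1] at h1
    rw [e2] at h2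
    exact Rel.comp h1 h2
  constructor
  · rintro (k | ⟨p, _ | _⟩)
    · exact h.rel k.1
    · exact key p.1.1 p.1.2.1 p.2.1 p.2.2
    · have := Rel.symm (key p.1.1 p.1.2.1 p.2.1 p.2.2)
      rw [mul_inv_rev, inv_inv] at this
      exact this
  · rintro v i' a' b' g' hv
    exact h.ne v.1 i' a' b' g' hv

/-- The set of walkers. -/
def walkers (S : LabSys Γ) (st : S.V → St Γ) : Set S.V := {v | ∃ i a b g, st v = .W i a b g}

theorem final_of_no_walkers {S : LabSys Γ} {st : S.V → St Γ} (h : S.Adm st)
    (hw : S.walkers st = ∅) : S.Final := by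
  have hst : ∀ v, (∃ l, st v = .N l) ∨ ∃ l, st v = .X l := by
    intro v
    rcases hv : st v with l | l | ⟨i, a, b, g⟩
    · exact Or.inl ⟨l, rfl⟩
    · exact Or.inr ⟨l, rfl⟩
    · exfalso
      have : v ∈ S.walkers st := ⟨i, a, b, g, hv⟩
      rw [hw] at this
      exact this
  refine ⟨fun v => (st v).chosen, ?_⟩
  intro k h1 h2
  have h3 := h.rel k
  simp only at h1 h2
  generalize S.leg k = x at h1 h3
  generalize S.leg (S.flip k) = y at h2 h3
  rcases hst (S.vert k) with ⟨l, hl⟩ | ⟨l, hl⟩ <;>
    rcases hst (S.vert (S.flip k)) with ⟨l', hl'⟩ | ⟨l', hl'⟩ <;>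
    rw [hl] at h1 h3 <;> rw [hl'] at h2 h3 <;> subst h1 <;> subst h2 <;>
    simp [role, Rel] at h3
  · exact h3
  · exact h3

/-- **Elimination of the walkers.** -/
theorem exists_final {R : LabSys Γ → Prop}
    (hpush : ∀ S u a b, a ≠ b → ∀ (ha : S.NoSelf u a) (hb : S.NoSelf u b), R S →
      ∃ n, R (S.push u a b n ha hb))
    (S : LabSys Γ) (hS : R S) (st : S.V → St Γ) (h : S.Adm st) :
    ∃ S', R S' ∧ S'.Final := by
  obtain ⟨n, hn⟩ : ∃ n, (S.walkers st).ncard = n := ⟨_, rfl⟩
  induction n generalizing S with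
  | zero =>
    rw [Set.ncard_eq_zero (Set.toFinite _)] at hn
    exact ⟨S, hS, final_of_no_walkers h hn⟩
  | succ n ih =>
    have hne : (S.walkers st).Nonempty := by
      rw [← Set.ncard_pos (Set.toFinite _)]
      omega
    obtain ⟨u, hu⟩ := hne
    obtain ⟨i, a, b, g, hug⟩ := id hu
    have ha := h.noSelf_in hug
    have hb := h.noSelf_out hug
    obtain ⟨m, hR⟩ := hpush S u a b (h.ne u i a b g hug) ha hb hS
    refine ih (S.push u a b m ha hb) hR (fun v => st v.1) (h.push hug m ha hb) ?_
    have h1 : (S.walkers st \ {u}).ncard = n := by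
      rw [Set.ncard_sdiff_singleton_of_mem hu, hn]; rfl
    rw [← h1]
    have h2 : (fun v : (S.push u a b m ha hb).V => (v.1 : S.V)) ''
        ((S.push u a b m ha hb).walkers fun v => st v.1) = S.walkers st \ {u} := by
      ext v
      constructor
      · rintro ⟨⟨w, hw⟩, hw2, rfl⟩
        exact ⟨hw2, hw⟩
      · rintro ⟨h3, h4⟩
        exact ⟨⟨v, h4⟩, h3, rfl⟩
    rw [← h2, Set.ncard_image_of_injective _ (by intro x y hxy; exact Subtype.ext hxy)]

end LabSys

end Vale.Agent.P215.Am
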