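import Vale.Agent.P215.Am.Walk

/-!
# P215, route A: the flow pointer

Over an amenable group there is a local pointer on each 3-port graph which has no 2-cycles where the
labels are injective at a certain scale.
-/

namespace Vale.Agent.P215.Am

open Finset

variable {Γ : Type} [Group Γ] {T : Types Γ}

namespace Port

section Flow

variable (P : Port T) [DecidableEq Γ] (F : Finset Γ)

/-- The number of vertices (up to distance `j`) behind the leg `l` of `x` in the component of `x` in
the set of those vertices `v` for which `f * (label of x → v)` is in `F`. -/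
def cnt : ℕ → Γ → P.X → Fin 3 → ℕ
  | 0, _, _, _ => 0
  | j + 1, f, x, l => if f * P.lab x l ∈ F then
      1 + ∑ l' ∈ univ.erase (P.bk x l), cnt j (f * P.lab x l) (P.nb x l) l' else 0

theorem cnt_loc (j : ℕ) (f : Γ) {x y : P.X} (h : P.Agree j x y) (l : Fin 3) :
    P.cnt F j f x l = P.cnt F j f y l := by
  induction j generalizing f x y l with
  | zero => rfl
  | succ j ih =>
    have h1 : P.lab x l = P.lab y l := congrArg T.t (h l).1
    have h2 : P.bk x l = P.bk y l := congrArg (fun k => T.leg (T.flip k)) (h l).1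
    simp only [cnt, h1, h2]
    congr 2
    exact Finset.sum_congr rfl fun l' _ => ih _ (h l).2 l'

/-- A walk which stays in `F`. -/
def Stays : Γ → P.X → List (Fin 3) → Prop
  | _, _, [] => True
  | f, x, l :: ls => f * P.lab x l ∈ F ∧ Stays (f * P.lab x l) (P.nb x l) ls

variable {P F}

theorem Stays.left {f : Γ} {x : P.X} {u w : List (Fin 3)} (h : P.Stays F f x (u ++ w)) :
    P.Stays F f x u := by
  induction u generalizing f x with
  | nil => trivial
  | cons l u ih => exact ⟨h.1, ih h.2⟩

theorem Stays.mem {f : Γ} {x : P.X} {u : List (Fin 3)} (hf : f ∈ F) (h : P.Stays F f x u) :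
    f * P.wVal x u ∈ F := by
  induction u generalizing f x with
  | nil => simpa using hf
  | cons l u ih =>
    have := ih h.1 h.2
    rwa [mul_assoc] at this

/-- If the count changes then there is a long reduced walk inside `F`. -/
theorem exists_walk (j : ℕ) (f : Γ) (x : P.X) (l : Fin 3)
    (h : P.cnt F (j + 1) f x l ≠ P.cnt F j f x l) :
    ∃ ls, P.Red x (l :: ls) ∧ P.Stays F f x (l :: ls) ∧ (l :: ls).length = j + 1 := by
  induction j generalizing f x l with
  | zero =>
    have hF : f * P.lab x l ∈ F := by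
      by_contra hF
      exact h (by simp [cnt, hF])
    exact ⟨[], trivial, ⟨hF, trivial⟩, rfl⟩
  | succ j ih =>
    have hF : f * P.lab x l ∈ F := by
      by_contra hF
      exact h (by simp [cnt, hF])
    have h1 : ∃ l' ∈ univ.erase (P.bk x l),
        P.cnt F (j + 1) (f * P.lab x l) (P.nb x l) l' ≠ P.cnt F j (f * P.lab x l) (P.nb x l) l' := by
      by_contra hc
      push Not at hc
      apply h
      rw [cnt, cnt, if_pos hF, if_pos hF]
      congr 1
      exact Finset.sum_congr rfl hc
    obtain ⟨l', hl', h2⟩ := h1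
    obtain ⟨ls, h3, h4, h5⟩ := ih _ _ _ h2
    refine ⟨l' :: ls, ⟨(Finset.mem_erase.1 hl').1, h3⟩, ⟨hF, h4⟩, ?_⟩
    simp only [List.length_cons] at h5 ⊢
    omega

/-- Long reduced walks inside `F` contain a non-trivial reduced walk with trivial value. -/
theorem not_far_of_walk {f : Γ} {x : P.X} {u : List (Fin 3)} (hf : f ∈ F) (hr : P.Red x u)
    (hs : P.Stays F f x u) (hu : F.card < u.length + 1) : ¬ P.Far u.length x := by
  intro hfar
  -- the positions
  have h1 : ∀ i ∈ Finset.range (u.length + 1), f * P.wVal x (u.take i) ∈ F := by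
    intro i _
    refine Stays.mem hf (Stays.left (w := u.drop i) ?_)
    rwa [List.take_append_drop]
  obtain ⟨i, hi, j, hj, hij, he⟩ := Finset.exists_ne_map_eq_of_card_lt_of_maps_to
    (by rw [Finset.card_range]; exact hu) h1
  wlog hlt : i < j generalizing i j
  · exact this j hj i hi hij.symm he.symm (by omega)
  rw [Finset.mem_range] at hi hj
  have h2 : u.take j = u.take i ++ (u.drop i).take (j - i) := by
    have := List.take_add (l := u) (i := i) (j := j - i)
    rwa [Nat.add_sub_cancel' hlt.le] at this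
  have h3 : P.wVal (P.wEnd x (u.take i)) ((u.drop i).take (j - i)) = 1 := by
    have h4 := mul_left_cancel he
    rw [h2, wVal_append] at h4
    simpa using h4
  have h5 : u = u.take i ++ ((u.drop i).take (j - i) ++ (u.drop i).drop (j - i)) := by
    rw [List.take_append_drop, List.take_append_drop]
  have hr' := hr
  rw [h5] at hr'
  refine hfar (u.take i) hr'.left ?_ ((u.drop i).take (j - i)) ?_ hr'.right.left ?_ h3
  · simp
  · intro h
    have := congrArg List.length h
    simp only [List.length_take, List.length_drop, List.length_nil] at this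
    omega
  · simp

theorem cnt_stable {f : Γ} {x : P.X} {l : Fin 3} (hf : f ∈ F) (hx : P.Far (F.card + 1) x) :
    P.cnt F (F.card + 1) f x l = P.cnt F F.card f x l := by
  by_contra h
  obtain ⟨ls, h1, h2, h3⟩ := exists_walk _ _ _ _ h
  have := not_far_of_walk hf h1 h2 (by omega)
  rw [h3] at this
  exact this hx

variable (P F)

/-- The number of vertices of the component. -/
def tot (f : Γ) (x : P.X) : ℕ := 1 + ∑ l, P.cnt F F.card f x l

/-- The flow through the leg `l`, for one element of `F`. -/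
noncomputable def flow1 (f : Γ) (x : P.X) (l : Fin 3) : ℝ :=
  ((P.tot F f x : ℝ) - 2 * P.cnt F F.card f x l) / (P.tot F f x + 2)

variable {P F}

theorem sum_flow1 (f : Γ) (x : P.X) : ∑ l, P.flow1 F f x l = 1 := by
  unfold flow1
  rw [← Finset.sum_div, Finset.sum_sub_distrib, ← Finset.mul_sum]
  have h : ((P.tot F f x : ℕ) : ℝ) = 1 + ∑ l, (P.cnt F F.card f x l : ℝ) := by
    simp [tot]
  have h' : (0 : ℝ) ≤ ∑ l, (P.cnt F F.card f x l : ℝ) :=
    Finset.sum_nonneg fun _ _ => Nat.cast_nonneg _
  rw [h, div_eq_one_iff_eq (by linarith)]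
  simp
  ring

theorem flow1_le (f : Γ) (x : P.X) (l : Fin 3) : P.flow1 F f x l ≤ 1 := by
  unfold flow1
  have h1 : (0 : ℝ) ≤ P.cnt F F.card f x l := Nat.cast_nonneg _
  have h2 : (0 : ℝ) ≤ P.tot F f x := Nat.cast_nonneg _
  rw [div_le_one (by linarith)]
  linarith

theorem cnt_add_cnt {f : Γ} {x : P.X} {l : Fin 3} (hf : f ∈ F) (hx : P.Far (F.card + 1) x)
    (hF : f * P.lab x l ∈ F) :
    P.cnt F F.card f x l + P.cnt F F.card (f * P.lab x l) (P.nb x l) (P.bk x l) =
      P.tot F (f * P.lab x l) (P.nb x l) := by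
  rw [← cnt_stable hf hx, cnt, if_pos hF, tot, ← Finset.sum_erase_add _ _ (mem_univ (P.bk x l))]
  ring

theorem flow1_add {f : Γ} {x : P.X} {l : Fin 3} (hf : f ∈ F) (hx : P.Far (F.card + 1) x)
    (hx' : P.Far (F.card + 1) (P.nb x l)) (hF : f * P.lab x l ∈ F) :
    P.flow1 F f x l + P.flow1 F (f * P.lab x l) (P.nb x l) (P.bk x l) = 0 := by
  have h1 := cnt_add_cnt hf hx hF
  have h2 := cnt_add_cnt (l := P.bk x l) hF hx' (by rw [lab_bk]; simpa using hf)
  rw [lab_bk, mul_inv_cancel_right, nb_bk, bk_bk] at h2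
  have h3 : P.tot F f x = P.tot F (f * P.lab x l) (P.nb x l) := by omega
  unfold flow1
  rw [h3, ← add_div]
  have h4 : ((P.cnt F F.card f x l : ℕ) : ℝ) + P.cnt F F.card (f * P.lab x l) (P.nb x l) (P.bk x l)
      = P.tot F (f * P.lab x l) (P.nb x l) := by exact_mod_cast h1
  rw [show ((P.tot F (f * P.lab x l) (P.nb x l) : ℝ) - 2 * P.cnt F F.card f x l +
    (P.tot F (f * P.lab x l) (P.nb x l) -
      2 * P.cnt F F.card (f * P.lab x l) (P.nb x l) (P.bk x l))) = 0 by linarith]
  simp

variable (P F)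

/-- The total flow. -/
noncomputable def flow (x : P.X) (l : Fin 3) : ℝ := ∑ f ∈ F, P.flow1 F f x l

variable {P F}

theorem sum_flow (x : P.X) : ∑ l, P.flow F x l = F.card := by
  unfold flow
  rw [Finset.sum_comm]
  simp [sum_flow1]

theorem flow_add {x : P.X} {l : Fin 3} (hx : P.Far (F.card + 1) x)
    (hx' : P.Far (F.card + 1) (P.nb x l)) :
    P.flow F x l + P.flow F (P.nb x l) (P.bk x l) ≤
      (F.filter fun f => f * P.lab x l ∉ F).card + (F.filter fun f => f * (P.lab x l)⁻¹ ∉ F).card := by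
  unfold flow
  rw [← Finset.sum_filter_add_sum_filter_not F (fun f => f * P.lab x l ∈ F)
      (fun f => P.flow1 F f x l),
    ← Finset.sum_filter_add_sum_filter_not F (fun f => f * (P.lab x l)⁻¹ ∈ F)
      (fun f => P.flow1 F f (P.nb x l) (P.bk x l))]
  have h1 : ∑ f ∈ F with f * (P.lab x l)⁻¹ ∈ F, P.flow1 F f (P.nb x l) (P.bk x l) =
      ∑ f ∈ F with f * P.lab x l ∈ F, P.flow1 F (f * P.lab x l) (P.nb x l) (P.bk x l) := by
    symm
    refine Finset.sum_bij (fun f _ => f * P.lab x l) ?_ ?_ ?_ ?_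
    · intro f hf
      rw [Finset.mem_filter] at hf ⊢
      exact ⟨hf.2, by simpa using hf.1⟩
    · intro f _ g _ h
      exact mul_right_cancel h
    · intro g hg
      rw [Finset.mem_filter] at hg
      exact ⟨g * (P.lab x l)⁻¹, by rw [Finset.mem_filter]; exact ⟨hg.2, by simpa using hg.1⟩,
        by simp⟩
    · intro f _
      rfl
  have h2 : ∑ f ∈ F with f * P.lab x l ∈ F, P.flow1 F f x l +
      ∑ f ∈ F with f * P.lab x l ∈ F, P.flow1 F (f * P.lab x l) (P.nb x l) (P.bk x l) = 0 := by
    rw [← Finset.sum_add_distrib]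
    refine Finset.sum_eq_zero fun f hf => ?_
    rw [Finset.mem_filter] at hf
    exact flow1_add hf.1 hx hx' hf.2
  have h3 : ∑ f ∈ F with ¬ f * P.lab x l ∈ F, P.flow1 F f x l ≤
      (F.filter fun f => f * P.lab x l ∉ F).card := by
    refine (Finset.sum_le_sum fun f _ => flow1_le f x l).trans ?_
    simp
  have h4 : ∑ f ∈ F with ¬ f * (P.lab x l)⁻¹ ∈ F, P.flow1 F f (P.nb x l) (P.bk x l) ≤
      (F.filter fun f => f * (P.lab x l)⁻¹ ∉ F).card := by
    refine (Finset.sum_le_sum fun f _ => flow1_le f _ _).trans ?_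
    simp
  rw [h1]
  linarith

variable (P F)

open Classical in
/-- The flow pointer: the first leg with a large flow. -/
noncomputable def flowPtr (x : P.X) : Fin 3 :=
  if (F.card : ℝ) / 3 ≤ P.flow F x 0 then 0 else if (F.card : ℝ) / 3 ≤ P.flow F x 1 then 1 else 2

variable {P F}

theorem flowPtr_spec (x : P.X) : (F.card : ℝ) / 3 ≤ P.flow F x (P.flowPtr F x) := by
  unfold flowPtr
  split_ifs with h1 h2
  · exact h1
  · exact h2
  · have h := sum_flow (F := F) x
    rw [Fin.sum_univ_three] at h
    push Not at h1 h2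
    linarith

theorem flow_loc (l : Fin 3) : P.Loc F.card (fun x => P.flow F x l) := by
  intro x y h
  simp only [flow, flow1, tot]
  refine Finset.sum_congr rfl fun f _ => ?_
  have h1 : ∀ l, P.cnt F F.card f x l = P.cnt F F.card f y l := fun l => P.cnt_loc F _ f h l
  simp only [h1]

theorem flowPtr_loc : P.Loc F.card (P.flowPtr F) := by
  intro x y h
  have h0 : P.flow F x 0 = P.flow F y 0 := flow_loc 0 x y h
  have h1 : P.flow F x 1 = P.flow F y 1 := flow_loc 1 x y h
  unfold flowPtr
  rw [h0, h1]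

end Flow

end Port

open Classical in
/-- **The flow pointer.** -/
theorem exists_flow_pointer (hΓ : Amenable Γ) (T : Types Γ) : ∃ M : ℕ, ∀ P : Port T,
    ∃ pf : P.X → Fin 3, P.Loc M pf ∧ ∀ x l, P.Far M x → P.Far M (P.nb x l) → pf x = l →
      pf (P.nb x l) ≠ P.bk x l := by
  obtain ⟨F, hne, hF⟩ := hΓ (univ.image T.t) (1 / 4) (by norm_num)
  have hF' : ∀ k, ((F.filter fun f => f * T.t k ∉ F).card : ℝ) ≤ 1 / 4 * F.card := by
    intro k
    have h := hF (T.t k) (Finset.mem_image_of_mem _ (mem_univ k))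
    rw [← Set.ncard_coe_finset]
    simpa using h
  refine ⟨F.card + 1, fun P => ⟨P.flowPtr F, Port.Loc.mono (Nat.le_succ _) Port.flowPtr_loc, ?_⟩⟩
  intro x l hx hx' h1 h2
  have h3 := Port.flowPtr_spec (P := P) (F := F) x
  have h4 := Port.flowPtr_spec (P := P) (F := F) (P.nb x l)
  rw [h1] at h3
  rw [h2] at h4
  have h5 := Port.flow_add (F := F) hx hx'
  have h6 : ((F.filter fun f => f * P.lab x l ∉ F).card : ℝ) ≤ 1 / 4 * F.card := hF' _
  have h7 : ((F.filter fun f => f * (P.lab x l)⁻¹ ∉ F).card : ℝ) ≤ 1 / 4 * F.card := by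
    have := hF' (T.flip (P.dart x l))
    rwa [T.t_flip] at this
  have h8 : (0 : ℝ) < F.card := by exact_mod_cast Finset.card_pos.2 hne
  linarith

end Vale.Agent.P215.Am
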