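import Vale.Agent.P215.Am.Port

/-!
# P215, route A: towers of splittings and their pattern spaces

`Cover S' S`: a projection of labelled systems.  `Tower Γ`: a sequence of covers such that all darts
on one leg of a branch of the level `n + 1` lie over one dart of the level `n`.  The inverse limit of
the branches is a 3-port graph `Tower.port`, and a local rule on it gives admissible states of the
branches at a finite level (`Tower.exists_adm`).  `comb_of_rule`: the combinatorial theorem follows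
from `RuleStatement`.
-/

namespace Vale.Agent.P215.Am

variable {Γ : Type} [Group Γ]

/-- A projection of labelled systems. -/
structure Cover (S' S : LabSys Γ) where
  /-- the projection of the branches -/
  pV : S'.V → S.V
  /-- the projection of the darts -/
  pK : S'.K → S.K
  vert : ∀ k, pV (S'.vert k) = S.vert (pK k)
  leg : ∀ k, S'.leg k = S.leg (pK k)
  flip : ∀ k, pK (S'.flip k) = S.flip (pK k)
  t : ∀ k, S'.t k = S.t (pK k)
  surj : Function.Surjective pK

namespace Cover

/-- Composition of projections. -/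
def comp {S'' S' S : LabSys Γ} (c : Cover S'' S') (d : Cover S' S) : Cover S'' S where
  pV v := d.pV (c.pV v)
  pK k := d.pK (c.pK k)
  vert k := by rw [c.vert, d.vert]
  leg k := by rw [c.leg, d.leg]
  flip k := by rw [c.flip, d.flip]
  t k := by rw [c.t, d.t]
  surj := d.surj.comp c.surj

/-- All darts on one leg `l` of a branch of `S'` lie over the same dart of `S`. -/
def Pure {S' S : LabSys Γ} (c : Cover S' S) (l : Fin 3) : Prop :=
  ∀ k k', S'.vert k = S'.vert k' → S'.leg k = l → S'.leg k' = l → c.pK k = c.pK k'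

theorem Pure.comp_right {S'' S' S : LabSys Γ} {c : Cover S'' S'} {l : Fin 3} (hc : c.Pure l)
    (d : Cover S' S) : (c.comp d).Pure l := by
  intro k k' h1 h2 h3
  change d.pK (c.pK k) = d.pK (c.pK k')
  rw [hc k k' h1 h2 h3]

theorem Pure.comp_left {S'' S' S : LabSys Γ} (c : Cover S'' S') {d : Cover S' S} {l : Fin 3}
    (hd : d.Pure l) : (c.comp d).Pure l := by
  intro k k' h1 h2 h3
  refine hd _ _ ?_ ?_ ?_
  · rw [← c.vert, ← c.vert, h1]
  · rw [← c.leg, h2]
  · rw [← c.leg, h3]

end Cover

/-- The projection of the splitting. -/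
def splitCover (S : LabSys Γ) (i : Fin 3) (h : S.Full) : Cover (S.split i) S where
  pV c := S.vert c.1
  pK x := x.1.1
  vert x := x.2.1.2.1
  leg _ := rfl
  flip _ := rfl
  t _ := rfl
  surj k := by
    have key : ∀ k, ∃ c, S.IsOver i k c := by
      intro k
      by_cases hk : S.leg k = i
      · exact ⟨k, hk, rfl, fun _ => rfl⟩
      · obtain ⟨c, h1, h2⟩ := h (S.vert k) i
        exact ⟨c, h2, h1, fun h => absurd h hk⟩
    obtain ⟨c, hc⟩ := key k
    obtain ⟨c', hc'⟩ := key (S.flip k)
    exact ⟨⟨(k, c, c'), hc, hc'⟩, rfl⟩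

theorem splitCover_pure (S : LabSys Γ) (i : Fin 3) (h : S.Full) : (splitCover S i h).Pure i := by
  rintro ⟨⟨k, c, c'⟩, h1, h2⟩ ⟨⟨m, d, d'⟩, h3, h4⟩ hv hk hm
  have hk' : S.leg k = i := hk
  have hm' : S.leg m = i := hm
  have e1 : c = k := h1.2.2 hk'
  have e2 : d = m := h3.2.2 hm'
  have e3 : c = d := congrArg Subtype.val hv
  change k = m
  rw [← e1, e3, e2]

/-- One round of splittings. -/
def round (S : LabSys Γ) : LabSys Γ := ((S.split 0).split 1).split 2

theorem round_full {S : LabSys Γ} (h : S.Full) : (round S).Full :=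
  LabSys.split_full _ (LabSys.split_full _ (LabSys.split_full _ h))

/-- The projection of a round of splittings. -/
def roundCover (S : LabSys Γ) (h : S.Full) : Cover (round S) S :=
  ((splitCover _ 2 (LabSys.split_full _ (LabSys.split_full _ h))).comp
    (splitCover _ 1 (LabSys.split_full _ h))).comp (splitCover S 0 h)

theorem roundCover_pure (S : LabSys Γ) (h : S.Full) (l : Fin 3) : (roundCover S h).Pure l := by
  match l with
  | 0 => exact (splitCover_pure S 0 h).comp_left _
  | 1 => exact ((splitCover_pure _ 1 _).comp_left _).comp_right _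
  | 2 => exact ((splitCover_pure _ 2 _).comp_right _).comp_right _

/-- A tower of labelled systems. -/
structure Tower (Γ : Type) [Group Γ] where
  /-- the levels -/
  S : ℕ → LabSys Γ
  /-- the projections -/
  cov : ∀ n, Cover (S (n + 1)) (S n)
  pure : ∀ n k k', (S (n + 1)).vert k = (S (n + 1)).vert k' →
    (S (n + 1)).leg k = (S (n + 1)).leg k' → (cov n).pK k = (cov n).pK k'
  full : ∀ n, (S n).Full

namespace Tower

/-- The iterated splittings. -/
def seq (S₀ : LabSys Γ) (h : S₀.Full) : ℕ → {S : LabSys Γ // S.Full}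
  | 0 => ⟨S₀, h⟩
  | n + 1 => ⟨round (seq S₀ h n).1, round_full (seq S₀ h n).2⟩

/-- The tower of iterated splittings. -/
def ofSys (S₀ : LabSys Γ) (h : S₀.Full) : Tower Γ where
  S n := (seq S₀ h n).1
  cov n := roundCover (seq S₀ h n).1 (seq S₀ h n).2
  pure n k k' h1 h2 := roundCover_pure (seq S₀ h n).1 (seq S₀ h n).2 _ k k' h1 rfl h2.symm
  full n := (seq S₀ h n).2

theorem ofSys_mem {R : LabSys Γ → Prop} (hR : ∀ S i, R S → S.Full → R (S.split i))
    (S₀ : LabSys Γ) (h : S₀.Full) (h₀ : R S₀) (n : ℕ) : R ((ofSys S₀ h).S n) := by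
  induction n with
  | zero => exact h₀
  | succ n ih =>
    have h1 := ((ofSys S₀ h).full n)
    exact hR _ 2 (hR _ 1 (hR _ 0 ih h1) (LabSys.split_full _ h1))
      (LabSys.split_full _ (LabSys.split_full _ h1))

variable (W : Tower Γ)

/-- The branches of the inverse limit. -/
def Lim : Type := {x : ∀ n, (W.S n).V // ∀ n, (W.cov n).pV (x (n + 1)) = x n}

/-- A dart of the level `n + 1` on the leg `l` of `x`. -/
noncomputable def up (x : W.Lim) (l : Fin 3) (n : ℕ) : (W.S (n + 1)).K :=
  (W.full (n + 1) (x.1 (n + 1)) l).choose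

theorem up_vert (x : W.Lim) (l : Fin 3) (n : ℕ) :
    (W.S (n + 1)).vert (W.up x l n) = x.1 (n + 1) :=
  (W.full (n + 1) (x.1 (n + 1)) l).choose_spec.1

theorem up_leg (x : W.Lim) (l : Fin 3) (n : ℕ) : (W.S (n + 1)).leg (W.up x l n) = l :=
  (W.full (n + 1) (x.1 (n + 1)) l).choose_spec.2

/-- The dart of the level `n` on the leg `l` of `x`. -/
noncomputable def dt (x : W.Lim) (l : Fin 3) (n : ℕ) : (W.S n).K := (W.cov n).pK (W.up x l n)

theorem dt_eq (x : W.Lim) (l : Fin 3) (n : ℕ) (k : (W.S (n + 1)).K)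
    (hv : (W.S (n + 1)).vert k = x.1 (n + 1)) (hl : (W.S (n + 1)).leg k = l) :
    W.dt x l n = (W.cov n).pK k :=
  W.pure n _ _ (by rw [up_vert, hv]) (by rw [up_leg, hl])

theorem dt_vert (x : W.Lim) (l : Fin 3) (n : ℕ) : (W.S n).vert (W.dt x l n) = x.1 n := by
  rw [dt, ← (W.cov n).vert, up_vert, x.2]

theorem dt_leg (x : W.Lim) (l : Fin 3) (n : ℕ) : (W.S n).leg (W.dt x l n) = l := by
  rw [dt, ← (W.cov n).leg, up_leg]

theorem dt_proj (x : W.Lim) (l : Fin 3) (n : ℕ) :
    (W.cov n).pK (W.dt x l (n + 1)) = W.dt x l n :=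
  (W.dt_eq x l n _ (W.dt_vert x l (n + 1)) (W.dt_leg x l (n + 1))).symm

/-- The neighbour across a leg. -/
noncomputable def nb (x : W.Lim) (l : Fin 3) : W.Lim :=
  ⟨fun n => (W.S n).vert ((W.S n).flip (W.dt x l n)), fun n => by
    rw [(W.cov n).vert, (W.cov n).flip, dt_proj]⟩

theorem nb_val (x : W.Lim) (l : Fin 3) (n : ℕ) :
    (W.nb x l).1 n = (W.S n).vert ((W.S n).flip (W.dt x l n)) := rfl

theorem leg_flip_dt (x : W.Lim) (l : Fin 3) (n : ℕ) :
    (W.S n).leg ((W.S n).flip (W.dt x l n)) = (W.S 0).leg ((W.S 0).flip (W.dt x l 0)) := by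
  induction n with
  | zero => rfl
  | succ n ih => rw [← ih, (W.cov n).leg, (W.cov n).flip, dt_proj]

theorem t_dt (x : W.Lim) (l : Fin 3) (n : ℕ) :
    (W.S n).t (W.dt x l n) = (W.S 0).t (W.dt x l 0) := by
  induction n with
  | zero => rfl
  | succ n ih => rw [← ih, (W.cov n).t, dt_proj]

theorem dt_nb (x : W.Lim) (l : Fin 3) (n : ℕ) :
    W.dt (W.nb x l) ((W.S 0).leg ((W.S 0).flip (W.dt x l 0))) n =
      (W.S n).flip (W.dt x l n) := by
  rw [W.dt_eq (W.nb x l) _ n ((W.S (n + 1)).flip (W.dt x l (n + 1))) rfl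
    (W.leg_flip_dt x l (n + 1)), (W.cov n).flip, dt_proj]

theorem nb_nb (x : W.Lim) (l : Fin 3) :
    W.nb (W.nb x l) ((W.S 0).leg ((W.S 0).flip (W.dt x l 0))) = x := by
  apply Subtype.ext
  funext n
  rw [nb_val, dt_nb, (W.S n).flip_flip, dt_vert]

/-- The types of the darts. -/
def types : Types Γ where
  K := (W.S 0).K
  fK := inferInstance
  dK := inferInstance
  leg := (W.S 0).leg
  flip := (W.S 0).flip
  flip_flip := (W.S 0).flip_flip
  flip_ne := (W.S 0).flip_ne
  t := (W.S 0).t
  t_flip := (W.S 0).t_flip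

/-- **The pattern space of a tower.** -/
noncomputable def port : Port W.types where
  X := W.Lim
  dart x l := W.dt x l 0
  leg_dart x l := W.dt_leg x l 0
  nb := W.nb
  dart_nb x l := W.dt_nb x l 0
  nb_nb := W.nb_nb

/-- **Locality**: the branch of the level `n` determines the pattern of radius `n`. -/
theorem agree (n : ℕ) (x y : W.Lim) (h : x.1 n = y.1 n) : W.port.Agree n x y := by
  induction n generalizing x y with
  | zero => trivial
  | succ n ih =>
    intro l
    have h1 : W.dt x l n = W.dt y l n :=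
      W.pure n _ _ (by rw [up_vert, up_vert, h]) (by rw [up_leg, up_leg])
    have h2 : ∀ m, W.dt x l m = W.dt y l m → W.dt x l 0 = W.dt y l 0 := by
      intro m
      induction m with
      | zero => exact id
      | succ m ihm =>
        intro h3
        apply ihm
        rw [← W.dt_proj x, ← W.dt_proj y, h3]
    refine ⟨h2 n h1, ih _ _ ?_⟩
    change (W.S n).vert ((W.S n).flip (W.dt x l n)) = (W.S n).vert ((W.S n).flip (W.dt y l n))
    rw [h1]

/-- The shifted tower. -/
def shift : Tower Γ where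
  S n := W.S (n + 1)
  cov n := W.cov (n + 1)
  pure n := W.pure (n + 1)
  full n := W.full (n + 1)

theorem pV_surj (n : ℕ) : Function.Surjective (W.cov n).pV := by
  intro v
  obtain ⟨k, hk, -⟩ := W.full n v 0
  obtain ⟨k', hk'⟩ := (W.cov n).surj k
  exact ⟨(W.S (n + 1)).vert k', by rw [(W.cov n).vert, hk', hk]⟩

theorem exists_ext (n : ℕ) : ∀ (W : Tower Γ) (v : (W.S n).V), ∃ x : W.Lim, x.1 n = v := by
  induction n with
  | zero =>
    intro W v
    choose f hf using W.pV_surj
    exact ⟨⟨fun n => Nat.rec v (fun m u => f m u) n, fun n => hf n _⟩, rfl⟩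
  | succ n ih =>
    intro W v
    obtain ⟨x, hx⟩ := ih W.shift v
    refine ⟨⟨fun m => match m with
      | 0 => (W.cov 0).pV (x.1 0)
      | m + 1 => x.1 m, ?_⟩, hx⟩
    rintro (_ | m)
    · rfl
    · exact x.2 m

/-- **Extension**: every dart of the level `n` comes from a point of the limit. -/
theorem exists_dart (n : ℕ) (k : (W.S n).K) :
    ∃ x : W.Lim, x.1 n = (W.S n).vert k ∧ W.dt x ((W.S n).leg k) n = k := by
  obtain ⟨k', hk'⟩ := (W.cov n).surj k
  obtain ⟨x, hx⟩ := exists_ext (n + 1) W ((W.S (n + 1)).vert k')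
  refine ⟨x, ?_, ?_⟩
  · rw [← x.2, hx, (W.cov n).vert, hk']
  · rw [W.dt_eq x _ n k' hx.symm (by rw [(W.cov n).leg, hk']), hk']

/-- **A local rule on the pattern space gives admissible states at a finite level.** -/
theorem exists_adm {n : ℕ} {st : W.port.X → St Γ} (hloc : W.port.Loc n st)
    (hne : ∀ x i a b g, st x = .W i a b g → a ≠ b)
    (hrel : ∀ x l, Rel (role (st x) l) (role (st (W.port.nb x l)) (W.port.bk x l))
      (W.types.t (W.port.dart x l))) :
    ∃ st' : (W.S n).V → St Γ, (W.S n).Adm st' := by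
  choose ext hext using exists_ext n W
  refine ⟨fun v => st (ext v), ?_, fun v i a b g hv => hne _ _ _ _ _ hv⟩
  intro k
  obtain ⟨x, hx, hk⟩ := W.exists_dart n k
  have h1 : st (ext ((W.S n).vert k)) = st x :=
    hloc _ _ (W.agree n _ _ (by rw [hext, hx]))
  have h2 : st (ext ((W.S n).vert ((W.S n).flip k))) = st (W.nb x ((W.S n).leg k)) := by
    refine hloc _ _ (W.agree n _ _ ?_)
    rw [hext, nb_val, hk]
  have h3 := hrel x ((W.S n).leg k)
  have h4 : W.port.bk x ((W.S n).leg k) = (W.S n).leg ((W.S n).flip k) := by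
    rw [← hk]
    have := W.leg_flip_dt x ((W.S n).leg k) n
    rw [hk] at this ⊢
    exact this.symm
  have h5 : W.types.t (W.port.dart x ((W.S n).leg k)) = (W.S n).t k := by
    have := W.t_dt x ((W.S n).leg k) n
    rw [hk] at this
    exact this.symm
  rw [h4, h5] at h3
  rw [h1, h2]
  exact h3

end Tower

/-- A full system in a class which is closed under removing. -/
theorem exists_full {R : LabSys Γ → Prop}
    (hrem : ∀ (S : LabSys Γ) v l, R S → (∀ k, S.vert k = v → S.leg k ≠ l) → R (S.remove v))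
    (S : LabSys Γ) (hS : R S) : ∃ S', R S' ∧ S'.Full := by
  obtain ⟨n, hn⟩ : ∃ n, Fintype.card S.V = n := ⟨_, rfl⟩
  induction n generalizing S with
  | zero =>
    refine ⟨S, hS, fun v => ?_⟩
    exact (Fintype.card_eq_zero_iff.1 hn).elim v
  | succ n ih =>
    by_cases hf : S.Full
    · exact ⟨S, hS, hf⟩
    · unfold LabSys.Full at hf
      push Not at hf
      obtain ⟨v, l, hv⟩ := hf
      refine ih (S.remove v) (hrem S v l hS hv) ?_
      change Fintype.card {w : S.V // w ≠ v} = n
      rw [Fintype.card_subtype_compl, Fintype.card_subtype_eq, hn]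
      rfl

/-- **The combinatorial theorem from the rule.** -/
theorem comb_of_rule (h : RuleStatement) : CombStatement := by
  intro Γ _ hΓ R₁ R₂ hrem hsplit h12 hpush S₀ h₀
  obtain ⟨S₁, h₁, hf⟩ := exists_full hrem S₀ h₀
  obtain ⟨n, st, hloc, hne, hrel⟩ := h Γ hΓ _ (Tower.ofSys S₁ hf).port
  obtain ⟨st', hadm⟩ := (Tower.ofSys S₁ hf).exists_adm hloc hne hrel
  exact LabSys.exists_final hpush _ (h12 _ (Tower.ofSys_mem hsplit S₁ hf h₁ n)) st' hadm

end Vale.Agent.P215.Am
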