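import Vale.Agent.P215.Am.Rank
import Vale.Agent.P215.Am.Flow
import Vale.Agent.P215.Am.Tower

/-!
# P215, route A: the rule
-/

namespace Vale.Agent.P215.Am

variable {Γ : Type} [Group Γ] {T : Types Γ}

namespace Port

variable (P : Port T)

/-- The word of a walk. -/
def word : P.X → List (Fin 3) → List T.K
  | _, [] => []
  | x, l :: ls => P.dart x l :: word (P.nb x l) ls

variable {P}

theorem step_dart (x : P.X) (l : Fin 3) : P.step x (P.dart x l) = P.nb x l := by
  rw [step, P.leg_dart]

theorem starts_word (x : P.X) (ls : List (Fin 3)) : P.Starts (P.word x ls) x := by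
  induction ls generalizing x with
  | nil => trivial
  | cons l ls ih =>
    refine ⟨by rw [P.leg_dart], ?_⟩
    rw [step_dart]
    exact ih _

theorem fwd_word (x : P.X) (ls : List (Fin 3)) : P.fwd (P.word x ls) x = P.wEnd x ls := by
  induction ls generalizing x with
  | nil => rfl
  | cons l ls ih =>
    show P.fwd (P.word (P.nb x l) ls) (P.step x (P.dart x l)) = _
    rw [step_dart]
    exact ih _

theorem length_word (x : P.X) (ls : List (Fin 3)) : (P.word x ls).length = ls.length := by
  induction ls generalizing x with
  | nil => rfl
  | cons l ls ih => exact congrArg (· + 1) (ih _)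

theorem val_word (x : P.X) (ls : List (Fin 3)) : T.val (P.word x ls) = P.wVal x ls := by
  induction ls generalizing x with
  | nil => rfl
  | cons l ls ih => rw [word, T.val_cons, ih]; rfl

theorem red_word (x : P.X) (ls : List (Fin 3)) (h : P.Red x ls) : T.Red (P.word x ls) := by
  induction ls generalizing x with
  | nil => exact List.IsChain.nil
  | cons l ls ih =>
    cases ls with
    | nil => exact List.IsChain.singleton _
    | cons l' ls =>
      refine List.isChain_cons_cons.2 ⟨?_, ih _ h.2⟩
      intro h1
      refine h.1 ?_
      rw [bk, ← h1, P.leg_dart]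

theorem FarW.far {M : ℕ} {x : P.X} (h : P.FarW M x) : P.Far M x := by
  intro u _ hu w hw hr hl hv
  refine h (P.word x u) (P.word (P.wEnd x u) w) (by rwa [length_word]) (starts_word _ _) ?_ ?_
  · rw [fwd_word]
    exact starts_word _ _
  · refine ⟨?_, by rwa [length_word], red_word _ _ hr, by rw [val_word, hv]⟩
    intro h0
    have := congrArg List.length h0
    rw [length_word] at this
    exact hw (List.length_eq_zero_iff.1 this)

end Port

/-- **The rule statement.** -/
theorem ruleStatement : RuleStatement := by
  intro Γ _ hΓ T P
  obtain ⟨M, hM⟩ := exists_flow_pointer hΓ T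
  obtain ⟨pf, hloc, hpf⟩ := hM P
  exact Port.exists_rule M pf ⟨M, hloc⟩ fun x l h1 h2 => hpf x l h1.far h2.far

/-- **The combinatorial theorem.** -/
theorem combStatement : CombStatement := comb_of_rule ruleStatement

end Vale.Agent.P215.Am
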