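import Vale.Agent.P215.Am.Geo

/-!
# P215, route A: the push-off of a realized labelled system
-/

noncomputable section

namespace Vale.Agent.P215.Am

open Vale.Agent.P215.H788 Set Topology unitInterval

namespace SysPush

/-! ### Straight-line homotopies -/

/-- The segment between two points of the disc. -/
def mixD (t : I) (x y : Disc) : Disc :=
  ⟨(1 - (t : ℝ)) • x.1 + (t : ℝ) • y.1,
    (convex_closedBall (0 : ℝ × ℝ) 1) x.2 y.2 (sub_nonneg.2 t.2.2) t.2.1 (by ring)⟩

theorem continuous_mixD {Y : Type} [TopologicalSpace Y] {t : Y → I} {f g : Y → Disc}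
    (ht : Continuous t) (hf : Continuous f) (hg : Continuous g) :
    Continuous fun y => mixD (t y) (f y) (g y) := by
  unfold mixD
  refine Continuous.subtype_mk ?_ _
  fun_prop

/-- The segment between two points of the cube. -/
def mixQ (t : I) (p q : Q) : Q := (mixD t p.1 q.1, mixD t p.2 q.2)

theorem continuous_mixQ {Y : Type} [TopologicalSpace Y] {t : Y → I} {f g : Y → Q}
    (ht : Continuous t) (hf : Continuous f) (hg : Continuous g) :
    Continuous fun y => mixQ (t y) (f y) (g y) :=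
  (continuous_mixD ht (continuous_fst.comp hf) (continuous_fst.comp hg)).prodMk
    (continuous_mixD ht (continuous_snd.comp hf) (continuous_snd.comp hg))

theorem mixD_zero (x y : Disc) : mixD 0 x y = x := Subtype.ext (by simp [mixD])

theorem mixD_one (x y : Disc) : mixD 1 x y = y := Subtype.ext (by simp [mixD])

theorem mixD_self (t : I) (x : Disc) : mixD t x x = x :=
  Subtype.ext (by simp only [mixD]; rw [← add_smul]; simp)

theorem mixQ_zero (p q : Q) : mixQ 0 p q = p := by simp [mixQ, mixD_zero]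

theorem mixQ_one (p q : Q) : mixQ 1 p q = q := by simp [mixQ, mixD_one]

theorem mixQ_self (t : I) (p : Q) : mixQ t p p = p := by simp [mixQ, mixD_self]

/-! ### The modified map -/

variable {Γ : Type} [Group Γ] {L : Fin 3 → Q → Q} {a b : Fin 3} (P : PushDatum L a b)
  {S : LabSys Γ} (Z : Pos L S) (u : S.V)

/-- The darts opposite to the legs `(u, a)` and `(u, b)`. -/
def Into (S : LabSys Γ) (u : S.V) (a b : Fin 3) : Type :=
  {k : S.K // S.vert (S.flip k) = u ∧ (S.leg (S.flip k) = a ∨ S.leg (S.flip k) = b)}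

instance : Finite (Into S u a b) := by unfold Into; infer_instance

/-- The new sheet over a dart. -/
def TT (k : Into S u a b) : Q → Q := if S.leg (S.flip k.1) = a then P.TA else P.TB

theorem TT_a {k : Into S u a b} (h : S.leg (S.flip k.1) = a) : TT P u k = P.TA := if_pos h

theorem TT_b (hab : a ≠ b) {k : Into S u a b} (h : S.leg (S.flip k.1) = b) : TT P u k = P.TB :=
  if_neg (by rw [h]; exact hab.symm)

theorem continuous_TT (k : Into S u a b) : Continuous (TT P u k) := by
  unfold TT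
  split_ifs
  · exact P.cont_TA
  · exact P.cont_TB

theorem TT_bd (k : Into S u a b) (x y : Disc) (h : nm y = 1) :
    TT P u k (x, y) = L (S.leg (S.flip k.1)) (x, y) := by
  rcases k.2.2 with h1 | h1
  · rw [TT_a P u h1, h1, P.TA_bd x y h]
  · by_cases hab : a = b
    · rw [TT_a P u (h1.trans hab.symm), h1, P.TA_bd x y h, hab]
    · rw [TT_b P u hab h1, h1, P.TB_bd x y h]

/-- The boxes in which the map is changed. -/
def bx : Option (Into S u a b) → Q → Q
  | none => vert (Z.s u)
  | some k => Z.darts.box k.1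

variable (a b) in
theorem isBox_bx (j : Option (Into S u a b)) : IsBox (bx Z u j) := by
  rcases j with _ | k
  · exact Z.fam.isBox u
  · exact Z.darts.isBox k.1

theorem vert_ne {S : LabSys Γ} {u : S.V} (ha : S.NoSelf u a) (hb : S.NoSelf u b)
    (k : Into S u a b) : S.vert k.1 ≠ u := by
  rcases k.2.2 with h | h
  · have := ha _ k.2.1 h
    rwa [S.flip_flip] at this
  · have := hb _ k.2.1 h
    rwa [S.flip_flip] at this

theorem box_vert_disj {k : S.K} {v : S.V} (h : S.vert k ≠ v) (p q : Q) :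
    Z.darts.box k p ≠ vert (Z.s v) q := by
  intro h1
  exact h (Z.fam.vert_disj _ _ _ _ h1)

theorem bx_disj (ha : S.NoSelf u a) (hb : S.NoSelf u b) (j l : Option (Into S u a b)) (p q : Q)
    (h : bx Z u j p = bx Z u l q) : j = l := by
  rcases j with _ | k <;> rcases l with _ | l
  · rfl
  · exact absurd h.symm (box_vert_disj Z (vert_ne ha hb l) q p)
  · exact absurd h (box_vert_disj Z (vert_ne ha hb k) p q)
  · have := Z.darts.disj _ _ _ _ h
    rw [Subtype.ext this]

/-- The homotopy of the new values. -/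
def G (t : I) : Option (Into S u a b) → Q → Q
  | none, q => vert (Z.s u) (mixQ t q (P.κ₀ q))
  | some k, z => vert (Z.s u) (mixQ t (L (S.leg (S.flip k.1)) (Z.q (S.flip k.1) z.2, z.1))
      (TT P u k (Z.q (S.flip k.1) z.2, z.1)))

theorem continuous_G (j : Option (Into S u a b)) : Continuous fun z : I × Q => G P Z u z.1 j z.2 := by
  have hs : Continuous (vert (Z.s u)) := (Z.fam.isBox u).cont
  rcases j with _ | k
  · exact hs.comp (continuous_mixQ continuous_fst continuous_snd (P.mor.cont.comp continuous_snd))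
  · have h1 : Continuous fun z : I × Q => (Z.q (S.flip k.1) z.2.2, z.2.1) :=
      ((Z.isSq _).cont.comp (continuous_snd.comp continuous_snd)).prodMk
        (continuous_fst.comp continuous_snd)
    exact hs.comp (continuous_mixQ continuous_fst ((Z.hL.isBox _).cont.comp h1)
      ((continuous_TT P u k).comp h1))

theorem G_zero_some (k : Into S u a b) (x y : Disc) :
    G P Z u 0 (some k) (x, y) = Z.darts.box (S.flip k.1) (y, x) := by
  rw [G, mixQ_zero, Z.darts_box, k.2.1]

theorem G_bd (t : I) (j : Option (Into S u a b)) (x y : Disc) (h : nm x = 1) :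
    G P Z u t j (x, y) = match j with
      | none => vert (Z.s u) (x, y)
      | some k => Z.darts.box (S.flip k.1) (y, x) := by
  rcases j with _ | k
  · simp only [G]
    rw [P.mor.bd x y h, mixQ_self]
  · simp only [G]
    rw [TT_bd P u k _ _ h, mixQ_self, Z.darts_box, k.2.1]

/-! ### The new map -/

variable {X : Type} [TopologicalSpace X] {e : Circ × Disc → X} {F : Q → X}

/-- The homotopy from `F` to the new map. -/
def H (F : Q → X) (t : I) : Q → X := patch (bx Z u) F (fun j q => F (G P Z u t j q))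

variable (hF : IsReal e Z.darts F) (ha : S.NoSelf u a) (hb : S.NoSelf u b)

include hF

theorem G_bd' (t : I) (j : Option (Into S u a b)) (q : Q) (h : nm q.1 = 1) :
    F (G P Z u t j q) = F (bx Z u j q) := by
  obtain ⟨x, y⟩ := q
  rw [G_bd P Z u t j x y h]
  rcases j with _ | k
  · rfl
  · exact (hF.glue k.1 x y).symm

include ha hb

theorem continuous_H : Continuous fun z : I × Q => H P Z u F z.1 z.2 :=
  continuous_patch (isBox_bx a b Z u) (bx_disj Z u ha hb) (fun _ => F)
    (hF.cont.comp continuous_snd) (fun t j q => F (G P Z u t j q))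
    (fun j => hF.cont.comp (continuous_G P Z u j))
    (fun t j q hq => G_bd' P Z u hF t j q hq)

omit hF

theorem H_box (t : I) (j : Option (Into S u a b)) (q : Q) :
    H P Z u F t (bx Z u j q) = F (G P Z u t j q) :=
  patch_box (isBox_bx a b Z u) (bx_disj Z u ha hb) _ _ j q

omit ha hb in
theorem H_off (t : I) {p : Q} (h : ∀ (j : Option (Into S u a b)) q, bx Z u j q ≠ p) :
    H P Z u F t p = F p := patch_off _ _ h

omit ha hb in
/-- The boxes of the darts which stay are not changed. -/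
theorem box_off {k : S.K} (hk : S.vert k ≠ u) (hk' : S.vert (S.flip k) ≠ u) (p : Q)
    (j : Option (Into S u a b)) (q : Q) : bx Z u j q ≠ Z.darts.box k p := by
  rcases j with _ | l
  · exact fun h => box_vert_disj Z hk p q h.symm
  · intro h
    have h1 := Z.darts.disj _ _ _ _ h
    rw [← h1] at hk'
    exact hk' l.2.1

/-! ### The new positions -/

/-- The positions of the new darts. -/
def newQ : (S.push u a b P.n ha hb).K → Disc → Disc
  | .inl k => Z.q k.1
  | .inr (p, false) => fun x => Z.q p.1.1 (P.f p.1.2.2 (Z.q (S.flip p.1.2.1) x))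
  | .inr (p, true) => fun x => Z.q p.1.2.1 (P.f' p.1.2.2 (Z.q (S.flip p.1.1) x))

omit ha hb in
theorem push_pos (hab : a ≠ b) (ha : S.NoSelf u a) (hb : S.NoSelf u b) :
    ∀ k l x y, (S.push u a b P.n ha hb).vert k = (S.push u a b P.n ha hb).vert l →
      (S.push u a b P.n ha hb).leg k = (S.push u a b P.n ha hb).leg l →
      newQ P Z u ha hb k x = newQ P Z u ha hb l y → k = l := by
  have hself : ∀ k l : S.K, S.vert k = S.vert l → S.leg k = S.leg l →
      ∀ x y, Z.q k x = Z.q l y → k = l ∧ x = y := by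
    intro k l h1 h2 x y h3
    have h4 := Z.disj k l x y h1 h2 h3
    subst h4
    exact ⟨rfl, (Z.isSq k).inj h3⟩
  rintro (k | ⟨⟨⟨k, m, j⟩, ⟨hk, hk'⟩, hm, hm'⟩, _ | _⟩) (l | ⟨⟨⟨l, n, i⟩, ⟨hl, hl'⟩, hn, hn'⟩, _ | _⟩)
    x y hv hleg hq <;> replace hv := congrArg Subtype.val hv <;>
    simp only [LabSys.push, newQ] at hv hleg hq
  · have h1 := (hself _ _ hv hleg _ _ hq).1
    exact congrArg Sum.inl (Subtype.ext h1)
  · have h1 := (hself _ _ hv hleg _ _ hq).1
    exact absurd (h1 ▸ hl) k.2.2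
  · have h1 := (hself _ _ hv hleg _ _ hq).1
    exact absurd (h1 ▸ hn) k.2.2
  · have h1 := (hself _ _ hv hleg _ _ hq).1
    exact absurd (h1 ▸ hk) l.2.2
  · obtain ⟨rfl, h2⟩ := hself _ _ hv hleg _ _ hq
    have h3 := P.f_disj _ _ _ _ h2
    subst h3
    have h4 := (P.isSq_f j).inj h2
    have h5 := (hself _ _ (hm.trans hn.symm) (hm'.trans hn'.symm) _ _ h4).1
    have h6 : m = n := by rw [← S.flip_flip m, h5, S.flip_flip]
    subst h6
    rfl
  · obtain ⟨rfl, h2⟩ := hself _ _ hv hleg _ _ hq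
    exact absurd (hk'.symm.trans hn') hab
  · have h1 := (hself _ _ hv hleg _ _ hq).1
    exact absurd (h1 ▸ hm) l.2.2
  · obtain ⟨rfl, h2⟩ := hself _ _ hv hleg _ _ hq
    exact absurd (hl'.symm.trans hm') hab
  · obtain ⟨rfl, h2⟩ := hself _ _ hv hleg _ _ hq
    have h3 := P.f'_disj _ _ _ _ h2
    subst h3
    have h4 := (P.isSq_f' j).inj h2
    have h5 := (hself _ _ (hk.trans hl.symm) (hk'.trans hl'.symm) _ _ h4).1
    have h6 : k = l := by rw [← S.flip_flip k, h5, S.flip_flip]
    subst h6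
    rfl

/-- The positions of the new system. -/
def newPos (hab : a ≠ b) : Pos L (S.push u a b P.n ha hb) where
  hL := Z.hL
  s v := Z.s v.1
  fam := ⟨fun v => Z.fam.isSq v.1, fun v => Z.fam.int v.1,
    fun v w x y h => Subtype.ext (Z.fam.disj _ _ _ _ h)⟩
  q := newQ P Z u ha hb
  isSq := by
    rintro (k | ⟨p, _ | _⟩)
    · exact Z.isSq k.1
    · exact (Z.isSq _).comp ((P.isSq_f _).comp (Z.isSq _))
    · exact (Z.isSq _).comp ((P.isSq_f' _).comp (Z.isSq _))
  disj := push_pos P Z u hab ha hb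

theorem newPos_box_inl (hab : a ≠ b)
    (k : {k : S.K // S.vert k ≠ u ∧ S.vert (S.flip k) ≠ u}) (p : Q) :
    (newPos P Z u ha hb hab).darts.box (.inl k) p = Z.darts.box k.1 p := rfl

theorem newPos_box_false (hab : a ≠ b) (p : S.PushPair u a b P.n) (x y : Disc) :
    (newPos P Z u ha hb hab).darts.box (.inr (p, false)) (x, y) =
      Z.darts.box p.1.1 (P.f p.1.2.2 (Z.q (S.flip p.1.2.1) x), y) := rfl

theorem newPos_box_true (hab : a ≠ b) (p : S.PushPair u a b P.n) (x y : Disc) :
    (newPos P Z u ha hb hab).darts.box (.inr (p, true)) (x, y) =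
      Z.darts.box p.1.2.1 (P.f' p.1.2.2 (Z.q (S.flip p.1.1) x), y) := rfl

/-! ### Realization -/

/-- The new map on a dart box. -/
theorem H_dart (t : I) (k : Into S u a b) (p : Q) :
    H P Z u F t (Z.darts.box k.1 p) = F (G P Z u t (some k) p) :=
  H_box P Z u ha hb t (some k) p

theorem H_one_dart (k : Into S u a b) (x y : Disc) :
    H P Z u F 1 (Z.darts.box k.1 (x, y)) =
      F (vert (Z.s u) (TT P u k (Z.q (S.flip k.1) y, x))) := by
  rw [H_dart P Z u ha hb, G, mixQ_one]

theorem H_one_unit (q : Q) :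
    H P Z u F 1 (vert (Z.s u) q) = F (vert (Z.s u) (P.κ₀ q)) := by
  have := H_box (F := F) P Z u ha hb 1 none q
  rw [G, mixQ_one] at this
  exact this

theorem H_inl (t : I) {k : S.K} (hk : S.vert k ≠ u) (hk' : S.vert (S.flip k) ≠ u) (p : Q) :
    H P Z u F t (Z.darts.box k p) = F (Z.darts.box k p) :=
  H_off P Z u t (box_off Z u hk hk' p)

omit ha hb in
/-- The three kinds of points. -/
theorem pt_cases (p : Q) : (∃ q, p = vert (Z.s u) q) ∨
    (∃ (k : Into S u a b) (x y : Disc), p = Z.darts.box k.1 (x, y)) ∨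
    ((∀ (j : Option (Into S u a b)) q, bx Z u j q ≠ p) ∧ (∀ q, vert (Z.s u) q ≠ p) ∧
      ∀ (k : Into S u a b) q, Z.darts.box k.1 q ≠ p) := by
  by_cases h : ∃ (j : Option (Into S u a b)) (q : Q), bx Z u j q = p
  · obtain ⟨j, q, hj⟩ := h
    rcases j with _ | k
    · exact Or.inl ⟨q, hj.symm⟩
    · exact Or.inr (Or.inl ⟨k, q.1, q.2, hj.symm⟩)
  · push Not at h
    exact Or.inr (Or.inr ⟨h, fun q => h none q, fun k q => h (some k) q⟩)

/-- The values of the position map: the image of `F'` is the image of `F` at these points. -/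
theorem exists_val (p : Q) :
    ∃ r : Q, H P Z u F 1 p = F r ∧
      ((∃ q, p = vert (Z.s u) q ∧ r = vert (Z.s u) (P.κ₀ q)) ∨
      (∃ (k : Into S u a b) (x y : Disc), p = Z.darts.box k.1 (x, y) ∧
        r = vert (Z.s u) (TT P u k (Z.q (S.flip k.1) y, x))) ∨
      (r = p ∧ (∀ q, vert (Z.s u) q ≠ p) ∧ ∀ (k : Into S u a b) q, Z.darts.box k.1 q ≠ p)) := by
  rcases pt_cases Z u (a := a) (b := b) p with ⟨q, rfl⟩ | ⟨k, x, y, rfl⟩ | ⟨h1, h2, h3⟩
  · exact ⟨_, H_one_unit P Z u ha hb q, Or.inl ⟨q, rfl, rfl⟩⟩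
  · exact ⟨_, H_one_dart P Z u ha hb k x y, Or.inr (Or.inl ⟨k, x, y, rfl, rfl⟩)⟩
  · exact ⟨_, H_off P Z u 1 h1, Or.inr (Or.inr ⟨rfl, h2, h3⟩)⟩

omit ha hb in
/-- A value of the position map in the box of a dart: the dart stays. -/
theorem val_dart {p r : Q} (hab : a ≠ b)
    (h : (∃ q, p = vert (Z.s u) q ∧ r = vert (Z.s u) (P.κ₀ q)) ∨
      (∃ (k : Into S u a b) (x y : Disc), p = Z.darts.box k.1 (x, y) ∧
        r = vert (Z.s u) (TT P u k (Z.q (S.flip k.1) y, x))) ∨
      (r = p ∧ (∀ q, vert (Z.s u) q ≠ p) ∧ ∀ (k : Into S u a b) q, Z.darts.box k.1 q ≠ p))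
    {k : S.K} {z : Q} (hr : r = Z.darts.box k z)
    (hk : ¬ (S.vert k = u ∧ (S.leg k = a ∨ S.leg k = b))) :
    S.vert k ≠ u ∧ ¬ (S.vert (S.flip k) = u ∧ (S.leg (S.flip k) = a ∨ S.leg (S.flip k) = b)) ∧
      p = r := by
  have hthird : ∀ q, r = vert (Z.s u) q → S.vert k = u ∧ q = L (S.leg k) (Z.q k z.1, z.2) := by
    intro q hq
    rw [hr] at hq
    have h1 : S.vert k = u := Z.fam.vert_disj _ _ _ _ hq
    refine ⟨h1, ?_⟩
    rw [show Z.darts.box k z = vert (Z.s (S.vert k)) (L (S.leg k) (Z.q k z.1, z.2)) from rfl,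
      h1] at hq
    exact (vert_inj (Z.fam.isSq u).inj hq).symm
  rcases h with ⟨q, rfl, h2⟩ | ⟨l, x, y, rfl, h2⟩ | ⟨h1, h2, h3⟩
  · exfalso
    obtain ⟨h3, h4⟩ := hthird _ h2
    have h5 : S.leg k ≠ a ∧ S.leg k ≠ b := by
      constructor <;> intro h6 <;> exact hk ⟨h3, by simp [h6]⟩
    exact P.κ₀_miss _ h5.1 h5.2 _ _ h4
  · exfalso
    obtain ⟨h3, h4⟩ := hthird _ h2
    have h5 : S.leg k ≠ a ∧ S.leg k ≠ b := by
      constructor <;> intro h6 <;> exact hk ⟨h3, by simp [h6]⟩
    rcases l.2.2 with h6 | h6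
    · rw [TT_a P u h6] at h4
      exact P.TA_miss _ h5.1 h5.2 _ _ h4
    · rw [TT_b P u hab h6] at h4
      exact P.TB_miss _ h5.1 h5.2 _ _ h4
  · refine ⟨?_, ?_, h1.symm⟩
    · intro h4
      refine h2 (L (S.leg k) (Z.q k z.1, z.2)) ?_
      rw [← h1, hr, ← h4]
      rfl
    · intro h4
      exact h3 ⟨k, h4⟩ z (hr.symm.trans h1)

omit ha hb

theorem isReal (hF : IsReal e Z.darts F) (ha : S.NoSelf u a) (hb : S.NoSelf u b) (hab : a ≠ b) :
    IsReal e (newPos P Z u ha hb hab).darts (H P Z u F 1) where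
  cont := (continuous_H P Z u hF ha hb).comp (Continuous.prodMk_right (1 : I))
  boundary z v := by
    rw [← hF.boundary]
    refine H_off P Z u 1 ?_
    intro j q hq
    have h1 := (isBox_bx a b Z u j).mem q
    rw [hq] at h1
    exact absurd h1 (not_mem_core.2 (nm_circ z))
  glue := by
    have key : ∀ (p : S.PushPair u a b P.n) (x y : Disc),
        H P Z u F 1 (Z.darts.box p.1.1 (P.f p.1.2.2 (Z.q (S.flip p.1.2.1) x), y)) =
        H P Z u F 1 (Z.darts.box p.1.2.1 (P.f' p.1.2.2 (Z.q (S.flip p.1.1) y), x)) := by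
      rintro ⟨⟨k, m, j⟩, hk, hm⟩ x y
      have h1 := H_one_dart (F := F) P Z u ha hb (⟨k, hk.1, Or.inl hk.2⟩ : Into S u a b)
        (P.f j (Z.q (S.flip m) x)) y
      have h2 := H_one_dart (F := F) P Z u ha hb (⟨m, hm.1, Or.inr hm.2⟩ : Into S u a b)
        (P.f' j (Z.q (S.flip k) y)) x
      rw [TT_a P u (k := (⟨k, hk.1, Or.inl hk.2⟩ : Into S u a b)) hk.2] at h1
      rw [TT_b P u hab (k := (⟨m, hm.1, Or.inr hm.2⟩ : Into S u a b)) hm.2] at h2
      simp only at h1 h2 ⊢
      rw [h1, h2, (P.cross _ _ _ _).2 ⟨j, rfl, rfl⟩]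
    rintro (k | ⟨p, _ | _⟩) x y
    · have h1 := H_inl (F := F) P Z u ha hb 1 k.2.1 k.2.2 (x, y)
      have h2 := H_inl (F := F) P Z u ha hb 1 (k := S.flip k.1) k.2.2
        (by rw [S.flip_flip]; exact k.2.1) (y, x)
      change H P Z u F 1 (Z.darts.box k.1 (x, y)) = H P Z u F 1 (Z.darts.box (S.flip k.1) (y, x))
      rw [h1, h2]
      exact hF.glue _ _ _
    · exact key p x y
    · exact (key p y x).symm
  inj := by
    intro p p' h
    obtain ⟨r, hr, h1⟩ := exists_val (F := F) P Z u ha hb p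
    obtain ⟨r', hr', h1'⟩ := exists_val (F := F) P Z u ha hb p'
    rw [hr, hr'] at h
    have hinto : ∀ {k : S.K} {p r z : Q}, ((∃ q, p = vert (Z.s u) q ∧ r = vert (Z.s u) (P.κ₀ q)) ∨
      (∃ (k : Into S u a b) (x y : Disc), p = Z.darts.box k.1 (x, y) ∧
        r = vert (Z.s u) (TT P u k (Z.q (S.flip k.1) y, x))) ∨
      (r = p ∧ (∀ q, vert (Z.s u) q ≠ p) ∧ ∀ (k : Into S u a b) q, Z.darts.box k.1 q ≠ p)) →
        r = Z.darts.box k z →
        S.vert (S.flip k) = u ∧ (S.leg (S.flip k) = a ∨ S.leg (S.flip k) = b) → False := by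
      intro k p r z h1 h2 h3
      have h4 : S.vert k ≠ u := vert_ne ha hb (⟨k, h3⟩ : Into S u a b)
      rcases h1 with ⟨q, -, h1⟩ | ⟨l, x, y, -, h1⟩ | ⟨h1, -, h5⟩
      · exact box_vert_disj Z h4 z _ (h2.symm.trans h1)
      · exact box_vert_disj Z h4 z _ (h2.symm.trans h1)
      · exact h5 ⟨k, h3⟩ z (h2.symm.trans h1)
    rcases hF.inj _ _ h with h2 | ⟨k, x, y, h2, h3⟩
    · -- the same point
      rcases h1 with ⟨q, hp, h4⟩ | ⟨k, x, y, hp, h4⟩ | ⟨h4, h5, h6⟩ <;>
        rcases h1' with ⟨q', hp', h4'⟩ | ⟨k', x', y', hp', h4'⟩ | ⟨h4', h5', h6'⟩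
      · left
        rw [hp, hp', P.mor.inj (vert_inj (Z.fam.isSq u).inj (h4.symm.trans (h2.trans h4')))]
      · exfalso
        have h7 := vert_inj (Z.fam.isSq u).inj (h4.symm.trans (h2.trans h4'))
        rcases k'.2.2 with h8 | h8
        · rw [TT_a P u h8] at h7
          exact P.κ₀_TA _ _ h7
        · rw [TT_b P u hab h8] at h7
          exact P.κ₀_TB _ _ h7
      · exact absurd (h4.symm.trans (h2.trans h4')) (h5' _)
      · exfalso
        have h7 := (vert_inj (Z.fam.isSq u).inj (h4.symm.trans (h2.trans h4'))).symm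
        rcases k.2.2 with h8 | h8
        · rw [TT_a P u h8] at h7
          exact P.κ₀_TA _ _ h7
        · rw [TT_b P u hab h8] at h7
          exact P.κ₀_TB _ _ h7
      · have h7 := vert_inj (Z.fam.isSq u).inj (h4.symm.trans (h2.trans h4'))
        have hsame : S.leg (S.flip k.1) = S.leg (S.flip k'.1) →
            (Z.q (S.flip k.1) y, x) = (Z.q (S.flip k'.1) y', x') → p = p' := by
          intro h8 h9
          rw [Prod.mk.injEq] at h9
          have h10 := Z.disj _ _ _ _ (k.2.1.trans k'.2.1.symm) h8 h9.1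
          have h11 : k = k' := by
            apply Subtype.ext
            rw [← S.flip_flip k.1, h10, S.flip_flip]
          subst h11
          rw [hp, hp', (Z.isSq _).inj h9.1, h9.2]
        rcases k.2.2 with h8 | h8 <;> rcases k'.2.2 with h8' | h8'
        · rw [TT_a P u h8, TT_a P u h8'] at h7
          exact Or.inl (hsame (h8.trans h8'.symm) (P.inj_TA h7))
        · right
          rw [TT_a P u h8, TT_b P u hab h8'] at h7
          obtain ⟨j, h9, h10⟩ := (P.cross _ _ _ _).1 h7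
          refine ⟨.inr (⟨(k.1, k'.1, j), ⟨k.2.1, h8⟩, k'.2.1, h8'⟩, false), y', y, ?_, ?_⟩
          · rw [hp, h9]; rfl
          · rw [hp', h10]; rfl
        · right
          rw [TT_b P u hab h8, TT_a P u h8'] at h7
          obtain ⟨j, h9, h10⟩ := (P.cross _ _ _ _).1 h7.symm
          refine ⟨.inr (⟨(k'.1, k.1, j), ⟨k'.2.1, h8'⟩, k.2.1, h8⟩, true), y', y, ?_, ?_⟩
          · rw [hp, h10]; rfl
          · rw [hp', h9]; rfl
        · rw [TT_b P u hab h8, TT_b P u hab h8'] at h7
          exact Or.inl (hsame (h8.trans h8'.symm) (P.inj_TB h7))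
      · exact absurd (h4.symm.trans (h2.trans h4')) (h5' _)
      · exact absurd (h4'.symm.trans (h2.symm.trans h4)) (h5 _)
      · exact absurd (h4'.symm.trans (h2.symm.trans h4)) (h5 _)
      · left
        rw [← h4, ← h4', h2]
    · -- a double point of the old system
      have h4 : ¬ (S.vert k = u ∧ (S.leg k = a ∨ S.leg k = b)) := by
        intro h5
        refine hinto h1' h3 ?_
        change S.vert (S.flip (S.flip k)) = u ∧ (S.leg (S.flip (S.flip k)) = a ∨
          S.leg (S.flip (S.flip k)) = b)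
        rwa [S.flip_flip]
      have h4' : ¬ (S.vert (S.flip k) = u ∧ (S.leg (S.flip k) = a ∨ S.leg (S.flip k) = b)) :=
        fun h5 => hinto h1 h2 h5
      have h5 := val_dart P Z u hab h1 h2 h4
      have h5' := val_dart P Z u hab h1' h3 h4'
      right
      exact ⟨.inl ⟨k, h5.1, h5'.1⟩, x, y, h5.2.2.trans h2, h5'.2.2.trans h3⟩

/-! ### The labels -/

/-- The potential of the new map. -/
theorem exists_pot {c : Coc X Γ} (hF : IsReal e Z.darts F) (ha : S.NoSelf u a)
    (hb : S.NoSelf u b) {h : Q → Γ} (hp : IsPot c F h) :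
    ∃ h' : Q → Γ, IsPot c (H P Z u F 1) h' ∧
      (∀ (k : Into S u a b) (x y : Disc), h' (Z.darts.box k.1 (x, y)) =
        h (Z.darts.box k.1 (x, y)) * (h (Z.darts.box (S.flip k.1) (y, x)))⁻¹ *
          h (vert (Z.s u) (TT P u k (Z.q (S.flip k.1) y, x)))) ∧
      ∀ p, (∀ (j : Option (Into S u a b)) q, bx Z u j q ≠ p) → h' p = h p := by
  have hH := continuous_H P Z u hF ha hb
  have h0 : ∀ p, H P Z u F 0 p = F p := by
    intro p
    by_cases hp : ∃ (j : Option (Into S u a b)) (q : Q), bx Z u j q = p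
    · obtain ⟨j, q, rfl⟩ := hp
      rw [H_box P Z u ha hb]
      rcases j with _ | k
      · rw [G, mixQ_zero]; rfl
      · obtain ⟨x, y⟩ := q
        rw [G_zero_some]
        exact (hF.glue k.1 x y).symm
    · push Not at hp
      exact H_off P Z u 0 hp
  let o : Q := (Disc.zero, Disc.zero)
  have : ContractibleSpace I := (convex_Icc (0 : ℝ) 1).contractibleSpace ⟨0, by simp⟩
  obtain ⟨η, hη, hη0⟩ := exists_isPot c (fun z : I × Q => H P Z u F z.1 z.2) hH (0, o) (h o)
  have hslice0 : IsPot c F (fun p => η (0, p)) := by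
    refine (hη.comp hH (g := fun p : Q => ((0 : I), p)) (by fun_prop)).congr ?_ (fun _ => rfl)
    exact h0
  have hη1 : ∀ p, η (0, p) = h p := by
    intro p
    have h1 := hp.unique hF.cont hslice0 o p
    rw [hη0, mul_inv_cancel] at h1
    exact mul_inv_eq_one.1 h1
  refine ⟨fun p => η (1, p), hη.comp hH (g := fun p : Q => ((1 : I), p)) (by fun_prop), ?_, ?_⟩
  · intro k x y
    -- the path `t ↦ (t, box k (x, y))`
    let γ : Path ((0 : I), Z.darts.box k.1 (x, y)) ((1 : I), Z.darts.box k.1 (x, y)) :=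
      { toFun := fun t => (t, Z.darts.box k.1 (x, y))
        continuous_toFun := by fun_prop
        source' := rfl
        target' := rfl }
    let γ' : Path (G P Z u 0 (some k) (x, y)) (G P Z u 1 (some k) (x, y)) :=
      { toFun := fun t => G P Z u t (some k) (x, y)
        continuous_toFun := (continuous_G P Z u (some k)).comp
          (Continuous.prodMk continuous_id continuous_const)
        source' := rfl
        target' := rfl }
    have h1 := hη.eq_of_comp hH hF.cont hp γ γ' (fun t => H_dart P Z u ha hb t k (x, y))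
    rw [hη1, G_zero_some] at h1
    have h2 : G P Z u 1 (some k) (x, y) = vert (Z.s u) (TT P u k (Z.q (S.flip k.1) y, x)) := by
      rw [G, mixQ_one]
    rw [h2] at h1
    rw [mul_assoc, ← h1, mul_inv_cancel_left]
  · intro p hoff
    let γ : Path ((0 : I), p) ((1 : I), p) :=
      { toFun := fun t => (t, p)
        continuous_toFun := by fun_prop
        source' := rfl
        target' := rfl }
    have h1 := hη.eq_of_const hH γ (fun t => by
      change H P Z u F t p = H P Z u F 0 p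
      rw [H_off P Z u t hoff, H_off P Z u 0 hoff])
    exact h1.symm.trans (hη1 p)

theorem isLabel {c : Coc X Γ} (hF : IsReal e Z.darts F) (ha : S.NoSelf u a)
    (hb : S.NoSelf u b) (hab : a ≠ b) (ht : IsLabel c Z.darts F S.t) :
    IsLabel c (newPos P Z u ha hb hab).darts (H P Z u F 1) (S.push u a b P.n ha hb).t := by
  obtain ⟨h, hp, hl⟩ := ht
  obtain ⟨h', hp', hin, hoff⟩ := exists_pot P Z u hF ha hb hp
  refine ⟨h', hp', ?_⟩
  have hin' : ∀ (k : Into S u a b) (x y : Disc), h' (Z.darts.box k.1 (x, y)) =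
      S.t k.1 * h (vert (Z.s u) (TT P u k (Z.q (S.flip k.1) y, x))) := by
    intro k x y
    have h1 := hl k.1 x y
    rw [Z.darts_flip] at h1
    rw [hin, h1, mul_inv_cancel_right]
  have key : ∀ (p : S.PushPair u a b P.n) (x y : Disc),
      h' (Z.darts.box p.1.1 (P.f p.1.2.2 (Z.q (S.flip p.1.2.1) x), y)) =
      S.t p.1.1 * (S.t p.1.2.1)⁻¹ *
        h' (Z.darts.box p.1.2.1 (P.f' p.1.2.2 (Z.q (S.flip p.1.1) y), x)) := by
    rintro ⟨⟨k, m, j⟩, hk, hm⟩ x y
    have h1 := hin' (⟨k, hk.1, Or.inl hk.2⟩ : Into S u a b) (P.f j (Z.q (S.flip m) x)) y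
    have h2 := hin' (⟨m, hm.1, Or.inr hm.2⟩ : Into S u a b) (P.f' j (Z.q (S.flip k) y)) x
    rw [TT_a P u (k := (⟨k, hk.1, Or.inl hk.2⟩ : Into S u a b)) hk.2] at h1
    rw [TT_b P u hab (k := (⟨m, hm.1, Or.inr hm.2⟩ : Into S u a b)) hm.2] at h2
    simp only at h1 h2 ⊢
    rw [h1, h2, (P.cross _ _ _ _).2 ⟨j, rfl, rfl⟩]
    group
  rintro (k | ⟨p, _ | _⟩) x y
  · have h1 := hoff _ (box_off Z u k.2.1 k.2.2 (x, y))
    have h2 := hoff _ (box_off Z u (k := S.flip k.1) k.2.2
      (by rw [S.flip_flip]; exact k.2.1) (y, x))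
    change h' (Z.darts.box k.1 (x, y)) = S.t k.1 * h' (Z.darts.box (S.flip k.1) (y, x))
    rw [h1, h2]
    exact hl k.1 x y
  · exact key p x y
  · have h1 := key p y x
    change h' (Z.darts.box p.1.2.1 (P.f' p.1.2.2 (Z.q (S.flip p.1.1) x), y)) =
      S.t p.1.2.1 * (S.t p.1.1)⁻¹ *
        h' (Z.darts.box p.1.1 (P.f p.1.2.2 (Z.q (S.flip p.1.2.1) y), x))
    rw [h1]
    group

end SysPush

/-- **The push-off of a realized labelled system.** -/
theorem Rz.push {Γ : Type} [Group Γ] {L : Fin 3 → Q → Q} {a b : Fin 3} (hab : a ≠ b)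
    (P : PushDatum L a b) {X : Type} [TopologicalSpace X] {e : Circ × Disc → X} {c : Coc X Γ}
    {S : LabSys Γ} {u : S.V} (ha : S.NoSelf u a) (hb : S.NoSelf u b) (h : Rz e c L S) :
    Rz e c L (S.push u a b P.n ha hb) := by
  obtain ⟨Z, F, hF, ht⟩ := h
  exact ⟨SysPush.newPos P Z u ha hb hab, SysPush.H P Z u F 1,
    SysPush.isReal P Z u hF ha hb hab, SysPush.isLabel P Z u hF ha hb hab ht⟩

end Vale.Agent.P215.Am
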