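import Vale.Agent.P215.Am.ThDefs
import Vale.Agent.P215.H788.Defs

/-!
# P215, route A: positions in the square `[0, L]²`

`posL L` maps the normalised square `[-1, 1]²` to the square `[0, L]²`: the left and right segments
`{∓1} × [-1/2, 1/2]` go to `{0} × [1, 3]`, `{L} × [1, 3]`, and `[-1/64, 1/64]²` goes affinely to
`[1, L - 1] × [1, 3]`.
-/

set_option linter.unusedVariables false

noncomputable section

namespace Vale.Agent.P215.Am.Th

open Vale.Agent.P215

/-- The sup norm. -/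
def nrm (P : ℝ × ℝ) : ℝ := max |P.1| |P.2|

/-- The height of the point `t` of a vertical side: `-1, -1/2, 1/2, 1` go to `0, 1, 3, L`. -/
def yv (L t : ℝ) : ℝ := 2 * (t + 1) + max 0 (t - 1 / 2) * (2 * L - 8)

/-- The distance parameter. -/
def pm (P : ℝ × ℝ) : ℝ := (max (nrm P) (1 / 64) - 1 / 64) * (64 / 63)

/-- The position in the square `[0, L]²`. -/
def posL (L : ℝ) (P : ℝ × ℝ) : ℝ × ℝ :=
  (L / 2 + P.1 / max (nrm P) (1 / 64) * (L / 2 - 1 + pm P),
    (1 - pm P) * (2 + P.2 / max (nrm P) (1 / 64)) + pm P * yv L (P.2 / max (nrm P) (1 / 64)))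

theorem continuous_posL (L : ℝ) : Continuous (posL L) := by
  have h : ∀ P : ℝ × ℝ, max (nrm P) (1 / 64) ≠ 0 := fun P =>
    (lt_of_lt_of_le (by norm_num) (le_max_right _ _)).ne'
  have hn : Continuous fun P : ℝ × ℝ => max (nrm P) (1 / 64) := by unfold nrm; fun_prop
  have h1 : Continuous fun P : ℝ × ℝ => P.1 / max (nrm P) (1 / 64) := continuous_fst.div hn h
  have h2 : Continuous fun P : ℝ × ℝ => P.2 / max (nrm P) (1 / 64) := continuous_snd.div hn h
  have h3 : Continuous pm := by unfold pm; fun_prop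
  unfold posL yv
  fun_prop

section Aux

variable {P : ℝ × ℝ}

theorem lp_pos (P : ℝ × ℝ) : 0 < max (nrm P) (1 / 64) :=
  lt_of_lt_of_le (by norm_num) (le_max_right _ _)

theorem hat1_le (P : ℝ × ℝ) : |P.1 / max (nrm P) (1 / 64)| ≤ 1 := by
  rw [abs_div, abs_of_pos (lp_pos P), div_le_one (lp_pos P)]
  exact (le_max_left _ _).trans (le_max_left _ _)

theorem hat2_le (P : ℝ × ℝ) : |P.2 / max (nrm P) (1 / 64)| ≤ 1 := by
  rw [abs_div, abs_of_pos (lp_pos P), div_le_one (lp_pos P)]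
  exact (le_max_right _ _).trans (le_max_left _ _)

theorem pm_nonneg (P : ℝ × ℝ) : 0 ≤ pm P := by
  unfold pm
  have : 1 / 64 ≤ max (nrm P) (1 / 64) := le_max_right _ _
  nlinarith

theorem pm_le_one (h : nrm P ≤ 1) : pm P ≤ 1 := by
  unfold pm
  have : max (nrm P) (1 / 64) ≤ 1 := max_le h (by norm_num)
  nlinarith

theorem lp_eq (P : ℝ × ℝ) : max (nrm P) (1 / 64) = 1 / 64 + 63 / 64 * pm P := by
  unfold pm
  ring

theorem pm_one (h : nrm P = 1) : pm P = 1 := by
  unfold pm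
  rw [h]
  norm_num

theorem hat_one (h : 0 < pm P) : |P.1 / max (nrm P) (1 / 64)| = 1 ∨
    P.2 / max (nrm P) (1 / 64) = 1 ∨ P.2 / max (nrm P) (1 / 64) = -1 := by
  have h1 : max (nrm P) (1 / 64) = nrm P := by
    rcases max_choice (nrm P) (1 / 64) with h1 | h1
    · exact h1
    · unfold pm at h
      rw [h1] at h
      norm_num at h
  have h2 := lp_pos P
  rw [h1] at h2 ⊢
  rcases max_choice |P.1| |P.2| with h3 | h3
  · left
    rw [abs_div, abs_of_pos h2]
    unfold nrm at h2 ⊢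
    rw [h3] at h2 ⊢
    exact div_self h2.ne'
  · right
    have h4 : |P.2 / nrm P| = 1 := by
      rw [abs_div, abs_of_pos h2]
      unfold nrm at h2 ⊢
      rw [h3] at h2 ⊢
      exact div_self h2.ne'
    exact eq_or_eq_neg_of_abs_eq h4

theorem yv_strictMono {L s t : ℝ} (hL : 8 ≤ L) (h : s < t) : yv L s < yv L t := by
  unfold yv
  have : max 0 (s - 1 / 2) ≤ max 0 (t - 1 / 2) := max_le_max le_rfl (by linarith)
  nlinarith

theorem yv_mem {L t : ℝ} (hL : 8 ≤ L) (h : |t| ≤ 1) : 0 ≤ yv L t ∧ yv L t ≤ L := by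
  have h1 := abs_le.1 h
  unfold yv
  rcases le_total t (1 / 2) with h2 | h2
  · rw [max_eq_left (by linarith)]
    constructor <;> linarith
  · rw [max_eq_right (by linarith)]
    constructor <;> nlinarith

theorem sec_strictMono {L m s t : ℝ} (hL : 8 ≤ L) (hm : 0 ≤ m) (hm1 : m ≤ 1) (h : s < t) :
    (1 - m) * (2 + s) + m * yv L s < (1 - m) * (2 + t) + m * yv L t := by
  have h1 := yv_strictMono hL h
  rcases hm.eq_or_lt with h2 | h2
  · rw [← h2]; linarith
  · nlinarith [mul_lt_mul_of_pos_left h1 h2]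

theorem yv_one (L : ℝ) : yv L 1 = L := by
  unfold yv
  rw [max_eq_right (by norm_num)]
  ring

theorem yv_neg_one (L : ℝ) : yv L (-1) = 0 := by
  unfold yv
  rw [max_eq_left (by norm_num)]
  ring

theorem sec_mem {L m t : ℝ} (hL : 8 ≤ L) (hm : 0 ≤ m) (hm1 : m ≤ 1) (h : |t| ≤ 1) :
    1 - m ≤ (1 - m) * (2 + t) + m * yv L t ∧
      (1 - m) * (2 + t) + m * yv L t ≤ 3 + m * (L - 3) := by
  have h1 := abs_le.1 h
  have h2 := yv_mem hL h
  constructor
  · nlinarith [mul_nonneg hm h2.1, mul_nonneg (sub_nonneg.2 hm1) (by linarith : (0 : ℝ) ≤ 1 + t)]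
  · nlinarith [mul_le_mul_of_nonneg_left h2.2 hm,
      mul_nonneg (sub_nonneg.2 hm1) (by linarith : (0 : ℝ) ≤ 1 - t)]

theorem pm_le_of_eq {L : ℝ} (hL : 8 ≤ L) {P P' : ℝ × ℝ} (h : nrm P ≤ 1) (h' : nrm P' ≤ 1)
    (e : posL L P = posL L P') : pm P' ≤ pm P := by
  by_contra hlt
  push Not at hlt
  have h0 := pm_nonneg P
  have h1 := pm_le_one h
  have h1' := pm_le_one h'
  have e1 : P.1 / max (nrm P) (1 / 64) * (L / 2 - 1 + pm P) =
      P'.1 / max (nrm P') (1 / 64) * (L / 2 - 1 + pm P') := by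
    have := congrArg Prod.fst e
    simp only [posL] at this
    linarith
  have e2 := congrArg Prod.snd e
  simp only [posL] at e2
  have b := sec_mem hL h0 h1 (hat2_le P)
  rcases hat_one (h0.trans_lt hlt) with h2 | h2 | h2
  · have h3 := congrArg abs e1
    rw [abs_mul, abs_mul, h2, abs_of_pos (by linarith : 0 < L / 2 - 1 + pm P),
      abs_of_pos (by linarith : 0 < L / 2 - 1 + pm P')] at h3
    have h4 := hat1_le P
    nlinarith
  · rw [h2, yv_one] at e2
    nlinarith
  · rw [h2, yv_neg_one] at e2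
    nlinarith

end Aux

theorem posL_inj {L : ℝ} (hL : 8 ≤ L) {P P' : ℝ × ℝ} (h : nrm P ≤ 1) (h' : nrm P' ≤ 1)
    (e : posL L P = posL L P') : P = P' := by
  have hpm : pm P = pm P' := le_antisymm (pm_le_of_eq hL h' h e.symm) (pm_le_of_eq hL h h' e)
  have hl : max (nrm P) (1 / 64) = max (nrm P') (1 / 64) := by rw [lp_eq, lp_eq, hpm]
  have h0 := pm_nonneg P'
  have h1 := pm_le_one h'
  have e1 := congrArg Prod.fst e
  have e2 := congrArg Prod.snd e
  simp only [posL] at e1 e2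
  rw [hpm, hl] at e1 e2
  have hlp := lp_pos P'
  refine Prod.ext ?_ ?_
  · have h3 : P.1 / max (nrm P') (1 / 64) = P'.1 / max (nrm P') (1 / 64) := by
      have h4 : L / 2 - 1 + pm P' ≠ 0 := by linarith
      exact mul_right_cancel₀ h4 (by linarith)
    exact (div_left_inj' hlp.ne').1 h3
  · have h3 : P.2 / max (nrm P') (1 / 64) = P'.2 / max (nrm P') (1 / 64) := by
      rcases lt_trichotomy (P.2 / max (nrm P') (1 / 64)) (P'.2 / max (nrm P') (1 / 64)) with
        h4 | h4 | h4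
      · exact absurd e2 (sec_strictMono hL h0 h1 h4).ne
      · exact h4
      · exact absurd e2 (sec_strictMono hL h0 h1 h4).ne'
    exact (div_left_inj' hlp.ne').1 h3

theorem posL_mem {L : ℝ} (hL : 8 ≤ L) {P : ℝ × ℝ} (h : nrm P ≤ 1) : posL L P ∈ H788.Sq L := by
  have h0 := pm_nonneg P
  have h1 := pm_le_one h
  have h2 := abs_le.1 (hat1_le P)
  have h3 := sec_mem hL h0 h1 (hat2_le P)
  unfold posL H788.Sq
  refine ⟨⟨?_, ?_⟩, ⟨?_, ?_⟩⟩
  · change 0 ≤ L / 2 + P.1 / max (nrm P) (1 / 64) * (L / 2 - 1 + pm P)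
    nlinarith
  · change L / 2 + P.1 / max (nrm P) (1 / 64) * (L / 2 - 1 + pm P) ≤ L
    nlinarith
  · exact (by linarith : (0 : ℝ) ≤ 1 - pm P).trans h3.1
  · refine h3.2.trans ?_
    nlinarith

theorem posL_of_nrm_one {L : ℝ} {P : ℝ × ℝ} (h : nrm P = 1) :
    posL L P = (L / 2 + P.1 * (L / 2), yv L P.2) := by
  unfold posL
  rw [pm_one h, h, max_eq_left (by norm_num : (1 / 64 : ℝ) ≤ 1)]
  refine Prod.ext ?_ ?_
  · change L / 2 + P.1 / 1 * (L / 2 - 1 + 1) = L / 2 + P.1 * (L / 2)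
    rw [div_one]
    ring
  · change (1 - 1) * (2 + P.2 / 1) + 1 * yv L (P.2 / 1) = yv L P.2
    rw [div_one]
    ring

theorem posL_bd {L : ℝ} (hL : 8 ≤ L) {P : ℝ × ℝ} (h : nrm P = 1) : posL L P ∈ H788.bdSq L := by
  refine ⟨posL_mem hL h.le, ?_⟩
  rw [posL_of_nrm_one h]
  unfold nrm at h
  rcases max_choice |P.1| |P.2| with h1 | h1
  · rw [h1] at h
    rcases eq_or_eq_neg_of_abs_eq h with h2 | h2
    · right; left
      change L / 2 + P.1 * (L / 2) = L
      rw [h2]; ring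
    · left
      change L / 2 + P.1 * (L / 2) = 0
      rw [h2]; ring
  · rw [h1] at h
    rcases eq_or_eq_neg_of_abs_eq h with h2 | h2
    · right; right; right
      change yv L P.2 = L
      rw [h2, yv_one]
    · right; right; left
      change yv L P.2 = 0
      rw [h2, yv_neg_one]

theorem yv_mid {L t : ℝ} (h : |t| ≤ 1 / 2) : yv L t = 2 + 2 * t := by
  unfold yv
  rw [max_eq_left (by linarith [abs_le.1 h])]
  ring

/-- left segment -/
theorem posL_left {L t : ℝ} (hL : 8 ≤ L) (h : |t| ≤ 1 / 2) : posL L (-1, t) = (0, 2 + 2 * t) := by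
  have h1 : nrm (-1, t) = 1 := by
    unfold nrm
    rw [abs_neg, abs_one]
    exact max_eq_left (by linarith)
  rw [posL_of_nrm_one h1, yv_mid h]
  refine Prod.ext ?_ rfl
  change L / 2 + -1 * (L / 2) = 0
  ring

/-- root segment -/
theorem posL_right {L t : ℝ} (hL : 8 ≤ L) (h : |t| ≤ 1 / 2) : posL L (1, t) = (L, 2 + 2 * t) := by
  have h1 : nrm (1, t) = 1 := by
    unfold nrm
    rw [abs_one]
    exact max_eq_left (by linarith)
  rw [posL_of_nrm_one h1, yv_mid h]
  refine Prod.ext ?_ rfl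
  change L / 2 + 1 * (L / 2) = L
  ring

/-- only the open root segment goes to the open root segment -/
theorem posL_root {L : ℝ} (hL : 8 ≤ L) {P : ℝ × ℝ} (h : nrm P = 1) (h1 : (posL L P).1 = L)
    (h2 : (posL L P).2 ∈ Set.Ioo 1 3) : P.1 = 1 ∧ |P.2| < 1 / 2 := by
  rw [posL_of_nrm_one h] at h1 h2
  change L / 2 + P.1 * (L / 2) = L at h1
  change yv L P.2 ∈ Set.Ioo 1 3 at h2
  constructor
  · have : P.1 * (L / 2) = 1 * (L / 2) := by linarith
    exact mul_right_cancel₀ (by linarith : L / 2 ≠ 0) this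
  · have e1 : yv L (-1 / 2) = 1 := by
      rw [yv_mid (by rw [abs_le]; constructor <;> norm_num)]
      norm_num
    have e2 : yv L (1 / 2) = 3 := by
      rw [yv_mid (by rw [abs_le]; constructor <;> norm_num)]
      norm_num
    rw [abs_lt]
    constructor
    · by_contra h3
      push Not at h3
      have : yv L P.2 ≤ yv L (-1 / 2) := by
        rcases (show P.2 ≤ -1 / 2 by linarith).eq_or_lt with h4 | h4
        · rw [h4]
        · exact (yv_strictMono hL h4).le
      rw [e1] at this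
      linarith [h2.1]
    · by_contra h3
      push Not at h3
      have : yv L (1 / 2) ≤ yv L P.2 := by
        rcases h3.eq_or_lt with h4 | h4
        · rw [h4]
        · exact (yv_strictMono hL h4).le
      rw [e2] at this
      linarith [h2.2]

/-- in the middle -/
theorem posL_mid {L : ℝ} (hL : 8 ≤ L) {a b : ℝ} (ha : |a| ≤ 1) (hb : |b| ≤ 1) :
    posL L (a / 64, b / 64) = (L / 2 + a * (L / 2 - 1), 2 + b) := by
  have h1 : nrm (a / 64, b / 64) ≤ 1 / 64 := by
    unfold nrm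
    rw [abs_div, abs_div, abs_of_pos (by norm_num : (0 : ℝ) < 64)]
    exact max_le (by linarith) (by linarith)
  have h2 : pm (a / 64, b / 64) = 0 := by
    unfold pm
    rw [max_eq_right h1]
    ring
  unfold posL
  rw [h2, max_eq_right h1]
  refine Prod.ext ?_ ?_
  · change L / 2 + a / 64 / (1 / 64) * (L / 2 - 1 + 0) = L / 2 + a * (L / 2 - 1)
    ring
  · change (1 - 0) * (2 + b / 64 / (1 / 64)) + 0 * yv L (b / 64 / (1 / 64)) = 2 + b
    ring

end Vale.Agent.P215.Am.Th
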