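import Vale.Agent.P215.Am.SplitAll
import Vale.Agent.P215.Am.ContractAll
import Vale.Agent.P215.Am.Tower

/-!
# P215, route A: the assembly

`good_of_pieces`: an amenable group is good, given

* three leg boxes `L` with `LegSplit`, `LegContract` and `PushDatum` (`ThreeLeg.lean`, from the
  two-leg data);
* the push-off of realized systems (`SysPush.lean`);
* the initial system of a capped grope (`Init.lean`, `Start.lean`);
* the rule (`RuleStatement`: `Rank.lean`, `Flow.lean`).
-/

noncomputable section

namespace Vale.Agent.P215.Am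

open Vale.Agent.P215.H788 Set Topology

/-- The local data of the three-legged piece. -/
structure ThreeLegData (L : Fin 3 → Q → Q) : Prop where
  legs : IsLegs L
  split : ∀ (i : Fin 3) (D : Type) [Finite D] (q : D → Disc → Disc), (∀ d, IsXSq (q d)) →
    (∀ d d' x y, (q d x).1.1 = (q d' y).1.1 → d = d') → Nonempty D → Nonempty (LegSplit L i q)
  contract : ∀ i, Nonempty (LegContract L i)
  push : ∀ a b, a ≠ b → Nonempty (PushDatum L a b)

/-- The push-off of realized systems. -/
def SysPushStatement (L : Fin 3 → Q → Q) : Prop :=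
  ∀ (a b : Fin 3), a ≠ b → ∀ (P : PushDatum L a b) (X : Type) [TopologicalSpace X]
    (e : Circ × Disc → X) (Γ : Type) [Group Γ] (c : Coc X Γ) (S : LabSys Γ) (u : S.V)
    (ha : S.NoSelf u a) (hb : S.NoSelf u b), Rz e c L S → Rz e c L (S.push u a b P.n ha hb)

/-- The initial system. -/
def StartStatement (L : Fin 3 → Q → Q) : Prop :=
  ∀ (G : CappedGrope) (Γ : Type) [Group Γ] (c : Coc G.Thickening Γ),
    ∃ S : LabSys Γ, RzSep G.attach c L S

/-- **The assembly.** -/
theorem good_of_pieces {L : Fin 3 → Q → Q} (hL : ThreeLegData L) (hpush : SysPushStatement L)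
    (hstart : StartStatement L) (hrule : RuleStatement) (Γ : Type) [Group Γ] (hΓ : Amenable Γ) :
    Good Γ := by
  intro G φ
  obtain ⟨S₀, h₀⟩ := hstart G Γ (Coc.ofHom φ)
  obtain ⟨S, hS1, hS2⟩ := comb_of_rule hrule Γ hΓ (RzSep G.attach (Coc.ofHom φ) L)
    (Rz G.attach (Coc.ofHom φ) L)
    (fun S v l h hv => h.remove v (hL.contract l).some hv)
    (fun S i h hf => h.split i (fun D _ q h1 h2 h3 => hL.split i D q h1 h2 h3) hf)
    (fun S h => h.rz)
    (fun S u a b hab ha hb h =>
      ⟨_, hpush a b hab (hL.push a b hab).some _ _ Γ _ S u ha hb h⟩)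
    S₀ h₀
  exact hS1.final (fun i => (hL.contract i).some) φ hS2

end Vale.Agent.P215.Am
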