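import Mathlib

/-!
# The planar dome map used for the push-off

`(z, w) ↦ (lamZ z w, lamW z w)` is an injective continuous map of the plane, the identity for
`z = 1` and for `|w| = 1`, which lifts everything at `|w| ≤ 1/8` above the height `5/8`, and which
maps the part of the band `-3/8 ≤ z ≤ -1/8` that lands in `1/8 ≤ z ≤ 3/8` to vertical walls
`w = ± (1/2 + (z + 1/4)/2)` in an exactly rectangular way.
-/

noncomputable section

namespace Vale.Agent.P215.Am.Push1

/-- A trapezoid function supported in `[0, 1]`, equal to `1` on `[1/4, 3/4]`. -/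
def trap (t : ℝ) : ℝ := max 0 (min (min (4 * t) 1) (4 - 4 * t))

/-- Its odd extension. -/
def sig (t : ℝ) : ℝ := trap t - trap (-t)

def cfun (z : ℝ) : ℝ := max (-1/16) (min ((z + 1/4) / 2) ((1 - z) / 18))

def kfun (z : ℝ) : ℝ := max (-1/16) (min (min (z / 2 - 1/8) (1/16)) ((1 - z) / 8))

def lfun (w : ℝ) : ℝ := max 0 (min 1 (2 * (3/4 - |w|)))

def mfun (z : ℝ) : ℝ := min 1 ((1 - z) * (8/9))

def w1 (z w : ℝ) : ℝ := w + cfun z * sig w

def lamZ (z w : ℝ) : ℝ := z + lfun (w1 z w) * mfun z

def lamW (z w : ℝ) : ℝ := w1 z w + kfun (lamZ z w) * sig (w1 z w)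

theorem abs_max_sub_max_le' (a b c d K : ℝ) (h1 : |a - c| ≤ K) (h2 : |b - d| ≤ K) :
    |max a b - max c d| ≤ K :=
  (abs_max_sub_max_le_max a b c d).trans (max_le h1 h2)

theorem abs_min_sub_min_le' (a b c d K : ℝ) (h1 : |a - c| ≤ K) (h2 : |b - d| ≤ K) :
    |min a b - min c d| ≤ K :=
  (abs_min_sub_min_le_max a b c d).trans (max_le h1 h2)

theorem trap_lip (s t : ℝ) : |trap s - trap t| ≤ 4 * |s - t| := by
  unfold trap
  apply abs_max_sub_max_le'
  · simp
  · apply abs_min_sub_min_le'
    · apply abs_min_sub_min_le'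
      · rw [← mul_sub, abs_mul]; norm_num
      · simp
    · rw [show (4 - 4 * s) - (4 - 4 * t) = -(4 * (s - t)) by ring, abs_neg, abs_mul]; norm_num

theorem sig_lip (s t : ℝ) : |sig s - sig t| ≤ 8 * |s - t| := by
  unfold sig
  have h1 := trap_lip s t
  have h2 := trap_lip (-s) (-t)
  rw [show -s - -t = -(s - t) by ring, abs_neg] at h2
  calc |trap s - trap (-s) - (trap t - trap (-t))|
      = |(trap s - trap t) - (trap (-s) - trap (-t))| := by ring_nf
    _ ≤ |trap s - trap t| + |trap (-s) - trap (-t)| := abs_sub _ _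
    _ ≤ 8 * |s - t| := by linarith

theorem inj_of_lip {g : ℝ → ℝ} {K : ℝ} (hK : K < 1) (hg : ∀ s t, |g s - g t| ≤ K * |s - t|)
    {s t : ℝ} (h : s + g s = t + g t) : s = t := by
  by_contra hne
  have h1 : 0 < |s - t| := abs_pos.2 (sub_ne_zero.2 hne)
  have h2 : |s - t| = |g s - g t| := by
    rw [show s - t = -(g s - g t) by linarith, abs_neg]
  have h3 := hg s t
  nlinarith

theorem cfun_abs (z : ℝ) : |cfun z| ≤ 1/16 := by
  unfold cfun
  rw [abs_le]
  constructor
  · exact le_trans (by norm_num) (le_max_left _ _)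
  · apply max_le (by norm_num)
    rcases le_total z (-1/8) with h | h
    · exact (min_le_left _ _).trans (by linarith)
    · exact (min_le_right _ _).trans (by linarith)

theorem kfun_abs (z : ℝ) : |kfun z| ≤ 1/16 := by
  unfold kfun
  rw [abs_le]
  constructor
  · exact le_trans (by norm_num) (le_max_left _ _)
  · apply max_le (by norm_num)
    exact (min_le_left _ _).trans (min_le_right _ _)

theorem lfun_nonneg (w : ℝ) : 0 ≤ lfun w := le_max_left _ _

theorem lfun_le_one (w : ℝ) : lfun w ≤ 1 := max_le (by norm_num) (min_le_left _ _)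

theorem mfun_lip (s t : ℝ) : |mfun s - mfun t| ≤ 8/9 * |s - t| := by
  unfold mfun
  apply abs_min_sub_min_le'
  · simp
  · rw [← sub_mul, show (1 - s - (1 - t)) = -(s - t) by ring, abs_mul, abs_neg]
    norm_num; linarith

/-- `(z, w) ↦ (lamZ z w, lamW z w)` is injective. -/
theorem lam_injective {z w z' w' : ℝ} (h1 : lamZ z w = lamZ z' w') (h2 : lamW z w = lamW z' w') :
    z = z' ∧ w = w' := by
  have e1 : w1 z w = w1 z' w' := by
    unfold lamW at h2
    rw [← h1] at h2
    refine inj_of_lip (g := fun t => kfun (lamZ z w) * sig t) (K := 1/2) (by norm_num) ?_ h2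
    intro s t
    rw [← mul_sub, abs_mul]
    have := kfun_abs (lamZ z w)
    have := sig_lip s t
    have := abs_nonneg (s - t)
    have := abs_nonneg (kfun (lamZ z w))
    have := abs_nonneg (sig s - sig t)
    nlinarith
  have e2 : z = z' := by
    unfold lamZ at h1
    rw [← e1] at h1
    refine inj_of_lip (g := fun t => lfun (w1 z w) * mfun t) (K := 8/9) (by norm_num) ?_ h1
    intro s t
    rw [← mul_sub, abs_mul, abs_of_nonneg (lfun_nonneg _)]
    have := lfun_le_one (w1 z w)
    have := mfun_lip s t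
    have := abs_nonneg (mfun s - mfun t)
    nlinarith [lfun_nonneg (w1 z w)]
  refine ⟨e2, ?_⟩
  subst e2
  unfold w1 at e1
  refine inj_of_lip (g := fun t => cfun z * sig t) (K := 1/2) (by norm_num) ?_ e1
  intro s t
  rw [← mul_sub, abs_mul]
  have := cfun_abs z
  have := sig_lip s t
  have := abs_nonneg (s - t)
  have := abs_nonneg (cfun z)
  have := abs_nonneg (sig s - sig t)
  nlinarith

@[fun_prop]
theorem continuous_trap : Continuous trap := by unfold trap; fun_prop

@[fun_prop]
theorem continuous_sig : Continuous sig := by unfold sig; fun_prop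

@[fun_prop]
theorem continuous_cfun : Continuous cfun := by unfold cfun; fun_prop

@[fun_prop]
theorem continuous_kfun : Continuous kfun := by unfold kfun; fun_prop

@[fun_prop]
theorem continuous_lfun : Continuous lfun := by unfold lfun; fun_prop

@[fun_prop]
theorem continuous_mfun : Continuous mfun := by unfold mfun; fun_prop

theorem continuous_lamZ : Continuous fun p : ℝ × ℝ => lamZ p.1 p.2 := by
  unfold lamZ w1; fun_prop

theorem continuous_lamW : Continuous fun p : ℝ × ℝ => lamW p.1 p.2 := by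
  unfold lamW lamZ w1; fun_prop


/-! ### Values -/

theorem trap_of_nonpos {t : ℝ} (h : t ≤ 0) : trap t = 0 := by
  unfold trap
  apply max_eq_left
  exact (min_le_left _ _).trans ((min_le_left _ _).trans (by linarith))

theorem trap_of_ge_one {t : ℝ} (h : 1 ≤ t) : trap t = 0 := by
  unfold trap
  apply max_eq_left
  exact (min_le_right _ _).trans (by linarith)

theorem trap_mid {t : ℝ} (h1 : 1/4 ≤ t) (h2 : t ≤ 3/4) : trap t = 1 := by
  unfold trap
  rw [min_eq_right (show (1:ℝ) ≤ 4 * t by linarith), min_eq_left (show (1:ℝ) ≤ 4 - 4 * t by linarith)]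
  norm_num

theorem trap_nonneg (t : ℝ) : 0 ≤ trap t := le_max_left _ _

theorem trap_le_one (t : ℝ) : trap t ≤ 1 :=
  max_le (by norm_num) ((min_le_left _ _).trans (min_le_right _ _))

theorem trap_le_end {t : ℝ} (h : t ≤ 1) : trap t ≤ 4 * (1 - t) :=
  max_le (by linarith) ((min_le_right _ _).trans (by linarith))

theorem sig_neg (t : ℝ) : sig (-t) = - sig t := by unfold sig; rw [neg_neg]; ring

theorem sig_of_nonneg {t : ℝ} (h : 0 ≤ t) : sig t = trap t := by
  unfold sig; rw [trap_of_nonpos (show -t ≤ 0 by linarith)]; ring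

theorem lamZ_neg (z w : ℝ) : lamZ z (-w) = lamZ z w := by
  unfold lamZ w1 lfun
  rw [sig_neg, show -w + cfun z * -sig w = -(w + cfun z * sig w) by ring, abs_neg]

theorem lamW_neg (z w : ℝ) : lamW z (-w) = - lamW z w := by
  unfold lamW
  rw [lamZ_neg]
  unfold w1
  rw [sig_neg, show -w + cfun z * -sig w = -(w + cfun z * sig w) by ring, sig_neg]
  ring

theorem w1_nonneg {z w : ℝ} (hw : 0 ≤ w) : 0 ≤ w1 z w := by
  unfold w1
  have h1 := abs_le.1 (cfun_abs z)
  rw [sig_of_nonneg hw]
  have h2 : trap w ≤ 4 * w := by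
    unfold trap
    exact max_le (by linarith) ((min_le_left _ _).trans (min_le_left _ _))
  have h3 := trap_nonneg w
  nlinarith

theorem w1_le_one {z w : ℝ} (hw : 0 ≤ w) (hw1 : w ≤ 1) : w1 z w ≤ 1 := by
  unfold w1
  have h1 := abs_le.1 (cfun_abs z)
  rw [sig_of_nonneg hw]
  have h2 := trap_le_end hw1
  have h3 := trap_nonneg w
  nlinarith

/-- The map is the identity for `z = 1`. -/
theorem lam_top (w : ℝ) : lamZ 1 w = 1 ∧ lamW 1 w = w := by
  have h1 : cfun 1 = 0 := by unfold cfun; norm_num
  have h2 : mfun 1 = 0 := by unfold mfun; norm_num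
  have h3 : kfun 1 = 0 := by unfold kfun; norm_num
  have h4 : w1 1 w = w := by unfold w1; rw [h1]; ring
  have h5 : lamZ 1 w = 1 := by unfold lamZ; rw [h2]; ring
  refine ⟨h5, ?_⟩
  unfold lamW
  rw [h5, h3, h4]; ring

theorem sig_one : sig 1 = 0 := by
  rw [sig_of_nonneg (by norm_num), trap_of_ge_one (le_refl _)]

/-- The map is the identity for `|w| = 1`. -/
theorem lam_side (z : ℝ) {w : ℝ} (hw : |w| = 1) : lamZ z w = z ∧ lamW z w = w := by
  have key : lamZ z 1 = z ∧ lamW z 1 = 1 := by
    have h4 : w1 z 1 = 1 := by unfold w1; rw [sig_one]; ring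
    have h5 : lamZ z 1 = z := by
      unfold lamZ; rw [h4]; unfold lfun; norm_num
    refine ⟨h5, ?_⟩
    unfold lamW
    rw [h5, h4, sig_one]; ring
  rcases (abs_eq (by norm_num : (0:ℝ) ≤ 1)).1 hw with h | h
  · subst h; exact key
  · subst h
    rw [lamZ_neg, lamW_neg, key.1, key.2]
    exact ⟨rfl, rfl⟩

theorem lamZ_ge (z w : ℝ) (hz : z ≤ 1) : z ≤ lamZ z w := by
  unfold lamZ
  have h1 := lfun_nonneg (w1 z w)
  have h2 : 0 ≤ mfun z := by unfold mfun; exact le_min (by norm_num) (by nlinarith)
  nlinarith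

theorem lamZ_le_one (z w : ℝ) (hz : z ≤ 1) : lamZ z w ≤ 1 := by
  unfold lamZ
  have h1 := lfun_nonneg (w1 z w)
  have h1' := lfun_le_one (w1 z w)
  have h2 : mfun z ≤ (1 - z) * (8/9) := min_le_right _ _
  have h3 : 0 ≤ mfun z := by unfold mfun; exact le_min (by norm_num) (by nlinarith)
  nlinarith

theorem lamW_nonneg {z w : ℝ} (hw : 0 ≤ w) : 0 ≤ lamW z w := by
  unfold lamW
  have h0 := w1_nonneg (z := z) hw
  have h1 := abs_le.1 (kfun_abs (lamZ z w))
  rw [sig_of_nonneg h0]
  have h2 : trap (w1 z w) ≤ 4 * w1 z w := by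
    unfold trap
    exact max_le (by linarith) ((min_le_left _ _).trans (min_le_left _ _))
  have h3 := trap_nonneg (w1 z w)
  nlinarith

theorem lamW_le_one {z w : ℝ} (hw : 0 ≤ w) (hw1 : w ≤ 1) : lamW z w ≤ 1 := by
  unfold lamW
  have h0 := w1_nonneg (z := z) hw
  have h0' := w1_le_one (z := z) hw hw1
  have h1 := abs_le.1 (kfun_abs (lamZ z w))
  rw [sig_of_nonneg h0]
  have h2 := trap_le_end h0'
  have h3 := trap_nonneg (w1 z w)
  nlinarith

theorem abs_lamW_le {z w : ℝ} (hw : |w| ≤ 1) : |lamW z w| ≤ 1 := by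
  rcases le_total 0 w with h | h
  · rw [abs_of_nonneg (lamW_nonneg h)]
    exact lamW_le_one h ((le_abs_self w).trans hw)
  · have h' : 0 ≤ -w := by linarith
    have := lamW_le_one (z := z) h' ((neg_le_abs w).trans hw)
    have h2 := lamW_nonneg (z := z) h'
    rw [lamW_neg] at this h2
    rw [abs_le]; constructor <;> linarith

/-- Avoidance: points with `|lamW| ≤ 1/8` are lifted above `5/8`. -/
theorem lamZ_of_small {z w : ℝ} (hz : -3/8 ≤ z) (hw : |lamW z w| ≤ 1/8) :
    5/8 ≤ lamZ z w := by
  have h1 : |w1 z w| ≤ 3/16 := by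
    unfold lamW at hw
    have h1 := kfun_abs (lamZ z w)
    have h2 : |sig (w1 z w)| ≤ 1 := by
      unfold sig
      rw [abs_le]
      have := trap_nonneg (w1 z w)
      have := trap_nonneg (-(w1 z w))
      have := trap_le_one (w1 z w)
      have := trap_le_one (-(w1 z w))
      constructor <;> linarith
    have h3 : |kfun (lamZ z w) * sig (w1 z w)| ≤ 1/16 := by
      rw [abs_mul]
      have := abs_nonneg (kfun (lamZ z w))
      have := abs_nonneg (sig (w1 z w))
      nlinarith
    have h4 : |w1 z w| ≤ |w1 z w + kfun (lamZ z w) * sig (w1 z w)| +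
        |kfun (lamZ z w) * sig (w1 z w)| := by
      have := abs_sub (w1 z w + kfun (lamZ z w) * sig (w1 z w))
        (kfun (lamZ z w) * sig (w1 z w))
      rwa [add_sub_cancel_right] at this
    linarith
  have h2 : lfun (w1 z w) = 1 := by
    unfold lfun
    rw [min_eq_left (by linarith)]
    norm_num
  unfold lamZ
  rw [h2]
  unfold mfun
  rcases le_total z (-1/8) with h | h
  · rw [min_eq_left (by linarith)]; linarith
  · rw [min_eq_right (by linarith)]; linarith

/-- The crossing, exact form, for `w ≥ 0`. -/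
theorem lam_cross {z w : ℝ} (hz1 : -3/8 ≤ z) (hz2 : z ≤ -1/8) (hw1 : 7/16 ≤ w) (hw2 : w ≤ 9/16) :
    lamZ z w = 5/4 - 2 * w ∧ lamW z w = 1/2 + (z + 1/4) / 2 := by
  have h1 : sig w = 1 := by
    rw [sig_of_nonneg (by linarith), trap_mid (by linarith) (by linarith)]
  have h2 : cfun z = (z + 1/4) / 2 := by
    unfold cfun
    rw [min_eq_left (by linarith), max_eq_right (by linarith)]
  have h3 : w1 z w = w + (z + 1/4) / 2 := by unfold w1; rw [h1, h2]; ring
  have h4 : lfun (w1 z w) = 2 * (3/4 - (w + (z + 1/4) / 2)) := by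
    unfold lfun
    rw [h3, abs_of_nonneg (by linarith), min_eq_right (by linarith), max_eq_right (by linarith)]
  have h5 : mfun z = 1 := by unfold mfun; exact min_eq_left (by linarith)
  have h6 : lamZ z w = 5/4 - 2 * w := by unfold lamZ; rw [h4, h5]; ring
  refine ⟨h6, ?_⟩
  have h7 : sig (w1 z w) = 1 := by
    rw [h3, sig_of_nonneg (by linarith), trap_mid (by linarith) (by linarith)]
  have h8 : kfun (lamZ z w) = (5/4 - 2 * w) / 2 - 1/8 := by
    unfold kfun
    rw [h6, min_eq_left (a := (5/4 - 2 * w) / 2 - 1/8) (by linarith), min_eq_left (by linarith),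
      max_eq_right (by linarith)]
  unfold lamW
  rw [h7, h8, h3]; ring

/-- Conversely, if a point of the band lands in the height range `[1/8, 3/8]`, it is in the crossing
region. -/
theorem lam_cross_conv {z w : ℝ} (hz1 : -3/8 ≤ z) (hz2 : z ≤ -1/8) (hw : 0 ≤ w)
    (h1 : 1/8 ≤ lamZ z w) (h2 : lamZ z w ≤ 3/8) : 7/16 ≤ w ∧ w ≤ 9/16 := by
  have hm : mfun z = 1 := by unfold mfun; exact min_eq_left (by linarith)
  have hc : cfun z = (z + 1/4) / 2 := by
    unfold cfun
    rw [min_eq_left (by linarith), max_eq_right (by linarith)]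
  have ht := trap_nonneg w
  have ht1 := trap_le_one w
  have hw0 := w1_nonneg (z := z) hw
  have hL : lamZ z w = z + lfun (w1 z w) := by unfold lamZ; rw [hm]; ring
  have hw1 : w1 z w = w + (z + 1/4) / 2 * trap w := by
    unfold w1; rw [hc, sig_of_nonneg hw]
  rw [hL] at h1 h2
  unfold lfun at h1 h2
  rw [abs_of_nonneg hw0] at h1 h2
  constructor
  · by_contra hcon
    push Not at hcon
    have h3 : 2 * (3/4 - w1 z w) ≤ 3/8 - z := by
      by_contra h4
      push Not at h4
      have : 3/8 - z < max 0 (min 1 (2 * (3/4 - w1 z w))) :=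
        lt_max_of_lt_right (lt_min (by linarith) h4)
      linarith
    rw [hw1] at h3
    rcases le_total (1/4) w with h | h
    · rw [trap_mid h (by linarith)] at h3
      linarith
    · nlinarith
  · by_contra hcon
    push Not at hcon
    have h3 : 1/8 - z ≤ 2 * (3/4 - w1 z w) := by
      by_contra h4
      push Not at h4
      have : max 0 (min 1 (2 * (3/4 - w1 z w))) < 1/8 - z :=
        max_lt (by linarith) ((min_le_right _ _).trans_lt h4)
      linarith
    rw [hw1] at h3
    rcases le_total w (3/4) with h | h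
    · rw [trap_mid (by linarith) h] at h3
      linarith
    · nlinarith

end Vale.Agent.P215.Am.Push1
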