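import Vale.Agent.P215.Am.Beta
import Vale.Agent.P215.Am.Push1
import Vale.Agent.P215.Am.TwoLeg

/-!
# P215, route A: the two-leg push-off

The contraction with push-off of the two-legged piece: `kap` is the new disc, `archT` is the
arch (the moved leg box, pushed below the new disc in the middle `w`-slab), the U is not moved.
-/

noncomputable section

namespace Vale.Agent.P215.Am.Push2

open Vale.Agent.P215.H788 Vale.Agent.P215.Am.Push1 Set Topology

/-! ### One variable functions -/

/-- The horizontal position along a leg. -/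
def yy (s r : ℝ) : ℝ := max (s / 2) (s - 1/2 + r/4) + min (s / 2) (s + 1/2 - r/4) - s / 2

/-- The height of the U. -/
def zz (r y : ℝ) : ℝ := -r + max 0 (4 * |y| - 1)

/-- The height parameter. -/
def rr (a : ℝ) : ℝ := 1/4 + a / 8

theorem rr_mem {a : ℝ} (h : |a| ≤ 1) : rr a ∈ Icc (1/8 : ℝ) (3/8) := by
  have := abs_le.1 h
  unfold rr
  constructor <;> linarith

theorem yy_neg (s r : ℝ) : yy (-s) r = - yy s r := by
  unfold yy
  rw [show (-s) / 2 = -(s / 2) by ring, show -s - 1/2 + r/4 = -(s + 1/2 - r/4) by ring,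
    show -s + 1/2 - r/4 = -(s - 1/2 + r/4) by ring, max_neg_neg, min_neg_neg]
  ring

theorem yy_of_nonneg {s r : ℝ} (hs : 0 ≤ s) (hr : r ≤ 1) :
    yy s r = max (s / 2) (s - 1/2 + r/4) := by
  unfold yy
  rw [min_eq_left (show s / 2 ≤ s + 1/2 - r/4 by linarith)]
  ring

theorem yy_nonneg {s r : ℝ} (hs : 0 ≤ s) (hr : r ≤ 1) : 0 ≤ yy s r := by
  rw [yy_of_nonneg hs hr]
  exact le_trans (by linarith) (le_max_left _ _)

/-- `yy` is strictly increasing in the first variable. -/
theorem yy_strictMono {r : ℝ} (hr : r ≤ 1) : StrictMono fun s => yy s r := by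
  have key : ∀ s t : ℝ, 0 ≤ s → s < t → yy s r < yy t r := by
    intro s t hs hst
    rw [yy_of_nonneg hs hr, yy_of_nonneg (hs.trans hst.le) hr]
    exact max_lt_max (by linarith) (by linarith)
  intro s t hst
  change yy s r < yy t r
  rcases le_or_gt 0 s with h | h
  · exact key s t h hst
  · rcases le_or_gt t 0 with h' | h'
    · have := key (-t) (-s) (by linarith) (by linarith)
      rw [yy_neg, yy_neg] at this
      linarith
    · have h1 := key 0 t le_rfl h'
      have h2 := key 0 (-s) le_rfl (by linarith)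
      have h3 : yy 0 r = 0 := by
        rw [yy_of_nonneg le_rfl hr, max_eq_left (by linarith)]
        norm_num
      rw [yy_neg] at h2
      linarith

theorem abs_yy {s r : ℝ} (hr : r ≤ 1) : |yy s r| = max (|s| / 2) (|s| - 1/2 + r/4) := by
  rcases le_total 0 s with h | h
  · rw [abs_of_nonneg (yy_nonneg h hr), abs_of_nonneg h, yy_of_nonneg h hr]
  · have h1 : |yy s r| = |yy (-s) r| := by rw [yy_neg, abs_neg]
    rw [h1, abs_of_nonneg (yy_nonneg (by linarith) hr), abs_of_nonpos h,
      yy_of_nonneg (by linarith) hr]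

theorem yy_small {s r : ℝ} (hr : r ≤ 1) (h : |yy s r| ≤ 1/4) : yy s r = s / 2 := by
  have h1 := abs_yy (s := s) hr
  have h2 : |s| / 2 ≤ |yy s r| := h1 ▸ le_max_left _ _
  have h3 : |s| ≤ 1/2 := by linarith
  rcases le_total 0 s with h4 | h4
  · rw [abs_of_nonneg h4] at h3
    rw [yy_of_nonneg h4 hr, max_eq_left (by linarith)]
  · rw [abs_of_nonpos h4] at h3
    have h5 : yy (-s) r = (-s) / 2 := by
      rw [yy_of_nonneg (by linarith) hr, max_eq_left (by linarith)]
    rw [yy_neg] at h5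
    linarith

theorem yy_mid {s r : ℝ} (hr : r ≤ 1) (h : |s| ≤ 1/2) : yy s r = s / 2 := by
  apply yy_small hr
  rw [abs_yy hr]
  exact max_le (by linarith) (by linarith)

theorem abs_yy_le {s r : ℝ} (hr : r ∈ Icc (1/8 : ℝ) (3/8)) (hs : |s| ≤ 1) :
    |yy s r| ≤ 1/2 + r/4 := by
  rw [abs_yy (by linarith [hr.2])]
  exact max_le (by linarith [hr.1]) (by linarith)

theorem abs_yy_le' {s r : ℝ} (hr : r ∈ Icc (1/8 : ℝ) (3/8)) (hs : |s| ≤ 1) :
    |yy s r| ≤ 19/32 := (abs_yy_le hr hs).trans (by linarith [hr.2])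

theorem abs_yy_one {s r : ℝ} (hr : r ∈ Icc (1/8 : ℝ) (3/8)) (hs : |s| = 1) :
    |yy s r| = 1/2 + r/4 := by
  rw [abs_yy (by linarith [hr.2]), hs, max_eq_right (by linarith [hr.1])]
  ring

theorem zz_ge (r y : ℝ) : -r ≤ zz r y := by
  unfold zz
  linarith [le_max_left (0 : ℝ) (4 * |y| - 1)]

theorem zz_le_one {s r : ℝ} (hr : r ∈ Icc (1/8 : ℝ) (3/8)) (hs : |s| ≤ 1) :
    zz r (yy s r) ≤ 1 := by
  unfold zz
  have h := abs_yy_le hr hs
  have h1 : max 0 (4 * |yy s r| - 1) ≤ 1 + r := max_le (by linarith [hr.1]) (by linarith)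
  linarith

theorem zz_one {s r : ℝ} (hr : r ∈ Icc (1/8 : ℝ) (3/8)) (hs : |s| = 1) :
    zz r (yy s r) = 1 := by
  unfold zz
  rw [abs_yy_one hr hs, max_eq_right (by linarith [hr.1])]
  ring

theorem abs_zz {s r : ℝ} (hr : r ∈ Icc (1/8 : ℝ) (3/8)) (hs : |s| ≤ 1) :
    |zz r (yy s r)| ≤ 1 :=
  abs_le.2 ⟨by linarith [zz_ge r (yy s r), hr.2], zz_le_one hr hs⟩

theorem zz_small {r y : ℝ} (h : |y| ≤ 1/4) : zz r y = -r := by
  unfold zz
  rw [max_eq_left (by linarith)]
  ring

theorem zz_inj {r r' y : ℝ} (h : zz r y = zz r' y) : r = r' := by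
  unfold zz at h
  linarith

@[fun_prop]
theorem continuous_yy {X : Type*} [TopologicalSpace X] {f g : X → ℝ} (hf : Continuous f)
    (hg : Continuous g) : Continuous fun p => yy (f p) (g p) := by
  unfold yy
  fun_prop

@[fun_prop]
theorem continuous_zz {X : Type*} [TopologicalSpace X] {f g : X → ℝ} (hf : Continuous f)
    (hg : Continuous g) : Continuous fun p => zz (f p) (g p) := by
  unfold zz
  fun_prop

@[fun_prop]
theorem continuous_rr {X : Type*} [TopologicalSpace X] {f : X → ℝ} (hf : Continuous f) :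
    Continuous fun p => rr (f p) := by
  unfold rr
  fun_prop

/-! ### The legs -/

/-- The U, which hangs from the top, with the bar in the direction `x`. -/
def uleg (p : Q) : Q :=
  qpt (yy (cz p) (rr (cy p))) (cx p / 8) (zz (rr (cy p)) (yy (cz p) (rr (cy p)))) (cw p)

/-- The arch, which stands on the bottom, with the bar in the direction `y`. -/
def arch (p : Q) : Q :=
  qpt (cx p / 8) (yy (cz p) (rr (cy p))) (-zz (rr (cy p)) (yy (cz p) (rr (cy p)))) (cw p)

/-- The moved arch. -/
def archT (p : Q) : Q :=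
  qpt (cx p / 8) (yy (cz p) (rr (cy p)))
    (-lamZ (zz (rr (cy p)) (yy (cz p) (rr (cy p)))) (cw p))
    (lamW (zz (rr (cy p)) (yy (cz p) (rr (cy p)))) (cw p))

theorem rr_cy (p : Q) : rr (cy p) ∈ Icc (1/8 : ℝ) (3/8) := rr_mem (abs_cy p)

theorem abs_x8 (p : Q) : |cx p / 8| ≤ 1/8 := by
  rw [abs_div, abs_of_pos (show (0 : ℝ) < 8 by norm_num)]
  linarith [abs_cx p]

theorem abs_Y (p : Q) : |yy (cz p) (rr (cy p))| ≤ 19/32 := abs_yy_le' (rr_cy p) (abs_cz p)

theorem abs_Z (p : Q) : |zz (rr (cy p)) (yy (cz p) (rr (cy p)))| ≤ 1 :=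
  abs_zz (rr_cy p) (abs_cz p)

theorem Z_ge (p : Q) : -3/8 ≤ zz (rr (cy p)) (yy (cz p) (rr (cy p))) := by
  linarith [zz_ge (rr (cy p)) (yy (cz p) (rr (cy p))), (rr_cy p).2]

theorem Z_le (p : Q) : zz (rr (cy p)) (yy (cz p) (rr (cy p))) ≤ 1 :=
  zz_le_one (rr_cy p) (abs_cz p)

theorem abs_lamZ' {z w : ℝ} (h : -3/8 ≤ z) (h1 : z ≤ 1) : |lamZ z w| ≤ 1 :=
  abs_le.2 ⟨by linarith [lamZ_ge z w h1], lamZ_le_one z w h1⟩

section Coord

variable (p : Q)

theorem cx_uleg : cx (uleg p) = yy (cz p) (rr (cy p)) :=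
  clp_of_abs ((abs_Y p).trans (by norm_num))
theorem cy_uleg : cy (uleg p) = cx p / 8 := clp_of_abs ((abs_x8 p).trans (by norm_num))
theorem cz_uleg : cz (uleg p) = zz (rr (cy p)) (yy (cz p) (rr (cy p))) := clp_of_abs (abs_Z p)
theorem cw_uleg : cw (uleg p) = cw p := clp_of_abs (abs_cw p)

theorem cx_arch : cx (arch p) = cx p / 8 := clp_of_abs ((abs_x8 p).trans (by norm_num))
theorem cy_arch : cy (arch p) = yy (cz p) (rr (cy p)) :=
  clp_of_abs ((abs_Y p).trans (by norm_num))
theorem cz_arch : cz (arch p) = -zz (rr (cy p)) (yy (cz p) (rr (cy p))) :=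
  clp_of_abs (by rw [abs_neg]; exact abs_Z p)
theorem cw_arch : cw (arch p) = cw p := clp_of_abs (abs_cw p)

theorem cx_archT : cx (archT p) = cx p / 8 := clp_of_abs ((abs_x8 p).trans (by norm_num))
theorem cy_archT : cy (archT p) = yy (cz p) (rr (cy p)) :=
  clp_of_abs ((abs_Y p).trans (by norm_num))
theorem cz_archT : cz (archT p) = -lamZ (zz (rr (cy p)) (yy (cz p) (rr (cy p)))) (cw p) :=
  clp_of_abs (by rw [abs_neg]; exact abs_lamZ' (Z_ge p) (Z_le p))
theorem cw_archT : cw (archT p) = lamW (zz (rr (cy p)) (yy (cz p) (rr (cy p)))) (cw p) :=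
  clp_of_abs (abs_lamW_le (abs_cw p))

end Coord

theorem continuous_uleg : Continuous uleg := by unfold uleg; fun_prop

theorem continuous_arch : Continuous arch := by unfold arch; fun_prop

theorem continuous_archT : Continuous archT := by
  unfold archT
  refine Continuous.qpt (by fun_prop) (by fun_prop) ?_ ?_
  · exact (continuous_lamZ.comp ((continuous_zz (by fun_prop) (by fun_prop)).prodMk
      continuous_cw)).neg
  · exact continuous_lamW.comp ((continuous_zz (by fun_prop) (by fun_prop)).prodMk continuous_cw)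

/-- The parameters of a leg are determined by the position. -/
theorem leg_inj {p q : Q} (h1 : cx p / 8 = cx q / 8)
    (h2 : yy (cz p) (rr (cy p)) = yy (cz q) (rr (cy q)))
    (h3 : zz (rr (cy p)) (yy (cz p) (rr (cy p))) = zz (rr (cy q)) (yy (cz q) (rr (cy q))))
    (h4 : cw p = cw q) : p = q := by
  rw [h2] at h3
  have h5 := zz_inj h3
  have h6 : cy p = cy q := by unfold rr at h5; linarith
  rw [h5] at h2
  have h7 : cz p = cz q := (yy_strictMono (by linarith [(rr_cy q).2])).injective h2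
  exact Q_ext (by linarith) h6 h7 h4

theorem uleg_injective : Function.Injective uleg := by
  intro p q h
  have h1 := congrArg cx h
  have h2 := congrArg cy h
  have h3 := congrArg cz h
  have h4 := congrArg cw h
  rw [cx_uleg, cx_uleg] at h1
  rw [cy_uleg, cy_uleg] at h2
  rw [cz_uleg, cz_uleg] at h3
  rw [cw_uleg, cw_uleg] at h4
  exact leg_inj h2 h1 h3 h4

theorem archT_injective : Function.Injective archT := by
  intro p q h
  have h1 := congrArg cx h
  have h2 := congrArg cy h
  have h3 := congrArg cz h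
  have h4 := congrArg cw h
  rw [cx_archT, cx_archT] at h1
  rw [cy_archT, cy_archT] at h2
  rw [cz_archT, cz_archT, neg_inj] at h3
  rw [cw_archT, cw_archT] at h4
  obtain ⟨h5, h6⟩ := lam_injective h3 h4
  exact leg_inj h1 h2 h5 h6

theorem archT_bd (a x : Disc) (hx : nm x = 1) : archT (a, x) = arch (a, x) := by
  have h : lamZ (zz (rr (cy (a, x))) (yy (cz (a, x)) (rr (cy (a, x))))) (cw (a, x)) =
      zz (rr (cy (a, x))) (yy (cz (a, x)) (rr (cy (a, x)))) ∧
      lamW (zz (rr (cy (a, x))) (yy (cz (a, x)) (rr (cy (a, x))))) (cw (a, x)) = cw (a, x) := by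
    rcases nm_eq_one_iff.1 hx with h1 | h1
    · have h2 : zz (rr (cy (a, x))) (yy (cz (a, x)) (rr (cy (a, x)))) = 1 :=
        zz_one (rr_cy _) h1
      rw [h2]
      exact lam_top _
    · exact lam_side _ h1
  apply Q_ext
  · rw [cx_archT, cx_arch]
  · rw [cy_archT, cy_arch]
  · rw [cz_archT, cz_arch, h.1]
  · rw [cw_archT, cw_arch, h.2]

/-! ### The new disc -/

/-- The interpolation parameter. -/
def lam (x : Disc) : ℝ := min 1 ((1 - nm x) * (8/3))

theorem lam_mem (x : Disc) : lam x ∈ Icc (0 : ℝ) 1 := by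
  unfold lam
  have := nm_le x
  exact ⟨le_min (by norm_num) (by nlinarith), min_le_left _ _⟩

theorem lam_bd {x : Disc} (h : nm x = 1) : lam x = 0 := by
  unfold lam
  rw [h]
  norm_num

theorem lam_mid {x : Disc} (h : nm x ≤ 5/8) : lam x = 1 := by
  unfold lam
  exact min_eq_left (by linarith)

@[fun_prop]
theorem continuous_lam : Continuous lam := by
  unfold lam
  exact continuous_const.min ((continuous_const.sub continuous_nm).mul continuous_const)

/-- The height of the new disc. -/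
def kz (l z : ℝ) : ℝ := (1 - l) * z + l * (-1/2 + z / 16)

/-- The last coordinate of the new disc. -/
def kw (l w : ℝ) : ℝ := (1 - l) * w + l * (w / 8)

/-- **The new disc.** -/
def kap (p : Q) : Q := (p.1, dpt (kz (lam p.1) (cz p)) (kw (lam p.1) (cw p)))

theorem abs_kz {l z : ℝ} (hl : l ∈ Icc (0 : ℝ) 1) (hz : |z| ≤ 1) : |kz l z| ≤ 1 := by
  have h := abs_le.1 hz
  unfold kz
  rw [abs_le]
  constructor <;> nlinarith [hl.1, hl.2]

theorem abs_kw {l w : ℝ} (hl : l ∈ Icc (0 : ℝ) 1) (hw : |w| ≤ 1) : |kw l w| ≤ 1 := by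
  have h := abs_le.1 hw
  unfold kw
  rw [abs_le]
  constructor <;> nlinarith [hl.1, hl.2]

theorem kap_fst (p : Q) : (kap p).1 = p.1 := rfl

theorem cz_kap (p : Q) : cz (kap p) = kz (lam p.1) (cz p) :=
  clp_of_abs (abs_kz (lam_mem _) (abs_cz p))

theorem cw_kap (p : Q) : cw (kap p) = kw (lam p.1) (cw p) :=
  clp_of_abs (abs_kw (lam_mem _) (abs_cw p))

theorem isMor_kap : IsMor kap where
  cont := by
    unfold kap kz kw
    fun_prop
  inj := by
    intro p q h
    have h1 : p.1 = q.1 := by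
      have h0 : (kap p).1 = (kap q).1 := by rw [h]
      exact h0
    have h3 := congrArg cz h
    have h4 := congrArg cw h
    rw [cz_kap, cz_kap, h1] at h3
    rw [cw_kap, cw_kap, h1] at h4
    have hl := lam_mem q.1
    unfold kz at h3
    unfold kw at h4
    have h5 : (1 - lam q.1 * (15/16)) * (cz p - cz q) = 0 := by linear_combination h3
    have h6 : (1 - lam q.1 * (7/8)) * (cw p - cw q) = 0 := by linear_combination h4
    have h7 : (1 - lam q.1 * (15/16)) ≠ 0 := by linarith [hl.2]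
    have h8 : (1 - lam q.1 * (7/8)) ≠ 0 := by linarith [hl.2]
    have h9 := (mul_eq_zero.1 h5).resolve_left h7
    have h10 := (mul_eq_zero.1 h6).resolve_left h8
    exact Prod.ext h1 (disc_ext (sub_eq_zero.1 h9) (sub_eq_zero.1 h10))
  bd x y hx := by
    refine Prod.ext rfl ?_
    change dpt (kz (lam x) y.1.1) (kw (lam x) y.1.2) = y
    rw [lam_bd hx]
    apply dpt_eq
    · unfold kz; ring
    · unfold kw; ring

/-- The new disc in the middle part. -/
theorem kap_mid {p : Q} (h : nm p.1 ≤ 5/8) :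
    cz (kap p) ∈ Icc (-9/16 : ℝ) (-7/16) ∧ |cw (kap p)| ≤ 1/8 := by
  rw [cz_kap, cw_kap, lam_mid h]
  have h1 := cz_mem p
  have h2 := abs_le.1 (abs_cw p)
  unfold kz kw
  refine ⟨⟨?_, ?_⟩, ?_⟩
  · linarith [h1.1]
  · linarith [h1.2]
  · rw [abs_le]
    constructor <;> linarith [h2.1, h2.2]

theorem nm_uleg (p : Q) : nm (uleg p).1 ≤ 5/8 := by
  rw [nm_le_iff]
  refine ⟨?_, ?_⟩
  · change |cx (uleg p)| ≤ 5/8
    rw [cx_uleg]
    exact (abs_Y p).trans (by norm_num)
  · change |cy (uleg p)| ≤ 5/8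
    rw [cy_uleg]
    exact (abs_x8 p).trans (by norm_num)

theorem nm_archT (p : Q) : nm (archT p).1 ≤ 5/8 := by
  rw [nm_le_iff]
  refine ⟨?_, ?_⟩
  · change |cx (archT p)| ≤ 5/8
    rw [cx_archT]
    exact (abs_x8 p).trans (by norm_num)
  · change |cy (archT p)| ≤ 5/8
    rw [cy_archT]
    exact (abs_Y p).trans (by norm_num)

theorem kap_uleg (p q : Q) : kap p ≠ uleg q := by
  intro h
  have h1 : p.1 = (uleg q).1 := by
    rw [← h]
    rfl
  have h2 := (kap_mid (h1 ▸ nm_uleg q : nm p.1 ≤ 5/8)).1.2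
  rw [h, cz_uleg] at h2
  linarith [Z_ge q]

theorem kap_archT (p q : Q) : kap p ≠ archT q := by
  intro h
  have h1 : p.1 = (archT q).1 := by
    rw [← h]
    rfl
  obtain ⟨h2, h3⟩ := kap_mid (h1 ▸ nm_archT q : nm p.1 ≤ 5/8)
  rw [h, cw_archT] at h3
  rw [h, cz_archT] at h2
  have h4 := lamZ_of_small (Z_ge q) h3
  linarith [h2.1]

/-! ### The crossing -/

/-- The sign. -/
def sg (k : Fin 2) : ℝ := if k = 0 then 1 else -1

theorem sg_cases (k : Fin 2) : sg k = 1 ∨ sg k = -1 := by
  unfold sg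
  split_ifs <;> simp

/-- The positions of the crossings. -/
def pos (k : Fin 2) (b : Disc) : Disc := dpt (b.1.1 / 4) (sg k * (1/2 - b.1.2 / 16))

theorem pos_fst (k : Fin 2) (b : Disc) : (pos k b).1.1 = b.1.1 / 4 := by
  apply dpt_1'
  rw [abs_div, abs_of_pos (show (0 : ℝ) < 4 by norm_num)]
  linarith [disc_abs1 b]

theorem pos_snd (k : Fin 2) (b : Disc) : (pos k b).1.2 = sg k * (1/2 - b.1.2 / 16) := by
  apply dpt_2'
  have h := abs_le.1 (disc_abs2 b)
  rcases sg_cases k with h1 | h1 <;> rw [h1, abs_le] <;> constructor <;> linarith [h.1, h.2]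

theorem isSq_pos (k : Fin 2) : IsSq (pos k) where
  cont := by
    unfold pos
    fun_prop
  inj := by
    intro b c h
    have h1 := congrArg (fun u : Disc => u.1.1) h
    have h2 := congrArg (fun u : Disc => u.1.2) h
    simp only [pos_fst, pos_snd] at h1 h2
    refine disc_ext (by linarith) ?_
    rcases sg_cases k with h3 | h3 <;> rw [h3] at h2 <;> linarith
  isOpen := by
    have h : pos k '' int = {u : Disc | |4 * u.1.1| < 1 ∧ |(8 - sg k * 16 * u.1.2)| < 1} := by
      ext u
      constructor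
      · rintro ⟨b, hb, rfl⟩
        rw [mem_int_iff] at hb
        refine ⟨?_, ?_⟩
        · rw [pos_fst, mul_div_cancel₀ _ (by norm_num)]
          exact hb.1
        · rw [pos_snd]
          rcases sg_cases k with h3 | h3 <;> rw [h3] <;> ring_nf <;> exact hb.2
      · rintro ⟨h1, h2⟩
        refine ⟨dpt (4 * u.1.1) (8 - sg k * 16 * u.1.2), ?_, ?_⟩
        · rw [mem_int_iff, dpt_1' h1.le, dpt_2' h2.le]
          exact ⟨h1, h2⟩
        · refine disc_ext ?_ ?_
          · rw [pos_fst, dpt_1' h1.le]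
            ring
          · rw [pos_snd, dpt_2' h2.le]
            rcases sg_cases k with h3 | h3 <;> rw [h3] <;> ring
    rw [h]
    have c1 : Continuous fun u : Disc => |4 * u.1.1| := by fun_prop
    have c2 : Continuous fun u : Disc => |(8 - sg k * 16 * u.1.2)| := by fun_prop
    exact (isOpen_lt c1 continuous_const).inter (isOpen_lt c2 continuous_const)
  maps b hb := by
    rw [mem_int_iff] at hb ⊢
    rw [pos_fst, pos_snd]
    have h1 := abs_lt.1 hb.1
    have h2 := abs_lt.1 hb.2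
    rcases sg_cases k with h3 | h3 <;> rw [h3, abs_lt, abs_lt] <;>
      exact ⟨⟨by linarith [h1.1], by linarith [h1.2]⟩, ⟨by linarith [h2.1, h2.2],
        by linarith [h2.1, h2.2]⟩⟩

theorem pos_disj (k l : Fin 2) (x y : Disc) (h : pos k x = pos l y) : k = l := by
  by_contra hne
  have h2 := congrArg (fun u : Disc => u.1.2) h
  simp only [pos_snd] at h2
  have hx := abs_le.1 (disc_abs2 x)
  have hy := abs_le.1 (disc_abs2 y)
  have h3 : sg k = - sg l := by
    fin_cases k <;> fin_cases l <;> simp_all [sg]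
  rw [h3] at h2
  rcases sg_cases l with h4 | h4 <;> rw [h4] at h2 <;> linarith [hx.1, hx.2, hy.1, hy.2]

theorem cross_iff (a x b y : Disc) :
    archT (a, x) = uleg (b, y) ↔ ∃ k, x = pos k b ∧ y = pos k a := by
  constructor
  · intro h
    have h1 := congrArg cx h
    have h2 := congrArg cy h
    have h3 := congrArg cz h
    have h4 := congrArg cw h
    rw [cx_archT, cx_uleg] at h1
    rw [cy_archT, cy_uleg] at h2
    rw [cz_archT, cz_uleg] at h3
    rw [cw_archT, cw_uleg] at h4
    have r1 := rr_cy (a, x)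
    have r2 := rr_cy (b, y)
    have e1 : |yy (cz (b, y)) (rr (cy (b, y)))| ≤ 1/4 := by
      rw [← h1]; exact (abs_x8 _).trans (by norm_num)
    have e2 : |yy (cz (a, x)) (rr (cy (a, x)))| ≤ 1/4 := by
      rw [h2]; exact (abs_x8 _).trans (by norm_num)
    rw [zz_small e1, zz_small e2, neg_inj] at h3
    rw [zz_small e2] at h4
    rw [yy_small (by linarith [r2.2]) e1] at h1
    rw [yy_small (by linarith [r1.2]) e2] at h2
    change a.1.1 / 8 = y.1.1 / 2 at h1
    change x.1.1 / 2 = b.1.1 / 8 at h2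
    change lamZ (-rr a.1.2) x.1.2 = rr b.1.2 at h3
    change lamW (-rr a.1.2) x.1.2 = y.1.2 at h4
    change rr a.1.2 ∈ _ at r1
    change rr b.1.2 ∈ _ at r2
    have hz1 : -3/8 ≤ -rr a.1.2 := by linarith [r1.2]
    have hz2 : -rr a.1.2 ≤ -1/8 := by linarith [r1.1]
    rcases le_total 0 x.1.2 with hw | hw
    · obtain ⟨h5, h6⟩ := lam_cross_conv hz1 hz2 hw (h3 ▸ r2.1) (h3 ▸ r2.2)
      obtain ⟨h7, h8⟩ := lam_cross hz1 hz2 h5 h6
      rw [h7] at h3
      rw [h8] at h4
      unfold rr at h3 h4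
      refine ⟨0, disc_ext ?_ ?_, disc_ext ?_ ?_⟩
      · rw [pos_fst]; linarith
      · rw [pos_snd, sg, if_pos rfl]; linarith
      · rw [pos_fst]; linarith
      · rw [pos_snd, sg, if_pos rfl]; linarith
    · have h3' : lamZ (-rr a.1.2) (-x.1.2) = rr b.1.2 := by rw [lamZ_neg, h3]
      have h4' : lamW (-rr a.1.2) (-x.1.2) = -y.1.2 := by rw [lamW_neg, h4]
      obtain ⟨h5, h6⟩ := lam_cross_conv hz1 hz2 (neg_nonneg.2 hw) (h3' ▸ r2.1) (h3' ▸ r2.2)
      obtain ⟨h7, h8⟩ := lam_cross hz1 hz2 h5 h6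
      rw [h7] at h3'
      rw [h8] at h4'
      unfold rr at h3' h4'
      refine ⟨1, disc_ext ?_ ?_, disc_ext ?_ ?_⟩
      · rw [pos_fst]; linarith
      · rw [pos_snd, sg, if_neg (by decide)]; linarith
      · rw [pos_fst]; linarith
      · rw [pos_snd, sg, if_neg (by decide)]; linarith
  · rintro ⟨k, rfl, rfl⟩
    have ha := rr_cy (a, pos k b)
    have hb := rr_cy (b, pos k a)
    have ya : yy (cz (a, pos k b)) (rr (cy (a, pos k b))) = b.1.1 / 8 := by
      rw [yy_mid (by linarith [ha.2])]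
      · change (pos k b).1.1 / 2 = _
        rw [pos_fst]; ring
      · change |(pos k b).1.1| ≤ _
        rw [pos_fst, abs_div, abs_of_pos (show (0 : ℝ) < 4 by norm_num)]
        linarith [disc_abs1 b]
    have yb : yy (cz (b, pos k a)) (rr (cy (b, pos k a))) = a.1.1 / 8 := by
      rw [yy_mid (by linarith [hb.2])]
      · change (pos k a).1.1 / 2 = _
        rw [pos_fst]; ring
      · change |(pos k a).1.1| ≤ _
        rw [pos_fst, abs_div, abs_of_pos (show (0 : ℝ) < 4 by norm_num)]
        linarith [disc_abs1 a]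
    have sa : |b.1.1 / 8| ≤ 1/4 := by
      rw [abs_div, abs_of_pos (show (0 : ℝ) < 8 by norm_num)]
      linarith [disc_abs1 b]
    have sb : |a.1.1 / 8| ≤ 1/4 := by
      rw [abs_div, abs_of_pos (show (0 : ℝ) < 8 by norm_num)]
      linarith [disc_abs1 a]
    have key : lamZ (-rr a.1.2) (pos k b).1.2 = rr b.1.2 ∧
        lamW (-rr a.1.2) (pos k b).1.2 = (pos k a).1.2 := by
      have hz1 : -3/8 ≤ -rr a.1.2 := by
        have := ha.2
        change rr a.1.2 ≤ _ at this
        linarith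
      have hz2 : -rr a.1.2 ≤ -1/8 := by
        have := ha.1
        change _ ≤ rr a.1.2 at this
        linarith
      have h := abs_le.1 (disc_abs2 b)
      obtain ⟨h7, h8⟩ := lam_cross hz1 hz2 (show 7/16 ≤ 1/2 - b.1.2 / 16 by linarith [h.2])
        (show 1/2 - b.1.2 / 16 ≤ 9/16 by linarith [h.1])
      rw [pos_snd, pos_snd]
      rcases sg_cases k with h3 | h3
      · rw [h3, one_mul, one_mul, h7, h8]
        unfold rr
        constructor <;> ring
      · rw [h3, neg_one_mul, neg_one_mul, lamZ_neg, lamW_neg, h7, h8]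
        unfold rr
        constructor <;> ring
    apply Q_ext
    · rw [cx_archT, cx_uleg, yb]
      rfl
    · rw [cy_archT, cy_uleg, ya]
      rfl
    · rw [cz_archT, cz_uleg, ya, yb, zz_small sa, zz_small sb]
      change -lamZ (-rr a.1.2) (pos k b).1.2 = -rr b.1.2
      rw [key.1]
    · rw [cw_archT, cw_uleg, ya, zz_small sa]
      exact key.2

/-! ### The legs of `Beta.lean` -/

theorem yy_eq_Yf {s r : ℝ} (h2 : r ≤ 3/8) : yy s r = Yf s r := by
  unfold yy Yf; grind

theorem uleg_eq : uleg = beta1 := by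
  funext p
  have h : yy (cz p) (rr (cy p)) = Yf (cz p) (lev p.1) :=
    yy_eq_Yf (rr_cy p).2
  apply Q_ext
  · rw [cx_uleg, cx_beta1, h]
  · rw [cy_uleg, cy_beta1]
  · rw [cz_uleg, cz_beta1, h, zz]
    change -lev p.1 + _ = _
    ring
  · rw [cw_uleg, cw_beta1]

theorem arch_eq : arch = beta2 := by
  funext p
  have h : yy (cz p) (rr (cy p)) = Yf (cz p) (lev p.1) :=
    yy_eq_Yf (rr_cy p).2
  apply Q_ext
  · rw [cx_arch, cx_beta2]
  · rw [cy_arch, cy_beta2, h]
  · rw [cz_arch, cz_beta2, h, zz]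
    change -(-lev p.1 + _) = _
    ring
  · rw [cw_arch, cw_beta2]

/-- **The push datum of the thick legs.** -/
def pushThick : PushDatum (fun k : Bool => if k then beta2 else beta1) true false where
  n := 2
  n_pos := by norm_num
  κ₀ := kap
  mor := isMor_kap
  TA := archT
  TB := beta1
  cont_TA := continuous_archT
  inj_TA := archT_injective
  cont_TB := continuous_beta1
  inj_TB := beta1_injective
  TA_bd a x hx := by rw [if_pos rfl, ← arch_eq]; exact archT_bd a x hx
  TB_bd a x _ := rfl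
  κ₀_TA := kap_archT
  κ₀_TB p q := by rw [← uleg_eq]; exact kap_uleg p q
  κ₀_miss C hA hB := by cases C <;> simp at hA hB
  TA_miss C hA hB := by cases C <;> simp at hA hB
  TB_miss C hA hB := by cases C <;> simp at hA hB
  f := pos
  f' := pos
  isSq_f := isSq_pos
  isSq_f' := isSq_pos
  f_disj := pos_disj
  f'_disj := pos_disj
  cross := by rw [← uleg_eq]; exact cross_iff

theorem isSq_scl {c : ℝ} (h0 : 0 < c) (h1 : c ≤ 1) : IsSq (scl c) := by
  have hm : StrictMonoOn (fun t : ℝ => c * t) (Icc (-1) 1) := fun s _ t _ h => by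
    simp only
    exact mul_lt_mul_of_pos_left h h0
  have hc : Continuous fun t : ℝ => c * t := by fun_prop
  exact isSq_psq (f := fun t => c * t) (g := fun t => c * t) hc hc hm hm (by linarith)
    (by linarith) (by linarith) (by linarith)

/-- A push datum for thick legs gives a push datum for thin legs. -/
def pushSmall {b : Bool → Q → Q} (P : PushDatum b true false) {c : ℝ} (h0 : 0 < c) (h1 : c ≤ 1) :
    PushDatum (fun k => small c (b k)) true false where
  n := P.n
  n_pos := P.n_pos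
  κ₀ := P.κ₀
  mor := P.mor
  TA := small c P.TA
  TB := small c P.TB
  cont_TA := by
    have h := (isSq_scl h0 h1).cont
    unfold small vert
    exact P.cont_TA.comp ((h.comp continuous_fst).prodMk continuous_snd)
  inj_TA := P.inj_TA.comp (vert_inj (isSq_scl h0 h1).inj)
  cont_TB := by
    have h := (isSq_scl h0 h1).cont
    unfold small vert
    exact P.cont_TB.comp ((h.comp continuous_fst).prodMk continuous_snd)
  inj_TB := P.inj_TB.comp (vert_inj (isSq_scl h0 h1).inj)
  TA_bd a x hx := P.TA_bd (scl c a) x hx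
  TB_bd a x hx := P.TB_bd (scl c a) x hx
  κ₀_TA p q := P.κ₀_TA p _
  κ₀_TB p q := P.κ₀_TB p _
  κ₀_miss C hA hB := by cases C <;> simp at hA hB
  TA_miss C hA hB := by cases C <;> simp at hA hB
  TB_miss C hA hB := by cases C <;> simp at hA hB
  f k b := P.f k (scl c b)
  f' k b := P.f' k (scl c b)
  isSq_f k := (P.isSq_f k).comp (isSq_scl h0 h1)
  isSq_f' k := (P.isSq_f' k).comp (isSq_scl h0 h1)
  f_disj k l x y h := P.f_disj k l _ _ h
  f'_disj k l x y h := P.f'_disj k l _ _ h
  cross a x b y := P.cross (scl c a) x (scl c b) y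

/-- **The two-leg push datum** in the form of `TwoLeg`. -/
theorem exists_push {b : Bool → Q → Q} (hb0 : b false = beta1) (hb1 : b true = beta2) {c : ℝ}
    (h0 : 0 < c) (h1 : c ≤ 1) : ∃ P : PushDatum (fun k => small c (b k)) true false,
      ∀ p, P.TB p = small c (b false) p := by
  have hb : b = fun k : Bool => if k then beta2 else beta1 := by
    funext k
    cases k
    · rw [hb0]; rfl
    · rw [hb1]; rfl
  subst hb
  exact ⟨pushSmall pushThick h0 h1, fun p => rfl⟩

end Vale.Agent.P215.Am.Push2
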