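import Vale.Agent.P215.Am.SplitStrips
import Vale.Agent.P215.Am.Contract

/-!
# P215, route A: splitting of two-legged pieces, third part

`split2_true`, `split2_false`: the two-leg splittings in the form `Split2`.
-/

noncomputable section

namespace Vale.Agent.P215.Am.SplitMap

open Vale.Agent.P215.H788 Vale.Agent.P215.Am Vale.Agent.P215.Am.Contr Set Topology

variable {D : Type}

/-! ### A planar shear -/

theorem exists_cen [Finite D] (S : Strips D) (cd : D → ℝ) (hcd : ∀ d, |cd d| ≤ 1 / 2) :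
    ∃ c : ℝ → ℝ, Continuous c ∧ (∀ x, |c x| ≤ 1 / 2) ∧ (∀ x, 1 / 2 ≤ |x| → c x = 0) ∧
      ∀ d x, S.P d / 8 ≤ x → x ≤ S.R d / 8 → c x = cd d := by
  classical
  have : Fintype D := Fintype.ofFinite D
  let f : ℝ → ℝ := fun x =>
    ∑ d, cd d * max 0 (1 - max 0 (max (S.P d - 8 * x) (8 * x - S.R d)) / S.δ)
  have hf : Continuous f := by
    simp only [f]
    fun_prop
  refine ⟨fun x => max (-(1 / 2)) (min (1 / 2) (f x)) * max 0 (min 1 (4 / 3 - 8 / 3 * |x|)),
    by fun_prop, ?_, ?_, ?_⟩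
  · intro x
    have h1 : |max (-(1 / 2)) (min (1 / 2) (f x))| ≤ 1 / 2 := by
      rw [abs_le]
      exact ⟨le_max_left _ _, max_le (by norm_num) (min_le_left _ _)⟩
    have h2 : |max 0 (min 1 (4 / 3 - 8 / 3 * |x|))| ≤ 1 := by
      rw [abs_le]
      exact ⟨by linarith [le_max_left (0 : ℝ) (min 1 (4 / 3 - 8 / 3 * |x|))],
        max_le (by norm_num) (min_le_left _ _)⟩
    rw [abs_mul]
    calc _ ≤ 1 / 2 * (1 : ℝ) := mul_le_mul h1 h2 (abs_nonneg _) (by norm_num)
      _ = 1 / 2 := by norm_num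
  · intro x hx
    have : max 0 (min 1 (4 / 3 - 8 / 3 * |x|)) = 0 :=
      max_eq_left ((min_le_right _ _).trans (by linarith))
    simp only
    rw [this, mul_zero]
  · intro d x h1 h2
    have hP := S.lo d
    have hR := S.hi d
    have hδ := S.δ_pos
    have hx : |x| ≤ 1 / 8 := by
      rw [abs_le]
      constructor <;> linarith
    have h3 : max 0 (min 1 (4 / 3 - 8 / 3 * |x|)) = 1 := by
      rw [min_eq_left (by linarith), max_eq_right (by norm_num)]
    have h4 : f x = cd d := by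
      simp only [f]
      rw [Finset.sum_eq_single d]
      · rw [max_eq_left (a := (0 : ℝ)) (b := max (S.P d - 8 * x) (8 * x - S.R d))
          (max_le (by linarith) (by linarith)), zero_div, sub_zero, max_eq_right (by norm_num),
          mul_one]
      · intro d' _ hd'
        have h5 : S.δ ≤ max 0 (max (S.P d' - 8 * x) (8 * x - S.R d')) := by
          rcases S.sep d d' (Ne.symm hd') with h6 | h6
          · exact le_max_of_le_right (le_max_of_le_left (by linarith))
          · exact le_max_of_le_right (le_max_of_le_right (by linarith))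
        have h7 : 1 ≤ max 0 (max (S.P d' - 8 * x) (8 * x - S.R d')) / S.δ := by
          rw [le_div_iff₀ hδ]
          linarith
        rw [max_eq_left (by linarith), mul_zero]
      · intro h
        exact absurd (Finset.mem_univ d) h
    have h8 := abs_le.1 (hcd d)
    simp only
    rw [h3, mul_one, h4, min_eq_right h8.2, max_eq_right h8.1]

theorem pl4_id {t : ℝ} (h : |t| ≤ 1) :
    pl4 (-1) (-7 / 8) (7 / 8) 1 (-1) (-7 / 8) (7 / 8) 1 t = t := by
  have ht := abs_le.1 h
  unfold pl4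
  rcases ramp_cases (show (-1 : ℝ) < -7 / 8 by norm_num) t with ⟨h1, h2⟩ | ⟨h1, h1', h2⟩ | ⟨h1, h2⟩
  · rcases ramp_cases (show (-7 / 8 : ℝ) < 7 / 8 by norm_num) t with
      ⟨h3, h4⟩ | ⟨h3, h3', h4⟩ | ⟨h3, h4⟩ <;>
    rcases ramp_cases (show (7 / 8 : ℝ) < 1 by norm_num) t with
      ⟨h5, h6⟩ | ⟨h5, h5', h6⟩ | ⟨h5, h6⟩ <;> nlinarith
  · rcases ramp_cases (show (-7 / 8 : ℝ) < 7 / 8 by norm_num) t with
      ⟨h3, h4⟩ | ⟨h3, h3', h4⟩ | ⟨h3, h4⟩ <;>
    rcases ramp_cases (show (7 / 8 : ℝ) < 1 by norm_num) t with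
      ⟨h5, h6⟩ | ⟨h5, h5', h6⟩ | ⟨h5, h6⟩ <;> nlinarith
  · rcases ramp_cases (show (-7 / 8 : ℝ) < 7 / 8 by norm_num) t with
      ⟨h3, h4⟩ | ⟨h3, h3', h4⟩ | ⟨h3, h4⟩ <;>
    rcases ramp_cases (show (7 / 8 : ℝ) < 1 by norm_num) t with
      ⟨h5, h6⟩ | ⟨h5, h5', h6⟩ | ⟨h5, h6⟩ <;> nlinarith

/-- The middle part of the polygonal function. -/
theorem pl4_center {c l m : ℝ} (hl : 0 < l) (h1 : -1 < c - l) (h2 : c + l < 1)
    (hm : |m| ≤ 7 / 8) :
    pl4 (-1) (c - l) (c + l) 1 (-1) (-7 / 8) (7 / 8) 1 (c + l * (8 / 7) * m) = m := by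
  have hm' := abs_le.1 hm
  have e1 : c - l ≤ c + l * (8 / 7) * m := by nlinarith
  have e2 : c + l * (8 / 7) * m ≤ c + l := by nlinarith
  rw [pl4_of_mid_le h1 (by linarith) h2 e1, pl3_of_le_mid (by linarith) h2 e2,
    pl2_of_mem (by linarith) e1 e2]
  have : c + l - (c - l) ≠ 0 := by linarith
  field_simp
  ring

/-- **The core of the splitting.** -/
structure Core (S : Strips D) where
  /-- the morphism -/
  ψ : Q → Q
  mor : IsMor ψ
  /-- the new pieces -/
  s : D → Disc → Disc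
  fam : IsFam s
  inc_s : ∀ d, IsInc (s d)
  sep1 : ∀ d d' x y, (s d x).1.1 = (s d' y).1.1 → d = d'
  sep2 : ∀ d d' x y, (s d x).1.2 = (s d' y).1.2 → d = d'
  spec2 : ∀ d x y, ψ (vert (s d) (beta2 (x, y))) = beta2 (psq (S.γ d) (fun t => t) x, y)
  spec1 : ∀ d x y, ψ (vert (s d) (beta1 (x, y))) = beta1 (x, fpos S d y)
  cover1 : ∀ p r, ψ p = beta1 r → ∃ d r', p = vert (s d) (beta1 r')

theorem exists_core [Finite D] (S : Strips D) : Nonempty (Core S) := by
  obtain ⟨n, ⟨e⟩⟩ := Finite.exists_equiv_fin D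
  let N : ℝ := n + 1
  have hN : 1 ≤ N := by
    have : (0 : ℝ) ≤ n := Nat.cast_nonneg n
    simp only [N]; linarith
  have hN0 : 0 < N := by linarith
  let l : ℝ := 1 / (8 * N)
  have hl : 0 < l := by positivity
  have hl8 : l ≤ 1 / 8 := by
    simp only [l]
    rw [div_le_div_iff₀ (by positivity) (by norm_num)]
    linarith
  let cd : D → ℝ := fun d => ((e d : ℕ) : ℝ) * (4 * l)
  have hl' : 4 * l * N = 1 / 2 := by
    simp only [l]
    field_simp
    norm_num
  have hcd0 : ∀ d, 0 ≤ cd d := fun d => by positivity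
  have hcd1 : ∀ d, cd d ≤ 1 / 2 := by
    intro d
    have h1 : ((e d : ℕ) : ℝ) ≤ N := by
      have : ((e d : ℕ) : ℝ) < n := by exact_mod_cast (e d).2
      simp only [N]; linarith
    calc cd d ≤ N * (4 * l) := mul_le_mul_of_nonneg_right h1 (by positivity)
      _ = 1 / 2 := by rw [mul_comm]; exact hl'
  have hcd : ∀ d, |cd d| ≤ 1 / 2 := fun d => by
    rw [abs_of_nonneg (hcd0 d)]; exact hcd1 d
  have hcdsep : ∀ d d', d ≠ d' → 4 * l ≤ |cd d - cd d'| := by
    intro d d' hd
    have h1 : (e d : ℕ) ≠ (e d' : ℕ) := fun h => hd (e.injective (Fin.ext h))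
    have h2 : (1 : ℝ) ≤ |((e d : ℕ) : ℝ) - ((e d' : ℕ) : ℝ)| := by
      rcases Nat.lt_or_gt_of_ne h1 with h | h
      · have : ((e d : ℕ) : ℝ) + 1 ≤ ((e d' : ℕ) : ℝ) := by exact_mod_cast h
        rw [abs_sub_comm]
        exact le_trans (by linarith) (le_abs_self _)
      · have : ((e d' : ℕ) : ℝ) + 1 ≤ ((e d : ℕ) : ℝ) := by exact_mod_cast h
        exact le_trans (by linarith) (le_abs_self _)
    have h3 : cd d - cd d' = (((e d : ℕ) : ℝ) - ((e d' : ℕ) : ℝ)) * (4 * l) := by
      simp only [cd]; ring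
    rw [h3, abs_mul, abs_of_pos (show 0 < 4 * l by positivity)]
    nlinarith
  obtain ⟨c, hc, hc1, hc2, hc3⟩ := exists_cen S cd hcd
  let ll : ℝ → ℝ := fun x => l + (7 / 8 - l) * max 0 (2 * |x| - 1)
  have hll : ∀ x, |x| ≤ 1 → 0 < ll x ∧ -1 < c x - ll x ∧ c x + ll x < 1 := by
    intro x hx
    have h1 := abs_le.1 (hc1 x)
    have h0 : 0 ≤ 7 / 8 - l := by linarith
    simp only [ll]
    rcases le_total (|x|) (1 / 2) with h2 | h2
    · rw [max_eq_left (by linarith), mul_zero, add_zero]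
      exact ⟨hl, by linarith [h1.1], by linarith [h1.2]⟩
    · rw [hc2 x h2, max_eq_right (by linarith)]
      refine ⟨by nlinarith, by nlinarith, by nlinarith⟩
  have hllc : Continuous ll := by
    simp only [ll]
    fun_prop
  let g : Q → ℝ := fun p =>
    pl4 (-1) (c (cx p) - ll (cx p)) (c (cx p) + ll (cx p)) 1 (-1) (-7 / 8) (7 / 8) 1 (cy p)
  have hg : Continuous g := by
    refine Continuous.pl4 (by fun_prop) (by fun_prop) (by fun_prop) (by fun_prop) (by fun_prop)
      (by fun_prop) (by fun_prop) (by fun_prop) (by fun_prop) ?_ ?_ ?_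
    · intro p; exact (hll _ (abs_cx p)).2.1
    · intro p; linarith [(hll _ (abs_cx p)).1]
    · intro p; exact (hll _ (abs_cx p)).2.2
  have hg1 : ∀ p, |g p| ≤ 1 := fun p =>
    abs_le.2 (pl4_mem (by norm_num) (by norm_num) (by norm_num))
  have hgi : IncY g := by
    intro p q hx hz hw hy
    simp only [g]
    rw [← hx]
    exact pl4_strictMonoOn (hll _ (abs_cx p)).2.1 (by linarith [(hll _ (abs_cx p)).1])
      (hll _ (abs_cx p)).2.2 (by norm_num) (by norm_num) (by norm_num) (cy_mem p) (cy_mem q) hy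
  have hk : IsMor (setY g) := by
    refine ⟨continuous_setY hg, setY_inj hg1 hgi, ?_⟩
    intro x y hx
    refine Q_ext (cx_setY _) ?_ (cz_setY _) (cw_setY _)
    rw [cy_setY, clp_of_abs (hg1 _)]
    have h1 := nm_eq_one_iff.1 hx
    have h2 := hll _ (abs_cx (x, y))
    by_cases h3 : |x.1.1| = 1
    · have h4 : c (cx (x, y)) = 0 := hc2 _ (by change 1 / 2 ≤ |x.1.1|; rw [h3]; norm_num)
      have h5 : ll (cx (x, y)) = 7 / 8 := by
        change l + (7 / 8 - l) * max 0 (2 * |x.1.1| - 1) = 7 / 8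
        rw [h3]
        norm_num
      simp only [g]
      rw [h4, h5]
      have := pl4_id (abs_cy (x, y))
      rw [show (0 : ℝ) - 7 / 8 = -7 / 8 by norm_num, show (0 : ℝ) + 7 / 8 = 7 / 8 by norm_num]
      exact this
    · have h4 : |x.1.2| = 1 := h1.resolve_left h3
      have h5 : cy (x, y) = 1 ∨ cy (x, y) = -1 := by
        rcases abs_eq (zero_le_one' ℝ) |>.1 h4 with h | h
        · exact Or.inl h
        · exact Or.inr h
      simp only [g]
      rcases h5 with h5 | h5
      · rw [h5, pl4_of_ge h2.2.1 (by linarith [h2.1]) h2.2.2 le_rfl]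
      · rw [h5, pl4_of_le h2.2.1 (by linarith [h2.1]) h2.2.2 le_rfl]
  -- the new positions
  let s : D → Disc → Disc := fun d =>
    psq (fun x => S.γ d (4 * Sf x (3 / 8)) / 8) (fun y => cd d + l * (8 / 7) * mu y)
  have hs1 : ∀ d u, (s d u).1.1 = (pos S d u).1.1 := fun d u => rfl
  have hmb : ∀ d (u : Disc), |cd d + l * (8 / 7) * mu u.1.2| < 1 := by
    intro d u
    have h1 := abs_le.1 (abs_mu_le (disc_abs2 u))
    have h2 := hcd0 d
    have h3 := hcd1 d
    rw [abs_lt]
    constructor <;> nlinarith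
  have hs2 : ∀ d u, (s d u).1.2 = cd d + l * (8 / 7) * mu u.1.2 := fun d u =>
    clp_of_abs (hmb d u).le
  have hsk : ∀ d q, setY g (vert (s d) q) = vert (pos S d) q := by
    intro d q
    have h0 : cx (vert (s d) q) = S.γ d (4 * Sf q.1.1.1 (3 / 8)) / 8 := by
      change (s d q.1).1.1 = _
      rw [hs1, pos_1]
    refine Q_ext ?_ ?_ ?_ ?_
    · rw [cx_setY]
      rfl
    · rw [cy_setY, clp_of_abs (hg1 _)]
      have h1 := pos_mem (S := S) d (disc_abs1 q.1)
      have h2 := hc3 d _ h1.1 h1.2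
      have h3 := abs_pos_lt (S := S) d (disc_abs1 q.1)
      have h4 : ll (S.γ d (4 * Sf q.1.1.1 (3 / 8)) / 8) = l := by
        simp only [ll]
        rw [max_eq_left (by linarith)]
        ring
      have h5 : cy (vert (s d) q) = cd d + l * (8 / 7) * mu q.1.1.2 := hs2 d q.1
      simp only [g]
      rw [h0, h2, h4, h5, pl4_center hl (by linarith [hcd0 d]) (by linarith [hcd1 d])
        (abs_mu_le (disc_abs2 q.1))]
      exact (pos_2 (S := S) d q.1).symm
    · rw [cz_setY]
      rfl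
    · rw [cw_setY]
      rfl
  have hmuo : ∀ d, StrictMonoOn (fun y => cd d + l * (8 / 7) * mu y) (Icc (-1) 1) := by
    intro d x _ y _ hxy
    have h1 := mu_strictMono hxy
    have h2 : 0 < l * (8 / 7) := by positivity
    have h3 := mul_lt_mul_of_pos_left h1 h2
    simp only
    linarith
  have hisq : ∀ d, IsSq (s d) := by
    intro d
    have hc' := S.cont d
    have h1 := abs_lt.1 (abs_pos_lt (S := S) d (x := -1) (by norm_num))
    have h2 := abs_lt.1 (abs_pos_lt (S := S) d (x := 1) (by norm_num))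
    have h3 := abs_lt.1 (hmb d (dpt 0 (-1)))
    have h4 := abs_lt.1 (hmb d (dpt 0 1))
    rw [dpt_2' (by norm_num)] at h3 h4
    refine isSq_psq (by fun_prop) (by fun_prop) (pos_strictMonoOn d) (hmuo d) ?_ ?_ ?_ ?_
    · linarith [h1.1]
    · linarith [h2.2]
    · exact h3.1.le
    · exact h4.2.le
  have hinc : ∀ d, IsInc (s d) := by
    intro d
    constructor
    · intro u v
      rw [hs1, hs1, pos_1, pos_1]
      exact (pos_strictMonoOn d).lt_iff_lt (disc_mem1 u) (disc_mem1 v)
    · intro u v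
      rw [hs2, hs2]
      exact (hmuo d).lt_iff_lt (disc_mem2 u) (disc_mem2 v)
  have hsep1 : ∀ d d' x y, (s d x).1.1 = (s d' y).1.1 → d = d' := by
    intro d d' x y h
    rw [hs1, hs1] at h
    exact pos_sep d d' x y h
  have hsep2 : ∀ d d' x y, (s d x).1.2 = (s d' y).1.2 → d = d' := by
    intro d d' x y h
    rw [hs2, hs2] at h
    by_contra hd
    have h1 := hcdsep d d' hd
    have h2 := abs_le.1 (abs_mu_le (disc_abs2 x))
    have h3 := abs_le.1 (abs_mu_le (disc_abs2 y))
    have h4 : cd d - cd d' = l * (8 / 7) * (mu y.1.2 - mu x.1.2) := by linarith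
    have h5 : |cd d - cd d'| ≤ 2 * l := by
      rw [h4, abs_le]
      constructor <;> nlinarith
    linarith
  refine ⟨{
    ψ := fun p => psi0 S (setY g p)
    mor := isMor_psi0.comp hk
    s := s
    fam := ⟨hisq, fun d u => ?_, fun d d' x y h => hsep1 d d' x y (by rw [h])⟩
    inc_s := hinc
    sep1 := hsep1
    sep2 := hsep2
    spec2 := fun d x y => ?_
    spec1 := fun d x y => ?_
    cover1 := fun p r h => ?_ }⟩
  · rw [mem_int_iff, hs1, hs2]
    exact ⟨(mem_int_iff.1 (pos_int d u)).1, hmb d u⟩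
  · rw [hsk]
    exact spec_beta2 d x y
  · rw [hsk]
    exact spec_beta1 d x y
  · obtain ⟨d, r', h1⟩ := cover_beta1 h
    refine ⟨d, r', ?_⟩
    rw [← hsk] at h1
    exact hk.inj h1

/-! ### The squares in the new pieces -/

section Tau

variable {S : Strips D} {c : ℝ} (hc : 0 < c)

/-- The part of the leg which is covered by the piece. -/
def gpos (S : Strips D) (c : ℝ) (d : D) : Disc → Disc :=
  psq (fun t => S.γ d (c * t) / c) (fun t => t)

include hc in
theorem gpos_1 (h : ∀ d t, |t| ≤ 1 → |S.γ d (c * t)| < c) (d : D) (u : Disc) :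
    (gpos S c d u).1.1 = S.γ d (c * u.1.1) / c := by
  refine clp_of_abs ?_
  rw [abs_div, abs_of_pos hc, div_le_one hc]
  exact (h d _ (disc_abs1 u)).le

theorem gpos_2 (d : D) (u : Disc) : (gpos S c d u).1.2 = u.1.2 := clp_of_abs (disc_abs2 u)

theorem continuous_gpos (d : D) : Continuous (gpos S c d) := by
  have := S.cont d
  exact continuous_psq (by fun_prop) (by fun_prop)

include hc in
theorem inc_gpos (h : ∀ d t, |t| ≤ 1 → |S.γ d (c * t)| < c) (d : D) : IsInc (gpos S c d) := by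
  constructor
  · intro u v
    rw [gpos_1 hc h, gpos_1 hc h, div_lt_div_iff_of_pos_right hc, (S.mono d).lt_iff_lt,
      mul_lt_mul_iff_right₀ hc]
  · intro u v
    rw [gpos_2, gpos_2]

theorem isInc_injective {f : Disc → Disc} (hf : IsInc f) : Function.Injective f := by
  intro u v h
  apply disc_ext
  · rcases lt_trichotomy u.1.1 v.1.1 with h1 | h1 | h1
    · exact absurd (congrArg (fun z : Disc => z.1.1) h) ((hf.fst u v).2 h1).ne
    · exact h1
    · exact absurd (congrArg (fun z : Disc => z.1.1) h) ((hf.fst v u).2 h1).ne'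
  · rcases lt_trichotomy u.1.2 v.1.2 with h1 | h1 | h1
    · exact absurd (congrArg (fun z : Disc => z.1.2) h) ((hf.snd u v).2 h1).ne
    · exact h1
    · exact absurd (congrArg (fun z : Disc => z.1.2) h) ((hf.snd v u).2 h1).ne'

include hc in
/-- The squares in the new pieces. -/
theorem exists_tau (h : ∀ d t, |t| ≤ 1 → |S.γ d (c * t)| < c) {q : D → Disc → Disc}
    (hq : ∀ d, IsXSq (q d)) (hr : ∀ d u, ∃ t, |t| < 1 ∧ S.γ d (c * t) = c * (q d u).1.1) :
    ∃ τ : D → Disc → Disc, (∀ d x, gpos S c d (τ d x) = q d x) ∧ ∀ d, IsXSq (τ d) := by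
  choose t ht hte using hr
  let τ : D → Disc → Disc := fun d u => dpt (t d u) (q d u).1.2
  have h1 : ∀ d u, (τ d u).1.1 = t d u := fun d u => dpt_1' (ht d u).le
  have h2 : ∀ d u, (τ d u).1.2 = (q d u).1.2 := fun d u => dpt_2' (disc_abs2 _)
  have hg : ∀ d x, gpos S c d (τ d x) = q d x := by
    intro d x
    apply disc_ext
    · rw [gpos_1 hc h, h1, hte, mul_div_cancel_left₀ _ hc.ne']
    · rw [gpos_2, h2]
  refine ⟨τ, hg, fun d => ?_⟩
  have hgi := isInc_injective (inc_gpos hc h d)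
  have hgc := continuous_gpos (S := S) (c := c) d
  have hcomp : gpos S c d ∘ τ d = q d := funext fun x => hg d x
  have hcont : Continuous (τ d) := by
    rw [(isClosedEmbedding_sq hgc hgi).isInducing.continuous_iff, hcomp]
    exact (hq d).cont
  refine ⟨⟨hcont, ?_, ?_, ?_⟩, ?_, ?_⟩
  · intro u v huv
    apply (hq d).inj
    rw [← hg, ← hg, huv]
  · have : τ d '' int = gpos S c d ⁻¹' (q d '' int) := by
      ext v
      constructor
      · rintro ⟨u, hu, rfl⟩
        exact ⟨u, hu, (hg d u).symm⟩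
      · rintro ⟨u, hu, huv⟩
        refine ⟨u, hu, hgi ?_⟩
        rw [hg, huv]
    rw [this]
    exact (hq d).isOpen.preimage hgc
  · intro u hu
    rw [mem_int_iff, h1, h2]
    exact ⟨ht d u, (mem_int_iff.1 ((hq d).maps u hu)).2⟩
  · intro u v huv
    rw [h1, h1] at huv
    apply (hq d).xinj
    have h3 := hte d u
    rw [huv, hte] at h3
    exact (mul_left_cancel₀ hc.ne' h3).symm
  · intro u
    rw [h1]
    exact ht d u

end Tau

theorem isXSq_fpos (S : Strips D) (d : D) : IsXSq (fpos S d) := by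
  have hb : ∀ t : ℝ, |t| ≤ 1 → |S.γ d (4 * t) / 4| < 1 := by
    intro t ht
    have h1 := gam_mem (S := S) d (t := 4 * t) (by
      rw [abs_mul, abs_of_pos (show (0 : ℝ) < 4 by norm_num)]
      linarith)
    rw [abs_div, abs_of_pos (show (0 : ℝ) < 4 by norm_num)]
    linarith
  have hm : StrictMono fun t => S.γ d (4 * t) / 4 := by
    intro s t hst
    have := S.mono d (show 4 * s < 4 * t by linarith)
    simp only
    linarith
  have h1 := abs_lt.1 (hb (-1) (by norm_num))
  have h2 := abs_lt.1 (hb 1 (by norm_num))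
  have hc := S.cont d
  refine ⟨isSq_psq (by fun_prop) (by fun_prop) (hm.strictMonoOn _) (strictMonoOn_id) h1.1.le
    h2.2.le (by norm_num) (by norm_num), ?_, ?_⟩
  · intro u v h
    rw [fpos_1, fpos_1] at h
    exact hm.injective h
  · intro u
    rw [fpos_1]
    exact hb _ (disc_abs1 u)

theorem inc_fpos (S : Strips D) (d : D) : IsInc (fpos S d) := by
  constructor
  · intro u v
    rw [fpos_1, fpos_1, div_lt_div_iff_of_pos_right (by norm_num), (S.mono d).lt_iff_lt,
      mul_lt_mul_iff_right₀ (by norm_num)]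
  · intro u v
    rw [fpos_2, fpos_2]

theorem sep_fpos (S : Strips D) (d d' : D) (x y : Disc)
    (h : (fpos S d x).1.1 = (fpos S d' y).1.1) : d = d' := by
  by_contra hd
  rw [fpos_1, fpos_1] at h
  have h4 : ∀ t : ℝ, |t| ≤ 1 → |4 * t| ≤ 8 := by
    intro t ht
    rw [abs_mul, abs_of_pos (show (0 : ℝ) < 4 by norm_num)]
    linarith
  have h1 := S.mem d _ (h4 _ (disc_abs1 x))
  have h2 := S.mem d' _ (h4 _ (disc_abs1 y))
  have h3 := S.δ_pos
  rcases S.sep d d' hd with h5 | h5
  · linarith [h1.2, h2.1]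
  · linarith [h1.1, h2.2]

theorem psq_scl {S : Strips D} {c : ℝ} (hc : 0 < c) (hc1 : c ≤ 1)
    (h : ∀ d t, |t| ≤ 1 → |S.γ d (c * t)| < c) (d : D) (x : Disc) :
    psq (S.γ d) (fun t => t) (scl c x) = scl c (gpos S c d x) := by
  have hx1 := disc_abs1 x
  have hx2 := disc_abs2 x
  have h1 : |c * x.1.1| ≤ 1 := by
    rw [abs_mul, abs_of_pos hc]
    nlinarith [abs_nonneg x.1.1]
  have h2 : |c * x.1.2| ≤ 1 := by
    rw [abs_mul, abs_of_pos hc]
    nlinarith [abs_nonneg x.1.2]
  have e1 : (scl c x).1.1 = c * x.1.1 := dpt_1' h1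
  have e2 : (scl c x).1.2 = c * x.1.2 := dpt_2' h2
  unfold psq
  rw [e1, e2]
  unfold scl
  rw [gpos_1 hc h, gpos_2, mul_div_cancel₀ _ hc.ne']

/-- **Splitting along the leg `small c beta2`.** -/
theorem split2_true [Finite D] {c : ℝ} (hc : 0 < c) (hc1 : c ≤ 1) (q : D → Disc → Disc)
    (hq : ∀ d, IsXSq (q d)) (hs : ∀ d d' x y, (q d x).1.1 = (q d' y).1.1 → d = d') :
    Nonempty (Split2 beta2 beta1 c q) := by
  obtain ⟨S, h1, h2⟩ := exists_strips hc hc1 q (fun d => (hq d).cont) (fun d => (hq d).xint) hs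
  obtain ⟨K⟩ := exists_core S
  obtain ⟨τ, h3, h4⟩ := exists_tau hc h1 hq h2
  have hself : ∀ d x y, K.ψ (vert (K.s d) (small c beta2 (x, y))) =
      small c beta2 (gpos S c d x, y) := by
    intro d x y
    change K.ψ (vert (K.s d) (beta2 (scl c x, y))) = beta2 (scl c (gpos S c d x), y)
    rw [K.spec2, psq_scl hc hc1 h1]
  exact ⟨{
    ψ := K.ψ
    mor := K.mor
    s := K.s
    fam := K.fam
    inc_s := K.inc_s
    sep_s := K.sep1
    g := gpos S c
    inc_g := inc_gpos hc h1
    τ := τ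
    g_τ := h3
    isXSq_τ := h4
    f := fpos S
    isXSq_f := isXSq_fpos S
    inc_f := inc_fpos S
    f_snd := fpos_2
    f_sep := sep_fpos S
    spec_self := hself
    spec_other := K.spec1
    cover_self := fun d p x y h => ⟨(τ d x, y), K.mor.inj (by rw [h, hself, h3])⟩
    cover_other := K.cover1 }⟩

theorem tau_vert_swap (s : Disc → Disc) (p : Q) :
    tau (vert (fun u => swapD (s (swapD u))) p) = vert s (tau p) := by
  rw [tau_eq, tau_eq]
  simp only [vert, swapD_swapD]

/-- **Splitting along the leg `small c beta1`.** -/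
theorem split2_false [Finite D] {c : ℝ} (hc : 0 < c) (hc1 : c ≤ 1) (q : D → Disc → Disc)
    (hq : ∀ d, IsXSq (q d)) (hs : ∀ d d' x y, (q d x).1.1 = (q d' y).1.1 → d = d') :
    Nonempty (Split2 beta1 beta2 c q) := by
  obtain ⟨S, h1, h2⟩ := exists_strips hc hc1 q (fun d => (hq d).cont) (fun d => (hq d).xint) hs
  obtain ⟨K⟩ := exists_core S
  obtain ⟨τ, h3, h4⟩ := exists_tau hc h1 hq h2
  have hself : ∀ d x y, tau (K.ψ (tau (vert (fun u => swapD (K.s d (swapD u)))
      (small c beta1 (x, y))))) = small c beta1 (gpos S c d x, y) := by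
    intro d x y
    rw [tau_vert_swap]
    change tau (K.ψ (vert (K.s d) (beta2 (scl c x, y)))) = beta1 (scl c (gpos S c d x), y)
    rw [K.spec2, psq_scl hc hc1 h1, tau_beta2]
  exact ⟨{
    ψ := fun p => tau (K.ψ (tau p))
    mor := isMor_tau_conj K.mor
    s := fun d u => swapD (K.s d (swapD u))
    fam := ⟨fun d => (isSq_swapD.comp (K.fam.isSq d)).comp isSq_swapD,
      fun d u => isSq_swapD.maps _ (K.fam.int d _),
      fun d d' x y h => K.fam.disj d d' _ _ (isSq_swapD.inj h)⟩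
    inc_s := fun d => ⟨fun u v => by
        rw [swapD_1, swapD_1, (K.inc_s d).snd, swapD_2, swapD_2],
      fun u v => by rw [swapD_2, swapD_2, (K.inc_s d).fst, swapD_1, swapD_1]⟩
    sep_s := fun d d' x y h => by
      rw [swapD_1, swapD_1] at h
      exact K.sep2 d d' _ _ h
    g := gpos S c
    inc_g := inc_gpos hc h1
    τ := τ
    g_τ := h3
    isXSq_τ := h4
    f := fpos S
    isXSq_f := isXSq_fpos S
    inc_f := inc_fpos S
    f_snd := fpos_2
    f_sep := sep_fpos S
    spec_self := hself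
    spec_other := fun d x y => by
      rw [tau_vert_swap, tau_beta2, K.spec1, tau_beta1]
    cover_self := fun d p x y h => ⟨(τ d x, y), (isMor_tau_conj K.mor).inj (by
      rw [h, hself, h3])⟩
    cover_other := fun p r h => by
      have h5 : K.ψ (tau p) = beta1 r := by
        rw [← tau_beta2, ← h, tau_tau]
      obtain ⟨d, r', h6⟩ := K.cover1 _ _ h5
      refine ⟨d, r', tau_injective ?_⟩
      rw [h6, tau_vert_swap, tau_beta2] }⟩

/-- **The splitting data of `TwoLeg`.** -/
theorem exists_split2 {c : ℝ} (hc : 0 < c) (hc1 : c ≤ 1) (b : Bool → Q → Q)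
    (hb1 : b false = beta1) (hb2 : b true = beta2) (k : Bool) {D : Type} [Finite D]
    (q : D → Disc → Disc) (hq : ∀ d, IsXSq (q d))
    (hs : ∀ d d' x y, (q d x).1.1 = (q d' y).1.1 → d = d') :
    Nonempty (Split2 (b k) (b !k) c q) := by
  cases k
  · change Nonempty (Split2 (b false) (b true) c q)
    rw [hb1, hb2]
    exact split2_false hc hc1 q hq hs
  · change Nonempty (Split2 (b true) (b false) c q)
    rw [hb1, hb2]
    exact split2_true hc hc1 q hq hs

end Vale.Agent.P215.Am.SplitMap
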