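import Vale.Agent.P215.Am.Start
import Vale.Agent.P215.Am.Beta
import Vale.Agent.P215.Am.TwoLeg
import Vale.Agent.P215.Am.Contract

/-!
# P215, route A: the local datum `StartSplit` from the two-leg data

The squares `T.sq false d` of the second stage reverse the orientation; this is repaired by the
reflection `(x, y) ↦ (x, -y)` of the new pieces, which maps the leg boxes to themselves (with
reflections of the cap or of the fibre).
-/

noncomputable section

namespace Vale.Agent.P215.Am

open Vale.Agent.P215.H788 Vale.Agent.P215.H579 Set Topology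

/-- The reflection `(x, y) ↦ (x, -y)` of the disc. -/
def negY (u : Disc) : Disc := dpt u.1.1 (-u.1.2)

theorem negY_1 (u : Disc) : (negY u).1.1 = u.1.1 := dpt_1' (disc_abs1 u)

theorem negY_2 (u : Disc) : (negY u).1.2 = -u.1.2 :=
  dpt_2' (by rw [abs_neg]; exact disc_abs2 u)

theorem negY_negY (u : Disc) : negY (negY u) = u := by
  apply disc_ext
  · rw [negY_1, negY_1]
  · rw [negY_2, negY_2, neg_neg]

theorem nm_negY (u : Disc) : nm (negY u) = nm u := by
  rw [Am.nm_eq, Am.nm_eq, negY_1, negY_2, abs_neg]

theorem continuous_negY : Continuous negY := by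
  unfold negY
  fun_prop

theorem isSq_negY : IsSq negY where
  cont := continuous_negY
  inj := fun x y h => by rw [← negY_negY x, h, negY_negY]
  isOpen := by
    have h : negY '' int = int := by
      ext y
      constructor
      · rintro ⟨x, hx, rfl⟩
        change nm _ < 1
        rw [nm_negY]; exact hx
      · intro hy
        refine ⟨negY y, ?_, negY_negY y⟩
        change nm _ < 1
        rw [nm_negY]; exact hy
    rw [h]
    exact isOpen_int
  maps x hx := by
    change nm _ < 1
    rw [nm_negY]; exact hx

theorem IsInc.injective {f : Disc → Disc} (h : IsInc f) : Function.Injective f := by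
  intro u v e
  apply disc_ext
  · rcases lt_trichotomy u.1.1 v.1.1 with h1 | h1 | h1
    · exact absurd ((h.fst _ _).2 h1) (by rw [e]; exact lt_irrefl _)
    · exact h1
    · exact absurd ((h.fst _ _).2 h1) (by rw [e]; exact lt_irrefl _)
  · rcases lt_trichotomy u.1.2 v.1.2 with h1 | h1 | h1
    · exact absurd ((h.snd _ _).2 h1) (by rw [e]; exact lt_irrefl _)
    · exact h1
    · exact absurd ((h.snd _ _).2 h1) (by rw [e]; exact lt_irrefl _)

/-- **The re-centering homeomorphisms** (`ThreeLeg.lean`). -/
def Recenter (c : ℝ) : Prop :=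
  ∀ τ : Disc → Disc, IsSq τ → IsInc τ → ∃ h : Disc → Disc, Continuous h ∧ Function.Injective h ∧
    (∀ x, nm x = 1 → h x = x) ∧ ∀ x, h (scl c x) = scl c (τ x)

section Local

/-- The hypothesis on the thick legs: they are symmetric with respect to `(x, y) ↦ (x, -y)`. -/
structure YSym (b : Bool → Q → Q) : Prop where
  symF : ∀ x y, vert negY (b false (x, y)) = b false (rfD false x, y)
  symT : ∀ x y, vert negY (b true (x, y)) = b true (x, rfD false y)

theorem cx_vert_negY (p : Q) : cx (vert negY p) = cx p := negY_1 _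

theorem cy_vert_negY (p : Q) : cy (vert negY p) = -cy p := negY_2 _

theorem cz_vert_negY (p : Q) : cz (vert negY p) = cz p := rfl

theorem cw_vert_negY (p : Q) : cw (vert negY p) = cw p := rfl

theorem rfD_false_1 (x : Disc) : (rfD false x).1.1 = -x.1.1 := by simp [rfD]

theorem rfD_false_2 (x : Disc) : (rfD false x).1.2 = x.1.2 := by simp [rfD]

theorem Yf_neg (s r : ℝ) : Yf (-s) r = -Yf s r := by
  unfold Yf
  grind

theorem negY_beta1 (x y : Disc) : vert negY (beta1 (x, y)) = beta1 (rfD false x, y) := by
  have h1 : lev (rfD false x) = lev x := by simp only [lev, rfD_false_2]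
  apply Q_ext
  · rw [cx_vert_negY, cx_beta1, cx_beta1]
    simp only [cz, h1]
  · rw [cy_vert_negY, cy_beta1, cy_beta1]
    simp only [cx, rfD_false_1]
    ring
  · rw [cz_vert_negY, cz_beta1, cz_beta1]
    simp only [cz, h1]
  · rw [cw_vert_negY, cw_beta1, cw_beta1]
    rfl

theorem negY_beta2 (x y : Disc) : vert negY (beta2 (x, y)) = beta2 (x, rfD false y) := by
  apply Q_ext
  · rw [cx_vert_negY, cx_beta2, cx_beta2]
    rfl
  · rw [cy_vert_negY, cy_beta2, cy_beta2]
    simp only [cz, rfD_false_1, Yf_neg]
  · rw [cz_vert_negY, cz_beta2, cz_beta2]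
    simp only [cz, rfD_false_1, Yf_neg, abs_neg]
  · rw [cw_vert_negY, cw_beta2, cw_beta2]
    simp only [cw, rfD_false_2]

theorem ySym_of {b : Bool → Q → Q} (hF : b false = beta1) (hT : b true = beta2) : YSym b where
  symF x y := by rw [hF]; exact negY_beta1 x y
  symT x y := by rw [hT]; exact negY_beta2 x y

/-- The squares of the initial system. -/
structure SqForm (sq : Bool → ℕ → Disc → Disc) (M : ℕ) : Prop where
  isXSq : ∀ b m, m < M → IsXSq (sq b m)
  sep : ∀ b m m', m < M → m' < M → ∀ x y, (sq b m x).1.1 = (sq b m' y).1.1 → m = m'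
  inc : ∀ m, m < M → IsInc fun u => rfD false (sq false m u)

theorem rfD_scl (c : ℝ) (x : Disc) : rfD false (scl c x) = scl c (rfD false x) := by
  apply disc_ext
  · simp only [rfD, scl, dpt_1, if_neg Bool.false_ne_true]
    rw [mul_neg]
    unfold clp
    grind
  · simp only [rfD, scl, dpt_2, if_neg Bool.false_ne_true]

variable {T2 : TwoLeg}

theorem startSplit_of (hb : YSym T2.b) (hR : Recenter T2.c) {sq : Bool → ℕ → Disc → Disc} {M : ℕ}
    (hsq : SqForm sq M) {L : Fin 3 → Q → Q}
    (hL0 : ∀ p, L 0 p = small T2.c (T2.b true) p)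
    (hL1 : ∀ p, L 1 p = small T2.c (T2.b false) (small T2.c (T2.b false) p))
    (hL2 : ∀ p, L 2 p = small T2.c (T2.b false) (small T2.c (T2.b true) p))
    {n : ℕ} (hn : 0 < n) (hnM : n ≤ M) :
    Nonempty (StartSplit (fun k => small T2.c (T2.b k)) sq M L (fun b => if b then 2 else 1)
      (fun k : Fin n => sq false k)) := by
  have : Nonempty (Fin n) := ⟨⟨0, hn⟩⟩
  obtain ⟨D⟩ := T2.split false (fun k : Fin n => sq false k)
    (fun k => hsq.isXSq _ _ (k.2.trans_le hnM))
    (fun k l x y h => Fin.ext (hsq.sep _ _ _ (k.2.trans_le hnM) (l.2.trans_le hnM) x y h))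
  simp only [Bool.not_false] at D
  -- the centered square
  have hτ : ∀ d, IsInc fun u => rfD false (D.τ d u) := by
    intro d
    have h1 := hsq.inc d (d.2.trans_le hnM)
    have h2 := D.inc_g d
    constructor
    · intro u v
      rw [← h1.fst u v]
      simp only [Start.rfD_fst, Bool.false_eq_true, if_false, neg_lt_neg_iff]
      rw [← D.g_τ d u, ← D.g_τ d v, h2.fst]
    · intro u v
      rw [← h1.snd u v]
      have e : ∀ a, (rfD false a).1.2 = a.1.2 := fun a => by simp [rfD]
      simp only [e]
      rw [← D.g_τ d u, ← D.g_τ d v, h2.snd]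
  have hτsq : ∀ d, IsSq fun u => rfD false (D.τ d u) := fun d =>
    (isSq_rfD false).comp (D.isXSq_τ d).toIsSq
  choose h hc hi hbd hh using fun d => hR _ (hτsq d) (hτ d)
  let s' : Fin n → Disc → Disc := fun d x => D.s d (negY x)
  have hs' : IsFam s' :=
    { isSq := fun d => (D.fam.isSq d).comp isSq_negY
      int := fun d x => D.fam.int _ _
      disj := fun d d' x y e => D.fam.disj _ _ _ _ e }
  let B : Fin n → Q → Q := fun d p => vert (s' d) (T2.b false p)
  have hB : ∀ d, IsBox (B d) := fun d => (hs'.isBox d).comp (T2.isBox false)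
  have hd : ∀ j k p q, B j p = B k q → j = k := fun j k p q e => hs'.vert_disj _ _ _ _ e
  have hmor : IsMor (ins B fun d => vert (h d)) := by
    refine isMor_ins hB hd fun d => ⟨?_, ?_, ?_⟩
    · exact ((hc d).comp continuous_fst).prodMk continuous_snd
    · exact vert_inj (hi d)
    · intro x y hx
      simp only [vert]
      rw [hbd d x hx]
  -- the small leg `false`
  have eF : ∀ d x y, vert (s' d) (small T2.c (T2.b false) (x, y)) =
      B d (scl T2.c x, y) := fun d x y => rfl
  have sF : ∀ d x y, vert (s' d) (small T2.c (T2.b false) (x, y)) =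
      vert (D.s d) (small T2.c (T2.b false) (rfD false x, y)) := by
    intro d x y
    have h1 : vert (s' d) (small T2.c (T2.b false) (x, y)) =
      vert (D.s d) (vert negY (T2.b false (scl T2.c x, y))) := rfl
    rw [h1, hb.symF, rfD_scl]
    rfl
  have sT : ∀ d x y, vert (s' d) (T2.b true (x, y)) =
      vert (D.s d) (T2.b true (x, rfD false y)) := by
    intro d x y
    have h1 : vert (s' d) (T2.b true (x, y)) = vert (D.s d) (vert negY (T2.b true (x, y))) := rfl
    rw [h1, hb.symT]
  have insF : ∀ d x y, ins B (fun d => vert (h d)) (vert (s' d) (small T2.c (T2.b false) (x, y))) =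
      vert (s' d) (small T2.c (T2.b false) (rfD false (D.τ d x), y)) := by
    intro d x y
    rw [eF, ins_box hB hd]
    simp only [vert]
    rw [hh]
    rfl
  have insT : ∀ d p, ins B (fun d => vert (h d)) (vert (s' d) (T2.b true p)) =
      vert (s' d) (T2.b true p) := by
    intro d p
    refine ins_off _ ?_
    intro j q e
    have h1 := hs'.vert_disj _ _ _ _ e
    subst h1
    exact T2.disj _ _ (vert_inj (hs'.isSq _).inj e).symm
  refine ⟨{
    ψ := fun p => D.ψ (ins B (fun d => vert (h d)) p)
    mor := D.mor.comp hmor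
    s := s'
    fam := hs'
    f := fun d y => D.f d (rfD false y)
    isXSq_f := fun d =>
      { toIsSq := (D.isXSq_f d).toIsSq.comp (isSq_rfD false)
        xinj := fun u v e => Start.rfD_inj1 _ ((D.isXSq_f d).xinj _ _ e)
        xint := fun u => (D.isXSq_f d).xint _ }
    f_sep := fun d d' x y e => D.f_sep _ _ _ _ e
    q := fun i m => sq (if i = 1 then false else true) m
    isXSq_q := fun i m hm => hsq.isXSq _ _ hm
    q_sep := fun i m m' hm hm' x y e => hsq.sep _ _ _ hm hm' x y e
    spec_zero := ?_
    spec_ix := ?_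
    cover_zero := ?_
    cover_ix := ?_ }⟩
  · intro d m hm x y
    simp only [hL0, if_neg (show (0 : Fin 3) ≠ 1 by decide)]
    have h1 : vert (s' d) (small T2.c (T2.b true) (sq true m x, y)) =
      vert (s' d) (T2.b true (scl T2.c (sq true m x), y)) := rfl
    rw [h1, insT, sT, D.spec_other]
    rfl
  · intro d b m hm x y
    have hq : (if (if b then (2 : Fin 3) else 1) = 1 then false else true) = b := by
      cases b <;> simp
    have hL : L (if b then 2 else 1) (sq b m x, y) =
        small T2.c (T2.b false) (small T2.c (T2.b b) (sq b m x, y)) := by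
      cases b
      · simp [hL1]
      · simp [hL2]
    simp only [hq, hL]
    obtain ⟨x', y'⟩ := small T2.c (T2.b b) (sq b m x, y)
    rw [insF, sF, rfD_rfD, D.spec_self, D.g_τ]
    rfl
  · intro p m hm x y e
    obtain ⟨d, r', hr⟩ := D.cover_other _ _ e
    have hr2 : r' = (r'.1, rfD false (rfD false r'.2)) := by rw [rfD_rfD]
    have h1 : ins B (fun d => vert (h d)) p = vert (s' d) (T2.b true (r'.1, rfD false r'.2)) := by
      rw [hr, sT, ← hr2]
    have h2 : p = vert (s' d) (T2.b true (r'.1, rfD false r'.2)) :=
      hmor.inj (h1.trans (insT d _).symm)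
    have h3 : r'.1 = scl T2.c (sq true m x) := by
      rw [hr, D.spec_other] at e
      exact congrArg Prod.fst ((T2.isBox true).inj e)
    refine ⟨d, rfD false r'.2, ?_⟩
    rw [h2, h3]
    simp only [hL0, if_neg (show (0 : Fin 3) ≠ 1 by decide)]
    rfl
  · intro d p b m hm x y e
    have hq : (if (if b then (2 : Fin 3) else 1) = 1 then false else true) = b := by
      cases b <;> simp
    have hL : L (if b then 2 else 1) (sq b m x, y) =
        small T2.c (T2.b false) (small T2.c (T2.b b) (sq b m x, y)) := by
      cases b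
      · simp [hL1]
      · simp [hL2]
    simp only [hq, hL]
    generalize small T2.c (T2.b b) (sq b m x, y) = r at e ⊢
    obtain ⟨x', y'⟩ := r
    obtain ⟨r, hr⟩ := D.cover_self d _ x' y' e
    refine hmor.inj ?_
    rw [hr, insF, sF, rfD_rfD]
    obtain ⟨r1, r2⟩ := r
    rw [hr, D.spec_self] at e
    have h1 := (T2.isBox false).inj e
    simp only [vert, Prod.mk.injEq] at h1
    obtain ⟨h2, h3⟩ := h1
    have h4 := (Contr.isSq_scl T2.c_pos T2.c_lt.le).inj h2
    rw [← D.g_τ d x'] at h4
    rw [(D.inc_g d).injective h4, h3]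

end Local

/-- The number of squares of the base squares. -/
def nSq (G : CappedGrope) : ℕ := 1 + G.genera.length + G.genera.sum + 2 * G.plumbings.length

theorem L_eq (G : CappedGrope) : G.L = 4 * (nSq G : ℝ) := rfl

/-- **The initial system is realized by a labelled system of three-legged branches.** -/
theorem exists_rzSep_of_theta {T2 : TwoLeg} (hF : T2.b false = beta1) (hT : T2.b true = beta2)
    (hR : Recenter T2.c) {L : Fin 3 → Q → Q} (hL : IsLegs L)
    (hL0 : ∀ p, L 0 p = small T2.c (T2.b true) p)
    (hL1 : ∀ p, L 1 p = small T2.c (T2.b false) (small T2.c (T2.b false) p))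
    (hL2 : ∀ p, L 2 p = small T2.c (T2.b false) (small T2.c (T2.b true) p))
    {G : CappedGrope} (T : ThetaDatum G.L) (hTl : ∀ k p, T.leg k p = small T2.c (T2.b k) p)
    (hTs : SqForm T.sq (nSq G)) {Γ : Type} [Group Γ] (c : Coc G.Thickening Γ) :
    ∃ S : LabSys Γ, RzSep G.attach c L S := by
  have h1 : T.leg = fun k => small T2.c (T2.b k) := by
    funext k p
    exact hTl k p
  have h2 : ∀ j : Fin G.genera.length, Nonempty (StartSplit T.leg T.sq (nSq G) L
      (fun b => if b then 2 else 1) (fun k : Fin (G.genera.get j) => T.sq false k)) := by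
    intro j
    rw [h1]
    refine startSplit_of (ySym_of hF hT) hR hTs hL0 hL1 hL2
      (G.genera_pos _ (List.get_mem _ _)) ?_
    have h3 : G.genera.get j ≤ G.genera.sum := List.le_sum_of_mem (List.get_mem _ _)
    unfold nSq
    omega
  exact exists_rzSep_start T hL (by unfold nSq; omega) (fun j => (h2 j).some) c

end Vale.Agent.P215.Am
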