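import Vale.Agent.P215.Am.ThreeLeg
import Vale.Agent.P215.Am.Contract
import Vale.Agent.P215.Am.Push2
import Vale.Agent.P215.Am.StartLocal
import Vale.Agent.P215.Am.Main
import Vale.Agent.P215.Am.SplitTwo

/-!
# P215, route A: the concrete two-leg data

`T0`: the two-leg data with thick legs `beta2`, `beta1` and scale `1 / 2`. `TwoLeg.threeLegData`: the local data of the three-legged piece.
`startStatement_of`: the initial system, given the embeddings `θ`.
-/

noncomputable section

namespace Vale.Agent.P215.Am

open Vale.Agent.P215.H788 Set Topology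

/-- The two thick legs. -/
def thick (k : Bool) : Q → Q := if k then beta2 else beta1

theorem thick_true : thick true = beta2 := rfl

theorem thick_false : thick false = beta1 := rfl

theorem wprod_beta1 : WProd beta1 where
  w x y := cw_beta1 (x, y)
  fst x y y' h := by
    have h1 : cz (x, y) = cz (x, y') := h
    apply disc_ext
    · have e1 := cx_beta1 (x, y)
      have e2 := cx_beta1 (x, y')
      rw [h1] at e1
      exact e1.trans e2.symm
    · have e1 := cy_beta1 (x, y)
      have e2 := cy_beta1 (x, y')
      exact e1.trans e2.symm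
  snd x y y' h := by
    have h1 : cz (x, y) = cz (x, y') := h
    have e1 := cz_beta1 (x, y)
    have e2 := cz_beta1 (x, y')
    rw [h1] at e1
    exact e1.trans e2.symm

theorem wprod_beta2 : WProd beta2 where
  w x y := cw_beta2 (x, y)
  fst x y y' h := by
    have h1 : cz (x, y) = cz (x, y') := h
    apply disc_ext
    · have e1 := cx_beta2 (x, y)
      have e2 := cx_beta2 (x, y')
      exact e1.trans e2.symm
    · have e1 := cy_beta2 (x, y)
      have e2 := cy_beta2 (x, y')
      rw [h1] at e1
      exact e1.trans e2.symm
  snd x y y' h := by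
    have h1 : cz (x, y) = cz (x, y') := h
    have e1 := cz_beta2 (x, y)
    have e2 := cz_beta2 (x, y')
    rw [h1] at e1
    exact e1.trans e2.symm

/-- The two-leg data from the two splittings. -/
def twoLegOf (hs : ∀ (k : Bool) {D : Type} [Finite D] [Nonempty D] (q : D → Disc → Disc),
    (∀ d, IsXSq (q d)) → (∀ d d' x y, (q d x).1.1 = (q d' y).1.1 → d = d') →
      Nonempty (Split2 (thick k) (thick !k) (1 / 2) q)) : TwoLeg where
  c := 1 / 2
  c_pos := by norm_num
  c_lt := by norm_num
  b := thick
  isBox k := by
    cases k
    · exact isBox_beta1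
    · exact isBox_beta2
  disj p q h := beta1_ne_beta2 q p h.symm
  wprod k := by
    cases k
    · exact wprod_beta1
    · exact wprod_beta2
  split := hs
  contract k := by
    cases k
    · exact ⟨Contr.contract1 (by norm_num) (by norm_num)⟩
    · exact ⟨Contr.contract2 (by norm_num) (by norm_num)⟩
  push := Push2.exists_push rfl rfl (by norm_num) (by norm_num)

/-- **The two-leg data.** -/
def T0 : TwoLeg :=
  twoLegOf fun k {D} _ _ q hq hs =>
    SplitMap.exists_split2 (by norm_num) (by norm_num) thick rfl rfl k q hq hs

theorem TwoLeg.threeLegData (T : TwoLeg) : ThreeLegData T.L where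
  legs := T.isLegs
  split i _ _ q hq hs _ := T.exists_legSplit i q hq hs
  contract i := T.exists_legContract i
  push a b hab := T.exists_pushDatum a b hab

theorem TwoLeg.recenter (T : TwoLeg) : Recenter T.c :=
  fun _ h1 h2 => exists_recenter T.c_pos T.c_lt h1.cont h2

/-- The embeddings `θ` of the initial step. -/
def ThetaStatement : Prop :=
  ∀ (L : ℝ) (M : ℕ), L = 4 * (M : ℝ) → 2 ≤ M →
    ∃ T : ThetaDatum L, (∀ k p, T.leg k p = small (1 / 2) (thick k) p) ∧ SqForm T.sq M

theorem threeLegData : ThreeLegData T0.L := T0.threeLegData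

theorem startStatement_of {T : TwoLeg} (hc : T.c = 1 / 2) (hb : T.b = thick)
    (hθ : ThetaStatement) : StartStatement T.L := by
  intro G Γ _ c
  obtain ⟨θ, h1, h2⟩ := hθ G.L (nSq G) (L_eq G) (by
    have := G.genera_ne_nil
    have h3 : 0 < G.genera.length := List.length_pos_iff.2 this
    unfold nSq
    omega)
  refine exists_rzSep_of_theta (T2 := T) ?_ ?_ T.recenter T.isLegs (fun p => rfl) (fun p => rfl)
    (fun p => rfl) θ ?_ h2 c
  · rw [hb]; rfl
  · rw [hb]; rfl
  · rw [hc, hb]; exact h1

/-- The initial system, given the embeddings `θ`. -/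
theorem startStatement (hθ : ThetaStatement) : StartStatement T0.L :=
  startStatement_of rfl rfl hθ

end Vale.Agent.P215.Am
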