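import Vale.Agent.P215.Am.ThMain
import Vale.Agent.P215.Am.TwoLegInst
import Vale.Agent.P215.Am.ThPos

/-!
# P215, route A: the embeddings of the initial step
-/

noncomputable section

namespace Vale.Agent.P215.Am

open Vale.Agent.P215.H788 Vale.Agent.P215.H579 Set Topology

namespace ThB

open Th Contr

theorem rot_eq (u : Disc) : rot u = swapD (rfD false u) := by
  apply disc_ext
  · rw [rot_1, swapD_1, rfD_false_2]
  · rw [rot_2, swapD_2, rfD_false_1]

theorem isSq_rot : IsSq rot := by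
  have h : rot = fun u => swapD (rfD false u) := funext rot_eq
  rw [h]
  exact isSq_swapD.comp (isSq_rfD false)

variable (C : ThetaCore) (L : ℝ)

/-- The embedding. -/
def thE (p : Q) : H788.E :=
  (posL L (C.p1 p, C.p2 p), posL L (C.q1 p, C.q2 p), (C.r p + 2, cw p + 2))

theorem cont_thE : Continuous (thE C L) := by
  unfold thE
  have h := continuous_posL L
  have h1 := C.cp1
  have h2 := C.cp2
  have h3 := C.cq1
  have h4 := C.cq2
  have h5 := C.cr
  have h6 : Continuous fun p => posL L (C.p1 p, C.p2 p) := h.comp (h1.prodMk h2)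
  have h7 : Continuous fun p => posL L (C.q1 p, C.q2 p) := h.comp (h3.prodMk h4)
  fun_prop

theorem nrm_le {a b : ℝ} (ha : |a| ≤ 1) (hb : |b| ≤ 1) : nrm (a, b) ≤ 1 := max_le ha hb

theorem nrm_one {a b : ℝ} (ha : |a| ≤ 1) (hb : |b| ≤ 1) (h : |a| = 1 ∨ |b| = 1) :
    nrm (a, b) = 1 := by
  unfold nrm
  rcases h with h | h
  · simp only [h]; exact max_eq_left hb
  · simp only [h]; exact max_eq_right ha

variable {L}

theorem inj_thE (hL : 8 ≤ L) : Function.Injective (thE C L) := by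
  intro p q h
  simp only [thE, Prod.mk.injEq] at h
  obtain ⟨h1, h2, h3, h4⟩ := h
  have e1 := posL_inj hL (nrm_le (C.ap1 p) (C.ap2 p)) (nrm_le (C.ap1 q) (C.ap2 q)) h1
  have e2 := posL_inj hL (nrm_le (C.aq1 p) (C.aq2 p)) (nrm_le (C.aq1 q) (C.aq2 q)) h2
  simp only [Prod.mk.injEq] at e1 e2
  exact C.inj p q e1.1 e1.2 e2.1 e2.2 (by linarith) (by linarith)

theorem mem_thE (hL : 8 ≤ L) (p : Q) : thE C L p ∈ XL L := by
  have hw := cw_mem p
  have hr := abs_le.1 (C.ar p)
  rcases C.mem p with ⟨h1, h2, h3⟩ | ⟨h1, h2, h3⟩ | ⟨h1, h2, h3⟩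
  · left
    have n1 := nrm_one (C.ap1 p) (C.ap2 p) h1
    have n2 := nrm_one (C.aq1 p) (C.aq2 p) h2
    refine ⟨⟨posL_bd hL n1, posL_bd hL n2, ?_⟩, ⟨?_, ?_⟩, ⟨?_, ?_⟩⟩
    · rintro ⟨a1, a2, a3, a4⟩
      obtain ⟨b1, b2⟩ := posL_root hL n1 a1 a3
      obtain ⟨b3, b4⟩ := posL_root hL n2 a2 a4
      exact h3 ⟨b1, b3, b2, b4⟩
    all_goals simp only [thE]; linarith [hw.1, hw.2]
  · right; right
    refine ⟨posL L (C.p1 p, C.p2 p), posL_mem hL (nrm_le (C.ap1 p) (C.ap2 p)),
      (2 + 2 * C.q2 p, cw p + 2), ?_, ?_⟩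
    · obtain ⟨h4, h5⟩ := abs_le.1 h2
      refine ⟨⟨?_, ?_⟩, ⟨?_, ?_⟩⟩ <;> simp only <;> linarith [hw.1, hw.2]
    · simp only [thE, tipMap, h1, h3, posL_left hL h2]
      norm_num
  · right; left
    refine ⟨posL L (C.q1 p, C.q2 p), posL_mem hL (nrm_le (C.aq1 p) (C.aq2 p)),
      (2 + 2 * C.p2 p, cw p + 2), ?_, ?_⟩
    · obtain ⟨h4, h5⟩ := abs_le.1 h2
      refine ⟨⟨?_, ?_⟩, ⟨?_, ?_⟩⟩ <;> simp only <;> linarith [hw.1, hw.2]
    · simp only [thE, tipMap, h1, h3, posL_left hL h2]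
      norm_num

/-- The position of a point of the leg disc. -/
def gB (L : ℝ) (b : Bool) (a : Disc) : ℝ × ℝ :=
  if b then posL L (a.1.2 / 8, a.1.1 / 4) else posL L (a.1.2, a.1.1)

/-- The squares before the quarter turn. -/
def sq0 (L : ℝ) (b : Bool) (m : ℕ) (a : Disc) : Disc := scl (1 / 8) (rot (sig L b m a))

theorem sq0_1 (b : Bool) {m : ℕ} (a : Disc) :
    (sq0 L b m a).1.1 = if b then a.1.2 / 16 else a.1.2 / 64 := by
  unfold sq0
  rw [scl_1 (by rw [abs_of_nonneg] <;> norm_num), rot_1, sig_2]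
  cases b <;> simp <;> ring

theorem sq0_2 (hL : 8 ≤ L) (b : Bool) {m : ℕ} (hm : 4 * (m : ℝ) + 4 ≤ L) (a : Disc) :
    (sq0 L b m a).1.2 = if b then sqX L m a.1.1 / 8 else sqX L m a.1.1 / 64 := by
  unfold sq0
  rw [scl_2 (by rw [abs_of_nonneg] <;> norm_num), rot_2, sig_1 (by linarith) b hm]
  cases b <;> simp <;> ring

theorem gB_sq0 (hL : 8 ≤ L) (b : Bool) {m : ℕ} (hm : 4 * (m : ℝ) + 4 ≤ L) (a : Disc) :
    gB L b (sq0 L b m a) = sqp m a := by
  have h1 : gB L b (sq0 L b m a) = posL L (sqX L m a.1.1 / 64, a.1.2 / 64) := by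
    unfold gB
    rw [sq0_1 b, sq0_2 hL b hm]
    cases b
    · simp
    · simp only [if_true]
      congr 2 <;> ring
  rw [h1, posL_mid hL (abs_sqX (by linarith) hm (disc_abs1 a)) (disc_abs2 a)]
  unfold sqX sqp
  have h2 : L / 2 - 1 ≠ 0 := by linarith
  rw [div_mul_cancel₀ _ h2]
  ext <;> simp only <;> ring

/-- **The local datum.** -/
def datum (hL : 8 ≤ L) : ThetaDatum L where
  leg b := small (1 / 2) (thick b)
  isBox b := by
    cases b
    · exact isBox_beta1.comp_sq (isSq_scl' (by norm_num) (by norm_num))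
    · exact isBox_beta2.comp_sq (isSq_scl' (by norm_num) (by norm_num))
  disj p q h := beta1_ne_beta2 _ _ h.symm
  θ := thE C L
  cont := cont_thE C L
  inj := inj_thE C hL
  mem := mem_thE C hL
  bd x v h := by
    obtain ⟨h1, h2, h3, h4, h5⟩ := C.bd (x, v) h
    have e1 : cy (x, v) / 2 ≤ 1 / 2 := by linarith [(cy_mem (x, v)).2]
    have e2 : cx (x, v) / 2 ≤ 1 / 2 := by linarith [(cx_mem (x, v)).2]
    have e3 : |cy (x, v) / 2| ≤ 1 / 2 := by
      rw [abs_le]; exact ⟨by linarith [(cy_mem (x, v)).1], e1⟩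
    have e4 : |cx (x, v) / 2| ≤ 1 / 2 := by
      rw [abs_le]; exact ⟨by linarith [(cx_mem (x, v)).1], e2⟩
    simp only [thE, h1, h2, h3, h4, h5, posL_right hL e3, posL_right hL e4]
    change ((L, 2 + 2 * (x.1.2 / 2)), (L, 2 + 2 * (x.1.1 / 2)), (v.1.1 + 2, v.1.2 + 2)) = _
    unfold fb
    ext <;> simp only <;> ring
  g := gB L
  leg_eq b a f := by
    have hf := disc_abs1 f
    have e3 : |f.1.1 / 2| ≤ 1 / 2 := by
      rw [abs_div, abs_of_pos (by norm_num : (0 : ℝ) < 2)]; linarith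
    cases b
    · obtain ⟨h1, h2, h3, h4, h5⟩ := C.legF a f
      change thE C L (small (1 / 2) beta1 (a, f)) = _
      simp only [thE, h1, h2, h3, h4, h5, posL_left hL e3]
      have hw : cw (small (1 / 2) beta1 (a, f)) = f.1.2 := cw_beta1 _
      rw [hw]
      unfold tipMap gB fb
      ext <;> simp <;> ring
    · obtain ⟨h1, h2, h3, h4, h5⟩ := C.legT a f
      change thE C L (small (1 / 2) beta2 (a, f)) = _
      simp only [thE, h1, h2, h3, h4, h5, posL_left hL e3]
      have hw : cw (small (1 / 2) beta2 (a, f)) = f.1.2 := cw_beta2 _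
      rw [hw]
      unfold tipMap gB fb
      ext <;> simp <;> ring
  sq := sq0 L
  isSq b m hm := (isSq_scl' (by norm_num) (by norm_num)).comp
    (isSq_rot.comp (isSq_sig (by linarith) b hm))
  sq_int b m hm a := scl_int (by norm_num) (by norm_num) _
  sq_eq b m hm a := gB_sq0 hL b hm a
  cover b m hm p a f h := by
    apply inj_thE C hL
    rw [h]
    have hf := disc_abs1 f
    have e3 : |f.1.1 / 2| ≤ 1 / 2 := by
      rw [abs_div, abs_of_pos (by norm_num : (0 : ℝ) < 2)]; linarith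
    rw [← gB_sq0 hL b hm a]
    cases b
    · obtain ⟨h1, h2, h3, h4, h5⟩ := C.legF (sq0 L false m a) f
      change _ = thE C L (small (1 / 2) beta1 (sq0 L false m a, f))
      simp only [thE, h1, h2, h3, h4, h5, posL_left hL e3]
      have hw : cw (small (1 / 2) beta1 (sq0 L false m a, f)) = f.1.2 := cw_beta1 _
      rw [hw]
      unfold tipMap gB fb
      ext <;> simp <;> ring
    · obtain ⟨h1, h2, h3, h4, h5⟩ := C.legT (sq0 L true m a) f
      change _ = thE C L (small (1 / 2) beta2 (sq0 L true m a, f))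
      simp only [thE, h1, h2, h3, h4, h5, posL_left hL e3]
      have hw : cw (small (1 / 2) beta2 (sq0 L true m a, f)) = f.1.2 := cw_beta2 _
      rw [hw]
      unfold tipMap gB fb
      ext <;> simp <;> ring

/-- The final squares. -/
def sq1 (L : ℝ) (b : Bool) (m : ℕ) (a : Disc) : Disc := scl (1 / 8) (sig L b m a)

theorem sq1_1 (hL : 8 ≤ L) (b : Bool) {m : ℕ} (hm : 4 * (m : ℝ) + 4 ≤ L) (a : Disc) :
    (sq1 L b m a).1.1 = if b then -sqX L m a.1.1 / 8 else -sqX L m a.1.1 / 64 := by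
  unfold sq1
  rw [scl_1 (by rw [abs_of_nonneg] <;> norm_num), sig_1 (by linarith) b hm]
  cases b <;> simp <;> ring

theorem sq1_2 (b : Bool) {m : ℕ} (a : Disc) :
    (sq1 L b m a).1.2 = if b then a.1.2 / 16 else a.1.2 / 64 := by
  unfold sq1
  rw [scl_2 (by rw [abs_of_nonneg] <;> norm_num), sig_2]
  cases b <;> simp <;> ring

theorem sq1_eq (hL : 8 ≤ L) {b b' : Bool} {m m' : ℕ} (hm : 4 * (m : ℝ) + 4 ≤ L)
    (hm' : 4 * (m' : ℝ) + 4 ≤ L) {a a' : Disc} (hb : b = b')
    (h : (sq1 L b m a).1.1 = (sq1 L b' m' a').1.1) : sqX L m a.1.1 = sqX L m' a'.1.1 := by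
  subst hb
  rw [sq1_1 hL b hm, sq1_1 hL b hm'] at h
  cases b <;> simp at h <;> linarith

theorem sqForm_sq1 (hL : 8 ≤ L) {M : ℕ} (hM : L = 4 * (M : ℝ)) : SqForm (sq1 L) M where
  isXSq b m hm := by
    have h : 4 * (m : ℝ) + 4 ≤ L := by
      have : (m : ℝ) + 1 ≤ M := by exact_mod_cast hm
      linarith
    refine ⟨(isSq_scl' (by norm_num) (by norm_num)).comp (isSq_sig (by linarith) b h), ?_, ?_⟩
    · intro u v e
      exact (sqX_strictMono (by linarith) m).injective (sq1_eq hL h h rfl e)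
    · intro u
      have h1 := abs_sqX (by linarith) h (disc_abs1 u)
      rw [sq1_1 hL b h]
      cases b
      · simp only [Bool.false_eq_true, if_false]
        rw [abs_div, abs_neg, abs_of_pos (by norm_num : (0 : ℝ) < 64)]; linarith
      · simp only [if_true]
        rw [abs_div, abs_neg, abs_of_pos (by norm_num : (0 : ℝ) < 8)]; linarith
  sep b m m' hm hm' x y e := by
    have h : 4 * (m : ℝ) + 4 ≤ L := by
      have : (m : ℝ) + 1 ≤ M := by exact_mod_cast hm
      linarith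
    have h' : 4 * (m' : ℝ) + 4 ≤ L := by
      have : (m' : ℝ) + 1 ≤ M := by exact_mod_cast hm'
      linarith
    exact sqX_sep (by linarith) (disc_abs1 x) (disc_abs1 y) (sq1_eq hL h h' rfl e)
  inc m hm := by
    have h : 4 * (m : ℝ) + 4 ≤ L := by
      have : (m : ℝ) + 1 ≤ M := by exact_mod_cast hm
      linarith
    constructor
    · intro u v
      rw [rfD_false_1, rfD_false_1, sq1_1 hL _ h, sq1_1 hL _ h]
      simp only [Bool.false_eq_true, if_false]
      have h1 := (sqX_strictMono (L := L) (by linarith) m).lt_iff_lt (a := u.1.1) (b := v.1.1)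
      rw [← h1]
      constructor <;> intro h <;> linarith
    · intro u v
      rw [rfD_false_2, rfD_false_2, sq1_2, sq1_2]
      simp only [Bool.false_eq_true, if_false]
      constructor <;> intro h <;> linarith

end ThB

/-- **The embeddings of the initial step.** -/
theorem thetaStatement : ThetaStatement := by
  intro L M hL hM
  have h8 : 8 ≤ L := by
    have : (2 : ℝ) ≤ M := by exact_mod_cast hM
    linarith
  obtain ⟨T, h1, h2⟩ := (ThB.datum thetaCore h8).exists_turned (sig L)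
    (fun b m hm => isSq_sig (by linarith) b hm) (fun b m hm a => rfl)
  refine ⟨T, ?_, ?_⟩
  · intro k p
    rw [h1]
    rfl
  · have h3 : T.sq = ThB.sq1 L := by
      funext b m a
      exact h2 b m a
    rw [h3]
    exact ThB.sqForm_sq1 h8 hL

end Vale.Agent.P215.Am
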