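import Vale.Agent.P215.Am.Main
import Vale.Agent.P215.Am.SysPush
import Vale.Agent.P215.Am.ThetaFinal
import Vale.Agent.P215.Am.Rule

/-!
# P215, route A: every amenable group is good
-/

namespace Vale.Agent.P215.Am

/-- **Every amenable group is good.** -/
theorem good_of_amenable (Γ : Type) [Group Γ] (h : Amenable Γ) : H788.Good Γ :=
  good_of_pieces threeLegData (fun _ _ hab P _ _ _ _ _ _ _ _ ha hb h => Rz.push hab P ha hb h)
    (startStatement thetaStatement) ruleStatement Γ h

end Vale.Agent.P215.Am
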