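import Vale.Agent.P215.Am.InitAux

/-!
# P215, route A: the initial singular system
-/

noncomputable section

namespace Vale.Agent.P215.Am

open Vale.Agent.P215.H788 Vale.Agent.P215.H579 Set Topology

/-! ### Patching -/

section Patch

variable {J X Y : Type}

theorem patch_comp (B : J → Q → Q) (f : X → Y) (F : Q → X) (G : J → Q → X) (p : Q) :
    patch B (fun q => f (F q)) (fun j q => f (G j q)) p = f (patch B F G p) := by
  unfold patch
  split_ifs <;> rfl

variable [Finite J] [TopologicalSpace X]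

theorem continuous_patch_on {B : J → Q → Q} (hB : ∀ j, IsBox (B j))
    (hd : ∀ j k p q, B j p = B k q → j = k)
    (F : Q → X) (hF : ContinuousOn F (⋃ j, B j '' core)ᶜ) (G : J → Q → X)
    (hG : ∀ j, Continuous (G j)) (hFG : ∀ j q, nm q.1 = 1 → G j q = F (B j q)) :
    Continuous (patch B F G) := by
  let A : Option J → Set Q := fun o => match o with
    | none => (⋃ j, B j '' core)ᶜ
    | some j => range (B j)
  have hcov : ⋃ o, A o = univ := by
    rw [eq_univ_iff_forall]
    intro p
    rw [mem_iUnion]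
    by_cases h : ∃ j, p ∈ range (B j)
    · obtain ⟨j, hj⟩ := h
      exact ⟨some j, hj⟩
    · refine ⟨none, ?_⟩
      rw [mem_compl_iff, mem_iUnion]
      rintro ⟨j, q, -, hq⟩
      exact h ⟨j, q, hq⟩
  have hcl : ∀ o, IsClosed (A o) := by
    rintro (_ | j)
    · exact (isOpen_iUnion fun j => (hB j).isOpen).isClosed_compl
    · exact (isClosedEmbedding_of (hB j).cont (hB j).inj).isClosed_range
  refine (locallyFinite_of_finite A).continuous hcov hcl ?_
  rintro (_ | j)
  · refine hF.congr ?_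
    intro p hp
    refine patch_off' hB hd F G hFG ?_
    intro j q hq hqp
    apply hp
    rw [mem_iUnion]
    exact ⟨j, q, hq, hqp⟩
  · rintro p hp
    have h1 : Continuous (patch B F G ∘ B j) := by
      have h2 : patch B F G ∘ B j = G j := by
        funext q
        exact patch_box hB hd F G j q
      rw [h2]
      exact hG j
    exact continuousOn_range_of (isClosedEmbedding_of (hB j).cont (hB j).inj).isEmbedding h1 p hp

end Patch

section Main

variable {G : CappedGrope} (T : ThetaDatum G.L)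

theorem le_L_of {s j : ℕ} (h : j < G.genus s) : 4 * (j : ℝ) + 4 ≤ G.L := (pos_le_L G h).le

/-- The hole number `k` of the second stage in the leg `leg false`. -/
def inB (k : ℕ) (p : Q) : Q := T.leg false (vert (T.sq false k) p)

theorem isBox_inB {k : ℕ} (hk : 4 * (k : ℝ) + 4 ≤ G.L) : IsBox (inB T k) :=
  (T.isBox false).comp (isBox_vert (T.isSq false k hk) (T.sq_int false k hk))

theorem sqp_disj {m m' : ℕ} {a a' : Disc} (h : sqp m a = sqp m' a') : m = m' ∧ a = a' := by
  rw [sqp_eq_fb, sqp_eq_fb, Prod.mk.injEq] at h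
  obtain ⟨h1, h2⟩ := nat_eq_of_real le_rfl (fb_mem a).1 (fb_mem a').1 h.1
  exact ⟨h1, fb_inj (Prod.ext h2 h.2)⟩

theorem sq_disj {b : Bool} {m m' : ℕ} (hm : 4 * (m : ℝ) + 4 ≤ G.L) (hm' : 4 * (m' : ℝ) + 4 ≤ G.L)
    {a a' : Disc} (h : T.sq b m a = T.sq b m' a') : m = m' ∧ a = a' := by
  have h1 := congrArg (T.g b) h
  rw [T.sq_eq b m hm, T.sq_eq b m' hm'] at h1
  exact sqp_disj h1

theorem inB_disj {k k' : ℕ} (hk : 4 * (k : ℝ) + 4 ≤ G.L) (hk' : 4 * (k' : ℝ) + 4 ≤ G.L)
    {p p' : Q} (h : inB T k p = inB T k' p') : k = k' ∧ p = p' := by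
  have h1 := (T.isBox false).inj h
  simp only [vert, Prod.mk.injEq] at h1
  obtain ⟨h2, h3⟩ := sq_disj T hk hk' h1.1
  exact ⟨h2, Prod.ext h3 h1.2⟩

theorem hole_disj {j j' : ℕ} (hj : 4 * (j : ℝ) + 4 ≤ G.L) (hj' : 4 * (j' : ℝ) + 4 ≤ G.L)
    {p p' : Q} (h : vert (holeSq G j) p = vert (holeSq G j') p') : j = j' ∧ p = p' := by
  simp only [vert, Prod.mk.injEq] at h
  have h1 := congrArg (posD G.L) h.1
  rw [posD_hole G hj, posD_hole G hj'] at h1
  obtain ⟨h2, h3⟩ := sqp_disj h1
  exact ⟨h2, Prod.ext h3 h.2⟩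

theorem isBox_hole {j : ℕ} (hj : 4 * (j : ℝ) + 4 ≤ G.L) : IsBox (vert (holeSq G j)) :=
  isBox_vert (isSq_holeSq G hj).1 (isSq_holeSq G hj).2

/-- The canonical representatives on the branch `j` of the first stage. -/
def R0 (j : ℕ) : Q → Block × H788.E :=
  patch (fun k : Fin (G.genus (j + 1)) => inB T k) (fun p => rep G.L 0 j (T.θ p))
    (fun k p => rep G.L (j + 1) k (T.θ p))

/-- The canonical representatives. -/
def RR : Q → Block × H788.E :=
  patch (fun j : Fin (G.genus 0) => vert (holeSq G j)) (fun p => (.base 0, (posD G.L p.1, 0, fb p.2)))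
    (fun j => R0 T j)

/-- The branch `(s, k)` in the cube. -/
def emb (s k : ℕ) (q : Q) : Q :=
  match s with
  | 0 => vert (holeSq G k) q
  | i + 1 => vert (holeSq G i) (inB T k q)

theorem legT_eq (s k : ℕ) (b : Bool) (p : Q) : legT T (s, k, b) p = emb T s k (T.leg b p) := by
  cases s <;> rfl

theorem genus_succ {i k : ℕ} (h : k < G.genus (i + 1)) : i < G.genus 0 := by
  have h1 := (lt_of_lt_genusOf h).1
  change i < G.genera.length
  omega

theorem isBox_emb {s k : ℕ} (h : k < G.genus s) : IsBox (emb T s k) := by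
  cases s with
  | zero => exact isBox_hole (le_L_of h)
  | succ i => exact (isBox_hole (le_L_of (genus_succ h))).comp (isBox_inB T (le_L_of h))

/-- The points of a branch of the first stage which are not in a branch of the second stage. -/
def Off (s k : ℕ) (q : Q) : Prop :=
  s = 0 → ∀ m < G.genus (k + 1), ∀ r, q ≠ inB T m r

theorem RR_emb {s k : ℕ} (h : k < G.genus s) {q : Q} (hq : Off T s k q) :
    RR T (emb T s k q) = rep G.L s k (T.θ q) := by
  have hB : ∀ j : Fin (G.genus 0), IsBox (vert (holeSq G j)) := fun j => isBox_hole (le_L_of j.2)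
  have hd : ∀ (j k : Fin (G.genus 0)) (p q : Q), vert (holeSq G j) p = vert (holeSq G k) q →
      j = k := fun j k p q h => Fin.ext (hole_disj (le_L_of j.2) (le_L_of k.2) h).1
  cases s with
  | zero =>
    have h1 := patch_box (X := Block × H788.E) hB hd
      (fun p => (.base 0, (posD G.L p.1, 0, fb p.2))) (fun j => R0 T j) ⟨k, h⟩ q
    refine h1.trans ?_
    refine patch_off _ _ ?_
    intro m r hmr
    exact hq rfl m m.2 r hmr.symm
  | succ i =>
    have hi := genus_succ h
    have h1 := patch_box (X := Block × H788.E) hB hd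
      (fun p => (.base 0, (posD G.L p.1, 0, fb p.2))) (fun j => R0 T j) ⟨i, hi⟩ (inB T k q)
    refine h1.trans ?_
    exact patch_box (B := fun m : Fin (G.genus (i + 1)) => inB T m)
      (fun m => isBox_inB T (le_L_of m.2))
      (fun m m' p q h => Fin.ext (inB_disj T (le_L_of m.2) (le_L_of m'.2) h).1) _ _ ⟨k, h⟩ q

theorem RR_base {p : Q} (h : ∀ j < G.genus 0, ∀ q, p ≠ vert (holeSq G j) q) :
    RR T p = (.base 0, (posD G.L p.1, 0, fb p.2)) :=
  patch_off _ _ fun j q hq => h j j.2 q hq.symm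

/-- The two cases of a point of the cube. -/
theorem Q_cases (p : Q) : (∀ j < G.genus 0, ∀ q, p ≠ vert (holeSq G j) q) ∨
    ∃ s k q, k < G.genus s ∧ Off T s k q ∧ p = emb T s k q := by
  by_cases h : ∀ j < G.genus 0, ∀ q, p ≠ vert (holeSq G j) q
  · exact Or.inl h
  · right
    push Not at h
    obtain ⟨j, hj, q, rfl⟩ := h
    by_cases h : ∀ m < G.genus (j + 1), ∀ r, q ≠ inB T m r
    · exact ⟨0, j, q, hj, fun _ => h, rfl⟩
    · push Not at h
      obtain ⟨m, hm, r, rfl⟩ := h
      exact ⟨j + 1, m, r, hm, fun h => absurd h (Nat.succ_ne_zero j), rfl⟩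

theorem RR_inj : Function.Injective (RR T) := by
  have hL := four_le_L G
  intro p p' h
  rcases Q_cases T p with hp | ⟨s, k, q, hk, hq, rfl⟩ <;>
  rcases Q_cases T p' with hp' | ⟨s', k', q', hk', hq', rfl⟩
  · rw [RR_base T hp, RR_base T hp'] at h
    simp only [Prod.mk.injEq, true_and] at h
    exact Prod.ext (posD_inj G h.1) (fb_inj h.2)
  · rw [RR_base T hp, RR_emb T hk' hq'] at h
    exact absurd (congrArg Prod.fst h).symm (rep_ne_base hL (T.mem q'))
  · rw [RR_base T hp', RR_emb T hk hq] at h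
    exact absurd (congrArg Prod.fst h) (rep_ne_base hL (T.mem q))
  · rw [RR_emb T hk hq, RR_emb T hk' hq'] at h
    obtain ⟨rfl, rfl, h1⟩ := rep_inj hL (T.mem q) (T.mem q') h
    rw [T.inj h1]

/-- A point of a slab over a square is in the leg. -/
theorem eq_legT {s k : ℕ} {b : Bool} {q : Q} {m : ℕ} (hm : 4 * (m : ℝ) + 4 ≤ G.L) {a f : Disc}
    (h : T.θ q = tipMap b (sqp m a) (fb f)) :
    emb T s k q = legT T (s, k, b) (T.sq b m a, f) := by
  rw [legT_eq, T.cover b m hm q a f h]

theorem exists_sqp {m : ℕ} {z : ℝ × ℝ} (h1 : z.1 - 4 * m ∈ Icc (1 : ℝ) 3)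
    (h2 : z.2 ∈ Icc (1 : ℝ) 3) : ∃ a : Disc, z = sqp m a ∧ fb a = (z.1 - 4 * m, z.2) := by
  obtain ⟨a, ha⟩ := exists_fb (v := (z.1 - 4 * m, z.2)) ⟨h1, h2⟩
  refine ⟨a, ?_, ha⟩
  rw [sqp_eq_fb, ha]
  ext <;> simp

/-- A representative in a cap over a square comes from the leg. -/
theorem eq_of_cap {p : Q} {t : Tip} {m : ℕ} (hm : 4 * (m : ℝ) + 4 ≤ G.L) {a f : Disc}
    (h : RR T p = (.cap t, (sqp m a, 0, fb f))) :
    p = legT T t (T.sq t.2.2 m a, f) ∧ IsCapped G.genera t := by
  have hL := four_le_L G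
  rcases Q_cases T p with hp | ⟨s, k, q, hk, hq, rfl⟩
  · rw [RR_base T hp] at h
    simp at h
  · rw [RR_emb T hk hq] at h
    rcases XL_cases hL s k (T.mem q) with ⟨-, h1⟩ | ⟨b, z, hz, hz', v, hv, h0, h1⟩ <;> rw [h1] at h
    · simp at h
    · simp only [Prod.mk.injEq, true_and] at h
      obtain ⟨h2, rfl, rfl⟩ := h
      by_cases hc : s = 0 ∧ b = false
      · simp [nextBlock, hc] at h2
      · simp only [nextBlock, hc, if_false, Block.cap.injEq] at h2
        subst h2
        exact ⟨eq_legT T hm h0, hk, hc⟩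

/-- The representative of a point of a leg over a square. -/
theorem RR_cap {t : Tip} (ht : IsCapped G.genera t) {m : ℕ} (hm : 4 * (m : ℝ) + 4 ≤ G.L)
    (a f : Disc) : RR T (legT T t (T.sq t.2.2 m a, f)) = (.cap t, (sqp m a, 0, fb f)) := by
  have hL := four_le_L G
  obtain ⟨s, k, b⟩ := t
  obtain ⟨hk, hc⟩ := ht
  simp only at hk hc ⊢
  rw [legT_eq, RR_emb T hk, T.leg_eq, T.sq_eq b m hm, rep_tip hL (fb_mem f)]
  · simp [nextBlock, hc]
  · intro hz
    have ha := fb_mem a
    rw [sqp_eq_fb] at hz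
    have hm0 : (0 : ℝ) ≤ m := Nat.cast_nonneg m
    refine inner_not_mem hz ?_ ?_ ?_ ?_ <;> dsimp only <;>
      linarith [ha.1.1, ha.1.2, ha.2.1, ha.2.2]
  · intro hs m' hm' r h
    have hb : b = true := by
      cases b
      · exact absurd ⟨hs, rfl⟩ hc
      · rfl
    subst hb
    exact T.disj _ _ h

/-! ### Regions -/

theorem emb_inj {s k : ℕ} (h : k < G.genus s) {q q' : Q} (he : emb T s k q = emb T s k q') :
    q = q' := (isBox_emb T h).inj he

/-- The position of a point of `hole m` in a square. -/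
theorem exists_hole {m : ℕ} {z : ℝ × ℝ} (h : z ∈ hole m) : ∃ a ∈ int, z = sqp m a := by
  obtain ⟨⟨h1, h2⟩, ⟨h3, h4⟩⟩ := h
  obtain ⟨a, ha, hf⟩ := exists_sqp (m := m) (z := z) ⟨by linarith, by linarith⟩ ⟨h3.le, h4.le⟩
  refine ⟨a, ?_, ha⟩
  have e1 : a.1.1 = z.1 - 4 * m - 2 := by
    have := congrArg Prod.fst hf
    simp only [fb] at this
    linarith
  have e2 : a.1.2 = z.2 - 2 := by
    have := congrArg Prod.snd hf
    simp only [fb] at this
    linarith
  change ‖a.1‖ < 1
  rw [Prod.norm_def, Real.norm_eq_abs, Real.norm_eq_abs, e1, e2]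
  refine max_lt ?_ ?_ <;> rw [abs_lt] <;> constructor <;> linarith

theorem rep_region {s k : ℕ} (hk : k < G.genus s) {q : Q}
    (hq : s = 0 → ∀ m < G.genus (k + 1), ∀ a ∈ int, ∀ f, q ≠ inB T m (a, f)) :
    (rep G.L s k (T.θ q)).2 ∈ G.region (rep G.L s k (T.θ q)).1 := by
  have hL := four_le_L G
  rcases XL_cases hL s k (T.mem q) with ⟨h0, h1⟩ | ⟨b, z, hz, hz', v, hv, h0, h1⟩ <;> rw [h1]
  · exact ⟨hk, h0.1, h0.2⟩
  · by_cases hc : s = 0 ∧ b = false
    · simp only [nextBlock, hc, and_self, if_true]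
      obtain ⟨rfl, rfl⟩ := hc
      have hg : 0 < G.genus (k + 1) := by
        have hk' : k < G.genera.length := hk
        change 0 < G.genera.getD k 0
        rw [List.getD_eq_getElem _ _ hk']
        exact G.genera_pos _ (List.getElem_mem hk')
      refine ⟨hg, ⟨hz, ?_⟩, rfl, hv⟩
      intro m hm hh
      obtain ⟨a, ha, rfl⟩ := exists_hole hh
      obtain ⟨f, rfl⟩ := exists_fb hv
      exact hq rfl m hm a ha f (T.cover false m (le_L_of hm) q a f h0)
    · have h2 : nextBlock (s, k, b) = .cap (s, k, b) := by simp [nextBlock, hc]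
      rw [h2]
      exact ⟨⟨hk, hc⟩, hz, rfl, hv⟩

theorem RR_region (p : Q) : (RR T p).2 ∈ G.region (RR T p).1 := by
  rcases Q_cases T p with hp | ⟨s, k, q, hk, hq, rfl⟩
  · rw [RR_base T hp]
    refine ⟨G.genus_zero_pos, ⟨posD_mem G _, ?_⟩, rfl, fb_mem _⟩
    intro j hj hh
    obtain ⟨a, ha, hz⟩ := exists_hole hh
    have h1 := holeSq_of_posD G (le_L_of hj) hz
    exact hp j hj (a, p.2) (Prod.ext h1 rfl)
  · rw [RR_emb T hk hq]
    exact rep_region T hk fun hs m hm a ha f => hq hs m hm (a, f)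

/-! ### The identifications -/

/-- Two representatives which are identified come from a double point. -/
theorem glue_cases {p p' : Q} (h : G.Glue (RR T p) (RR T p')) :
    ∃ (k : ℕ) (c c' : Tip) (b : Bool) (x y : Disc), G.plumbings[k]? = some (c, c', b) ∧
      p = legT T c (T.sq c.2.2 (2 * k) x, y) ∧
      p' = legT T c' (T.sq c'.2.2 (2 * k + 1) (rfD b y), rfD b x) := by
  have hL := four_le_L G
  have hr := RR_region T p
  have hr' := RR_region T p'
  rw [glue_iff] at h
  rcases h with ⟨s, j, a, v, ha, h1, h2⟩ | ⟨s, j, b, z, v, hz, hv, h1, h2⟩ |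
      ⟨k, c, c', b, u, v, hk, hu, hv, h1, h2⟩
  · exfalso
    rw [h1] at hr
    rw [h2] at hr'
    have hj : j < G.genus s := hr'.1
    have hv : v ∈ Fib := hr'.2.2
    obtain ⟨a', rfl⟩ := exists_fb ha.1
    obtain ⟨f, rfl⟩ := exists_fb hv
    rcases Q_cases T p with hp | ⟨s', k, q, hk, hq, rfl⟩
    · rw [RR_base T hp] at h1
      simp only [Prod.mk.injEq, Block.base.injEq, true_and] at h1
      obtain ⟨rfl, h3, -⟩ := h1
      have h4 := holeSq_of_posD G (le_L_of hj) (a := a') h3
      exact hp j hj (a', p.2) (Prod.ext h4 rfl)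
    · rw [RR_emb T hk hq] at h1
      rcases XL_cases hL s' k (T.mem q) with ⟨-, h3⟩ | ⟨b, z, hz, hz', v, hv, h0, h3⟩ <;>
        rw [h3] at h1
      · simp at h1
      · simp only [Prod.mk.injEq, true_and] at h1
        obtain ⟨h4, rfl, rfl⟩ := h1
        by_cases hc : s' = 0 ∧ b = false
        · simp only [nextBlock, hc, and_self, if_true, Block.base.injEq] at h4
          obtain ⟨rfl, rfl⟩ := hc
          subst h4
          exact hq rfl j hj (a', f) (T.cover false j (le_L_of hj) q a' f h0)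
        · simp [nextBlock, hc] at h4
  · exfalso
    rcases Q_cases T p with hp | ⟨s', k, q, hk, hq, rfl⟩
    · rw [RR_base T hp] at h1
      have h3 := congrArg Prod.fst h1
      simp only [nextBlock] at h3
      split_ifs at h3 <;> simp at h3
    · rw [RR_emb T hk hq] at h1
      rcases XL_cases hL s' k (T.mem q) with ⟨-, h3⟩ | ⟨b', z', hz', hz'', v', hv', h0, h3⟩ <;>
        rw [h3] at h1
      · exact nextBlock_ne_handle _ _ _ (congrArg Prod.fst h1).symm
      · simp only [Prod.mk.injEq] at h1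
        rw [h1.2.1] at hz''
        exact hz'' hz
  · obtain ⟨x, rfl⟩ := exists_fb hu
    obtain ⟨y, rfl⟩ := exists_fb hv
    have hkL := plumb_le_L G (lt_length_of_getElem? hk)
    have e0 : (4 : ℝ) * ((2 * k : ℕ) : ℝ) + 4 ≤ G.L := by
      push_cast
      linarith
    have e1 : (4 : ℝ) * ((2 * k + 1 : ℕ) : ℝ) + 4 ≤ G.L := by
      push_cast
      linarith
    have hrf : ∀ w : Disc, fb (rfD b w) = rf b (fb w) := by
      intro w
      cases b
      · simp only [fb, rfD, rf, Bool.false_eq_true, if_false]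
        ext <;> simp only
        ring
      · rfl
    have s0 : ((8 * (k : ℝ) + (fb x).1, (fb x).2) : ℝ × ℝ) = sqp (2 * k) x := by
      rw [sqp_eq_fb]
      push_cast
      ext <;> simp only
      ring
    have s1 : ((8 * (k : ℝ) + 4 + (rf b (fb y)).1, (rf b (fb y)).2) : ℝ × ℝ) =
        sqp (2 * k + 1) (rfD b y) := by
      rw [sqp_eq_fb, hrf]
      push_cast
      ext <;> simp only
      ring
    rw [s0] at h1
    rw [s1, ← hrf] at h2
    exact ⟨k, c, c', b, x, y, hk, (eq_of_cap T e0 h1).1, (eq_of_cap T e1 h2).1⟩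

/-! ### Continuity -/

/-- On a slab the class of the representative is the class of the point of the next stage. -/
theorem mk'_rep_slab {s k : ℕ} (hk : k < G.genus s) {b : Bool} {q : Q}
    (hq : s = 0 → ∀ m < G.genus (k + 1), ∀ a ∈ int, ∀ f, q ≠ inB T m (a, f))
    (h : T.θ q ∈ Slab G.L b) : mk' G (rep G.L s k (T.θ q)) =
      mk' G (nextBlock (s, k, b), un b (T.θ q)) ∧
      un b (T.θ q) ∈ G.region (nextBlock (s, k, b)) := by
  have hL := four_le_L G
  have hr := rep_region T hk hq
  obtain ⟨z, hz, v, hv, h0⟩ := h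
  have hr2 : ((z, 0, v) : H788.E) ∈ G.region (nextBlock (s, k, b)) := by
    by_cases hc : s = 0 ∧ b = false
    · obtain ⟨rfl, rfl⟩ := hc
      have h2 : nextBlock (0, k, false) = .base (k + 1) := by simp [nextBlock]
      rw [h2]
      have hg : 0 < G.genus (k + 1) := by
        have hk' : k < G.genera.length := hk
        change 0 < G.genera.getD k 0
        rw [List.getD_eq_getElem _ _ hk']
        exact G.genera_pos _ (List.getElem_mem hk')
      refine ⟨hg, ⟨hz, ?_⟩, rfl, hv⟩
      intro m hm hh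
      obtain ⟨a, ha, rfl⟩ := exists_hole hh
      obtain ⟨f, rfl⟩ := exists_fb hv
      exact hq rfl m hm a ha f (T.cover false m (le_L_of hm) q a f h0)
    · have h2 : nextBlock (s, k, b) = .cap (s, k, b) := by simp [nextBlock, hc]
      rw [h2]
      exact ⟨⟨hk, hc⟩, hz, rfl, hv⟩
  rw [h0, un_tip]
  refine ⟨?_, hr2⟩
  by_cases hzb : z ∈ bdSq G.L
  · rw [rep_H ((tip_mem_iff hL hv).2 hzb)]
    refine (mk'_eq_of hr2 ?_ ?_).symm
    · rw [h0, rep_H ((tip_mem_iff hL hv).2 hzb)] at hr
      exact hr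
    · rw [glue_iff]
      exact Or.inr (Or.inl ⟨s, k, b, z, v, hzb, hv, rfl, rfl⟩)
  · rw [rep_tip hL hv hzb]

theorem contOn_rep {s k : ℕ} (hk : k < G.genus s) {D : Set Q} (hD : IsClosed D)
    (hq : ∀ q ∈ D, s = 0 → ∀ m < G.genus (k + 1), ∀ a ∈ int, ∀ f, q ≠ inB T m (a, f)) :
    ContinuousOn (fun q => mk' G (rep G.L s k (T.θ q))) D := by
  have hL := four_le_L G
  have hS : ∀ b : Bool, ContinuousOn (fun q => mk' G (rep G.L s k (T.θ q)))
      (D ∩ T.θ ⁻¹' Slab G.L b) := by
    intro b
    have h1 : ContinuousOn (fun q => mk' G (nextBlock (s, k, b), un b (T.θ q)))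
        (D ∩ T.θ ⁻¹' Slab G.L b) := by
      refine contOn_mk' ((continuous_un b).comp T.cont).continuousOn ?_
      rintro q ⟨hqD, hqS⟩
      exact (mk'_rep_slab T hk (hq q hqD) hqS).2
    refine h1.congr ?_
    rintro q ⟨hqD, hqS⟩
    exact (mk'_rep_slab T hk (hq q hqD) hqS).1
  have hH : ContinuousOn (fun q => mk' G (rep G.L s k (T.θ q))) (D ∩ T.θ ⁻¹' HReg G.L) := by
    have h1 : ContinuousOn (fun q => mk' G (.handle s k, T.θ q)) (D ∩ T.θ ⁻¹' HReg G.L) := by
      refine contOn_mk' T.cont.continuousOn ?_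
      rintro q ⟨hqD, hqS⟩
      have := rep_region T hk (hq q hqD)
      rw [rep_H hqS] at this
      exact this
    refine h1.congr ?_
    rintro q ⟨hqD, hqS⟩
    simp only
    rw [rep_H hqS]
  have hc1 : IsClosed (D ∩ T.θ ⁻¹' HReg G.L) := hD.inter ((isClosed_HReg hL).preimage T.cont)
  have hc2 : ∀ b, IsClosed (D ∩ T.θ ⁻¹' Slab G.L b) :=
    fun b => hD.inter ((isClosed_Slab b).preimage T.cont)
  have hu : D = (D ∩ T.θ ⁻¹' HReg G.L) ∪ ((D ∩ T.θ ⁻¹' Slab G.L true) ∪
      (D ∩ T.θ ⁻¹' Slab G.L false)) := by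
    rw [← inter_union_distrib_left, ← inter_union_distrib_left]
    exact (inter_eq_left.2 fun q _ => T.mem q).symm
  rw [hu]
  exact hH.union_of_isClosed ((hS true).union_of_isClosed (hS false) (hc2 _) (hc2 _)) hc1
    ((hc2 _).union (hc2 _))

/-- On the boundary circle of a hole the representative in the handle is identified with the point
of the base. -/
theorem mk'_hole {s j : ℕ} (hj : j < G.genus s) (hs : 0 < G.genus s) {a : Disc} (ha : nm a = 1)
    (f : Disc) (hq : Off T s j (a, f)) :
    mk' G (rep G.L s j (T.θ (a, f))) = mk' G (.base s, (sqp j a, 0, fb f)) := by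
  have hL := four_le_L G
  have hj0 : (0 : ℝ) ≤ j := Nat.cast_nonneg j
  have hjL := pos_le_L G hj
  have hfa := nm_eq_one ha
  have h1 : T.θ (a, f) = ((G.L, (fb a).2), (G.L, (fb a).1), fb f) := T.bd a f ha
  have h2 : T.θ (a, f) ∈ HReg G.L := by
    rw [h1]
    refine ⟨⟨⟨⟨⟨?_, ?_⟩, ⟨?_, ?_⟩⟩, ?_⟩, ⟨⟨⟨?_, ?_⟩, ⟨?_, ?_⟩⟩, ?_⟩, ?_⟩, fb_mem f⟩
    · dsimp only; linarith
    · exact le_rfl
    · dsimp only; linarith [(fb_mem a).2.1]
    · dsimp only; linarith [(fb_mem a).2.2]
    · exact Or.inr (Or.inl rfl)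
    · dsimp only; linarith
    · exact le_rfl
    · dsimp only; linarith [(fb_mem a).1.1]
    · dsimp only; linarith [(fb_mem a).1.2]
    · exact Or.inr (Or.inl rfl)
    · rintro ⟨-, -, h3, h4⟩
      rcases hfa.2 with h | h | h | h
      · exact absurd h h4.1.ne'
      · exact absurd h h4.2.ne
      · exact absurd h h3.1.ne'
      · exact absurd h h3.2.ne
  have hr := rep_region T hj fun hs m hm a' ha' f' => hq hs m hm (a', f')
  rw [rep_H h2] at hr ⊢
  refine (mk'_eq_of ?_ hr ?_).symm
  · refine ⟨hs, ⟨?_, ?_⟩, rfl, fb_mem f⟩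
    · have := fb_mem a
      rw [sqp_eq_fb]
      refine ⟨⟨?_, ?_⟩, ⟨?_, ?_⟩⟩ <;> dsimp only <;>
        linarith [this.1.1, this.1.2, this.2.1, this.2.2]
    · intro m hm hh
      obtain ⟨a', ha', h3⟩ := exists_hole hh
      obtain ⟨rfl, rfl⟩ := sqp_disj h3
      exact absurd ha (ne_of_lt ha')
  · rw [glue_iff, h1]
    exact Or.inl ⟨s, j, fb a, fb f, hfa, rfl, rfl⟩

theorem continuous_R0 {j : ℕ} (hj : j < G.genus 0) : Continuous fun q => mk' G (R0 T j q) := by
  have hL := four_le_L G
  have hB : ∀ m : Fin (G.genus (j + 1)), IsBox (inB T (m : ℕ)) := fun m => isBox_inB T (le_L_of m.2)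
  have hd : ∀ (m m' : Fin (G.genus (j + 1))) (p q : Q), inB T (m : ℕ) p = inB T (m' : ℕ) q →
      m = m' := fun m m' p q h => Fin.ext (inB_disj T (le_L_of m.2) (le_L_of m'.2) h).1
  have h1 := continuous_patch_on (X := G.Thickening) hB hd
    (fun p => mk' G (rep G.L 0 j (T.θ p)))
    (contOn_rep T hj (isOpen_iUnion fun m => (hB m).isOpen).isClosed_compl ?_)
    (fun m p => mk' G (rep G.L (j + 1) m (T.θ p))) ?_ ?_
  · refine h1.congr ?_
    intro q
    exact patch_comp (fun m : Fin (G.genus (j + 1)) => inB T (m : ℕ)) (mk' G)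
      (fun p => rep G.L 0 j (T.θ p)) (fun m p => rep G.L (j + 1) m (T.θ p)) q
  · intro q hq _ m hm a ha f hqe
    apply hq
    rw [mem_iUnion]
    exact ⟨⟨m, hm⟩, (a, f), ha, hqe.symm⟩
  · intro m
    rw [← continuousOn_univ]
    exact contOn_rep T m.2 isClosed_univ fun q _ h => absurd h (Nat.succ_ne_zero j)
  · rintro m ⟨a, f⟩ ha
    have hm := m.2
    have h2 := mk'_hole T hm (lt_of_le_of_lt (Nat.zero_le _) hm) (a := a) ha f
      (fun h => absurd h (Nat.succ_ne_zero j))
    rw [h2]
    have h3 : T.θ (inB T m (a, f)) = tipMap false (sqp m a) (fb f) := by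
      rw [inB, vert, T.leg_eq, T.sq_eq false m (le_L_of hm)]
    have h4 : sqp m a ∉ bdSq G.L := by
      intro hz
      have hfa := fb_mem a
      have hmL := pos_le_L G hm
      rw [sqp_eq_fb] at hz
      have hm0 : (0 : ℝ) ≤ ((m : ℕ) : ℝ) := Nat.cast_nonneg _
      refine inner_not_mem hz ?_ ?_ ?_ ?_ <;> dsimp only <;>
        linarith [hfa.1.1, hfa.1.2, hfa.2.1, hfa.2.2]
    rw [h3, rep_tip hL (fb_mem f) h4]
    simp [nextBlock]

/-- **The initial map.** -/
def initMap (q : Q) : G.Thickening := mk' G (RR T q)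

theorem continuous_initMap : Continuous (initMap T) := by
  have hL := four_le_L G
  have hB : ∀ j : Fin (G.genus 0), IsBox (vert (holeSq G j)) := fun j => isBox_hole (le_L_of j.2)
  have hd : ∀ (j k : Fin (G.genus 0)) (p q : Q), vert (holeSq G j) p = vert (holeSq G k) q →
      j = k := fun j k p q h => Fin.ext (hole_disj (le_L_of j.2) (le_L_of k.2) h).1
  have h1 := continuous_patch_on (X := G.Thickening) hB hd
    (fun p => mk' G (.base 0, (posD G.L p.1, 0, fb p.2))) ?_
    (fun j p => mk' G (R0 T j p)) (fun j => continuous_R0 T j.2) ?_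
  · refine h1.congr ?_
    intro q
    exact patch_comp (fun j : Fin (G.genus 0) => vert (holeSq G j)) (mk' G)
      (fun p => (.base 0, (posD G.L p.1, 0, fb p.2))) (fun j p => R0 T j p) q
  · refine contOn_mk' ?_ ?_
    · refine Continuous.continuousOn ?_
      unfold posD fb
      fun_prop
    · intro p hp
      refine ⟨G.genus_zero_pos, ⟨posD_mem G _, ?_⟩, rfl, fb_mem _⟩
      intro j hj hh
      obtain ⟨a, ha, hz⟩ := exists_hole hh
      have h1 := holeSq_of_posD G (le_L_of hj) hz
      apply hp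
      rw [mem_iUnion]
      exact ⟨⟨j, hj⟩, (a, p.2), ha, Prod.ext h1.symm rfl⟩
  · rintro j ⟨a, f⟩ ha
    have h2 : R0 T j (a, f) = rep G.L 0 j (T.θ (a, f)) := by
      refine patch_off _ _ ?_
      intro m q hq
      have h3 := (isBox_inB T (le_L_of m.2)).mem q
      rw [hq] at h3
      exact absurd ha (ne_of_lt h3)
    have hoff : Off T 0 j (a, f) := by
      intro _ m hm r hr
      have h3 := (isBox_inB T (le_L_of hm)).mem r
      rw [← hr] at h3
      exact absurd ha (ne_of_lt h3)
    rw [h2, mk'_hole T j.2 G.genus_zero_pos ha f hoff]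
    simp only [vert]
    rw [posD_hole G (le_L_of j.2)]

/-! ### The darts -/

theorem rfD_rfD (b : Bool) (a : Disc) : rfD b (rfD b a) = a := by
  cases b
  · apply Subtype.ext
    simp [rfD]
  · rfl

theorem nm_rfD (b : Bool) (a : Disc) : nm (rfD b a) = nm a := by
  cases b
  · simp [nm, rfD, Prod.norm_def]
  · rfl

theorem continuous_rfD (b : Bool) : Continuous (rfD b) := by
  cases b
  · rw [continuous_induced_rng]
    have : (Subtype.val ∘ rfD false) = fun a : Disc => (-a.1.1, a.1.2) := by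
      funext a
      simp [rfD]
    rw [this]
    fun_prop
  · exact continuous_id

theorem image_rfD_int (b : Bool) : rfD b '' int = int := by
  ext x
  constructor
  · rintro ⟨a, ha, rfl⟩
    change nm _ < 1
    rw [nm_rfD]
    exact ha
  · intro hx
    refine ⟨rfD b x, ?_, rfD_rfD b x⟩
    change nm _ < 1
    rw [nm_rfD]
    exact hx

theorem isSq_rfD (b : Bool) : IsSq (rfD b) where
  cont := continuous_rfD b
  inj x y h := by rw [← rfD_rfD b x, h, rfD_rfD]
  isOpen := by
    rw [image_rfD_int]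
    exact isOpen_int
  maps x hx := by
    change nm _ < 1
    rw [nm_rfD]
    exact hx

/-- The reflection of the fibre. -/
theorem isBox_rf {P : Q → Q} (hP : IsBox P) (b : Bool) : IsBox fun p => P (p.1, rfD b p.2) where
  cont := hP.cont.comp (continuous_fst.prodMk ((continuous_rfD b).comp continuous_snd))
  inj p q h := by
    have h1 := hP.inj h
    simp only [Prod.mk.injEq] at h1
    exact Prod.ext h1.1 ((isSq_rfD b).inj h1.2)
  isOpen := by
    have : (fun p : Q => P (p.1, rfD b p.2)) '' core = P '' core := by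
      ext q
      constructor
      · rintro ⟨p, hp, rfl⟩
        exact ⟨(p.1, rfD b p.2), hp, rfl⟩
      · rintro ⟨p, hp, rfl⟩
        refine ⟨(p.1, rfD b p.2), hp, ?_⟩
        simp only [rfD_rfD]
    rw [this]
    exact hP.isOpen
  mem p := hP.mem _

theorem isBox_legT {t : Tip} (ht : IsCapped G.genera t) : IsBox (legT T t) := by
  obtain ⟨s, k, b⟩ := t
  have h1 : legT T (s, k, b) = fun p => emb T s k (T.leg b p) := by
    funext p
    exact legT_eq T s k b p
  rw [h1]
  exact (isBox_emb T ht.1).comp (T.isBox b)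

theorem get_capped (k : Fin G.plumbings.length) : IsCapped G.genera (G.plumbings.get k).1 ∧
    IsCapped G.genera (G.plumbings.get k).2.1 := G.isCapped _ (List.get_mem _ _)

theorem two_mul_le (k : Fin G.plumbings.length) : (4 : ℝ) * ((2 * (k : ℕ) : ℕ) : ℝ) + 4 ≤ G.L := by
  have := plumb_le_L G k.2
  push_cast
  linarith

theorem two_mul_add_le (k : Fin G.plumbings.length) :
    (4 : ℝ) * ((2 * (k : ℕ) + 1 : ℕ) : ℝ) + 4 ≤ G.L := by
  have := plumb_le_L G k.2
  push_cast
  linarith

theorem isBox_initBox (x : Fin G.plumbings.length × Bool) : IsBox (initBox T x) := by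
  obtain ⟨k, b⟩ := x
  cases b
  · exact (isBox_legT T (get_capped k).1).comp_sq (T.isSq _ _ (two_mul_le k))
  · exact isBox_rf (((isBox_legT T (get_capped k).2).comp_sq (T.isSq _ _ (two_mul_add_le k))).comp_sq
      (isSq_rfD _)) _

theorem RR_initBox_false (k : Fin G.plumbings.length) (p : Q) :
    RR T (initBox T (k, false) p) = (.cap (G.plumbings.get k).1, (sqp (2 * k) p.1, 0, fb p.2)) :=
  RR_cap T (get_capped k).1 (two_mul_le k) _ _

theorem RR_initBox_true (k : Fin G.plumbings.length) (p : Q) :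
    RR T (initBox T (k, true) p) = (.cap (G.plumbings.get k).2.1,
      (sqp (2 * k + 1) (rfD (G.plumbings.get k).2.2 p.1), 0,
        fb (rfD (G.plumbings.get k).2.2 p.2))) :=
  RR_cap T (get_capped k).2 (two_mul_add_le k) _ _

/-- **The darts of the initial system.** -/
def initDarts : Darts (Fin G.plumbings.length × Bool) where
  flip x := (x.1, !x.2)
  flip_flip x := by simp
  flip_ne x h := by
    have := congrArg Prod.snd h
    simp at this
  box := initBox T
  isBox := isBox_initBox T
  disj := by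
    rintro ⟨k, b⟩ ⟨l, b'⟩ p q h
    have h1 := congrArg (RR T) h
    have e0 : ∀ {m m' : ℕ} {a a' : Disc}, sqp m a = sqp m' a' → m = m' :=
      fun h => (sqp_disj h).1
    cases b <;> cases b'
    · rw [RR_initBox_false, RR_initBox_false] at h1
      simp only [Prod.mk.injEq] at h1
      have := e0 h1.2.1
      rw [Prod.mk.injEq]
      exact ⟨Fin.ext (by omega), rfl⟩
    · rw [RR_initBox_false, RR_initBox_true] at h1
      simp only [Prod.mk.injEq] at h1
      have := e0 h1.2.1
      omega
    · rw [RR_initBox_true, RR_initBox_false] at h1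
      simp only [Prod.mk.injEq] at h1
      have := e0 h1.2.1
      omega
    · rw [RR_initBox_true, RR_initBox_true] at h1
      simp only [Prod.mk.injEq] at h1
      have := e0 h1.2.1
      rw [Prod.mk.injEq]
      exact ⟨Fin.ext (by omega), rfl⟩

theorem fb_rfD (b : Bool) (w : Disc) : fb (rfD b w) = rf b (fb w) := by
  cases b
  · simp only [fb, rfD, rf, Bool.false_eq_true, if_false]
    ext <;> simp only
    ring
  · rfl

/-- The identification of a double point. -/
theorem glue_initBox (k : Fin G.plumbings.length) (x y : Disc) :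
    initMap T (initBox T (k, false) (x, y)) = initMap T (initBox T (k, true) (y, x)) := by
  have hr := RR_region T (initBox T (k, false) (x, y))
  have hr' := RR_region T (initBox T (k, true) (y, x))
  rw [initMap, initMap]
  refine mk'_eq_of hr hr' ?_
  rw [RR_initBox_false, RR_initBox_true, glue_iff]
  refine Or.inr (Or.inr ⟨k, (G.plumbings.get k).1, (G.plumbings.get k).2.1,
    (G.plumbings.get k).2.2, fb x, fb y, ?_, fb_mem x, fb_mem y, ?_, ?_⟩)
  · rw [List.getElem?_eq_getElem k.2]
    rfl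
  · simp only [sqp_eq_fb, Prod.mk.injEq, true_and, and_true]
    push_cast
    ring
  · simp only [sqp_eq_fb, fb_rfD, Prod.mk.injEq, true_and, and_true]
    push_cast
    ring

/-- **The initial singular system.** -/
theorem isReal_init : IsReal G.attach (initDarts T) (initMap T) where
  cont := continuous_initMap T
  boundary z v := by
    have h1 : RR T (z.toDisc, v) = (.base 0, (posD G.L z.toDisc, 0, fb v)) := by
      refine RR_base T ?_
      intro j hj q hq
      have h2 := (isBox_hole (le_L_of hj)).mem q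
      rw [← hq] at h2
      exact absurd (nm_circ z) (ne_of_lt h2)
    rw [initMap, h1]
    exact mk'_of (G.attachE_mem z v)
  glue := by
    rintro ⟨k, b⟩ x y
    cases b
    · exact glue_initBox T k x y
    · exact (glue_initBox T k y x).symm
  inj p q h := by
    rw [initMap, initMap, mk'_eq_iff (RR_region T p) (RR_region T q)] at h
    rcases h with h | h | h
    · exact Or.inl (RR_inj T h)
    · right
      obtain ⟨k, c, c', b, x, y, hk, hp, hq⟩ := glue_cases T h
      have hkl := lt_length_of_getElem? hk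
      have h2 : G.plumbings.get ⟨k, hkl⟩ = (c, c', b) := by
        rw [List.getElem?_eq_getElem hkl] at hk
        exact Option.some.inj hk
      refine ⟨(⟨k, hkl⟩, false), x, y, ?_, ?_⟩
      · change p = initBox T (⟨k, hkl⟩, false) (x, y)
        simp only [initBox, h2]
        exact hp
      · change q = initBox T (⟨k, hkl⟩, true) (y, x)
        simp only [initBox, h2]
        exact hq
    · right
      obtain ⟨k, c, c', b, x, y, hk, hp, hq⟩ := glue_cases T h
      have hkl := lt_length_of_getElem? hk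
      have h2 : G.plumbings.get ⟨k, hkl⟩ = (c, c', b) := by
        rw [List.getElem?_eq_getElem hkl] at hk
        exact Option.some.inj hk
      refine ⟨(⟨k, hkl⟩, true), y, x, ?_, ?_⟩
      · change p = initBox T (⟨k, hkl⟩, true) (y, x)
        simp only [initBox, h2]
        exact hq
      · change q = initBox T (⟨k, hkl⟩, false) (x, y)
        simp only [initBox, h2]
        exact hp

theorem exists_init : ∃ F : Q → G.Thickening, IsReal G.attach (initDarts T) F :=
  ⟨initMap T, isReal_init T⟩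

end Main

end Vale.Agent.P215.Am
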