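import Vale.Agent.P215.Am.InitDefs

/-!
# P215, route A: the initial singular system
-/

noncomputable section

namespace Vale.Agent.P215.Am

open Vale.Agent.P215.H788 Vale.Agent.P215.H579 Set Topology

/-! ### Elementary facts -/

theorem disc_abs (a : Disc) : |a.1.1| ≤ 1 ∧ |a.1.2| ≤ 1 := by
  have h := a.2
  rw [mem_closedBall_zero_iff, Prod.norm_def] at h
  exact ⟨(le_max_left _ _).trans h, (le_max_right _ _).trans h⟩

theorem disc_bd (a : Disc) : (-1 ≤ a.1.1 ∧ a.1.1 ≤ 1) ∧ (-1 ≤ a.1.2 ∧ a.1.2 ≤ 1) := by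
  have h := disc_abs a
  rw [abs_le, abs_le] at h
  exact h

theorem fb_mem (v : Disc) : fb v ∈ Fib := by
  have h := disc_bd v
  refine ⟨⟨?_, ?_⟩, ⟨?_, ?_⟩⟩ <;> simp only [fb] <;> linarith [h.1.1, h.1.2, h.2.1, h.2.2]

theorem fb_inj {v w : Disc} (h : fb v = fb w) : v = w := by
  simp only [fb, Prod.mk.injEq, add_left_inj] at h
  exact Subtype.ext (Prod.ext h.1 h.2)

theorem exists_fb {v : ℝ × ℝ} (h : v ∈ Fib) : ∃ f : Disc, fb f = v := by
  refine ⟨mkD (v.1 - 2) (v.2 - 2) ?_ ?_, ?_⟩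
  · rw [abs_le]
    constructor <;> linarith [h.1.1, h.1.2]
  · rw [abs_le]
    constructor <;> linarith [h.2.1, h.2.2]
  · simp only [fb, mkD]
    ext <;> simp

theorem sqp_eq_fb (m : ℕ) (a : Disc) : sqp m a = (4 * (m : ℝ) + (fb a).1, (fb a).2) := rfl

theorem nm_eq_one {a : Disc} (h : nm a = 1) : fb a ∈ bdFib := by
  refine ⟨fb_mem a, ?_⟩
  rw [nm, Prod.norm_def, Real.norm_eq_abs, Real.norm_eq_abs] at h
  have h1 := disc_bd a
  simp only [fb]
  rcases max_choice |a.1.1| |a.1.2| with h2 | h2 <;> rw [h2] at h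
  · rcases (abs_eq zero_le_one).1 h with h3 | h3 <;> rw [h3] <;> norm_num
  · rcases (abs_eq zero_le_one).1 h with h3 | h3 <;> rw [h3] <;> norm_num

theorem nm_of_bdFib {a : Disc} (h : fb a ∈ bdFib) : nm a = 1 := by
  have h1 := disc_abs a
  have h2 := nm_le a
  refine le_antisymm h2 ?_
  rw [nm, Prod.norm_def, Real.norm_eq_abs, Real.norm_eq_abs]
  rcases h.2 with h3 | h3 | h3 | h3 <;> simp only [fb] at h3
  · have : a.1.1 = -1 := by linarith
    rw [this]
    norm_num
  · have : a.1.1 = 1 := by linarith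
    rw [this]
    norm_num
  · have : a.1.2 = -1 := by linarith
    rw [this]
    norm_num
  · have : a.1.2 = 1 := by linarith
    rw [this]
    norm_num

section

variable (G : CappedGrope)

/-- The class of a point, with a junk value outside of the block. -/
def mk' (y : Block × H788.E) : G.Thickening :=
  open Classical in
  if h : y.2 ∈ G.region y.1 then Quot.mk _ ⟨y, h⟩ else G.basePt

variable {G}

theorem mk'_of {y : Block × H788.E} (h : y.2 ∈ G.region y.1) :
    mk' G y = Quot.mk _ ⟨y, h⟩ := dif_pos h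

theorem mk'_eq_iff {y y' : Block × H788.E} (h : y.2 ∈ G.region y.1) (h' : y'.2 ∈ G.region y'.1) :
    mk' G y = mk' G y' ↔ y = y' ∨ G.Glue y y' ∨ G.Glue y' y := by
  rw [mk'_of h, mk'_of h']
  have h1 := quot_mk_eq_iff G ⟨y, h⟩ ⟨y', h'⟩
  refine h1.trans ?_
  unfold H579.Rel
  rw [Subtype.mk.injEq]

theorem mk'_eq_of {y y' : Block × H788.E} (h : y.2 ∈ G.region y.1) (h' : y'.2 ∈ G.region y'.1)
    (hg : G.Glue y y') : mk' G y = mk' G y' :=
  (mk'_eq_iff h h').2 (Or.inr (Or.inl hg))

theorem contOn_mk' {A : Type} [TopologicalSpace A] {b : Block} {f : A → H788.E} {S : Set A}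
    (hf : ContinuousOn f S) (hS : ∀ a ∈ S, f a ∈ G.region b) :
    ContinuousOn (fun a => mk' G (b, f a)) S := by
  rw [continuousOn_iff_continuous_domRestrict] at hf ⊢
  have h1 : Continuous fun a : S => (⟨(b, f a.1), hS a.1 a.2⟩ : Pts G.region) :=
    Continuous.subtype_mk (continuous_const.prodMk hf) _
  have h2 : Continuous fun a : S => (Quot.mk _ (⟨(b, f a.1), hS a.1 a.2⟩ : Pts G.region) :
      G.Thickening) := continuous_quot_mk.comp h1
  refine h2.congr ?_
  intro a
  exact (mk'_of (hS a.1 a.2)).symm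

end

/-! ### The canonical representatives -/

section Rep

variable (L : ℝ)

open Classical in
/-- The representative of a point of the universal model in the branch `(s, j)`: the handle block is
preferred. -/
def rep (s j : ℕ) (x : H788.E) : Block × H788.E :=
  if x ∈ HReg L then (.handle s j, x)
  else if x.2.2.1 = 1 then (nextBlock (s, j, true), (x.2.1, 0, (x.1.2, x.2.2.2)))
  else (nextBlock (s, j, false), (x.1, 0, (x.2.1.2, x.2.2.2)))

variable {L}

theorem rep_H {s j : ℕ} {x : H788.E} (h : x ∈ HReg L) : rep L s j x = (.handle s j, x) := by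
  rw [rep, if_pos h]

theorem tip_mem_iff (hL : 4 ≤ L) {b : Bool} {z v : ℝ × ℝ} (hv : v ∈ Fib) :
    tipMap b z v ∈ HReg L ↔ z ∈ bdSq L := by
  have hv' := hv
  obtain ⟨⟨h1, h2⟩, ⟨h3, h4⟩⟩ := hv
  cases b
  · simp only [tipMap, HReg, mem_ofPred_eq]
    constructor
    · exact fun h => h.1.1
    · intro h
      refine ⟨⟨h, ?_, ?_⟩, ?_⟩
      · refine ⟨⟨⟨le_rfl, by linarith⟩, ⟨by dsimp only; linarith, by dsimp only; linarith⟩⟩,
          Or.inl rfl⟩
      · rintro ⟨-, h5, -⟩
        linarith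
      · exact ⟨⟨by norm_num, le_rfl⟩, ⟨h3, h4⟩⟩
  · simp only [tipMap, HReg, mem_ofPred_eq]
    constructor
    · exact fun h => h.1.2.1
    · intro h
      refine ⟨⟨?_, h, ?_⟩, ?_⟩
      · refine ⟨⟨⟨le_rfl, by linarith⟩, ⟨by dsimp only; linarith, by dsimp only; linarith⟩⟩,
          Or.inl rfl⟩
      · rintro ⟨h5, -⟩
        linarith
      · exact ⟨⟨le_rfl, by norm_num⟩, ⟨h3, h4⟩⟩

theorem rep_tip (hL : 4 ≤ L) {s j : ℕ} {b : Bool} {z v : ℝ × ℝ} (hv : v ∈ Fib)
    (hz : z ∉ bdSq L) : rep L s j (tipMap b z v) = (nextBlock (s, j, b), (z, 0, v)) := by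
  rw [rep, if_neg (by rwa [tip_mem_iff hL hv])]
  cases b
  · simp [tipMap]
  · simp [tipMap]

/-- The three cases of a point of the universal model. -/
theorem XL_cases (hL : 4 ≤ L) (s j : ℕ) {x : H788.E} (hx : x ∈ XL L) :
    (x ∈ HReg L ∧ rep L s j x = (.handle s j, x)) ∨
    ∃ b, ∃ z ∈ Sq L, z ∉ bdSq L ∧ ∃ v ∈ Fib, x = tipMap b z v ∧
      rep L s j x = (nextBlock (s, j, b), (z, 0, v)) := by
  by_cases h : x ∈ HReg L
  · exact Or.inl ⟨h, rep_H h⟩
  · right
    rcases hx with h1 | ⟨z, hz, v, hv, rfl⟩ | ⟨z, hz, v, hv, rfl⟩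
    · exact absurd h1 h
    · rw [tip_mem_iff hL hv] at h
      exact ⟨true, z, hz, h, v, hv, rfl, rep_tip hL hv h⟩
    · rw [tip_mem_iff hL hv] at h
      exact ⟨false, z, hz, h, v, hv, rfl, rep_tip hL hv h⟩

theorem rep_inj (hL : 4 ≤ L) {s j s' j' : ℕ} {x x' : H788.E} (hx : x ∈ XL L) (hx' : x' ∈ XL L)
    (h : rep L s j x = rep L s' j' x') : s = s' ∧ j = j' ∧ x = x' := by
  rcases XL_cases hL s j hx with ⟨-, h1⟩ | ⟨b, z, hz, hz', v, hv, rfl, h1⟩ <;>
  rcases XL_cases hL s' j' hx' with ⟨-, h2⟩ | ⟨b', w, hw, hw', v', hv', rfl, h2⟩ <;>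
  rw [h1, h2] at h
  · simp only [Prod.mk.injEq, Block.handle.injEq] at h
    exact ⟨h.1.1, h.1.2, h.2⟩
  · exact absurd (congrArg Prod.fst h).symm (nextBlock_ne_handle _ _ _)
  · exact absurd (congrArg Prod.fst h) (nextBlock_ne_handle _ _ _)
  · simp only [Prod.mk.injEq, true_and] at h
    obtain ⟨h3, rfl, rfl⟩ := h
    obtain ⟨rfl, rfl, rfl⟩ := nextBlock_inj h3
    exact ⟨rfl, rfl, rfl⟩

theorem rep_ne_base (hL : 4 ≤ L) {s j : ℕ} {x : H788.E} (hx : x ∈ XL L) :
    (rep L s j x).1 ≠ .base 0 := by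
  rcases XL_cases hL s j hx with ⟨-, h1⟩ | ⟨b, z, hz, hz', v, hv, rfl, h1⟩ <;> rw [h1]
  · simp
  · simp only [nextBlock]
    split_ifs <;> simp

theorem isClosed_Sq : IsClosed (Sq L) := by
  have : Sq L = {x | 0 ≤ x.1 ∧ x.1 ≤ L ∧ 0 ≤ x.2 ∧ x.2 ≤ L} := by
    ext x
    simp only [Sq, mem_ofPred_eq, mem_Icc]
    tauto
  rw [this]
  exact (isClosed_le continuous_const continuous_fst).inter
    ((isClosed_le continuous_fst continuous_const).inter
    ((isClosed_le continuous_const continuous_snd).inter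
    (isClosed_le continuous_snd continuous_const)))

theorem isClosed_bdSq : IsClosed (bdSq L) := by
  have : bdSq L = Sq L ∩ {x | x.1 = 0 ∨ x.1 = L ∨ x.2 = 0 ∨ x.2 = L} := rfl
  rw [this]
  exact isClosed_Sq.inter ((isClosed_eq continuous_fst continuous_const).union
    ((isClosed_eq continuous_fst continuous_const).union
    ((isClosed_eq continuous_snd continuous_const).union
    (isClosed_eq continuous_snd continuous_const))))

theorem isClosed_Fib : IsClosed Fib := by
  have : Fib = {x | 1 ≤ x.1 ∧ x.1 ≤ 3 ∧ 1 ≤ x.2 ∧ x.2 ≤ 3} := by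
    ext x
    simp only [Fib, mem_ofPred_eq, mem_Icc]
    tauto
  rw [this]
  exact (isClosed_le continuous_const continuous_fst).inter
    ((isClosed_le continuous_fst continuous_const).inter
    ((isClosed_le continuous_const continuous_snd).inter
    (isClosed_le continuous_snd continuous_const)))

theorem isClosed_HReg (hL : 4 ≤ L) : IsClosed (HReg L) := by
  have : HReg L = {x | x.1 ∈ bdSq L} ∩ ({x | x.2.1 ∈ bdSq L} ∩ ({x | x.2.2 ∈ Fib} ∩
      {x | x.1.1 = 0 ∨ x.1.2 ≤ 1 ∨ 3 ≤ x.1.2 ∨ x.2.1.1 = 0 ∨ x.2.1.2 ≤ 1 ∨ 3 ≤ x.2.1.2})) := by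
    ext x
    simp only [HReg, mem_ofPred_eq, mem_inter_iff, mem_Ioo]
    constructor
    · rintro ⟨⟨h1, h2, h3⟩, h4⟩
      refine ⟨h1, h2, h4, ?_⟩
      by_contra hc
      push Not at hc
      obtain ⟨c1, c2, c3, c4, c5, c6⟩ := hc
      apply h3
      refine ⟨?_, ?_, ⟨c2, c3⟩, ⟨c5, c6⟩⟩
      · rcases h1.2 with h | h | h | h
        · exact absurd h c1
        · exact h
        · linarith
        · linarith
      · rcases h2.2 with h | h | h | h
        · exact absurd h c4
        · exact h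
        · linarith
        · linarith
    · rintro ⟨h1, h2, h4, h3⟩
      refine ⟨⟨h1, h2, ?_⟩, h4⟩
      rintro ⟨c1, c2, ⟨c3, c4⟩, ⟨c5, c6⟩⟩
      rcases h3 with h | h | h | h | h | h <;> linarith
  rw [this]
  have c1 : Continuous fun x : H788.E => x.1.1 := by fun_prop
  have c2 : Continuous fun x : H788.E => x.1.2 := by fun_prop
  have c3 : Continuous fun x : H788.E => x.2.1.1 := by fun_prop
  have c4 : Continuous fun x : H788.E => x.2.1.2 := by fun_prop
  exact (isClosed_bdSq.preimage continuous_fst).inter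
    ((isClosed_bdSq.preimage (continuous_fst.comp continuous_snd)).inter
    ((isClosed_Fib.preimage (continuous_snd.comp continuous_snd)).inter
    ((isClosed_eq c1 continuous_const).union ((isClosed_le c2 continuous_const).union
    ((isClosed_le continuous_const c2).union ((isClosed_eq c3 continuous_const).union
    ((isClosed_le c4 continuous_const).union (isClosed_le continuous_const c4))))))))

/-- The position and the fibre coordinates of a point of a slab. -/
def un (b : Bool) (x : H788.E) : H788.E :=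
  if b then (x.2.1, 0, (x.1.2, x.2.2.2)) else (x.1, 0, (x.2.1.2, x.2.2.2))

theorem un_tip (b : Bool) (z v : ℝ × ℝ) : un b (tipMap b z v) = (z, 0, v) := by
  cases b <;> simp [un, tipMap]

theorem continuous_un (b : Bool) : Continuous (un b) := by
  cases b
  · have : un false = fun x => (x.1, 0, (x.2.1.2, x.2.2.2)) := by
      funext x
      simp [un]
    rw [this]
    fun_prop
  · have : un true = fun x => (x.2.1, 0, (x.1.2, x.2.2.2)) := by
      funext x
      simp [un]
    rw [this]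
    fun_prop

theorem isClosed_Slab (b : Bool) : IsClosed (Slab L b) := by
  have : Slab L b = {x | x = tipMap b (un b x).1 (un b x).2.2} ∩
      ({x | (un b x).1 ∈ Sq L} ∩ {x | (un b x).2.2 ∈ Fib}) := by
    ext x
    constructor
    · rintro ⟨z, hz, v, hv, rfl⟩
      simp only [un_tip, mem_inter_iff, mem_ofPred_eq]
      exact ⟨trivial, hz, hv⟩
    · rintro ⟨h1, h2, h3⟩
      exact ⟨_, h2, _, h3, h1⟩
  rw [this]
  have c := continuous_un b
  have c' : Continuous fun x : H788.E => tipMap b (un b x).1 (un b x).2.2 := by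
    cases b
    · simp only [tipMap]
      fun_prop
    · simp only [tipMap]
      fun_prop
  exact (isClosed_eq continuous_id c').inter
    ((isClosed_Sq.preimage (continuous_fst.comp c)).inter
    (isClosed_Fib.preimage (continuous_snd.comp (continuous_snd.comp c))))

end Rep

/-! ### Squares -/

theorem isSq_aff {c1 c2 r : ℝ} (hr : 0 < r) (h1 : |c1| + r < 1) (h2 : |c2| + r < 1)
    {f : Disc → Disc} (hf : ∀ a, (f a).1 = (c1 + r * a.1.1, c2 + r * a.1.2)) :
    IsSq f ∧ ∀ a, f a ∈ int := by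
  have hint : ∀ a, f a ∈ int := by
    intro a
    have ha := disc_abs a
    change ‖(f a).1‖ < 1
    rw [hf, Prod.norm_def]
    refine max_lt ?_ ?_
    · rw [Real.norm_eq_abs]
      calc |c1 + r * a.1.1| ≤ |c1| + |r * a.1.1| := abs_add_le _ _
        _ ≤ |c1| + r := by
          rw [abs_mul, abs_of_pos hr]
          nlinarith [ha.1]
        _ < 1 := h1
    · rw [Real.norm_eq_abs]
      calc |c2 + r * a.1.2| ≤ |c2| + |r * a.1.2| := abs_add_le _ _
        _ ≤ |c2| + r := by
          rw [abs_mul, abs_of_pos hr]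
          nlinarith [ha.2]
        _ < 1 := h2
  have himg : f '' int = {x : Disc | |x.1.1 - c1| < r ∧ |x.1.2 - c2| < r} := by
    ext x
    constructor
    · rintro ⟨a, ha, rfl⟩
      change ‖a.1‖ < 1 at ha
      rw [Prod.norm_def, Real.norm_eq_abs, Real.norm_eq_abs, max_lt_iff] at ha
      rw [mem_ofPred_eq, hf]
      simp only [add_sub_cancel_left, abs_mul, abs_of_pos hr]
      exact ⟨by nlinarith [ha.1], by nlinarith [ha.2]⟩
    · rintro ⟨g1, g2⟩
      have e1 : |(x.1.1 - c1) / r| < 1 := by rwa [abs_div, abs_of_pos hr, div_lt_one hr]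
      have e2 : |(x.1.2 - c2) / r| < 1 := by rwa [abs_div, abs_of_pos hr, div_lt_one hr]
      refine ⟨mkD ((x.1.1 - c1) / r) ((x.1.2 - c2) / r) e1.le e2.le, ?_, ?_⟩
      · change ‖_‖ < 1
        rw [Prod.norm_def, Real.norm_eq_abs, Real.norm_eq_abs]
        exact max_lt e1 e2
      · apply Subtype.ext
        rw [hf]
        simp only [mkD]
        ext
        · simp only
          field_simp
          ring
        · simp only
          field_simp
          ring
  refine ⟨⟨?_, ?_, ?_, fun x _ => hint x⟩, hint⟩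
  · rw [continuous_induced_rng]
    have : (Subtype.val ∘ f) = fun a : Disc => (c1 + r * a.1.1, c2 + r * a.1.2) := funext hf
    rw [this]
    fun_prop
  · intro a b h
    have h1 := congrArg Subtype.val h
    rw [hf, hf] at h1
    simp only [Prod.mk.injEq, add_right_inj, mul_eq_mul_left_iff, hr.ne', or_false] at h1
    exact Subtype.ext (Prod.ext h1.1 h1.2)
  · rw [himg]
    have k1 : Continuous fun x : Disc => |x.1.1 - c1| := by fun_prop
    have k2 : Continuous fun x : Disc => |x.1.2 - c2| := by fun_prop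
    exact (isOpen_lt k1 continuous_const).inter (isOpen_lt k2 continuous_const)

/-- The position of a point of the disc in the base square. -/
def posD (L : ℝ) (a : Disc) : ℝ × ℝ := (L / 2 * (a.1.1 + 1), L / 2 * (a.1.2 + 1))

section

variable (G : CappedGrope)

theorem holeSq_val {j : ℕ} (hj : 4 * (j : ℝ) + 4 ≤ G.L) (a : Disc) : (holeSq G j a).1 =
    (2 / G.L * (4 * (j : ℝ) + 2) - 1 + 2 / G.L * a.1.1, 2 / G.L * 2 - 1 + 2 / G.L * a.1.2) := by
  have hL := four_le_L G
  have hL0 : 0 < G.L := by linarith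
  have ha := disc_bd a
  have hj0 : (0 : ℝ) ≤ j := Nat.cast_nonneg j
  have e1 : |2 / G.L * (4 * (j : ℝ) + (a.1.1 + 2)) - 1| ≤ 1 := by
    rw [abs_le]
    constructor
    · have : 0 ≤ 2 / G.L * (4 * (j : ℝ) + (a.1.1 + 2)) :=
        mul_nonneg (by positivity) (by linarith [ha.1.1])
      linarith
    · have : 2 / G.L * (4 * (j : ℝ) + (a.1.1 + 2)) ≤ 2 / G.L * G.L :=
        mul_le_mul_of_nonneg_left (by linarith [ha.1.2]) (by positivity)
      rw [div_mul_cancel₀ _ hL0.ne'] at this
      linarith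
  have e2 : |2 / G.L * (a.1.2 + 2) - 1| ≤ 1 := by
    rw [abs_le]
    constructor
    · have : 0 ≤ 2 / G.L * (a.1.2 + 2) := mul_nonneg (by positivity) (by linarith [ha.2.1])
      linarith
    · have : 2 / G.L * (a.1.2 + 2) ≤ 2 / G.L * G.L :=
        mul_le_mul_of_nonneg_left (by linarith [ha.2.2]) (by positivity)
      rw [div_mul_cancel₀ _ hL0.ne'] at this
      linarith
  change (cl _, cl _) = _
  rw [cl_of e1, cl_of e2]
  ext <;> simp only <;> ring

theorem isSq_holeSq {j : ℕ} (hj : 4 * (j : ℝ) + 4 ≤ G.L) :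
    IsSq (holeSq G j) ∧ ∀ a, holeSq G j a ∈ int := by
  have hL := four_le_L G
  have hL0 : 0 < G.L := by linarith
  have hj0 : (0 : ℝ) ≤ j := Nat.cast_nonneg j
  refine isSq_aff (by positivity) ?_ ?_ (holeSq_val G hj)
  · have h1 : 2 / G.L * (4 * (j : ℝ) + 3) < 2 := by
      rw [div_mul_eq_mul_div, div_lt_iff₀ hL0]
      linarith
    have h2 : 0 < 2 / G.L * (4 * (j : ℝ) + 1) := by positivity
    have h3 : |2 / G.L * (4 * (j : ℝ) + 2) - 1| < 1 - 2 / G.L := by
      rw [abs_lt]
      constructor <;> linarith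
    linarith
  · have h1 : 2 / G.L * (3 : ℝ) < 2 := by
      rw [div_mul_eq_mul_div, div_lt_iff₀ hL0]
      linarith
    have h2 : 0 < 2 / G.L := by positivity
    have h3 : |2 / G.L * 2 - 1| < 1 - 2 / G.L := by
      rw [abs_lt]
      constructor <;> linarith
    linarith

theorem posD_inj {x y : Disc} (h : posD G.L x = posD G.L y) : x = y := by
  have hL := four_le_L G
  have hL0 : G.L / 2 ≠ 0 := by
    have : 0 < G.L / 2 := by linarith
    exact this.ne'
  simp only [posD, Prod.mk.injEq, mul_eq_mul_left_iff, hL0, or_false, add_left_inj] at h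
  exact Subtype.ext (Prod.ext h.1 h.2)

theorem posD_mem (x : Disc) : posD G.L x ∈ Sq G.L := by
  have hL := four_le_L G
  have hx := disc_bd x
  refine ⟨⟨?_, ?_⟩, ⟨?_, ?_⟩⟩ <;> simp only [posD] <;> nlinarith [hx.1.1, hx.1.2, hx.2.1, hx.2.2]

theorem posD_hole {j : ℕ} (hj : 4 * (j : ℝ) + 4 ≤ G.L) (a : Disc) :
    posD G.L (holeSq G j a) = sqp j a := by
  have hL := four_le_L G
  have hL0 : G.L ≠ 0 := by
    have : 0 < G.L := by linarith
    exact this.ne'
  rw [posD, holeSq_val G hj, sqp]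
  ext
  · simp only
    field_simp
    ring
  · simp only
    field_simp
    ring

theorem holeSq_of_posD {j : ℕ} (hj : 4 * (j : ℝ) + 4 ≤ G.L) {x a : Disc}
    (h : posD G.L x = sqp j a) : x = holeSq G j a :=
  posD_inj G (h.trans (posD_hole G hj a).symm)

end

end Vale.Agent.P215.Am
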