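import Vale.Agent.P215.Am.Vert
import Vale.Agent.P215.H579.Relation

/-!
# P215, route A: the initial singular system, definitions

`XL L ⊆ E` is the universal model of a handle block together with its two *slabs*
`(square [0, L]²) × F` (the beginnings of the next stages at the two tips): with
`tipMap false z v = (z, (0, v.1), (3, v.2))` and `tipMap true z v = ((0, v.1), z, (1, v.2))` the
identifications at the tips of H788's thickening become equalities.

`ThetaDatum L`: an embedding `θ : Q → XL L` with two leg boxes which are mapped to the slabs.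

`initDarts`: the boxes of the initial singular system.  The target statement (`exists_init` in
`Init.lean`) is
`∃ F : Q → G.Thickening, IsReal G.attach (initDarts G T) F`.
-/

noncomputable section

namespace Vale.Agent.P215.Am

open Vale.Agent.P215.H788 Vale.Agent.P215.H579 Set Topology

/-- The handle block. -/
def HReg (L : ℝ) : Set H788.E := {x | (x.1 ∈ bdSq L ∧ x.2.1 ∈ bdSq L ∧
  ¬ (x.1.1 = L ∧ x.2.1.1 = L ∧ x.1.2 ∈ Ioo 1 3 ∧ x.2.1.2 ∈ Ioo 1 3)) ∧ x.2.2 ∈ Fib}

/-- The slab at the tip `b`. -/
def Slab (L : ℝ) (b : Bool) : Set H788.E := {x | ∃ z ∈ Sq L, ∃ v ∈ Fib, x = tipMap b z v}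

/-- The handle block with its two slabs. -/
def XL (L : ℝ) : Set H788.E := HReg L ∪ (Slab L true ∪ Slab L false)

/-- A point of the disc as a point of the fibre `[1, 3]²`. -/
def fb (v : Disc) : ℝ × ℝ := (v.1.1 + 2, v.1.2 + 2)

/-- The square number `m`: the hole number `m`; the two squares of the double point number `k` are
the squares number `2 k` and `2 k + 1`. -/
def sqp (m : ℕ) (a : Disc) : ℝ × ℝ := (4 * (m : ℝ) + (a.1.1 + 2), a.1.2 + 2)

/-- **The local datum.** An embedding `θ` of the four-cube in the handle block with its slabs, whose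
legs are full slabs `(position g b a, fibre fb f)`. -/
structure ThetaDatum (L : ℝ) where
  /-- the leg boxes: `leg true` at the second tip (cap side), `leg false` at the first tip -/
  leg : Bool → Q → Q
  isBox : ∀ b, IsBox (leg b)
  disj : ∀ p q, leg true p ≠ leg false q
  /-- the embedding -/
  θ : Q → H788.E
  cont : Continuous θ
  inj : Function.Injective θ
  mem : ∀ p, θ p ∈ XL L
  /-- on `Circ × Disc` it is the hole boundary times the fibre -/
  bd : ∀ x v, nm x = 1 → θ (x, v) = ((L, x.1.2 + 2), (L, x.1.1 + 2), fb v)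
  /-- the position in the cap square -/
  g : Bool → Disc → ℝ × ℝ
  leg_eq : ∀ b a f, θ (leg b (a, f)) = tipMap b (g b a) (fb f)
  /-- the squares (holes or double points) in the leg coordinates -/
  sq : Bool → ℕ → Disc → Disc
  isSq : ∀ b (m : ℕ), 4 * (m : ℝ) + 4 ≤ L → IsSq (sq b m)
  sq_int : ∀ b (m : ℕ), 4 * (m : ℝ) + 4 ≤ L → ∀ a, sq b m a ∈ int
  sq_eq : ∀ b (m : ℕ), 4 * (m : ℝ) + 4 ≤ L → ∀ a, g b (sq b m a) = sqp m a
  /-- a point over a square of a slab lies in the leg -/
  cover : ∀ b (m : ℕ), 4 * (m : ℝ) + 4 ≤ L → ∀ p a f, θ p = tipMap b (sqp m a) (fb f) →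
    p = leg b (sq b m a, f)

/-- Points of the disc from coordinates. -/
def mkD (x y : ℝ) (hx : |x| ≤ 1) (hy : |y| ≤ 1) : Disc :=
  ⟨(x, y), by
    rw [mem_closedBall_zero_iff, Prod.norm_def, Real.norm_eq_abs, Real.norm_eq_abs]
    exact max_le hx hy⟩

/-- Clamp to `[-1, 1]`. -/
def cl (x : ℝ) : ℝ := max (-1) (min x 1)

theorem abs_cl (x : ℝ) : |cl x| ≤ 1 := by
  rw [cl, abs_le]
  exact ⟨le_max_left _ _, max_le (by norm_num) (min_le_right _ _)⟩

theorem cl_of {x : ℝ} (h : |x| ≤ 1) : cl x = x := by
  rw [abs_le] at h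
  rw [cl, min_eq_left h.2, max_eq_right h.1]

variable (G : CappedGrope)

/-- The hole number `j` of the first stage, as a little square of the disc. -/
def holeSq (j : ℕ) (a : Disc) : Disc :=
  mkD (cl (2 / G.L * (4 * (j : ℝ) + (a.1.1 + 2)) - 1)) (cl (2 / G.L * (a.1.2 + 2) - 1))
    (abs_cl _) (abs_cl _)

variable {G}

/-- The leg of the tip `t`. -/
def legT (T : ThetaDatum G.L) (t : Tip) (p : Q) : Q :=
  match t.1 with
  | 0 => vert (holeSq G t.2.1) (T.leg t.2.2 p)
  | i + 1 => vert (holeSq G i) (T.leg false (vert (T.sq false t.2.1) (T.leg t.2.2 p)))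

/-- The reflection of the disc for a negative double point. -/
def rfD (b : Bool) (a : Disc) : Disc :=
  if b then a else ⟨(-a.1.1, a.1.2), by
    have h := a.2
    rw [mem_closedBall_zero_iff, Prod.norm_def] at h ⊢
    simpa using h⟩

/-- The boxes of the initial system: `(k, false)` is the first preimage of the double point number
`k`, `(k, true)` the second one. -/
def initBox (T : ThetaDatum G.L) (x : Fin G.plumbings.length × Bool) (p : Q) : Q :=
  match x.2 with
  | false => legT T (G.plumbings.get x.1).1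
      (T.sq (G.plumbings.get x.1).1.2.2 (2 * x.1) p.1, p.2)
  | true => legT T (G.plumbings.get x.1).2.1
      (T.sq (G.plumbings.get x.1).2.1.2.2 (2 * x.1 + 1) (rfD (G.plumbings.get x.1).2.2 p.1),
        rfD (G.plumbings.get x.1).2.2 p.2)

end Vale.Agent.P215.Am
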