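import Vale.Agent.P215.Am.Elim

/-!
# P215, route A: abstract 3-port graphs

A `Port Γ` is a (typically infinite) graph `X` in which each vertex `x` has three legs `l`, with a
neighbour `nb x l` and a dart type `dart x l` from a finite set `K` of types.  All local rules of the
combinatorial part are functions on `X` which are local (`Agree n x y → st x = st y`).
-/

namespace Vale.Agent.P215.Am

/-- The finite set of dart types. -/
structure Types (Γ : Type) [Group Γ] where
  /-- the types of the darts -/
  K : Type
  fK : Fintype K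
  dK : DecidableEq K
  /-- the leg of a dart -/
  leg : K → Fin 3
  /-- the opposite type -/
  flip : K → K
  flip_flip : ∀ k, flip (flip k) = k
  flip_ne : ∀ k, flip k ≠ k
  /-- the label -/
  t : K → Γ
  t_flip : ∀ k, t (flip k) = (t k)⁻¹

attribute [instance] Types.fK Types.dK

variable {Γ : Type} [Group Γ]

/-- A 3-port graph with darts of the types `T`. -/
structure Port (T : Types Γ) where
  /-- the vertices -/
  X : Type
  /-- the type of the dart on a leg -/
  dart : X → Fin 3 → T.K
  leg_dart : ∀ x l, T.leg (dart x l) = l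
  /-- the neighbour across a leg -/
  nb : X → Fin 3 → X
  dart_nb : ∀ x l, dart (nb x l) (T.leg (T.flip (dart x l))) = T.flip (dart x l)
  nb_nb : ∀ x l, nb (nb x l) (T.leg (T.flip (dart x l))) = x

namespace Port

variable {T : Types Γ} (P : Port T)

/-- The leg of the neighbour which leads back. -/
def bk (x : P.X) (l : Fin 3) : Fin 3 := T.leg (T.flip (P.dart x l))

theorem dart_bk (x : P.X) (l : Fin 3) : P.dart (P.nb x l) (P.bk x l) = T.flip (P.dart x l) :=
  P.dart_nb x l

theorem nb_bk (x : P.X) (l : Fin 3) : P.nb (P.nb x l) (P.bk x l) = x := P.nb_nb x l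

theorem bk_bk (x : P.X) (l : Fin 3) : P.bk (P.nb x l) (P.bk x l) = l := by
  rw [bk, dart_bk, T.flip_flip, P.leg_dart]

/-- The patterns of radius `n` around `x` and `y` agree. -/
def Agree : ℕ → P.X → P.X → Prop
  | 0, _, _ => True
  | n + 1, x, y => ∀ l, P.dart x l = P.dart y l ∧ Agree n (P.nb x l) (P.nb y l)

/-- A function of the vertices is local of radius `n`. -/
def Loc {A : Type} (n : ℕ) (f : P.X → A) : Prop := ∀ x y, P.Agree n x y → f x = f y

variable {P}

theorem Agree.refl (n : ℕ) (x : P.X) : P.Agree n x x := by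
  induction n generalizing x with
  | zero => trivial
  | succ n ih => exact fun l => ⟨rfl, ih _⟩

theorem Agree.symm {n : ℕ} {x y : P.X} (h : P.Agree n x y) : P.Agree n y x := by
  induction n generalizing x y with
  | zero => trivial
  | succ n ih => exact fun l => ⟨(h l).1.symm, ih (h l).2⟩

theorem Agree.trans {n : ℕ} {x y z : P.X} (h : P.Agree n x y) (h' : P.Agree n y z) :
    P.Agree n x z := by
  induction n generalizing x y z with
  | zero => trivial
  | succ n ih => exact fun l => ⟨(h l).1.trans (h' l).1, ih (h l).2 (h' l).2⟩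

theorem Agree.pred {n : ℕ} {x y : P.X} (h : P.Agree (n + 1) x y) : P.Agree n x y := by
  induction n generalizing x y with
  | zero => trivial
  | succ n ih => exact fun l => ⟨(h l).1, ih (h l).2⟩

theorem Agree.mono {m n : ℕ} (hmn : m ≤ n) {x y : P.X} (h : P.Agree n x y) : P.Agree m x y := by
  induction hmn with
  | refl => exact h
  | step _ ih => exact ih h.pred

theorem Agree.nb {n : ℕ} {x y : P.X} (h : P.Agree (n + 1) x y) (l : Fin 3) :
    P.Agree n (P.nb x l) (P.nb y l) := (h l).2

theorem Agree.dart {n : ℕ} {x y : P.X} (h : P.Agree (n + 1) x y) (l : Fin 3) :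
    P.dart x l = P.dart y l := (h l).1

theorem Loc.mono {A : Type} {m n : ℕ} (hmn : m ≤ n) {f : P.X → A} (h : P.Loc m f) : P.Loc n f :=
  fun x y hxy => h x y (hxy.mono hmn)

theorem Loc.comp {A B : Type} {n : ℕ} {f : P.X → A} (h : P.Loc n f) (g : A → B) :
    P.Loc n (fun x => g (f x)) := fun x y hxy => congrArg g (h x y hxy)

theorem Loc.nb {A : Type} {n : ℕ} {f : P.X → A} (h : P.Loc n f) (l : Fin 3) :
    P.Loc (n + 1) (fun x => f (P.nb x l)) := fun _ _ hxy => h _ _ (hxy.nb l)

theorem loc_dart (l : Fin 3) : P.Loc 1 (fun x => P.dart x l) := fun _ _ hxy => (hxy l).1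

theorem loc_const {A : Type} (a : A) : P.Loc 0 (fun _ => a) := fun _ _ _ => rfl

end Port

/-- **The rule** (to be proved by the owners of the combinatorial part): over an amenable group each
3-port graph has a local family of states which satisfies the relation `Rel` along each leg. -/
def RuleStatement : Prop :=
  ∀ (Γ : Type) [Group Γ], Amenable Γ → ∀ (T : Types Γ) (P : Port T),
    ∃ (n : ℕ) (st : P.X → St Γ), P.Loc n st ∧
      (∀ x i a b g, st x = .W i a b g → a ≠ b) ∧
      ∀ x l, Rel (role (st x) l) (role (st (P.nb x l)) (P.bk x l)) (T.t (P.dart x l))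

end Vale.Agent.P215.Am
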