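import Vale.Agent.P215.Am.RankWalk

/-!
# P215, route A: the rule near the closed walks with trivial label

A *position* is a pair `(p, q)` of words: the walk leads back along `p` and forward along `q`. Each
vertex on a closed walk from the finite set `Loops M` chooses its smallest position; the pointers
lead to the start of the walk if it is not disturbed, and away from the undisturbed part otherwise.
-/

noncomputable section

namespace Vale.Agent.P215.Am

variable {Γ : Type} [Group Γ]

namespace Types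

variable (T : Types Γ)

/-- A numbering of the words. -/
def code : List T.K → ℕ := (exists_injective_nat (List T.K)).choose

theorem code_injective : Function.Injective T.code := (exists_injective_nat (List T.K)).choose_spec

/-- The whole word of a position. -/
def tot (r : List T.K × List T.K) : List T.K := T.inv r.1 ++ r.2

theorem tot_cons (k : T.K) (p q : List T.K) :
    T.tot (T.flip k :: p, q) = T.tot (p, k :: q) := by
  simp [tot, inv_cons, T.flip_flip]

theorem tot_cons' (k : T.K) (p q : List T.K) :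
    T.tot (p, T.flip k :: q) = T.tot (k :: p, q) := by
  simp [tot, inv_cons]

/-- The order of the positions. -/
def key (r : List T.K × List T.K) : ℕ ×ₗ ℕ := toLex (T.code (T.tot r), r.1.length)

theorem key_le_iff {r r' : List T.K × List T.K} :
    T.key r ≤ T.key r' ↔ T.code (T.tot r) < T.code (T.tot r') ∨
      (T.tot r = T.tot r' ∧ r.1.length ≤ r'.1.length) := by
  rw [key, key, Prod.Lex.toLex_le_toLex]
  simp only [T.code_injective.eq_iff]

theorem pos_eq {r r' : List T.K × List T.K} (h : T.tot r = T.tot r')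
    (h' : r.1.length = r'.1.length) : r = r' := by
  have h2 := List.append_inj h (by rw [T.length_inv, T.length_inv, h'])
  exact Prod.ext (T.inv_injective h2.1) h2.2

/-- The positions in closed walks. -/
def LP (M : ℕ) : Set (List T.K × List T.K) := {r | T.tot r ∈ T.Loops M}

theorem finite_LP (M : ℕ) : (T.LP M).Finite := by
  refine ((List.finite_length_le T.K M).prod (List.finite_length_le T.K M)).subset ?_
  intro r hr
  have h := hr.2.1
  rw [tot, List.length_append, T.length_inv] at h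
  exact ⟨show r.1.length ≤ M by omega, show r.2.length ≤ M by omega⟩

end Types

namespace Port

variable {T : Types Γ} (P : Port T) (M : ℕ)

/-- The positions of the vertex `x`. -/
def posSet (x : P.X) : Set (List T.K × List T.K) :=
  {r | r ∈ T.LP M ∧ (P.Starts r.1 x ∧ P.Starts r.2 x)}

/-- The smallest position in a set. -/
def rkS (T : Types Γ) (S : Set (List T.K × List T.K)) : List T.K × List T.K :=
  open Classical in if h : S.Nonempty then Function.argminOn T.key S h else ([], [])

/-- The smallest position of a vertex. -/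
def rk (x : P.X) : List T.K × List T.K := rkS T (P.posSet M x)

/-- The vertices on closed walks. -/
def On : Set P.X := {x | (P.posSet M x).Nonempty}

variable {P M}

theorem rk_mem {x : P.X} (h : x ∈ P.On M) : P.rk M x ∈ P.posSet M x := by
  have h' : (P.posSet M x).Nonempty := h
  rw [rk, rkS, dif_pos h']
  exact Function.argminOn_mem _ _ _

theorem rk_le {x : P.X} {r : List T.K × List T.K} (h : r ∈ P.posSet M x) :
    T.key (P.rk M x) ≤ T.key r := by
  have h' : (P.posSet M x).Nonempty := ⟨r, h⟩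
  rw [rk, rkS, dif_pos h']
  exact Function.argminOn_le _ _ h

theorem lc_posSet : P.Lc (P.posSet M) :=
  Lc.pred (T.finite_LP M) fun r _ => (lc_starts r.1).comp₂ (lc_starts r.2) fun a b => a ∧ b

theorem lc_rk : P.Lc (P.rk M) := lc_posSet.comp _

theorem lc_on : P.Lc (fun x => x ∈ P.On M) := lc_posSet.comp _

theorem posSet_fwd {x : P.X} {p q : List T.K} {k : T.K} (h : (p, k :: q) ∈ P.posSet M x) :
    (T.flip k :: p, q) ∈ P.posSet M (P.step x k) := by
  obtain ⟨h1, h2, h3, h4⟩ := h
  refine ⟨?_, ⟨dart_step h3, ?_⟩, h4⟩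
  · show T.tot _ ∈ T.Loops M
    rw [T.tot_cons]; exact h1
  · rw [step_step h3]; exact h2

theorem posSet_bwd {x : P.X} {p q : List T.K} {k : T.K} (h : (k :: p, q) ∈ P.posSet M x) :
    (p, T.flip k :: q) ∈ P.posSet M (P.step x k) := by
  obtain ⟨h1, ⟨h3, h4⟩, h2⟩ := h
  refine ⟨?_, h4, ⟨dart_step h3, ?_⟩⟩
  · show T.tot _ ∈ T.Loops M
    rw [T.tot_cons']; exact h1
  · rw [step_step h3]; exact h2

variable (P M)

/-- The future part of the walk is not disturbed. -/
def Fw : List T.K → List T.K → P.X → Prop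
  | [], p, x => P.rk M x = (p, [])
  | k :: q, p, x => P.rk M x = (p, k :: q) ∧ Fw q (T.flip k :: p) (P.step x k)

/-- The past part of the walk is not disturbed. -/
def Bw : List T.K → List T.K → P.X → Prop
  | [], q, x => P.rk M x = ([], q)
  | k :: p, q, x => P.rk M x = (k :: p, q) ∧ Bw p (T.flip k :: q) (P.step x k)

variable {P M}

theorem Fw.rk {q p : List T.K} {x : P.X} (h : P.Fw M q p x) : P.rk M x = (p, q) := by
  cases q with
  | nil => exact h
  | cons k q => exact h.1

theorem Bw.rk {q p : List T.K} {x : P.X} (h : P.Bw M p q x) : P.rk M x = (p, q) := by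
  cases p with
  | nil => exact h
  | cons k p => exact h.1

theorem lc_fw (q p : List T.K) : P.Lc (P.Fw M q p) := by
  induction q generalizing p with
  | nil => exact lc_rk.comp fun r => r = (p, [])
  | cons k q ih =>
    exact lc_rk.comp₂ ((ih (T.flip k :: p)).nb (T.leg k)) fun r a => r = (p, k :: q) ∧ a

theorem lc_bw (p q : List T.K) : P.Lc (P.Bw M p q) := by
  induction p generalizing q with
  | nil => exact lc_rk.comp fun r => r = ([], q)
  | cons k p ih =>
    exact lc_rk.comp₂ ((ih (T.flip k :: q)).nb (T.leg k)) fun r a => r = (k :: p, q) ∧ a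

/-- Moving forward. -/
theorem fw_step {x : P.X} {p q : List T.K} {k : T.K} (hx : P.rk M x = (p, k :: q)) :
    P.Fw M (k :: q) p x ↔ P.Fw M q (T.flip k :: p) (P.step x k) :=
  ⟨fun h => h.2, fun h => ⟨hx, h⟩⟩

theorem bw_step {x : P.X} {p q : List T.K} {k : T.K} (hx : P.rk M x = (k :: p, q)) :
    P.Bw M (k :: p) q x ↔ P.Bw M p (T.flip k :: q) (P.step x k) :=
  ⟨fun h => h.2, fun h => ⟨hx, h⟩⟩

theorem bw_step' {x : P.X} {p q : List T.K} {k : T.K} (hk : P.dart x (T.leg k) = k)
    (hy : P.rk M (P.step x k) = (T.flip k :: p, q)) :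
    P.Bw M (T.flip k :: p) q (P.step x k) ↔ P.Bw M p (k :: q) x := by
  rw [bw_step hy, step_step hk, T.flip_flip]

theorem fw_step' {x : P.X} {p q : List T.K} {k : T.K} (hk : P.dart x (T.leg k) = k)
    (hy : P.rk M (P.step x k) = (p, T.flip k :: q)) :
    P.Fw M (T.flip k :: q) p (P.step x k) ↔ P.Fw M q (k :: p) x := by
  rw [fw_step hy, step_step hk, T.flip_flip]

/-- The state of an undisturbed position. -/
def cst (T : Types Γ) : List T.K → List T.K → St Γ
  | [], [] => .N 0
  | [], k :: _ => .X (T.leg k)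
  | k :: _, [] => .N (T.leg k)
  | k :: p, k' :: _ => .W (p.length + 1) (T.leg k) (T.leg k') (T.val (T.inv (k :: p)))

/-- The leg of the first dart. -/
def hleg (T : Types Γ) : List T.K → Fin 3
  | [] => 0
  | k :: _ => T.leg k

/-- The state of a position. -/
def posSt (r : List T.K × List T.K) (x : P.X) : St Γ :=
  open Classical in
  if P.Bw M r.1 r.2 x then
    if P.Fw M r.2 r.1 x then cst T r.1 r.2 else .N (hleg T r.2)
  else .N (hleg T r.1)

theorem lc_posSt (r : List T.K × List T.K) : P.Lc (P.posSt (M := M) r) := by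
  classical
  exact Lc.ite (lc_bw _ _) (Lc.ite (lc_fw _ _) (lc_const _) (lc_const _)) (lc_const _)

variable (P M) in
/-- The distances and directions of the vertices on closed walks. -/
def nearSet (x : P.X) : Set (ℕ × Fin 3) :=
  {z | z ∈ {z : ℕ × Fin 3 | z.1 < M} ∧ P.Nh (P.On M) z.1 (P.nb x z.2)}

/-- An element of a set with the smallest first component. -/
def nearS (S : Set (ℕ × Fin 3)) : ℕ × Fin 3 :=
  open Classical in if h : S.Nonempty then Function.argminOn Prod.fst S h else (0, 0)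

variable (P M) in
/-- The direction to the nearest vertex on a closed walk. -/
def near (x : P.X) : ℕ × Fin 3 := nearS (P.nearSet M x)

theorem near_mem {x : P.X} (h : (P.nearSet M x).Nonempty) : P.near M x ∈ P.nearSet M x := by
  rw [near, nearS, dif_pos h]
  exact Function.argminOn_mem _ _ _

theorem near_le {x : P.X} {z : ℕ × Fin 3} (h : z ∈ P.nearSet M x) : (P.near M x).1 ≤ z.1 := by
  have h' : (P.nearSet M x).Nonempty := ⟨z, h⟩
  rw [near, nearS, dif_pos h']
  exact Function.argminOn_le _ _ h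

theorem lc_near : P.Lc (P.near M) := by
  refine Lc.comp (f := P.nearSet M) (Lc.pred ?_ fun z _ => (lc_nh lc_on z.1).nb z.2) nearS
  exact ((Set.finite_lt_nat M).prod (Set.finite_univ (α := Fin 3))).subset
    fun z hz => ⟨hz, trivial⟩

variable (P M) in
/-- **The rule.** -/
def rule (pf : P.X → Fin 3) (x : P.X) : St Γ :=
  open Classical in
  if x ∈ P.On M then P.posSt (M := M) (P.rk M x) x
  else if P.Nh (P.On M) M x then .N (P.near M x).2
  else .N (pf x)

theorem lc_rule {pf : P.X → Fin 3} (h : P.Lc pf) : P.Lc (P.rule M pf) := by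
  classical
  refine Lc.ite lc_on ?_ (Lc.ite (lc_nh lc_on M) (lc_near.comp fun z => St.N z.2)
    (h.comp fun l => St.N l))
  refine Lc.bind (S := insert ([], []) (T.LP M)) ((T.finite_LP M).insert _) lc_rk ?_
    fun r _ => lc_posSt r
  intro x
  by_cases hx : x ∈ P.On M
  · exact Or.inr (rk_mem hx).1
  · left
    have h' : ¬ (P.posSet M x).Nonempty := hx
    rw [rk, rkS, dif_neg h']

/-! ### The relation -/

theorem rk_dart {x : P.X} (hx : x ∈ P.On M) {p q : List T.K} {k : T.K}
    (h : P.rk M x = (p, k :: q)) : P.dart x (T.leg k) = k := by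
  have h1 := rk_mem hx
  rw [h] at h1
  exact h1.2.2.1

theorem rk_dart' {x : P.X} (hx : x ∈ P.On M) {p q : List T.K} {k : T.K}
    (h : P.rk M x = (k :: p, q)) : P.dart x (T.leg k) = k := by
  have h1 := rk_mem hx
  rw [h] at h1
  exact h1.2.1.1

theorem ne_of_red {M : ℕ} {p q : List T.K} {k k' : T.K} (h : (k :: p, k' :: q) ∈ T.LP M) :
    k' ≠ k := by
  have h1 : T.Red (T.tot (k :: p, k' :: q)) := h.2.2.1
  rw [Types.tot, T.inv_cons, List.append_assoc, Types.Red] at h1
  have h2 := (List.isChain_append_cons_cons.1 h1).2.1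
  rwa [T.flip_flip] at h2

variable (P M) in
/-- The vertex `x` has the undisturbed position `(p, q)`. -/
def Cm (x : P.X) (p q : List T.K) : Prop := x ∈ P.On M ∧ P.Bw M p q x ∧ P.Fw M q p x

theorem Cm.rk {x : P.X} {p q : List T.K} (h : P.Cm M x p q) : P.rk M x = (p, q) := h.2.1.rk

theorem Cm.mem {x : P.X} {p q : List T.K} (h : P.Cm M x p q) : (p, q) ∈ T.LP M := by
  have := rk_mem h.1
  rw [h.rk] at this
  exact this.1

theorem Cm.fwd {x : P.X} {p q : List T.K} {k : T.K} (h : P.Cm M x p (k :: q)) :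
    P.Cm M (P.step x k) (T.flip k :: p) q := by
  have h1 := rk_mem h.1
  rw [h.rk] at h1
  exact ⟨⟨_, posSet_fwd h1⟩, (bw_step' (rk_dart h.1 h.rk) h.2.2.2.rk).2 h.2.1, h.2.2.2⟩

theorem Cm.bwd {x : P.X} {p q : List T.K} {k : T.K} (h : P.Cm M x (k :: p) q) :
    P.Cm M (P.step x k) p (T.flip k :: q) := by
  have h1 := rk_mem h.1
  rw [h.rk] at h1
  exact ⟨⟨_, posSet_bwd h1⟩, h.2.1.2, (fw_step' (rk_dart' h.1 h.rk) h.2.1.2.rk).2 h.2.2⟩

theorem Cm.leg_ne {x : P.X} {p q : List T.K} {k k' : T.K} (h : P.Cm M x (k :: p) (k' :: q)) :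
    T.leg k ≠ T.leg k' := by
  intro h1
  refine ne_of_red h.mem ?_
  rw [← rk_dart h.1 h.rk, ← h1, rk_dart' h.1 h.rk]

variable {pf : P.X → Fin 3}

theorem Cm.rule {x : P.X} {p q : List T.K} (h : P.Cm M x p q) : P.rule M pf x = cst T p q := by
  rw [Port.rule, if_pos h.1, h.rk, posSt, if_pos h.2.1, if_pos h.2.2]

theorem rule_cases (x : P.X) :
    (∃ p q, P.Cm M x p q) ∨
    (∃ p q k, x ∈ P.On M ∧ P.rk M x = (k :: p, q) ∧ ¬ P.Bw M (k :: p) q x ∧
      P.rule M pf x = .N (T.leg k)) ∨
    (∃ p q k, x ∈ P.On M ∧ P.rk M x = (p, k :: q) ∧ P.Bw M p (k :: q) x ∧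
      ¬ P.Fw M (k :: q) p x ∧ P.rule M pf x = .N (T.leg k)) ∨
    (x ∉ P.On M ∧ P.Nh (P.On M) M x ∧ P.rule M pf x = .N (P.near M x).2) ∨
    (x ∉ P.On M ∧ ¬ P.Nh (P.On M) M x ∧ P.rule M pf x = .N (pf x)) := by
  by_cases hx : x ∈ P.On M
  · obtain ⟨⟨p, q⟩, hr⟩ : ∃ r, P.rk M x = r := ⟨_, rfl⟩
    by_cases hB : P.Bw M p q x
    · by_cases hF : P.Fw M q p x
      · exact Or.inl ⟨p, q, hx, hB, hF⟩
      · right; right; left
        cases q with
        | nil => exact absurd hr hF
        | cons k q =>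
          refine ⟨p, q, k, hx, hr, hB, hF, ?_⟩
          rw [rule, if_pos hx, hr, posSt, if_pos hB, if_neg hF]
          rfl
    · right; left
      cases p with
      | nil => exact absurd hr hB
      | cons k p =>
        refine ⟨p, q, k, hx, hr, hB, ?_⟩
        rw [rule, if_pos hx, hr, posSt, if_neg hB]
        rfl
  · right; right; right
    by_cases hN : P.Nh (P.On M) M x
    · exact Or.inl ⟨hx, hN, by rw [rule, if_neg hx, if_pos hN]⟩
    · exact Or.inr ⟨hx, hN, by rw [rule, if_neg hx, if_neg hN]⟩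

theorem role_N (l l' : Fin 3) : role (.N l' : St Γ) l = .ptr ∨ role (.N l' : St Γ) l = .dead := by
  unfold role
  by_cases h : l = l'
  · left; simp [h]
  · right; simp [h]

theorem role_N_ptr {l l' : Fin 3} (h : role (.N l' : St Γ) l = .ptr) : l = l' := by
  unfold role at h
  by_contra h'
  simp [h'] at h

theorem role_X (l l' : Fin 3) :
    role (.X l' : St Γ) l = if l = l' then .out 0 1 else .dead := rfl

theorem role_W (l : Fin 3) (i : ℕ) (a b : Fin 3) (g : Γ) :
    role (.W i a b g) l = if l = a then .inn i g else if l = b then .out i g else .dead := rfl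

theorem rule_out {x : P.X} {l : Fin 3} {i : ℕ} {g : Γ} (h : role (P.rule M pf x) l = .out i g) :
    ∃ p q k, P.Cm M x p (k :: q) ∧ l = T.leg k ∧ i = p.length ∧ g = T.val (T.inv p) := by
  rcases rule_cases (pf := pf) x with ⟨p, q, hc⟩ | ⟨_, _, k, _, _, _, h1⟩ | ⟨_, _, k, _, _, _, _, h1⟩ |
    ⟨_, _, h1⟩ | ⟨_, _, h1⟩
  · rw [hc.rule] at h
    rcases p with _ | ⟨k, p⟩ <;> rcases q with _ | ⟨k', q⟩ <;> simp only [cst] at h
    · rcases role_N (Γ := Γ) l 0 with h2 | h2 <;> rw [h2] at h <;> cases h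
    · rw [role_X] at h
      by_cases h2 : l = T.leg k'
      · rw [if_pos h2, Role.out.injEq] at h
        exact ⟨[], q, k', hc, h2, h.1.symm, h.2.symm⟩
      · rw [if_neg h2] at h
        cases h
    · rcases role_N (Γ := Γ) l (T.leg k) with h2 | h2 <;> rw [h2] at h <;> cases h
    · rw [role_W] at h
      by_cases h2 : l = T.leg k
      · rw [if_pos h2] at h
        cases h
      · by_cases h3 : l = T.leg k'
        · rw [if_neg h2, if_pos h3, Role.out.injEq] at h
          exact ⟨k :: p, q, k', hc, h3, h.1.symm, h.2.symm⟩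
        · rw [if_neg h2, if_neg h3] at h
          cases h
  all_goals rw [h1] at h
  · rcases role_N (Γ := Γ) l (T.leg k) with h2 | h2 <;> rw [h2] at h <;> cases h
  · rcases role_N (Γ := Γ) l (T.leg k) with h2 | h2 <;> rw [h2] at h <;> cases h
  · rcases role_N (Γ := Γ) l (P.near M x).2 with h2 | h2 <;> rw [h2] at h <;> cases h
  · rcases role_N (Γ := Γ) l (pf x) with h2 | h2 <;> rw [h2] at h <;> cases h

theorem rule_inn {x : P.X} {l : Fin 3} {i : ℕ} {g : Γ} (h : role (P.rule M pf x) l = .inn i g) :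
    ∃ p q k k', P.Cm M x (k :: p) (k' :: q) ∧ l = T.leg k ∧ i = p.length + 1 ∧
      g = T.val (T.inv (k :: p)) := by
  rcases rule_cases (pf := pf) x with ⟨p, q, hc⟩ | ⟨_, _, k, _, _, _, h1⟩ | ⟨_, _, k, _, _, _, _, h1⟩ |
    ⟨_, _, h1⟩ | ⟨_, _, h1⟩
  · rw [hc.rule] at h
    rcases p with _ | ⟨k, p⟩ <;> rcases q with _ | ⟨k', q⟩ <;> simp only [cst] at h
    · rcases role_N (Γ := Γ) l 0 with h2 | h2 <;> rw [h2] at h <;> cases h
    · rw [role_X] at h
      split_ifs at h
    · rcases role_N (Γ := Γ) l (T.leg k) with h2 | h2 <;> rw [h2] at h <;> cases h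
    · rw [role_W] at h
      by_cases h2 : l = T.leg k
      · rw [if_pos h2, Role.inn.injEq] at h
        exact ⟨p, q, k, k', hc, h2, h.1.symm, h.2.symm⟩
      · by_cases h3 : l = T.leg k'
        · rw [if_neg h2, if_pos h3] at h
          cases h
        · rw [if_neg h2, if_neg h3] at h
          cases h
  all_goals rw [h1] at h
  · rcases role_N (Γ := Γ) l (T.leg k) with h2 | h2 <;> rw [h2] at h <;> cases h
  · rcases role_N (Γ := Γ) l (T.leg k) with h2 | h2 <;> rw [h2] at h <;> cases h
  · rcases role_N (Γ := Γ) l (P.near M x).2 with h2 | h2 <;> rw [h2] at h <;> cases h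
  · rcases role_N (Γ := Γ) l (pf x) with h2 | h2 <;> rw [h2] at h <;> cases h

theorem Cm.dart {x : P.X} {p q : List T.K} {k : T.K} (h : P.Cm M x p (k :: q)) :
    P.dart x (T.leg k) = k := rk_dart h.1 h.rk

theorem Cm.dart' {x : P.X} {p q : List T.K} {k : T.K} (h : P.Cm M x (k :: p) q) :
    P.dart x (T.leg k) = k := rk_dart' h.1 h.rk

theorem val_inv_cons (k : T.K) (p : List T.K) :
    T.val (T.inv (k :: p)) = T.val (T.inv p) * (T.t k)⁻¹ := by
  rw [T.inv_cons, T.val_append, T.val_cons, T.val_nil, mul_one, T.t_flip]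

theorem rel_out {x : P.X} {l : Fin 3} {i : ℕ} {g : Γ} (h : role (P.rule M pf x) l = .out i g) :
    Rel (.out i g) (role (P.rule M pf (P.nb x l)) (P.bk x l)) (T.t (P.dart x l)) := by
  obtain ⟨p, q, k, hc, rfl, rfl, rfl⟩ := rule_out h
  have hb : P.bk x (T.leg k) = T.leg (T.flip k) := by rw [bk, hc.dart]
  have h1 := hc.fwd
  change Rel _ (role (P.rule M pf (P.step x k)) _) _
  rw [hb, h1.rule, hc.dart]
  rcases q with _ | ⟨k', q⟩
  · rw [cst, role, if_pos rfl]
    show T.val (T.inv p) * T.t k = 1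
    have h2 := hc.mem.2.2.2
    rwa [Types.tot, T.val_append, T.val_cons, T.val_nil, mul_one] at h2
  · rw [cst, role_W, if_pos rfl]
    refine ⟨Nat.lt_succ_self _, ?_⟩
    rw [val_inv_cons, T.t_flip, inv_inv]

theorem rel_inn {x : P.X} {l : Fin 3} {i : ℕ} {g : Γ} (h : role (P.rule M pf x) l = .inn i g) :
    ∃ j g', role (P.rule M pf (P.nb x l)) (P.bk x l) = .out j g' := by
  obtain ⟨p, q, k, k', hc, rfl, rfl, rfl⟩ := rule_inn h
  have hb : P.bk x (T.leg k) = T.leg (T.flip k) := by rw [bk, hc.dart']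
  have h1 := hc.bwd
  change ∃ j g', role (P.rule M pf (P.step x k)) _ = _
  rw [hb, h1.rule]
  rcases p with _ | ⟨k'', p⟩
  · exact ⟨0, 1, by rw [cst, role_X, if_pos rfl]⟩
  · exact ⟨_, _, by rw [cst, role_W, if_neg h1.leg_ne.symm, if_pos rfl]⟩

theorem rule_ptr {x : P.X} {l : Fin 3} (h : role (P.rule M pf x) l = .ptr) :
    (∃ p q k, x ∈ P.On M ∧ P.rk M x = (k :: p, q) ∧ (P.Bw M (k :: p) q x → P.Fw M q (k :: p) x) ∧
      l = T.leg k) ∨
    (∃ p q k, x ∈ P.On M ∧ P.rk M x = (p, k :: q) ∧ P.Bw M p (k :: q) x ∧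
      ¬ P.Fw M (k :: q) p x ∧ l = T.leg k) ∨
    (x ∉ P.On M ∧ P.Nh (P.On M) M x ∧ l = (P.near M x).2) ∨
    (x ∉ P.On M ∧ ¬ P.Nh (P.On M) M x ∧ l = pf x) := by
  rcases rule_cases (pf := pf) x with ⟨p, q, hc⟩ | ⟨p, q, k, h1, h2, h3, h4⟩ |
    ⟨p, q, k, h1, h2, h3, h4, h5⟩ | ⟨h1, h2, h3⟩ | ⟨h1, h2, h3⟩
  · rw [hc.rule] at h
    rcases p with _ | ⟨k, p⟩ <;> rcases q with _ | ⟨k', q⟩ <;> simp only [cst] at h
    · exact absurd rfl hc.mem.1
    · rw [role_X] at h
      split_ifs at h
    · left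
      exact ⟨p, [], k, hc.1, hc.rk, fun _ => hc.2.2, role_N_ptr h⟩
    · rw [role_W] at h
      split_ifs at h
  · rw [h4] at h
    exact Or.inl ⟨p, q, k, h1, h2, fun h5 => absurd h5 h3, role_N_ptr h⟩
  · rw [h5] at h
    exact Or.inr (Or.inl ⟨p, q, k, h1, h2, h3, h4, role_N_ptr h⟩)
  · rw [h3] at h
    exact Or.inr (Or.inr (Or.inl ⟨h1, h2, role_N_ptr h⟩))
  · rw [h3] at h
    exact Or.inr (Or.inr (Or.inr ⟨h1, h2, role_N_ptr h⟩))

/-- Two vertices with consecutive positions. -/
theorem key_step {r r' s s' : List T.K × List T.K} (h : T.key r' ≤ T.key s)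
    (h' : T.key r ≤ T.key s') (hs : T.tot s = T.tot r) (hs' : T.tot s' = T.tot r') :
    T.tot r = T.tot r' ∧ r'.1.length ≤ s.1.length ∧ r.1.length ≤ s'.1.length := by
  rw [T.key_le_iff, hs] at h
  rw [T.key_le_iff, hs'] at h'
  rcases h with h | ⟨h, h1⟩
  · rcases h' with h' | ⟨h', h2⟩
    · omega
    · rw [h'] at h
      exact absurd h (lt_irrefl _)
  · rcases h' with h' | ⟨h', h2⟩
    · rw [h] at h'
      exact absurd h' (lt_irrefl _)
    · exact ⟨h.symm, h1, h2⟩

/-- A pointer at a vertex on a closed walk: it is directed along the walk. -/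
theorem on_ptr {x : P.X} {l : Fin 3} (hx : x ∈ P.On M) (h : role (P.rule M pf x) l = .ptr) :
    P.nb x l ∈ P.On M := by
  rcases rule_ptr h with ⟨p, q, k, h1, h2, h3, rfl⟩ | ⟨p, q, k, h1, h2, h3, h4, rfl⟩ |
    ⟨h1, h2, h3⟩ | ⟨h1, h2, h3⟩
  · have h4 := rk_mem hx
    rw [h2] at h4
    exact ⟨_, posSet_bwd h4⟩
  · have h4 := rk_mem hx
    rw [h2] at h4
    exact ⟨_, posSet_fwd h4⟩
  · exact absurd hx h1
  · exact absurd hx h1

theorem tot_flip_cons (k : T.K) (p q : List T.K) :
    T.tot (T.flip k :: p, q) = T.tot (p, k :: q) := T.tot_cons k p q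

/-- No two vertices on closed walks point to each other. -/
theorem no_two_on {x : P.X} {l : Fin 3} (hx : x ∈ P.On M)
    (h : role (P.rule M pf x) l = .ptr)
    (h' : role (P.rule M pf (P.nb x l)) (P.bk x l) = .ptr) : False := by
  have hy := on_ptr hx h
  rcases rule_ptr h with ⟨p, q, k, -, h2, h3, rfl⟩ | ⟨p, q, k, -, h2, h3, h4, rfl⟩ |
    ⟨h1, -, -⟩ | ⟨h1, -, -⟩
  rotate_left 2
  · exact h1 hx
  · exact h1 hx
  · -- `x` points back
    have hk := rk_dart' hx h2
    have hb : P.bk x (T.leg k) = T.leg (T.flip k) := by rw [bk, hk]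
    have hdy := dart_step hk
    change role (P.rule M pf (P.step x k)) _ = _ at h'
    change P.step x k ∈ _ at hy
    rw [hb] at h'
    have hmx := rk_mem hx
    rw [h2] at hmx
    have hle := rk_le (posSet_bwd hmx)
    rcases rule_ptr h' with ⟨p', q', k', -, h2', h3', h5⟩ | ⟨p', q', k', -, h2', h3', h4', h5⟩ |
      ⟨h1, -, -⟩ | ⟨h1, -, -⟩
    · have hk' : k' = T.flip k := by
        rw [← rk_dart' hy h2', ← h5, hdy]
      subst hk'
      have hmy := rk_mem hy
      rw [h2'] at hmy
      have hle' := rk_le (posSet_bwd hmy)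
      rw [step_step hk, h2] at hle'
      rw [h2'] at hle
      have := key_step hle hle' (T.tot_cons' k p q) (T.tot_cons' _ p' q')
      simp only [List.length_cons] at this
      omega
    · have hk' : k' = T.flip k := by
        rw [← rk_dart hy h2', ← h5, hdy]
      subst hk'
      have hmy := rk_mem hy
      rw [h2'] at hmy
      have hle' := rk_le (posSet_fwd hmy)
      rw [step_step hk, h2] at hle'
      rw [h2'] at hle
      have h6 := key_step hle hle' (T.tot_cons' k p q) (T.tot_cons _ p' q')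
      simp only [List.length_cons] at h6
      have h7 : ((p', T.flip k :: q') : List T.K × List T.K) = (p, T.flip k :: q) := by
        refine T.pos_eq (h6.1.symm.trans (T.tot_cons' k p q).symm) ?_
        show p'.length = p.length
        omega
      rw [h7] at h2'
      rw [Prod.mk.injEq, List.cons.injEq] at h7
      obtain ⟨rfl, -, rfl⟩ := h7
      exact h4' ((fw_step' hk h2').2 (h3 ((bw_step h2).2 h3')))
    · exact h1 hy
    · exact h1 hy
  · -- `x` points forward
    have hk := rk_dart hx h2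
    have hb : P.bk x (T.leg k) = T.leg (T.flip k) := by rw [bk, hk]
    have hdy := dart_step hk
    change role (P.rule M pf (P.step x k)) _ = _ at h'
    change P.step x k ∈ _ at hy
    rw [hb] at h'
    have hmx := rk_mem hx
    rw [h2] at hmx
    have hle := rk_le (posSet_fwd hmx)
    rcases rule_ptr h' with ⟨p', q', k', -, h2', h3', h5⟩ | ⟨p', q', k', -, h2', h3', h4', h5⟩ |
      ⟨h1, -, -⟩ | ⟨h1, -, -⟩
    · have hk' : k' = T.flip k := by
        rw [← rk_dart' hy h2', ← h5, hdy]
      subst hk'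
      have hmy := rk_mem hy
      rw [h2'] at hmy
      have hle' := rk_le (posSet_bwd hmy)
      rw [step_step hk, h2] at hle'
      rw [h2'] at hle
      have h6 := key_step hle hle' (T.tot_cons k p q) (T.tot_cons' _ p' q')
      simp only [List.length_cons] at h6
      have h7 : ((T.flip k :: p', q') : List T.K × List T.K) = (T.flip k :: p, q) := by
        refine T.pos_eq (h6.1.symm.trans (T.tot_cons k p q).symm) ?_
        simp only [List.length_cons]
        omega
      rw [h7] at h2'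
      rw [Prod.mk.injEq, List.cons.injEq] at h7
      obtain ⟨⟨-, rfl⟩, rfl⟩ := h7
      exact h4 ((fw_step h2).2 (h3' ((bw_step' hk h2').2 h3)))
    · have hk' : k' = T.flip k := by
        rw [← rk_dart hy h2', ← h5, hdy]
      subst hk'
      have hmy := rk_mem hy
      rw [h2'] at hmy
      have hle' := rk_le (posSet_fwd hmy)
      rw [step_step hk, h2] at hle'
      have hle2 := hle
      rw [h2'] at hle
      have h6 := key_step hle hle' (T.tot_cons k p q) (T.tot_cons _ p' q')
      simp only [List.length_cons] at h6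
      obtain ⟨h6, h7, h8⟩ := h6
      rcases (by omega : p'.length = p.length + 1 ∨ p'.length = p.length ∨
        p.length = p'.length + 1) with h9 | h9 | h9
      · have h10 : ((p', T.flip k :: q') : List T.K × List T.K) = (T.flip k :: p, q) :=
          T.pos_eq (h6.symm.trans (T.tot_cons k p q).symm) h9
        rw [Prod.mk.injEq] at h10
        have h11 := (posSet_fwd hmx).1
        rw [← h10.2] at h11
        exact ne_of_red h11 rfl
      · have h10 : ((p', T.flip k :: q') : List T.K × List T.K) = (p, k :: q) :=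
          T.pos_eq h6.symm h9
        rw [Prod.mk.injEq, List.cons.injEq] at h10
        exact T.flip_ne k h10.2.1
      · have h10 : ((p, k :: q) : List T.K × List T.K) = (T.flip (T.flip k) :: p', q') :=
          T.pos_eq (h6.trans (T.tot_cons _ p' q').symm) h9
        rw [Prod.mk.injEq] at h10
        have h11 := (posSet_fwd hmy).1
        rw [← h10.2] at h11
        exact ne_of_red h11 (T.flip_flip k).symm
    · exact h1 hy
    · exact h1 hy

theorem far_of_not_nh {x : P.X} (h : ¬ P.Nh (P.On M) M x) : P.FarW M x := by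
  intro u w hu hx hw hl
  refine h (Nh.mono hu (nh_of_fwd ?_))
  exact ⟨([], w), hl, trivial, hw⟩

/-- No two vertices point to each other. -/
theorem no_two (hpf : ∀ x l, P.FarW M x → P.FarW M (P.nb x l) → pf x = l →
    pf (P.nb x l) ≠ P.bk x l) {x : P.X} {l : Fin 3}
    (h : role (P.rule M pf x) l = .ptr)
    (h' : role (P.rule M pf (P.nb x l)) (P.bk x l) = .ptr) : False := by
  by_cases hx : x ∈ P.On M
  · exact no_two_on hx h h'
  by_cases hy : P.nb x l ∈ P.On M
  · have := on_ptr hy h'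
    rw [P.nb_bk] at this
    exact hx this
  rcases rule_ptr h with ⟨p, q, k, h1, -⟩ | ⟨p, q, k, h1, -⟩ | ⟨-, h1, h2⟩ | ⟨-, h1, h2⟩
  · exact hx h1
  · exact hx h1
  · -- `x` is near
    have key : ∀ z : P.X, z ∉ P.On M → P.Nh (P.On M) M z → (P.near M z).1 < M ∧
        P.Nh (P.On M) (P.near M z).1 (P.nb z (P.near M z).2) ∧
        ∀ m < M, ∀ l', P.Nh (P.On M) m (P.nb z l') → (P.near M z).1 ≤ m := by
      intro z hz hzM
      obtain ⟨m, hm, l', hl'⟩ := hzM.exists hz
      have h5 : (P.nearSet M z).Nonempty := ⟨(m, l'), hm, hl'⟩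
      exact ⟨(near_mem h5).1, (near_mem h5).2, fun m hm l' hl' =>
        near_le (z := (m, l')) ⟨hm, hl'⟩⟩
    obtain ⟨hx1, hx2, hx3⟩ := key x hx h1
    rw [← h2] at hx2
    rcases rule_ptr h' with ⟨p, q, k, h1', -⟩ | ⟨p, q, k, h1', -⟩ | ⟨-, h1', h2'⟩ | ⟨-, h1', h2'⟩
    · exact hy h1'
    · exact hy h1'
    · obtain ⟨hy1, hy2, hy3⟩ := key _ hy h1'
      rw [← h2', P.nb_bk] at hy2
      obtain ⟨m, hm, l', hl'⟩ := hx2.exists hy
      have h5 := hy3 m (by omega) l' hl'
      obtain ⟨m', hm', l'', hl''⟩ := hy2.exists hx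
      have h6 := hx3 m' (by omega) l'' hl''
      omega
    · exact h1' (hx2.mono hx1.le)
  · rcases rule_ptr h' with ⟨p, q, k, h1', -⟩ | ⟨p, q, k, h1', -⟩ | ⟨-, h1', h2'⟩ | ⟨-, h1', h2'⟩
    · exact hy h1'
    · exact hy h1'
    · obtain ⟨m, hm, l', hl'⟩ := h1'.exists hy
      have h5 : (P.nearSet M (P.nb x l)).Nonempty := ⟨(m, l'), hm, hl'⟩
      have h6 := near_mem h5
      have h7 := h6.2
      rw [← h2', P.nb_bk] at h7
      have h8 : (P.near M (P.nb x l)).1 < M := h6.1
      exact h1 (h7.mono h8.le)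
    · exact hpf x l (far_of_not_nh h1) (far_of_not_nh h1') h2.symm h2'.symm

/-- **The rule near the closed walks**: a flow pointer, given far from the closed walks with
trivial label, is extended to a local rule for the states. -/
theorem exists_rule (M : ℕ) (pf : P.X → Fin 3) (hloc : P.Lc pf)
    (hpf : ∀ x l, P.FarW M x → P.FarW M (P.nb x l) → pf x = l → pf (P.nb x l) ≠ P.bk x l) :
    ∃ (n : ℕ) (st : P.X → St Γ), P.Loc n st ∧
      (∀ x i a b g, st x = .W i a b g → a ≠ b) ∧
      ∀ x l, Rel (role (st x) l) (role (st (P.nb x l)) (P.bk x l)) (T.t (P.dart x l)) := by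
  obtain ⟨n, hn⟩ := lc_rule (M := M) hloc
  refine ⟨n, P.rule M pf, hn, ?_, ?_⟩
  · intro x i a b g h
    rcases rule_cases (pf := pf) x with ⟨p, q, hc⟩ | ⟨p, q, k, h1, h2, h3, h4⟩ |
      ⟨p, q, k, h1, h2, h3, h4, h5⟩ | ⟨h1, h2, h3⟩ | ⟨h1, h2, h3⟩
    · rw [hc.rule] at h
      rcases p with _ | ⟨k, p⟩ <;> rcases q with _ | ⟨k', q⟩ <;> simp only [cst] at h
      all_goals try cases h
      exact hc.leg_ne
    · rw [h4] at h; cases h
    · rw [h5] at h; cases h
    · rw [h3] at h; cases h
    · rw [h3] at h; cases h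
  · intro x l
    have hsymm : Rel (role (P.rule M pf (P.nb x l)) (P.bk x l)) (role (P.rule M pf x) l)
        (T.t (P.dart (P.nb x l) (P.bk x l))) →
        Rel (role (P.rule M pf x) l) (role (P.rule M pf (P.nb x l)) (P.bk x l))
        (T.t (P.dart x l)) := by
      intro h
      have h1 := h.symm
      rwa [P.dart_bk, T.t_flip, inv_inv] at h1
    have hout : ∀ (y : P.X) (m : Fin 3) (i : ℕ) (g : Γ), role (P.rule M pf y) m = .out i g →
        Rel (role (P.rule M pf y) m) (role (P.rule M pf (P.nb y m)) (P.bk y m))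
        (T.t (P.dart y m)) := by
      intro y m i g h
      rw [h]
      exact rel_out h
    obtain ⟨r, h⟩ : ∃ r, role (P.rule M pf x) l = r := ⟨_, rfl⟩
    obtain ⟨r', h'⟩ : ∃ r', role (P.rule M pf (P.nb x l)) (P.bk x l) = r' := ⟨_, rfl⟩
    rcases r with _ | _ | ⟨i, g⟩ | ⟨i, g⟩ <;> rcases r' with _ | _ | ⟨j, g'⟩ | ⟨j, g'⟩
    · rw [h, h']; trivial
    · rw [h, h']; trivial
    · apply hsymm
      have := hout _ _ _ _ h'
      rwa [P.nb_bk, P.bk_bk] at this
    · obtain ⟨j, g'', h3⟩ := rel_inn h'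
      rw [P.nb_bk, P.bk_bk, h] at h3
      cases h3
    · rw [h, h']; trivial
    · exact (no_two hpf h h').elim
    · apply hsymm
      have := hout _ _ _ _ h'
      rwa [P.nb_bk, P.bk_bk] at this
    · obtain ⟨j, g'', h3⟩ := rel_inn h'
      rw [P.nb_bk, P.bk_bk, h] at h3
      cases h3
    · exact hout _ _ _ _ h
    · exact hout _ _ _ _ h
    · exact hout _ _ _ _ h
    · exact hout _ _ _ _ h
    · obtain ⟨j, g'', h3⟩ := rel_inn h
      rw [h'] at h3
      cases h3
    · obtain ⟨j, g'', h3⟩ := rel_inn h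
      rw [h'] at h3
      cases h3
    · apply hsymm
      have := hout _ _ _ _ h'
      rwa [P.nb_bk, P.bk_bk] at this
    · obtain ⟨j, g'', h3⟩ := rel_inn h
      rw [h'] at h3
      cases h3

end Port

end Vale.Agent.P215.Am
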