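import Vale.Agent.P215.Am.Port

/-!
# P215, route A: walks in 3-port graphs, local functions
-/

namespace Vale.Agent.P215.Am

variable {Γ : Type} [Group Γ]

namespace Types

variable (T : Types Γ)

/-- The label of a word. -/
def val (w : List T.K) : Γ := (w.map T.t).prod

/-- The inverse word. -/
def inv (w : List T.K) : List T.K := (w.map T.flip).reverse

/-- Reduced words. -/
def Red (w : List T.K) : Prop := w.IsChain (fun k k' => k' ≠ T.flip k)

/-- The non-empty reduced words of length at most `M` with trivial label. -/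
def Loops (M : ℕ) : Set (List T.K) := {w | w ≠ [] ∧ w.length ≤ M ∧ T.Red w ∧ T.val w = 1}

theorem finite_loops (M : ℕ) : (T.Loops M).Finite :=
  (List.finite_length_le T.K M).subset fun _ hw => hw.2.1

theorem val_nil : T.val [] = 1 := rfl

theorem val_cons (k : T.K) (w : List T.K) : T.val (k :: w) = T.t k * T.val w := by
  simp [val]

theorem val_append (u w : List T.K) : T.val (u ++ w) = T.val u * T.val w := by
  simp [val]

theorem inv_nil : T.inv [] = [] := rfl

theorem inv_cons (k : T.K) (w : List T.K) : T.inv (k :: w) = T.inv w ++ [T.flip k] := by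
  simp [inv]

theorem length_inv (w : List T.K) : (T.inv w).length = w.length := by simp [inv]

theorem flip_injective : Function.Injective T.flip := fun k l h => by
  rw [← T.flip_flip k, h, T.flip_flip]

theorem inv_injective : Function.Injective T.inv := fun u w h => by
  have := List.reverse_injective h
  exact List.map_injective_iff.2 T.flip_injective this

end Types

namespace Port

variable {T : Types Γ} (P : Port T)

/-- Local functions. -/
def Lc {A : Type} (f : P.X → A) : Prop := ∃ n, P.Loc n f

variable {P}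

theorem lc_const {A : Type} (a : A) : P.Lc (fun _ => a) := ⟨0, loc_const a⟩

theorem lc_dart (l : Fin 3) : P.Lc (fun x => P.dart x l) := ⟨1, loc_dart l⟩

theorem Lc.comp {A B : Type} {f : P.X → A} (h : P.Lc f) (g : A → B) : P.Lc (fun x => g (f x)) := by
  obtain ⟨n, hn⟩ := h
  exact ⟨n, hn.comp g⟩

theorem Lc.nb {A : Type} {f : P.X → A} (h : P.Lc f) (l : Fin 3) :
    P.Lc (fun x => f (P.nb x l)) := by
  obtain ⟨n, hn⟩ := h
  exact ⟨n + 1, hn.nb l⟩

theorem Lc.prodMk {A B : Type} {f : P.X → A} {g : P.X → B} (hf : P.Lc f) (hg : P.Lc g) :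
    P.Lc (fun x => (f x, g x)) := by
  obtain ⟨m, hm⟩ := hf
  obtain ⟨n, hn⟩ := hg
  exact ⟨max m n, fun x y h => Prod.ext (hm.mono (le_max_left _ _) x y h)
    (hn.mono (le_max_right _ _) x y h)⟩

theorem Lc.comp₂ {A B C : Type} {f : P.X → A} {g : P.X → B} (hf : P.Lc f) (hg : P.Lc g)
    (F : A → B → C) : P.Lc (fun x => F (f x) (g x)) :=
  (hf.prodMk hg).comp fun p => F p.1 p.2

/-- Finitely many local functions have a common radius. -/
theorem exists_loc {I A : Type} {S : Set I} (hS : S.Finite) {f : I → P.X → A}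
    (h : ∀ i ∈ S, P.Lc (f i)) : ∃ n, ∀ i ∈ S, P.Loc n (f i) := by
  classical
  choose! g hg using h
  obtain ⟨n, hn⟩ := (hS.image g).bddAbove
  exact ⟨n, fun i hi => (hg i hi).mono (hn ⟨i, hi, rfl⟩)⟩

/-- A function which is composed of finitely many local functions. -/
theorem Lc.bind {I A : Type} {S : Set I} (hS : S.Finite) {f : I → P.X → A} {r : P.X → I}
    (hr : P.Lc r) (hrS : ∀ x, r x ∈ S) (h : ∀ i ∈ S, P.Lc (f i)) :
    P.Lc (fun x => f (r x) x) := by
  obtain ⟨n, hn⟩ := exists_loc hS h
  obtain ⟨m, hm⟩ := hr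
  refine ⟨max m n, fun x y hxy => ?_⟩
  have h1 : r x = r y := hm.mono (le_max_left _ _) x y hxy
  have h2 := (hn (r x) (hrS x)).mono (le_max_right _ _) x y hxy
  show f (r x) x = f (r y) y
  rw [h2, h1]

/-- A predicate on a finite set which is local for each element. -/
theorem Lc.pred {I : Type} {S : Set I} (hS : S.Finite) {q : P.X → I → Prop}
    (h : ∀ i ∈ S, P.Lc (fun x => q x i)) : P.Lc (fun x => {i | i ∈ S ∧ q x i}) := by
  obtain ⟨n, hn⟩ := exists_loc (f := fun i x => q x i) hS h
  refine ⟨n, fun x y hxy => ?_⟩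
  ext i
  show (i ∈ S ∧ q x i) ↔ (i ∈ S ∧ q y i)
  refine and_congr_right fun h1 => ?_
  have h2 : q x i = q y i := hn i h1 x y hxy
  rw [h2]

theorem Lc.ite {A : Type} {p : P.X → Prop} {f g : P.X → A} (hp : P.Lc p) (hf : P.Lc f)
    (hg : P.Lc g) [∀ x, Decidable (p x)] : P.Lc (fun x => if p x then f x else g x) := by
  obtain ⟨n, hn⟩ := hp.prodMk (hf.prodMk hg)
  refine ⟨n, fun x y hxy => ?_⟩
  have h := hn x y hxy
  simp only [Prod.mk.injEq] at h
  obtain ⟨h1, h2, h3⟩ := h
  by_cases hx : p x
  · have hy : p y := h1 ▸ hx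
    simp only [if_pos hx, if_pos hy, h2]
  · have hy : ¬ p y := h1 ▸ hx
    simp only [if_neg hx, if_neg hy, h3]

variable (P)

/-- The neighbour in the direction of a dart type. -/
def step (x : P.X) (k : T.K) : P.X := P.nb x (T.leg k)

/-- There is a walk with the word `w` which starts at `x`. -/
def Starts : List T.K → P.X → Prop
  | [], _ => True
  | k :: w, x => P.dart x (T.leg k) = k ∧ Starts w (P.step x k)

/-- The end of a walk. -/
def fwd : List T.K → P.X → P.X
  | [], x => x
  | k :: w, x => fwd w (P.step x k)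

variable {P}

theorem dart_step {x : P.X} {k : T.K} (h : P.dart x (T.leg k) = k) :
    P.dart (P.step x k) (T.leg (T.flip k)) = T.flip k := by
  have := P.dart_nb x (T.leg k)
  rw [h] at this
  exact this

theorem step_step {x : P.X} {k : T.K} (h : P.dart x (T.leg k) = k) :
    P.step (P.step x k) (T.flip k) = x := by
  have := P.nb_nb x (T.leg k)
  rw [h] at this
  exact this

theorem lc_starts (w : List T.K) : P.Lc (fun x => P.Starts w x) := by
  induction w with
  | nil => exact lc_const True
  | cons k w ih => exact ((lc_dart (T.leg k)).comp₂ (ih.nb (T.leg k)) fun a b => a = k ∧ b)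

/-- The start of a walk which ends at `x`. -/
theorem Starts.append {u w : List T.K} {x : P.X} :
    P.Starts (u ++ w) x ↔ P.Starts u x ∧ P.Starts w (P.fwd u x) := by
  induction u generalizing x with
  | nil => simp [Starts, fwd]
  | cons k u ih => simp only [List.cons_append, Starts, fwd, ih, and_assoc]

theorem fwd_append {u w : List T.K} {x : P.X} : P.fwd (u ++ w) x = P.fwd w (P.fwd u x) := by
  induction u generalizing x with
  | nil => rfl
  | cons k u ih => exact ih

variable (P)

/-- All vertices at distance at most `M` from `x` are on no reduced closed walk of length at most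
`M` with trivial label. -/
def FarW (M : ℕ) (x : P.X) : Prop :=
  ∀ u w : List T.K, u.length ≤ M → P.Starts u x → P.Starts w (P.fwd u x) → w ∈ T.Loops M → False

/-- The neighbourhoods of a set of vertices. -/
def Nh (A : Set P.X) : ℕ → P.X → Prop
  | 0, x => x ∈ A
  | n + 1, x => Nh A n x ∨ ∃ l, Nh A n (P.nb x l)

variable {P}

theorem lc_nh {A : Set P.X} (hA : P.Lc (fun x => x ∈ A)) (n : ℕ) :
    P.Lc (fun x => P.Nh A n x) := by
  induction n with
  | zero => exact hA
  | succ n ih =>
    have h1 := (ih.nb 0).prodMk ((ih.nb 1).prodMk (ih.nb 2))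
    refine (ih.comp₂ h1 fun a b => a ∨ (b.1 ∨ b.2.1 ∨ b.2.2)).imp ?_
    intro m hm x y hxy
    have h2 := hm x y hxy
    simpa [Nh, Fin.exists_fin_succ, Fin.exists_fin_two] using h2

theorem Nh.mono {A : Set P.X} {m n : ℕ} (hmn : m ≤ n) {x : P.X} (h : P.Nh A m x) :
    P.Nh A n x := by
  induction hmn with
  | refl => exact h
  | step _ ih => exact Or.inl ih

theorem Nh.exists {A : Set P.X} {n : ℕ} {x : P.X} (h : P.Nh A n x) (hx : x ∉ A) :
    ∃ m < n, ∃ l, P.Nh A m (P.nb x l) := by
  induction n with
  | zero => exact absurd h hx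
  | succ n ih =>
    rcases h with h | ⟨l, h⟩
    · obtain ⟨m, h1, h2⟩ := ih h
      exact ⟨m, by omega, h2⟩
    · exact ⟨n, by omega, l, h⟩

theorem nh_of_fwd {A : Set P.X} {u : List T.K} {x : P.X} (h : P.fwd u x ∈ A) :
    P.Nh A u.length x := by
  induction u generalizing x with
  | nil => exact h
  | cons k u ih => exact Or.inr ⟨T.leg k, ih h⟩

end Port

end Vale.Agent.P215.Am
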