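import Vale.Agent.P215.Am.TwoLeg

/-!
# P215, route A: repositioning

* `isMor_patch`: patching a morphism on disjoint boxes;
* `exists_mstrips`: disjoint strips `y ↦ (y₁, m + r y₂)`;
* `mvA`, `mvB`: the isotopies from disjoint strips in the first direction to disjoint strips in the
  second direction, and back;
* `exists_recenter`: for an increasing little square `τ` there is an embedding `h` of the disc which
  is the identity on the boundary and `h (c x) = c τ x`.
-/

noncomputable section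

namespace Vale.Agent.P215.Am

open Vale.Agent.P215.H788 Set Topology

/-! ### Patching a morphism -/

theorem isMor_patch {J : Type} [Finite J] {B : J → Q → Q} (hB : ∀ j, IsBox (B j))
    (hd : ∀ j k p q, B j p = B k q → j = k) {ψ : Q → Q} (hψ : IsMor ψ) {G : J → Q → Q}
    (hGc : ∀ j, Continuous (G j)) (hGi : ∀ j k p q, G j p = G k q → j = k)
    (hGi' : ∀ j, Function.Injective (G j))
    (hGb : ∀ j q, nm q.1 = 1 → G j q = ψ (B j q))
    (hGo : ∀ j q p, (∀ k r, B k r ≠ p) → ψ p ≠ G j q) : IsMor (patch B ψ G) where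
  cont := by
    have h := continuous_patch (T := Unit) hB hd (fun _ => ψ) (hψ.cont.comp continuous_snd)
      (fun _ => G) (fun j => (hGc j).comp continuous_snd) (fun _ j q hq => hGb j q hq)
    exact h.comp (Continuous.prodMk_right ())
  inj := by
    intro p q h
    by_cases h1 : ∃ k r, B k r = p
    · obtain ⟨k, r, rfl⟩ := h1
      rw [patch_box hB hd] at h
      by_cases h2 : ∃ k r, B k r = q
      · obtain ⟨k', r', rfl⟩ := h2
        rw [patch_box hB hd] at h
        have h3 := hGi _ _ _ _ h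
        subst h3
        rw [hGi' k h]
      · push Not at h2
        rw [patch_off _ _ h2] at h
        exact absurd h.symm (hGo _ _ _ h2)
    · push Not at h1
      rw [patch_off _ _ h1] at h
      by_cases h2 : ∃ k r, B k r = q
      · obtain ⟨k', r', rfl⟩ := h2
        rw [patch_box hB hd] at h
        exact absurd h (hGo _ _ _ h1)
      · push Not at h2
        rw [patch_off _ _ h2] at h
        exact hψ.inj h
  bd x y hx := by
    rw [patch_off, hψ.bd x y hx]
    intro j q hq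
    have h1 := (hB j).mem q
    rw [hq] at h1
    exact absurd h1 (not_mem_core.2 hx)

/-! ### Scaling -/

section Scl

variable {c : ℝ}

theorem continuous_scl (c : ℝ) : Continuous (scl c) := by unfold scl; fun_prop

theorem scl_cfst (h0 : 0 < c) (h1 : c < 1) (u : Disc) : (scl c u).1.1 = c * u.1.1 := by
  have := disc_abs1 u
  refine dpt_1' ?_
  rw [abs_mul, abs_of_pos h0]
  nlinarith [abs_nonneg u.1.1]

theorem scl_csnd (h0 : 0 < c) (h1 : c < 1) (u : Disc) : (scl c u).1.2 = c * u.1.2 := by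
  have := disc_abs2 u
  refine dpt_2' ?_
  rw [abs_mul, abs_of_pos h0]
  nlinarith [abs_nonneg u.1.2]

theorem scl_inj (h0 : 0 < c) (h1 : c < 1) : Function.Injective (scl c) := by
  intro u v h
  have e1 := congrArg (fun x : Disc => x.1.1) h
  have e2 := congrArg (fun x : Disc => x.1.2) h
  simp only [scl_cfst h0 h1, scl_csnd h0 h1] at e1 e2
  exact disc_ext (mul_left_cancel₀ h0.ne' e1) (mul_left_cancel₀ h0.ne' e2)

theorem nm_scl (h0 : 0 < c) (h1 : c < 1) (u : Disc) : nm (scl c u) ≤ c := by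
  have e1 := disc_abs1 u
  have e2 := disc_abs2 u
  rw [nm_le_iff, scl_cfst h0 h1, scl_csnd h0 h1, abs_mul, abs_mul, abs_of_pos h0]
  constructor <;> nlinarith [abs_nonneg u.1.1, abs_nonneg u.1.2]

theorem exists_scl (h0 : 0 < c) (h1 : c < 1) {u : Disc} (h : nm u ≤ c) : ∃ v, scl c v = u := by
  rw [nm_le_iff] at h
  have e1 : |u.1.1 / c| ≤ 1 := by
    rw [abs_div, abs_of_pos h0, div_le_one h0]; exact h.1
  have e2 : |u.1.2 / c| ≤ 1 := by
    rw [abs_div, abs_of_pos h0, div_le_one h0]; exact h.2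
  refine ⟨dpt (u.1.1 / c) (u.1.2 / c), disc_ext ?_ ?_⟩
  · rw [scl_cfst h0 h1, dpt_1' e1]
    field_simp
  · rw [scl_csnd h0 h1, dpt_2' e2]
    field_simp

theorem isSq_scl (h0 : 0 < c) (h1 : c < 1) : IsSq (scl c) := by
  have h : scl c = psq (fun t => c * t) (fun t => c * t) := rfl
  rw [h]
  refine isSq_psq (by fun_prop) (by fun_prop) ?_ ?_ ?_ ?_ ?_ ?_
  · intro s _ t _ hst
    exact mul_lt_mul_of_pos_left hst h0
  · intro s _ t _ hst
    exact mul_lt_mul_of_pos_left hst h0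
  all_goals nlinarith

theorem scl_interior (h0 : 0 < c) (h1 : c < 1) (u : Disc) : scl c u ∈ int :=
  lt_of_le_of_lt (nm_scl h0 h1 u) h1

end Scl

/-! ### Strips in the second direction -/

/-- The strip `y ↦ (y₁, m + r y₂)`. -/
def wst (m r : ℝ) (y : Disc) : Disc := dpt y.1.1 (m + r * y.1.2)

theorem exists_mstrips (D : Type) [Finite D] : ∃ (m : D → ℝ) (r : ℝ), 0 < r ∧ (∀ d, |m d| + r ≤ 1) ∧
    ∀ d d', d ≠ d' → 2 * r < |m d - m d'| := by
  obtain ⟨N, ⟨e⟩⟩ := Finite.exists_equiv_fin D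
  refine ⟨fun d => (2 * ((e d : ℕ) : ℝ) + 1) / (N + 1) - 1, 1 / (2 * (N + 1)), by positivity, ?_, ?_⟩
  · intro d
    have h1 : ((e d : ℕ) : ℝ) + 1 ≤ N := by exact_mod_cast (e d).2
    have h0 : (0 : ℝ) ≤ ((e d : ℕ) : ℝ) := Nat.cast_nonneg _
    have hN : (0 : ℝ) < N + 1 := by positivity
    have h3 : |(2 * ((e d : ℕ) : ℝ) + 1) / (N + 1) - 1| ≤ 1 - 1 / (2 * (N + 1)) := by
      rw [abs_le]
      constructor
      · have : -(1 - 1 / (2 * ((N : ℝ) + 1))) = 1 / (2 * (N + 1)) - 1 := by ring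
        rw [this]
        have : 1 / (2 * ((N : ℝ) + 1)) ≤ (2 * ((e d : ℕ) : ℝ) + 1) / (N + 1) := by
          rw [div_le_div_iff₀ (by positivity) hN]
          nlinarith
        linarith
      · have : (2 * ((e d : ℕ) : ℝ) + 1) / (N + 1) + 1 / (2 * ((N : ℝ) + 1)) ≤ 2 := by
          rw [div_add_div _ _ hN.ne' (by positivity), div_le_iff₀ (by positivity)]
          nlinarith
        linarith
    linarith
  · intro d d' hdd
    have hN : (0 : ℝ) < N + 1 := by positivity
    have h1 : ((e d : ℕ) : ℤ) - ((e d' : ℕ) : ℤ) ≠ 0 := by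
      intro h
      apply hdd
      apply e.injective
      apply Fin.ext
      omega
    have h2 : (1 : ℝ) ≤ |((e d : ℕ) : ℝ) - ((e d' : ℕ) : ℝ)| := by
      exact_mod_cast Int.one_le_abs h1
    have h3 : (2 * ((e d : ℕ) : ℝ) + 1) / (N + 1) - 1 - ((2 * ((e d' : ℕ) : ℝ) + 1) / (N + 1) - 1) =
        (2 / (N + 1)) * (((e d : ℕ) : ℝ) - ((e d' : ℕ) : ℝ)) := by
      field_simp
      ring
    simp only
    rw [h3, abs_mul, abs_of_pos (by positivity : (0 : ℝ) < 2 / (N + 1))]
    have h4 : 2 * (1 / (2 * ((N : ℝ) + 1))) = 1 / (N + 1) := by field_simp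
    rw [h4]
    have h5 : 1 / ((N : ℝ) + 1) < 2 / (N + 1) := by
      rw [div_lt_div_iff_of_pos_right hN]
      norm_num
    have h6 : 0 < 2 / ((N : ℝ) + 1) := by positivity
    nlinarith

section Wst

variable {m r : ℝ}

theorem wst_1 (y : Disc) : (wst m r y).1.1 = y.1.1 := clp_of_abs (disc_abs1 y)

theorem abs_wst (hr : 0 < r) (h : |m| + r ≤ 1) {t : ℝ} (ht : |t| ≤ 1) : |m + r * t| ≤ 1 := by
  have h1 : |m + r * t| ≤ |m| + |r * t| := abs_add_le _ _
  rw [abs_mul, abs_of_pos hr] at h1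
  nlinarith

theorem wst_2 (hr : 0 < r) (h : |m| + r ≤ 1) (y : Disc) : (wst m r y).1.2 = m + r * y.1.2 :=
  dpt_2' (abs_wst hr h (disc_abs2 y))

/-- Strips in the last direction commute with the boxes. -/
theorem WProd.comm {B : Q → Q} (hB : WProd B) (hr : 0 < r) (h : |m| + r ≤ 1) (x y : Disc) :
    B (x, wst m r y) = ((B (x, y)).1, wst m r (B (x, y)).2) := by
  refine Prod.ext (hB.fst _ _ _ (wst_1 y)) (disc_ext ?_ ?_)
  · rw [wst_1]
    exact hB.snd _ _ _ (wst_1 y)
  · rw [wst_2 hr h, hB.w, hB.w, wst_2 hr h]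

theorem WProd.cover {B : Q → Q} (hB : WProd B) (hr : 0 < r) (h : |m| + r ≤ 1) {a z : Disc} {p : Q}
    (hp : (a, wst m r z) = B p) : ∃ y, (a, z) = B (p.1, y) ∧ p.2 = wst m r y := by
  obtain ⟨x, y'⟩ := p
  have h1 := congrArg (fun q : Q => q.1) hp
  have h2 := congrArg (fun q : Q => q.2.1.1) hp
  have h3 := congrArg (fun q : Q => q.2.1.2) hp
  simp only at h1 h2 h3
  rw [wst_1] at h2
  rw [wst_2 hr h, hB.w] at h3
  have e1 : (dpt y'.1.1 z.1.2).1.1 = y'.1.1 := dpt_1' (disc_abs1 y')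
  have e2 : (dpt y'.1.1 z.1.2).1.2 = z.1.2 := dpt_2' (disc_abs2 z)
  refine ⟨dpt y'.1.1 z.1.2, Prod.ext ?_ (disc_ext ?_ ?_), disc_ext ?_ ?_⟩
  · simp only
    rw [h1]
    exact hB.fst _ _ _ e1.symm
  · simp only
    rw [h2]
    exact hB.snd _ _ _ e1.symm
  · simp only
    rw [hB.w, e2]
  · simp only
    rw [wst_1, e1]
  · simp only
    rw [wst_2 hr h, e2, h3]

end Wst

/-! ### The isotopies -/

section Mv

/-- `1` near `c`, `0` at `1`. -/
def al (c n : ℝ) : ℝ := 1 - ramp ((c + 1) / 2) 1 n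

/-- `1` up to `c`, `0` from `(c + 1) / 2` on. -/
def be (c n : ℝ) : ℝ := 1 - ramp c ((c + 1) / 2) n

theorem al_mem (c n : ℝ) : al c n ∈ Icc (0 : ℝ) 1 := by
  have := ramp_mem ((c + 1) / 2) 1 n
  unfold al
  constructor <;> linarith [this.1, this.2]

theorem be_mem (c n : ℝ) : be c n ∈ Icc (0 : ℝ) 1 := by
  have := ramp_mem c ((c + 1) / 2) n
  unfold be
  constructor <;> linarith [this.1, this.2]

@[fun_prop]
theorem continuous_al {A : Type*} [TopologicalSpace A] (c : ℝ) {f : A → ℝ} (hf : Continuous f) :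
    Continuous fun a => al c (f a) := by
  unfold al; fun_prop

@[fun_prop]
theorem continuous_be {A : Type*} [TopologicalSpace A] (c : ℝ) {f : A → ℝ} (hf : Continuous f) :
    Continuous fun a => be c (f a) := by
  unfold be; fun_prop

variable {c : ℝ}

theorem al_one (h : c < 1) : al c 1 = 0 := by
  unfold al; rw [ramp_of_ge (by linarith) le_rfl]; ring

theorem be_one (h : c < 1) : be c 1 = 0 := by
  unfold be; rw [ramp_of_ge (by linarith) (by linarith)]; ring

theorem al_small (h : c < 1) {n : ℝ} (hn : n ≤ (c + 1) / 2) : al c n = 1 := by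
  unfold al; rw [ramp_of_le (by linarith) hn]; ring

theorem be_small (h : c < 1) {n : ℝ} (hn : n ≤ c) : be c n = 1 := by
  unfold be; rw [ramp_of_le (by linarith) hn]; ring

theorem be_large (h : c < 1) {n : ℝ} (hn : (c + 1) / 2 ≤ n) : be c n = 0 := by
  unfold be; rw [ramp_of_ge (by linarith) hn]; ring

/-- From the strip `f` in the first direction (at `nm = 1`) to the strip `wst m r` (for `nm ≤ c`). -/
def mvA (c : ℝ) (f : Disc → Disc) (m r : ℝ) (p : Q) : Q :=
  (p.1, dpt (lerp (be c (nm p.1)) (f p.2).1.1 p.2.1.1)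
    (lerp (al c (nm p.1)) p.2.1.2 (m + r * p.2.1.2)))

/-- From the strip `wst m r` (at `nm = 1`) to the strip `f` (for `nm ≤ c`). -/
def mvB (c : ℝ) (f : Disc → Disc) (m r : ℝ) (p : Q) : Q :=
  (p.1, dpt (lerp (al c (nm p.1)) p.2.1.1 (f p.2).1.1)
    (lerp (be c (nm p.1)) (m + r * p.2.1.2) p.2.1.2))

/-- The data of a family of strips in the first direction, and a family of strips in the second. -/
structure StripData (c : ℝ) {D : Type} (f : D → Disc → Disc) (m : D → ℝ) (r : ℝ) : Prop where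
  c_pos : 0 < c
  c_lt : c < 1
  cont : ∀ d, Continuous (f d)
  inc : ∀ d, IsInc (f d)
  snd : ∀ d y, (f d y).1.2 = y.1.2
  sep : ∀ d d' x y, (f d x).1.1 = (f d' y).1.1 → d = d'
  r_pos : 0 < r
  mr : ∀ d, |m d| + r ≤ 1
  msep : ∀ d d', d ≠ d' → 2 * r < |m d - m d'|

variable {D : Type} {f : D → Disc → Disc} {m : D → ℝ} {r : ℝ} (H : StripData c f m r)

include H

omit H in
theorem StripData.abs1A (d : D) (p : Q) :
    |lerp (be c (nm p.1)) (f d p.2).1.1 p.2.1.1| ≤ 1 :=
  abs_lerp (be_mem _ _) (disc_abs1 _) (disc_abs1 _)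

theorem StripData.abs2A (d : D) (p : Q) :
    |lerp (al c (nm p.1)) p.2.1.2 (m d + r * p.2.1.2)| ≤ 1 :=
  abs_lerp (al_mem _ _) (disc_abs2 _) (abs_wst H.r_pos (H.mr d) (disc_abs2 _))

omit H in
theorem StripData.abs1B (d : D) (p : Q) :
    |lerp (al c (nm p.1)) p.2.1.1 (f d p.2).1.1| ≤ 1 :=
  abs_lerp (al_mem _ _) (disc_abs1 _) (disc_abs1 _)

theorem StripData.abs2B (d : D) (p : Q) :
    |lerp (be c (nm p.1)) (m d + r * p.2.1.2) p.2.1.2| ≤ 1 :=
  abs_lerp (be_mem _ _) (abs_wst H.r_pos (H.mr d) (disc_abs2 _)) (disc_abs2 _)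

theorem StripData.contA (d : D) : Continuous (mvA c (f d) (m d) r) := by
  have := H.cont d
  have h := continuous_nm
  unfold mvA
  fun_prop

theorem StripData.contB (d : D) : Continuous (mvB c (f d) (m d) r) := by
  have := H.cont d
  have h := continuous_nm
  unfold mvB
  fun_prop

theorem StripData.bdA (d : D) {p : Q} (h : nm p.1 = 1) : mvA c (f d) (m d) r p = (p.1, f d p.2) := by
  unfold mvA
  rw [h, al_one H.c_lt, be_one H.c_lt, lerp_zero, lerp_zero]
  refine Prod.ext rfl (dpt_eq rfl (H.snd d _).symm)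

theorem StripData.bdB (d : D) {p : Q} (h : nm p.1 = 1) :
    mvB c (f d) (m d) r p = (p.1, wst (m d) r p.2) := by
  unfold mvB
  rw [h, al_one H.c_lt, be_one H.c_lt, lerp_zero, lerp_zero]
  rfl

theorem StripData.smallA (d : D) {p : Q} (h : nm p.1 ≤ c) :
    mvA c (f d) (m d) r p = (p.1, wst (m d) r p.2) := by
  have := H.c_lt
  unfold mvA
  rw [al_small H.c_lt (by linarith), be_small H.c_lt h, lerp_one, lerp_one]
  rfl

theorem StripData.smallB (d : D) {p : Q} (h : nm p.1 ≤ c) :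
    mvB c (f d) (m d) r p = (p.1, f d p.2) := by
  have := H.c_lt
  unfold mvB
  rw [al_small H.c_lt (by linarith), be_small H.c_lt h, lerp_one, lerp_one]
  refine Prod.ext rfl (dpt_eq rfl (H.snd d _).symm)

theorem StripData.f_1 (d : D) {u v : Disc} (h : u.1.1 < v.1.1) : (f d u).1.1 < (f d v).1.1 :=
  ((H.inc d).fst _ _).2 h

theorem StripData.injA (d : D) : Function.Injective (mvA c (f d) (m d) r) := by
  rintro ⟨x, y⟩ ⟨x', y'⟩ h
  have h0 := congrArg Prod.fst h
  simp only [mvA] at h0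
  subst h0
  have h1 := congrArg Prod.snd h
  simp only [mvA] at h1
  obtain ⟨e1, e2⟩ := dpt_inj (StripData.abs1A d (x, y)) (H.abs2A d (x, y)) (StripData.abs1A d (x, y'))
    (H.abs2A d (x, y')) h1
  have hr := H.r_pos
  refine Prod.ext rfl (disc_ext ?_ ?_)
  · rcases lt_trichotomy y.1.1 y'.1.1 with h3 | h3 | h3
    · exact absurd e1 (lerp_lt (be_mem _ _) (H.f_1 d h3) h3).ne
    · exact h3
    · exact absurd e1 (lerp_lt (be_mem _ _) (H.f_1 d h3) h3).ne'
  · rcases lt_trichotomy y.1.2 y'.1.2 with h3 | h3 | h3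
    · exact absurd e2 (lerp_lt (al_mem _ _) h3 (by nlinarith)).ne
    · exact h3
    · exact absurd e2 (lerp_lt (al_mem _ _) h3 (by nlinarith)).ne'

theorem StripData.injB (d : D) : Function.Injective (mvB c (f d) (m d) r) := by
  rintro ⟨x, y⟩ ⟨x', y'⟩ h
  have h0 := congrArg Prod.fst h
  simp only [mvB] at h0
  subst h0
  have h1 := congrArg Prod.snd h
  simp only [mvB] at h1
  obtain ⟨e1, e2⟩ := dpt_inj (StripData.abs1B d (x, y)) (H.abs2B d (x, y)) (StripData.abs1B d (x, y'))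
    (H.abs2B d (x, y')) h1
  have hr := H.r_pos
  refine Prod.ext rfl (disc_ext ?_ ?_)
  · rcases lt_trichotomy y.1.1 y'.1.1 with h3 | h3 | h3
    · exact absurd e1 (lerp_lt (al_mem _ _) h3 (H.f_1 d h3)).ne
    · exact h3
    · exact absurd e1 (lerp_lt (al_mem _ _) h3 (H.f_1 d h3)).ne'
  · rcases lt_trichotomy y.1.2 y'.1.2 with h3 | h3 | h3
    · exact absurd e2 (lerp_lt (be_mem _ _) (by nlinarith) h3).ne
    · exact h3
    · exact absurd e2 (lerp_lt (be_mem _ _) (by nlinarith) h3).ne'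

theorem StripData.msep' {d d' : D} {t t' : ℝ} (ht : |t| ≤ 1) (ht' : |t'| ≤ 1)
    (h : m d + r * t = m d' + r * t') : d = d' := by
  by_contra hne
  have h1 := H.msep d d' hne
  have hr := H.r_pos
  have h2 : m d - m d' = r * (t' - t) := by linarith
  rw [h2, abs_mul, abs_of_pos hr] at h1
  have h3 : |t' - t| ≤ 2 := by
    rw [abs_le] at ht ht' ⊢
    constructor <;> linarith [ht.1, ht.2, ht'.1, ht'.2]
  nlinarith

theorem StripData.disjA (d d' : D) (p q : Q)
    (h : mvA c (f d) (m d) r p = mvA c (f d') (m d') r q) : d = d' := by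
  obtain ⟨x, y⟩ := p
  obtain ⟨x', y'⟩ := q
  have h0 := congrArg Prod.fst h
  simp only [mvA] at h0
  subst h0
  have h1 := congrArg Prod.snd h
  simp only [mvA] at h1
  obtain ⟨e1, e2⟩ := dpt_inj (StripData.abs1A d (x, y)) (H.abs2A d (x, y)) (StripData.abs1A d' (x, y'))
    (H.abs2A d' (x, y')) h1
  simp only at e1 e2
  rcases le_total (nm x) ((c + 1) / 2) with hn | hn
  · rw [al_small H.c_lt hn, lerp_one, lerp_one] at e2
    exact H.msep' (disc_abs2 _) (disc_abs2 _) e2
  · rw [be_large H.c_lt hn, lerp_zero, lerp_zero] at e1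
    exact H.sep _ _ _ _ e1

theorem StripData.disjB (d d' : D) (p q : Q)
    (h : mvB c (f d) (m d) r p = mvB c (f d') (m d') r q) : d = d' := by
  obtain ⟨x, y⟩ := p
  obtain ⟨x', y'⟩ := q
  have h0 := congrArg Prod.fst h
  simp only [mvB] at h0
  subst h0
  have h1 := congrArg Prod.snd h
  simp only [mvB] at h1
  obtain ⟨e1, e2⟩ := dpt_inj (StripData.abs1B d (x, y)) (H.abs2B d (x, y)) (StripData.abs1B d' (x, y'))
    (H.abs2B d' (x, y')) h1
  simp only at e1 e2
  rcases le_total (nm x) ((c + 1) / 2) with hn | hn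
  · rw [al_small H.c_lt hn, lerp_one, lerp_one] at e1
    exact H.sep _ _ _ _ e1
  · rw [be_large H.c_lt hn, lerp_zero, lerp_zero] at e2
    exact H.msep' (disc_abs2 _) (disc_abs2 _) e2

end Mv

/-! ### Re-centering -/

section Recenter

/-- The extension of the function `c φ` from `[-c, c]` to `[-1, 1]`. -/
def ext1 (c : ℝ) (φ : ℝ → ℝ) (t : ℝ) : ℝ :=
  c * φ t + (1 - c * φ 1) * ramp c 1 t - (1 + c * φ (-1)) * (1 - ramp (-1) (-c) t)

theorem continuous_ext1 (c : ℝ) {φ : ℝ → ℝ} (hφ : Continuous φ) : Continuous (ext1 c φ) := by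
  unfold ext1
  fun_prop

variable {c : ℝ} (h0 : 0 < c) (h1 : c < 1) {φ : ℝ → ℝ} (hb : ∀ t, |φ t| ≤ 1)
  (hm : Monotone φ) (hs : ∀ s t, -c ≤ s → t ≤ c → s < t → φ s < φ t)

include h1 in
theorem ext1_mid {t : ℝ} (ht : |t| ≤ c) : ext1 c φ t = c * φ t := by
  rw [abs_le] at ht
  unfold ext1
  rw [ramp_of_le h1 ht.2, ramp_of_ge (by linarith) ht.1]
  ring

include h0 h1 in
theorem ext1_one : ext1 c φ 1 = 1 := by
  unfold ext1
  rw [ramp_of_ge h1 le_rfl, ramp_of_ge (by linarith) (by linarith)]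
  ring

include h0 h1 in
theorem ext1_neg_one : ext1 c φ (-1) = -1 := by
  unfold ext1
  rw [ramp_of_le h1 (by linarith), ramp_of_le (by linarith) le_rfl]
  ring

include h0 h1 hb hm hs in
theorem ext1_lt {s t : ℝ} (h2 : -1 ≤ s) (h3 : t ≤ 1) (hst : s < t) : ext1 c φ s < ext1 c φ t := by
  have e1 : 0 ≤ c * (φ t - φ s) := mul_nonneg h0.le (sub_nonneg.2 (hm hst.le))
  have p1 := abs_le.1 (hb 1)
  have p2 := abs_le.1 (hb (-1))
  have e2 : 0 < 1 - c * φ 1 := by nlinarith [p1.1, p1.2]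
  have e3 : 0 < 1 + c * φ (-1) := by nlinarith [p2.1, p2.2]
  have m1 := ramp_mono h1 hst.le
  have m2 := ramp_mono (show (-1 : ℝ) < -c by linarith) hst.le
  unfold ext1
  by_cases c1 : c < t
  · have e4 : ramp c 1 s < ramp c 1 t := by
      rcases le_total s c with c2 | c2
      · rw [ramp_of_le h1 c2]
        have := (ramp_eq_zero_iff h1 (t := t)).not.2 (not_le.2 c1)
        exact lt_of_le_of_ne (ramp_nonneg _ _ _) (Ne.symm this)
      · exact ramp_strictMonoOn h1 ⟨c2, by linarith⟩ ⟨c1.le, h3⟩ hst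
    nlinarith [mul_lt_mul_of_pos_left e4 e2, mul_le_mul_of_nonneg_left m2 e3.le]
  · by_cases c3 : s < -c
    · have e4 : ramp (-1) (-c) s < ramp (-1) (-c) t := by
        rcases le_total (-c) t with c2 | c2
        · rw [ramp_of_ge (by linarith) c2]
          have := (ramp_eq_one_iff (show (-1 : ℝ) < -c by linarith) (t := s)).not.2 (not_le.2 c3)
          exact lt_of_le_of_ne (ramp_le_one _ _ _) this
        · exact ramp_strictMonoOn (by linarith) ⟨h2, c3.le⟩ ⟨by linarith, c2⟩ hst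
      nlinarith [mul_lt_mul_of_pos_left e4 e3, mul_le_mul_of_nonneg_left m1 e2.le]
    · have e4 := hs s t (by linarith) (by linarith) hst
      nlinarith [mul_lt_mul_of_pos_left e4 h0, mul_le_mul_of_nonneg_left m1 e2.le,
        mul_le_mul_of_nonneg_left m2 e3.le]

include h0 h1 hb hm hs in
theorem abs_ext1 {t : ℝ} (ht : |t| ≤ 1) : |ext1 c φ t| ≤ 1 := by
  rw [abs_le] at ht ⊢
  constructor
  · rcases ht.1.eq_or_lt with h | h
    · rw [← h, ext1_neg_one h0 h1]
    · rw [← ext1_neg_one (φ := φ) h0 h1]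
      exact (ext1_lt h0 h1 hb hm hs le_rfl ht.2 h).le
  · rcases ht.2.eq_or_lt with h | h
    · rw [h, ext1_one h0 h1]
    · rw [← ext1_one (φ := φ) h0 h1]
      exact (ext1_lt h0 h1 hb hm hs ht.1 le_rfl h).le

theorem IsInc.fst_eq {f : Disc → Disc} (hf : IsInc f) {u v : Disc} (h : u.1.1 = v.1.1) :
    (f u).1.1 = (f v).1.1 := by
  rcases lt_trichotomy (f u).1.1 (f v).1.1 with h3 | h3 | h3
  · exact absurd ((hf.fst _ _).1 h3) (by rw [h]; exact lt_irrefl _)
  · exact h3
  · exact absurd ((hf.fst _ _).1 h3) (by rw [h]; exact lt_irrefl _)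

theorem IsInc.snd_eq {f : Disc → Disc} (hf : IsInc f) {u v : Disc} (h : u.1.2 = v.1.2) :
    (f u).1.2 = (f v).1.2 := by
  rcases lt_trichotomy (f u).1.2 (f v).1.2 with h3 | h3 | h3
  · exact absurd ((hf.snd _ _).1 h3) (by rw [h]; exact lt_irrefl _)
  · exact h3
  · exact absurd ((hf.snd _ _).1 h3) (by rw [h]; exact lt_irrefl _)

theorem IsInc.fst_inj {f : Disc → Disc} (hf : IsInc f) {u v : Disc}
    (h : (f u).1.1 = (f v).1.1) : u.1.1 = v.1.1 := by
  rcases lt_trichotomy u.1.1 v.1.1 with h3 | h3 | h3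
  · exact absurd ((hf.fst _ _).2 h3) (by rw [h]; exact lt_irrefl _)
  · exact h3
  · exact absurd ((hf.fst _ _).2 h3) (by rw [h]; exact lt_irrefl _)

theorem IsInc.snd_inj {f : Disc → Disc} (hf : IsInc f) {u v : Disc}
    (h : (f u).1.2 = (f v).1.2) : u.1.2 = v.1.2 := by
  rcases lt_trichotomy u.1.2 v.1.2 with h3 | h3 | h3
  · exact absurd ((hf.snd _ _).2 h3) (by rw [h]; exact lt_irrefl _)
  · exact h3
  · exact absurd ((hf.snd _ _).2 h3) (by rw [h]; exact lt_irrefl _)

theorem IsInc.inj {f : Disc → Disc} (hf : IsInc f) : Function.Injective f := fun u v h =>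
  disc_ext (hf.fst_inj (by rw [h])) (hf.snd_inj (by rw [h]))

theorem IsInc.comp {f g : Disc → Disc} (hf : IsInc f) (hg : IsInc g) : IsInc (fun x => f (g x)) :=
  ⟨fun u v => (hf.fst _ _).trans (hg.fst u v), fun u v => (hf.snd _ _).trans (hg.snd u v)⟩

theorem clp_mono : Monotone clp := by
  intro s t h
  unfold clp
  exact max_le_max le_rfl (min_le_min le_rfl h)

/-- **Re-centering.** For an increasing little square `τ` there is an embedding `h` of the disc which
is the identity on the boundary and `c τ (x / c)` on the disc of radius `c`. -/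
theorem exists_recenter {c : ℝ} (h0 : 0 < c) (h1 : c < 1) {τ : Disc → Disc} (hc : Continuous τ)
    (hτ : IsInc τ) : ∃ h : Disc → Disc, Continuous h ∧ Function.Injective h ∧
      (∀ x, nm x = 1 → h x = x) ∧ ∀ x, h (scl c x) = scl c (τ x) := by
  let φ : ℝ → ℝ := fun t => (τ (dpt (t / c) 0)).1.1
  let χ : ℝ → ℝ := fun t => (τ (dpt 0 (t / c))).1.2
  have hφc : Continuous φ := by
    have := hc
    simp only [φ]
    fun_prop
  have hχc : Continuous χ := by
    have := hc
    simp only [χ]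
    fun_prop
  have hφb : ∀ t, |φ t| ≤ 1 := fun t => disc_abs1 _
  have hχb : ∀ t, |χ t| ≤ 1 := fun t => disc_abs2 _
  have hφm : Monotone φ := by
    intro s t hst
    have h2 : clp (s / c) ≤ clp (t / c) := clp_mono (div_le_div_of_nonneg_right hst h0.le)
    simp only [φ]
    rcases h2.eq_or_lt with h3 | h3
    · exact (hτ.fst_eq h3).le
    · exact ((hτ.fst (dpt (s / c) 0) (dpt (t / c) 0)).2 h3).le
  have hχm : Monotone χ := by
    intro s t hst
    have h2 : clp (s / c) ≤ clp (t / c) := clp_mono (div_le_div_of_nonneg_right hst h0.le)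
    simp only [χ]
    rcases h2.eq_or_lt with h3 | h3
    · exact (hτ.snd_eq h3).le
    · exact ((hτ.snd (dpt 0 (s / c)) (dpt 0 (t / c))).2 h3).le
  have hdiv : ∀ s t, -c ≤ s → t ≤ c → s < t → clp (s / c) < clp (t / c) := by
    intro s t hs ht hst
    have e1 : |s / c| ≤ 1 := by
      rw [abs_div, abs_of_pos h0, div_le_one h0, abs_le]
      exact ⟨hs, by linarith⟩
    have e2 : |t / c| ≤ 1 := by
      rw [abs_div, abs_of_pos h0, div_le_one h0, abs_le]
      exact ⟨by linarith, ht⟩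
    rw [clp_of_abs e1, clp_of_abs e2]
    exact div_lt_div_of_pos_right hst h0
  have hφs : ∀ s t, -c ≤ s → t ≤ c → s < t → φ s < φ t := fun s t hs ht hst =>
    (hτ.fst (dpt (s / c) 0) (dpt (t / c) 0)).2 (hdiv s t hs ht hst)
  have hχs : ∀ s t, -c ≤ s → t ≤ c → s < t → χ s < χ t := fun s t hs ht hst =>
    (hτ.snd (dpt 0 (s / c)) (dpt 0 (t / c))).2 (hdiv s t hs ht hst)
  have hlm : ∀ t, 1 - ramp c 1 t ∈ Icc (0 : ℝ) 1 := by
    intro t
    have := ramp_mem c 1 t
    constructor <;> linarith [this.1, this.2]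
  let H1 : Disc → Disc := fun a => dpt (lerp (1 - ramp c 1 |a.1.2|) a.1.1 (ext1 c φ a.1.1)) a.1.2
  let H2 : Disc → Disc := fun a => dpt a.1.1 (lerp (1 - ramp c 1 |a.1.1|) a.1.2 (ext1 c χ a.1.2))
  have r1 : ∀ a : Disc, |lerp (1 - ramp c 1 |a.1.2|) a.1.1 (ext1 c φ a.1.1)| ≤ 1 := fun a =>
    abs_lerp (hlm _) (disc_abs1 a) (abs_ext1 h0 h1 hφb hφm hφs (disc_abs1 a))
  have r2 : ∀ a : Disc, |lerp (1 - ramp c 1 |a.1.1|) a.1.2 (ext1 c χ a.1.2)| ≤ 1 := fun a =>
    abs_lerp (hlm _) (disc_abs2 a) (abs_ext1 h0 h1 hχb hχm hχs (disc_abs2 a))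
  have hc1 : Continuous H1 := by
    have := continuous_ext1 c hφc
    simp only [H1]
    fun_prop
  have hc2 : Continuous H2 := by
    have := continuous_ext1 c hχc
    simp only [H2]
    fun_prop
  have hi1 : Function.Injective H1 := by
    intro u v h
    obtain ⟨e1, e2⟩ := dpt_inj (r1 u) (disc_abs2 u) (r1 v) (disc_abs2 v) h
    refine disc_ext ?_ e2
    rw [e2] at e1
    rcases lt_trichotomy u.1.1 v.1.1 with h3 | h3 | h3
    · exact absurd e1 (lerp_lt (hlm _) h3 (ext1_lt h0 h1 hφb hφm hφs (disc_mem1 u).1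
        (disc_mem1 v).2 h3)).ne
    · exact h3
    · exact absurd e1 (lerp_lt (hlm _) h3 (ext1_lt h0 h1 hφb hφm hφs (disc_mem1 v).1
        (disc_mem1 u).2 h3)).ne'
  have hi2 : Function.Injective H2 := by
    intro u v h
    obtain ⟨e1, e2⟩ := dpt_inj (disc_abs1 u) (r2 u) (disc_abs1 v) (r2 v) h
    refine disc_ext e1 ?_
    rw [e1] at e2
    rcases lt_trichotomy u.1.2 v.1.2 with h3 | h3 | h3
    · exact absurd e2 (lerp_lt (hlm _) h3 (ext1_lt h0 h1 hχb hχm hχs (disc_mem2 u).1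
        (disc_mem2 v).2 h3)).ne
    · exact h3
    · exact absurd e2 (lerp_lt (hlm _) h3 (ext1_lt h0 h1 hχb hχm hχs (disc_mem2 v).1
        (disc_mem2 u).2 h3)).ne'
  have hend : ∀ ψ : ℝ → ℝ, ∀ t : ℝ, |t| = 1 → ext1 c ψ t = t := by
    intro ψ t ht
    rcases (abs_eq zero_le_one).1 ht with h2 | h2
    · rw [h2, ext1_one h0 h1]
    · rw [h2, ext1_neg_one h0 h1]
  refine ⟨fun x => H2 (H1 x), hc2.comp hc1, hi2.comp hi1, ?_, ?_⟩
  · intro x hx
    rw [nm_eq_one_iff] at hx
    have e1 : H1 x = x := by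
      simp only [H1]
      refine dpt_eq ?_ rfl
      rcases hx with hx | hx
      · rw [hend φ _ hx, lerp_self]
      · rw [hx, ramp_of_ge h1 le_rfl, sub_self, lerp_zero]
    simp only
    rw [e1]
    simp only [H2]
    refine dpt_eq rfl ?_
    rcases hx with hx | hx
    · rw [hx, ramp_of_ge h1 le_rfl, sub_self, lerp_zero]
    · rw [hend χ _ hx, lerp_self]
  · intro x
    have a1 : |c * x.1.1| ≤ c := by
      rw [abs_mul, abs_of_pos h0]
      nlinarith [disc_abs1 x]
    have a2 : |c * x.1.2| ≤ c := by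
      rw [abs_mul, abs_of_pos h0]
      nlinarith [disc_abs2 x]
    have b1 : |c * (τ x).1.1| ≤ c := by
      rw [abs_mul, abs_of_pos h0]
      nlinarith [disc_abs1 (τ x)]
    have v1 : φ (c * x.1.1) = (τ x).1.1 := by
      simp only [φ]
      refine hτ.fst_eq ?_
      rw [mul_div_cancel_left₀ _ h0.ne']
      exact dpt_1' (disc_abs1 x)
    have v2 : χ (c * x.1.2) = (τ x).1.2 := by
      simp only [χ]
      refine hτ.snd_eq ?_
      rw [mul_div_cancel_left₀ _ h0.ne']
      exact dpt_2' (disc_abs2 x)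
    have e1 : H1 (scl c x) = dpt (c * (τ x).1.1) (c * x.1.2) := by
      simp only [H1]
      rw [scl_cfst h0 h1, scl_csnd h0 h1, ramp_of_le h1 a2, sub_zero, lerp_one, ext1_mid h1 a1, v1]
    simp only
    rw [e1]
    simp only [H2]
    rw [dpt_1' (b1.trans h1.le), dpt_2' (a2.trans h1.le), ramp_of_le h1 b1, sub_zero, lerp_one,
      ext1_mid h1 a2, v2]
    rfl

end Recenter

end Vale.Agent.P215.Am
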