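import Vale.Agent.P215.Am.Geo

/-!
# P215, route A: splitting, removal and contraction of realized labelled systems
-/

noncomputable section

namespace Vale.Agent.P215.Am

open Vale.Agent.P215.H788 Set Topology

/-! ### Reindexing -/

section Reindex

variable {X : Type} [TopologicalSpace X] {e : Circ × Disc → X} {K K' : Type} {S : Darts K}
  {S' : Darts K'} {F : Q → X} {Γ : Type} [Group Γ] {c : Coc X Γ}

theorem IsReal.reindex (h : IsReal e S F) (E : K' ≃ K) (hf : ∀ k, E (S'.flip k) = S.flip (E k))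
    (hb : ∀ k p, S'.box k p = S.box (E k) p) : IsReal e S' F where
  cont := h.cont
  boundary := h.boundary
  glue k x y := by rw [hb, hb, hf, h.glue]
  inj p q hpq := by
    rcases h.inj p q hpq with h1 | ⟨k, x, y, h1, h2⟩
    · exact Or.inl h1
    · refine Or.inr ⟨E.symm k, x, y, ?_, ?_⟩
      · rw [hb, E.apply_symm_apply, h1]
      · rw [hb, hf, E.apply_symm_apply, h2]

theorem IsLabel.reindex {t : K → Γ} (h : IsLabel c S F t) (E : K' → K)
    (hf : ∀ k, E (S'.flip k) = S.flip (E k))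
    (hb : ∀ k p, S'.box k p = S.box (E k) p) : IsLabel c S' F (fun k => t (E k)) := by
  obtain ⟨h, hp, h1⟩ := h
  refine ⟨h, hp, fun k x y => ?_⟩
  rw [hb, hb, hf, h1]

end Reindex

theorem IsFam.reindex {C C' : Type} {s : C → Disc → Disc} (hs : IsFam s) (E : C' → C)
    (hE : Function.Injective E) : IsFam (fun c => s (E c)) where
  isSq _ := hs.isSq _
  int _ := hs.int _
  disj _ _ _ _ h := hE (hs.disj _ _ _ _ h)

variable {Γ : Type} [Group Γ] {X : Type} [TopologicalSpace X] {e : Circ × Disc → X}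
  {c : Coc X Γ} {L : Fin 3 → Q → Q}

namespace Pos

variable {S : LabSys Γ} (P : Pos L S)

/-- The morphism which is `ψ v` on the branch `v`. -/
def tot (ψ : S.V → Q → Q) : Q → Q := ins (fun v => vert (P.s v)) ψ

theorem isMor_tot {ψ : S.V → Q → Q} (h : ∀ v, IsMor (ψ v)) : IsMor (P.tot ψ) :=
  isMor_ins P.fam.isBox P.fam.vert_disj h

theorem tot_vert (ψ : S.V → Q → Q) (v : S.V) (q : Q) :
    P.tot ψ (vert (P.s v) q) = vert (P.s v) (ψ v q) := ins_box P.fam.isBox P.fam.vert_disj ψ v q

theorem tot_cover (ψ : S.V → Q → Q) {p : Q} {v : S.V} {r : Q} (h : P.tot ψ p = vert (P.s v) r) :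
    ∃ q, p = vert (P.s v) q ∧ ψ v q = r := ins_cover P.fam.isBox P.fam.vert_disj ψ h

end Pos

/-! ### Splitting -/

section Split

variable {S : LabSys Γ} (P : Pos L S) (i : Fin 3)

/-- The darts on the leg `i` of the branch `v`. -/
abbrev DartsAt (S : LabSys Γ) (i : Fin 3) (v : S.V) : Type := {k : S.K // S.vert k = v ∧ S.leg k = i}

/-- Splittings of all branches along their legs `i`. -/
abbrev Splits : Type := ∀ v : S.V, LegSplit L i (fun d : DartsAt S i v => P.q d.1)

variable {P i} (LS : Splits P i)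

/-- The new branches in the cube. -/
def newS (k : S.K) (hk : S.leg k = i) : Disc → Disc :=
  fun x => P.s (S.vert k) ((LS (S.vert k)).s ⟨k, rfl, hk⟩ x)

theorem isFam_newS : IsFam (fun k : {k : S.K // S.leg k = i} => newS LS k.1 k.2) where
  isSq k := (P.fam.isSq _).comp ((LS _).fam.isSq _)
  int k x := P.fam.int _ _
  disj := by
    rintro ⟨k, hk⟩ ⟨l, hl⟩ x y h
    simp only [newS] at h
    have h1 := P.fam.disj _ _ _ _ h
    have key : ∀ (v : S.V) (hv : S.vert k = v), P.s v ((LS v).s ⟨k, hv, hk⟩ x) =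
        P.s (S.vert l) ((LS (S.vert l)).s ⟨l, rfl, hl⟩ y) → v = S.vert l → k = l := by
      rintro v hv h2 rfl
      have h3 := (P.fam.isSq _).inj h2
      have h4 := (LS _).fam.disj _ _ _ _ h3
      exact congrArg (fun z => z.1) h4
    exact Subtype.ext (key _ rfl h h1)

/-- The square of a dart `k` in the new branches. -/
def newQ (k : S.K) : Disc → Disc :=
  if hk : S.leg k = i then (LS (S.vert k)).τ ⟨k, rfl, hk⟩ else P.q k

/-- The position of the new branch `c` in the fibre of the leg of the dart `k`. -/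
def newF (k c : S.K) (h : S.IsOver i k c) : Disc → Disc :=
  if S.leg k = i then fun x => x else (LS (S.vert k)).f (S.leg k) ⟨c, h.2.1, h.1⟩

theorem isSq_newQ (k : S.K) : IsSq (newQ LS k) := by
  unfold newQ
  split_ifs with hk
  · exact ((LS _).isXSq_τ _).toIsSq
  · exact P.isSq k

theorem isSq_newF (k c : S.K) (h : S.IsOver i k c) : IsSq (newF LS k c h) := by
  unfold newF
  split_ifs with hk
  · exact IsSq.id
  · exact ((LS _).isXSq_f _ hk _).toIsSq

/-- The key identity. -/
theorem split_spec (k c : S.K) (h : S.IsOver i k c) (x y : Disc) :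
    (LS (S.vert k)).ψ (vert ((LS (S.vert k)).s ⟨c, h.2.1, h.1⟩) (L (S.leg k) (newQ LS k x, y))) =
      L (S.leg k) (P.q k x, newF LS k c h y) := by
  unfold newQ newF
  by_cases hk : S.leg k = i
  · have hc : c = k := h.2.2 hk
    subst hc
    simp only [hk, dif_pos, if_pos]
    rw [(LS _).spec_self, (LS _).g_τ]
  · simp only [hk, dif_neg, if_neg, not_false_eq_true]
    rw [(LS _).spec_other _ hk]

/-- The pull-back of the splitting. -/
def splitPB : PullBack P.darts {kc : S.K × S.K // S.IsOver i kc.1 kc.2} where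
  ψ := P.tot fun v => (LS v).ψ
  mor := P.isMor_tot fun v => (LS v).mor
  foot kc := kc.1.1
  box kc p := vert (P.s (S.vert kc.1.1)) (vert ((LS (S.vert kc.1.1)).s ⟨kc.1.2, kc.2.2.1, kc.2.1⟩)
    (L (S.leg kc.1.1) (newQ LS kc.1.1 p.1, p.2)))
  f kc := newF LS kc.1.1 kc.1.2 kc.2
  isBox kc := (P.fam.isBox _).comp (((LS _).fam.isBox _).comp
    ((P.hL.isBox _).comp_sq (isSq_newQ LS _)))
  isSq kc := isSq_newF LS _ _ _
  disj := by
    rintro ⟨⟨k, c⟩, h⟩ ⟨⟨k', c'⟩, h'⟩ p q hpq
    simp only at hpq h h'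
    have h1 := P.fam.vert_disj _ _ _ _ hpq
    have key : ∀ (v : S.V) (hv : S.vert k = v) (hc : S.vert c = v), vert (P.s v)
        (vert ((LS v).s ⟨c, hc, h.1⟩) (L (S.leg k) (newQ LS k p.1, p.2))) =
        vert (P.s (S.vert k')) (vert ((LS (S.vert k')).s ⟨c', h'.2.1, h'.1⟩)
        (L (S.leg k') (newQ LS k' q.1, q.2))) → v = S.vert k' → k = k' ∧ c = c' := by
      rintro v hv hc h2 rfl
      have h3 := vert_inj (P.fam.isSq _).inj h2
      have h4 := (LS _).fam.vert_disj _ _ _ _ h3
      rw [h4] at h3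
      have hcc : c = c' := congrArg (fun z => z.1) h4
      subst hcc
      have h5 := vert_inj ((LS _).fam.isSq _).inj h3
      have h6 := P.hL.disj _ _ _ _ h5
      have h7 : newQ LS k p.1 = newQ LS k' q.1 := by
        rw [h6] at h5
        have := (P.hL.isBox _).inj h5
        exact congrArg Prod.fst this
      refine ⟨?_, rfl⟩
      by_cases hk : S.leg k = i
      · rw [← h.2.2 hk, ← h'.2.2 (h6 ▸ hk)]
      · have hk' : S.leg k' ≠ i := h6 ▸ hk
        unfold newQ at h7
        rw [dif_neg hk, dif_neg hk'] at h7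
        exact P.disj _ _ _ _ hv h6 h7
    obtain ⟨h2, h3⟩ := key _ rfl h.2.1 hpq h1
    subst h2 h3
    rfl
  spec := by
    rintro ⟨⟨k, c⟩, h⟩ x y
    simp only
    rw [P.tot_vert, split_spec, P.darts_box]
  cover := by
    rintro k p ⟨x, y⟩ h
    rw [P.darts_box] at h
    obtain ⟨p', rfl, h1⟩ := P.tot_cover _ h
    by_cases hk : S.leg k = i
    · have hLk : L (S.leg k) = L i := congrArg L hk
      have h2 : ∃ r, p' = vert ((LS (S.vert k)).s ⟨k, rfl, hk⟩) (L i r) := by
        refine (LS (S.vert k)).cover_self ⟨k, rfl, hk⟩ p' x y ?_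
        rw [h1, hLk]
      obtain ⟨⟨a, b⟩, rfl⟩ := h2
      rw [(LS _).spec_self, hLk] at h1
      have h3 := (P.hL.isBox i).inj h1
      simp only [Prod.mk.injEq] at h3
      refine ⟨⟨(k, k), hk, rfl, fun _ => rfl⟩, (x, b), rfl, ?_⟩
      simp only
      have h4 : a = newQ LS k x := by
        apply (LS (S.vert k)).g_inj ⟨k, rfl, hk⟩
        rw [h3.1]
        unfold newQ
        rw [dif_pos hk, (LS _).g_τ]
      rw [h4, hLk]
    · obtain ⟨⟨c, hc1, hc2⟩, ⟨a, b⟩, rfl⟩ := (LS (S.vert k)).cover_other _ hk p' (P.q k x, y) h1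
      rw [(LS _).spec_other _ hk] at h1
      have h3 := (P.hL.isBox _).inj h1
      simp only [Prod.mk.injEq] at h3
      refine ⟨⟨(k, c), hc2, hc1, fun h => absurd h hk⟩, (x, b), rfl, ?_⟩
      simp only
      have h4 : newQ LS k x = a := by
        unfold newQ
        rw [dif_neg hk, h3.1]
      rw [h4]

/-- The positions of the split system. -/
def splitPos : Pos L (S.split i) where
  hL := P.hL
  s k := newS LS k.1 k.2
  fam := isFam_newS LS
  q x := fun u => newQ LS x.1.1 (newF LS (S.flip x.1.1) x.1.2.2 x.2.2 u)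
  isSq x := (isSq_newQ LS _).comp (isSq_newF LS _ _ _)
  disj := by
    rintro ⟨⟨k, c, c'⟩, h⟩ ⟨⟨l, d, d'⟩, h'⟩ x y hv hl hxy
    have hcd : c = d := congrArg Subtype.val hv
    subst hcd
    simp only at hxy h h'
    change S.leg k = S.leg l at hl
    have hkl : k = l := by
      by_cases hk : S.leg k = i
      · rw [← h.1.2.2 hk, ← h'.1.2.2 (hl ▸ hk)]
      · have hk' : S.leg l ≠ i := hl ▸ hk
        unfold newQ at hxy
        rw [dif_neg hk, dif_neg hk'] at hxy
        exact P.disj _ _ _ _ (h.1.2.1.symm.trans h'.1.2.1) hl hxy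
    subst hkl
    have h1 := (isSq_newQ LS k).inj hxy
    have h2 := (splitPB LS).f_disj (i := ⟨(S.flip k, c'), h.2⟩) (j := ⟨(S.flip k, d'), h'.2⟩) rfl h1
    have h3 : c' = d' := congrArg (fun z => z.1.2) h2
    subst h3
    rfl

/-- The index sets agree. -/
def splitEquiv : (S.split i).K ≃ (splitPB LS).Idx where
  toFun x := ⟨(⟨(x.1.1, x.1.2.1), x.2.1⟩, ⟨(S.flip x.1.1, x.1.2.2), x.2.2⟩), rfl⟩
  invFun z := ⟨(z.1.1.1.1, z.1.1.1.2, z.1.2.1.2), z.1.1.2, by
    have h1 := z.1.2.2
    have h2 : z.1.2.1.1 = S.flip z.1.1.1.1 := z.2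
    rw [h2] at h1
    exact h1⟩
  left_inv _ := rfl
  right_inv z := by
    obtain ⟨⟨⟨⟨k, c⟩, h⟩, ⟨⟨k', c'⟩, h'⟩⟩, hk⟩ := z
    have hk' : k' = S.flip k := hk
    subst hk'
    rfl

theorem newS_eq (k : S.K) (hk : S.leg k = i) (v : S.V) (hv : S.vert k = v) (x : Disc) :
    newS LS k hk x = P.s v ((LS v).s ⟨k, hv, hk⟩ x) := by
  subst hv
  rfl

theorem splitPos_box (x : (S.split i).K) (p : Q) :
    (splitPos LS).darts.box x p = (splitPB LS).darts.box (splitEquiv LS x) p := by
  obtain ⟨⟨k, c, c'⟩, h⟩ := x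
  obtain ⟨a, b⟩ := p
  change vert (newS LS c h.1.1) (L (S.leg k) (newQ LS k (newF LS (S.flip k) c' h.2 a), b)) =
    vert (P.s (S.vert k)) (vert ((LS (S.vert k)).s ⟨c, h.1.2.1, h.1.1⟩)
      (L (S.leg k) (newQ LS k (newF LS (S.flip k) c' h.2 a), b)))
  refine Prod.ext ?_ rfl
  exact newS_eq LS c h.1.1 _ h.1.2.1 _

theorem splitPos_flip (x : (S.split i).K) :
    splitEquiv LS ((splitPos LS).darts.flip x) = (splitPB LS).darts.flip (splitEquiv LS x) := by
  obtain ⟨⟨k, c, c'⟩, h⟩ := x
  apply Subtype.ext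
  refine Prod.ext rfl ?_
  apply Subtype.ext
  refine Prod.ext ?_ rfl
  exact S.flip_flip k

theorem isReal_split {F : Q → X} (hF : IsReal e P.darts F) :
    IsReal e (splitPos LS).darts (F ∘ (splitPB LS).ψ) :=
  ((splitPB LS).isReal hF).reindex (splitEquiv LS) (splitPos_flip LS) (splitPos_box LS)

theorem isLabel_split {F : Q → X} (hF : IsReal e P.darts F) (hl : IsLabel c P.darts F S.t) :
    IsLabel c (splitPos LS).darts (F ∘ (splitPB LS).ψ) (S.split i).t :=
  ((splitPB LS).isLabel hF hl).reindex (splitEquiv LS) (splitPos_flip LS) (splitPos_box LS)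

theorem isSep_split (hP : P.IsSep) : (splitPos LS).IsSep where
  isXSq := by
    rintro ⟨⟨k, c, c'⟩, h⟩
    have h1 : IsXSq (newQ LS k) := by
      unfold newQ
      split_ifs with hk
      · exact (LS _).isXSq_τ _
      · exact hP.isXSq k
    have h2 : newF LS (S.flip k) c' h.2 = (fun x => x) ∨ IsXSq (newF LS (S.flip k) c' h.2) := by
      unfold newF
      split_ifs with hk
      · exact Or.inl rfl
      · exact Or.inr ((LS _).isXSq_f _ hk _)
    rcases h2 with h2 | h2
    · change IsXSq (fun u => newQ LS k (newF LS (S.flip k) c' h.2 u))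
      rw [h2]
      exact h1
    · exact h1.comp h2
  sep := by
    rintro ⟨⟨k, c, c'⟩, h⟩ ⟨⟨l, d, d'⟩, h'⟩ x y hv hl hxy
    have hcd : c = d := congrArg Subtype.val hv
    subst hcd
    change S.leg k = S.leg l at hl
    change (newQ LS k (newF LS (S.flip k) c' h.2 x)).1.1 =
      (newQ LS l (newF LS (S.flip l) d' h'.2 y)).1.1 at hxy
    have h1 : ∀ k, IsXSq (newQ LS k) := by
      intro k
      unfold newQ
      split_ifs with hk
      · exact (LS _).isXSq_τ _
      · exact hP.isXSq k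
    have hkl : k = l := by
      by_cases hk : S.leg k = i
      · have e1 : c = k := h.1.2.2 hk
        have e2 : c = l := h'.1.2.2 (hl ▸ hk)
        rw [← e1, ← e2]
      · have hk' : S.leg l ≠ i := hl ▸ hk
        unfold newQ at hxy
        rw [dif_neg hk, dif_neg hk'] at hxy
        exact hP.sep _ _ _ _ (h.1.2.1.symm.trans h'.1.2.1) hl hxy
    subst hkl
    have h2 := (h1 k).xinj _ _ hxy
    have h3 : c' = d' := by
      by_cases hk : S.leg (S.flip k) = i
      · have e1 : c' = S.flip k := h.2.2.2 hk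
        have e2 : d' = S.flip k := h'.2.2.2 hk
        rw [e1, e2]
      · unfold newF at h2
        rw [if_neg hk, if_neg hk] at h2
        have h4 := (LS (S.vert (S.flip k))).f_sep _ hk _ _ _ _ h2
        exact congrArg (fun z => z.1) h4
    subst h3
    rfl

end Split

/-- **Realized systems can be split.** -/
theorem RzSep.split {S : LabSys Γ} (i : Fin 3)
    (H : ∀ (D : Type) [Finite D] (q : D → Disc → Disc), (∀ d, IsXSq (q d)) →
      (∀ d d' x y, (q d x).1.1 = (q d' y).1.1 → d = d') → Nonempty D → Nonempty (LegSplit L i q))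
    (hfull : S.Full) (h : RzSep e c L S) : RzSep e c L (S.split i) := by
  obtain ⟨P, F, hP, hF, hl⟩ := h
  have hLS : ∀ v : S.V, Nonempty (LegSplit L i (fun d : DartsAt S i v => P.q d.1)) := by
    intro v
    refine H _ _ (fun d => hP.isXSq _) ?_ ?_
    · rintro ⟨k, hk1, hk2⟩ ⟨l, hl1, hl2⟩ x y hxy
      exact Subtype.ext (hP.sep _ _ _ _ (hk1.trans hl1.symm) (hk2.trans hl2.symm) hxy)
    · obtain ⟨k, h1, h2⟩ := hfull v i
      exact ⟨⟨k, h1, h2⟩⟩
  let LS : Splits P i := fun v => (hLS v).some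
  exact ⟨splitPos LS, _, isSep_split LS hP, isReal_split LS hF, isLabel_split LS hF hl⟩


end Vale.Agent.P215.Am
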