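import Vale.Agent.P215.Am.Beta
import Vale.Agent.P215.Am.TwoLeg

/-!
# P215, route A: splitting of two-legged pieces

`exists_split_true`: splitting along the leg `beta2`, with parallel copies of the leg `beta1`.
-/

noncomputable section

namespace Vale.Agent.P215.Am.SplitMap

open Vale.Agent.P215.H788 Vale.Agent.P215.Am Set Topology

/-! ### Strips -/

/-- Finitely many disjoint strips in `(-1, 1)`, parametrized by increasing functions. -/
structure Strips (D : Type) where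
  /-- the parametrizations -/
  γ : D → ℝ → ℝ
  /-- left ends -/
  P : D → ℝ
  /-- right ends -/
  R : D → ℝ
  /-- the size of the gaps -/
  δ : ℝ
  δ_pos : 0 < δ
  cont : ∀ d, Continuous (γ d)
  mono : ∀ d, StrictMono (γ d)
  mem : ∀ d t, |t| ≤ 8 → P d ≤ γ d t ∧ γ d t ≤ R d
  lo : ∀ d, -1 < P d
  hi : ∀ d, R d < 1
  sep : ∀ d d', d ≠ d' → R d + δ ≤ P d' ∨ R d' + δ ≤ P d

/-! ### Piecewise linear functions -/

/-- The height function. -/
def mf (x y : ℝ) : ℝ := max 0 (max (4 * |x| - 1) (8 * |y| - 6))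

/-- The shear which straightens the arch hanging from the top. -/
def hz (x y z : ℝ) : ℝ := max (z - mf x y) ((1 + z) / 8 - 1)

/-- The inverse of `hz`. -/
def hzi (x y z : ℝ) : ℝ := min (z + mf x y) (8 * (1 + z) - 1)

/-- The contraction of the second coordinate. -/
def mu (y : ℝ) : ℝ := y - max 0 ((y - 3 / 4) / 2) + max 0 ((-y - 3 / 4) / 2)

@[fun_prop]
theorem continuous_mf {A : Type*} [TopologicalSpace A] {f g : A → ℝ} (hf : Continuous f)
    (hg : Continuous g) : Continuous fun a => mf (f a) (g a) := by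
  unfold mf
  fun_prop

@[fun_prop]
theorem continuous_hz {A : Type*} [TopologicalSpace A] {f g h : A → ℝ} (hf : Continuous f)
    (hg : Continuous g) (hh : Continuous h) : Continuous fun a => hz (f a) (g a) (h a) := by
  unfold hz
  fun_prop

@[fun_prop]
theorem continuous_hzi {A : Type*} [TopologicalSpace A] {f g h : A → ℝ} (hf : Continuous f)
    (hg : Continuous g) (hh : Continuous h) : Continuous fun a => hzi (f a) (g a) (h a) := by
  unfold hzi
  fun_prop

@[fun_prop]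
theorem continuous_mu {A : Type*} [TopologicalSpace A] {f : A → ℝ} (hf : Continuous f) :
    Continuous fun a => mu (f a) := by
  unfold mu
  fun_prop

theorem hzi_hz (x y z : ℝ) : hzi x y (hz x y z) = z := by
  unfold hz hzi; grind

theorem hz_hzi (x y z : ℝ) : hz x y (hzi x y z) = z := by
  unfold hz hzi; grind

theorem mu_strictMono : StrictMono mu := by
  intro a b h
  unfold mu
  grind

theorem mu_eq {y : ℝ} (h : |y| ≤ 3 / 4) : mu y = y := by
  unfold mu; grind

theorem abs_mu_le {y : ℝ} (h : |y| ≤ 1) : |mu y| ≤ 7 / 8 := by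
  unfold mu; grind

theorem mu_small {y : ℝ} (h : |mu y| ≤ 1 / 8) : mu y = y := by
  unfold mu at *; grind

/-- The bounds of the height in the image. -/
theorem hz_mem {x y z : ℝ} (hz' : |z| ≤ 1) : -1 ≤ hz x y z ∧ hz x y z ≤ 1 := by
  unfold hz mf; grind

theorem hz_bd {x y z : ℝ} (h : |x| = 1 ∨ |y| = 1) (hz' : |z| ≤ 1) :
    hz x y z = (1 + z) / 8 - 1 := by
  unfold hz mf; grind

theorem hzi_off (x y z : ℝ) : hzi x y ((1 + z) / 8 - 1) = min ((1 + z) / 8 - 1 + mf x y) z := by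
  unfold hzi; grind

/-- The new height is in `[-1, 1]`. -/
theorem hzi_mem {x y z x' : ℝ} (hz' : |z| ≤ 1) (hx' : |x'| ≤ 1 / 8) :
    |hzi x' (mu y) (hz x y z)| ≤ 1 := by
  unfold hzi hz mf mu; grind

theorem Sf_big {x r : ℝ} (hr : 3 / 8 ≤ r) : Sf x r = Sf x (3 / 8) := by
  unfold Sf
  rw [min_eq_right hr, min_self]

theorem Sf_small {x r : ℝ} (hx : |x| ≤ 1 / 8) : Sf x r = 2 * x := by
  unfold Sf
  have h1 : min r (3 / 8) ≤ 3 / 8 := min_le_right _ _
  have h2 := abs_le.1 hx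
  rw [max_eq_left (a := (0 : ℝ)), max_eq_left (a := (0 : ℝ))]
  · ring
  · exact (min_le_left _ _).trans (by linarith)
  · exact (min_le_left _ _).trans (by linarith)

theorem hz_arch {a Y z : ℝ} (ha : |a| ≤ 1 / 8) (hY : |Y| ≤ 3 / 4) (hz' : -1 ≤ z) :
    hz a Y z = z := by
  unfold hz mf; grind

theorem hzi_arch {a Y z : ℝ} (ha : |a| ≤ 1 / 8) (hY : |Y| ≤ 3 / 4) (hz' : -1 ≤ z) :
    hzi a Y z = z := by
  unfold hzi mf; grind

theorem hz_u {Y a r : ℝ} (ha : |a| ≤ 1 / 8) (hY : |Y| ≤ 1) (hr : r ≤ 3 / 8) :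
    hz Y a (max 0 (4 * |Y| - 1) - r) = -r := by
  unfold hz mf; grind

theorem hzi_u {Y a r : ℝ} (ha : |a| ≤ 1 / 8) (hY : |Y| ≤ 1) (hr : r ≤ 3 / 8) :
    hzi Y a (-r) = max 0 (4 * |Y| - 1) - r := by
  unfold hzi mf; grind

theorem cover_pc {x y z x2 : ℝ} (hx2 : |x2| < 1 / 8) (hy : |y| ≤ 1 / 8) (hz' : |z| ≤ 1)
    (h1 : 1 / 8 ≤ max 0 (4 * |x2| - 1) - hzi x2 y (hz x y z))
    (h2 : max 0 (4 * |x2| - 1) - hzi x2 y (hz x y z) ≤ 3 / 8) :
    1 / 8 ≤ max 0 (4 * |x| - 1) - z ∧ max 0 (4 * |x| - 1) - z ≤ 3 / 8 := by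
  have e1 : max 0 (4 * |x2| - 1) = 0 := max_eq_left (by linarith)
  have e2 : hzi x2 y (hz x y z) = hz x y z :=
    hzi_arch hx2.le (by linarith) (hz_mem hz').1
  rw [e1, e2] at h1 h2
  unfold hz mf at h1 h2
  grind

theorem cover_off {x y z : ℝ} (hy : |y| ≤ 1 / 8) (hz' : |z| ≤ 1)
    (h2 : max 0 (4 * |x| - 1) - min ((1 + z) / 8 - 1 + mf x y) z ≤ 3 / 8) : False := by
  unfold mf at h2
  grind

/-! ### The maps -/

variable {D : Type} (S : Strips D)

/-- The first coordinate on the piece number `d`, as a function of the straightened height. -/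
def lamf (d : D) (x z : ℝ) : ℝ := S.γ d (4 * Sf x (-z)) / 8

/-- The piece number `d`. -/
def pc (d : D) (p : Q) : Q :=
  qpt (lamf S d (cx p) (hz (cx p) (cy p) (cz p))) (mu (cy p))
    (hzi (lamf S d (cx p) (hz (cx p) (cy p) (cz p))) (mu (cy p)) (hz (cx p) (cy p) (cz p))) (cw p)

/-- The map off the pieces. -/
def off (p : Q) : Q :=
  qpt (cx p) (cy p) (min ((1 + cz p) / 8 - 1 + mf (cx p) (cy p)) (cz p)) (cw p)

/-- The position of the piece number `d`. -/
def pos (d : D) : Disc → Disc := psq (fun x => S.γ d (4 * Sf x (3 / 8)) / 8) mu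

variable {S}

theorem gam_mem (d : D) {t : ℝ} (h : |t| ≤ 8) : |S.γ d t| < 1 := by
  have h1 := S.mem d t h
  have h2 := S.lo d
  have h3 := S.hi d
  rw [abs_lt]
  constructor <;> linarith

theorem Sf4 {x r : ℝ} (h : |x| ≤ 1) (hr : -1 ≤ r) : |4 * Sf x r| ≤ 8 := by
  have := abs_Sf_le h hr
  rw [abs_mul]
  norm_num
  linarith

theorem abs_lamf (d : D) {x z : ℝ} (h : |x| ≤ 1) (hz' : z ≤ 1) : |lamf S d x z| < 1 / 8 := by
  have h1 := gam_mem (S := S) d (Sf4 h (show -1 ≤ -z by linarith))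
  unfold lamf
  rw [abs_div, abs_of_pos (show (0 : ℝ) < 8 by norm_num)]
  linarith

theorem continuous_off : Continuous off := by
  unfold off
  fun_prop

theorem continuous_pc (d : D) : Continuous (pc S d) := by
  have h := S.cont d
  unfold pc lamf
  fun_prop

theorem cx_pc (d : D) (p : Q) :
    cx (pc S d p) = lamf S d (cx p) (hz (cx p) (cy p) (cz p)) :=
  clp_of_abs (by linarith [abs_lamf (S := S) d (abs_cx p) (hz_mem (x := cx p) (y := cy p) (abs_cz p)).2])

theorem cy_pc (d : D) (p : Q) : cy (pc S d p) = mu (cy p) :=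
  clp_of_abs (by linarith [abs_mu_le (abs_cy p)])

theorem cz_pc (d : D) (p : Q) : cz (pc S d p) =
    hzi (cx (pc S d p)) (mu (cy p)) (hz (cx p) (cy p) (cz p)) := by
  rw [cx_pc]
  exact clp_of_abs (hzi_mem (abs_cz p)
    (abs_lamf (S := S) d (abs_cx p) (hz_mem (abs_cz p)).2).le)

theorem cw_pc (d : D) (p : Q) : cw (pc S d p) = cw p := clp_of_abs (abs_cw p)

theorem cx_off (p : Q) : cx (off p) = cx p := clp_of_abs (abs_cx p)
theorem cy_off (p : Q) : cy (off p) = cy p := clp_of_abs (abs_cy p)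
theorem cw_off (p : Q) : cw (off p) = cw p := clp_of_abs (abs_cw p)

theorem cz_off (p : Q) : cz (off p) = min ((1 + cz p) / 8 - 1 + mf (cx p) (cy p)) (cz p) := by
  refine clp_of_abs ?_
  have := abs_cz p
  unfold mf
  grind

theorem hz_off (p : Q) : hz (cx (off p)) (cy (off p)) (cz (off p)) = (1 + cz p) / 8 - 1 := by
  rw [cx_off, cy_off, cz_off, ← hzi_off, hz_hzi]

theorem hz_pc (d : D) (p : Q) : hz (cx (pc S d p)) (cy (pc S d p)) (cz (pc S d p)) =
    hz (cx p) (cy p) (cz p) := by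
  rw [cz_pc, cy_pc, hz_hzi]

theorem off_injective : Function.Injective off := by
  intro p q h
  have h1 := hz_off p
  rw [h, hz_off] at h1
  have hx := congrArg cx h
  have hy := congrArg cy h
  have hw := congrArg cw h
  rw [cx_off, cx_off] at hx
  rw [cy_off, cy_off] at hy
  rw [cw_off, cw_off] at hw
  exact Q_ext hx hy (by linarith) hw

theorem lamf_inj {d : D} {x x' z : ℝ} (h : |x| ≤ 1) (h' : |x'| ≤ 1) (hz' : z ≤ 1)
    (he : lamf S d x z = lamf S d x' z) : x = x' := by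
  unfold lamf at he
  have h1 : S.γ d (4 * Sf x (-z)) = S.γ d (4 * Sf x' (-z)) := by linarith
  have h2 := (S.mono d).injective h1
  have h3 : Sf x (-z) = Sf x' (-z) := by linarith
  rw [abs_le] at h h'
  rcases lt_trichotomy x x' with h4 | h4 | h4
  · exact absurd h3 (Sf_strictMono h.1 h'.2 (by linarith) h4).ne
  · exact h4
  · exact absurd h3.symm (Sf_strictMono h'.1 h.2 (by linarith) h4).ne

theorem pc_injective (d : D) : Function.Injective (pc S d) := by
  intro p q h
  have h1 := hz_pc d p (S := S)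
  rw [h, hz_pc] at h1
  have hx := congrArg cx h
  have hy := congrArg cy h
  have hw := congrArg cw h
  rw [cx_pc, cx_pc, h1] at hx
  rw [cy_pc, cy_pc] at hy
  rw [cw_pc, cw_pc] at hw
  have hy' := mu_strictMono.injective hy
  have hx' := lamf_inj (abs_cx p) (abs_cx q) (hz_mem (abs_cz p)).2 hx
  refine Q_ext hx' hy' ?_ hw
  rw [← hzi_hz (cx p) (cy p) (cz p), ← h1, hx', hy', hzi_hz]


/-! ### The pieces are disjoint squares -/

theorem pos_mem (d : D) {x : ℝ} (h : |x| ≤ 1) :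
    S.P d / 8 ≤ S.γ d (4 * Sf x (3 / 8)) / 8 ∧ S.γ d (4 * Sf x (3 / 8)) / 8 ≤ S.R d / 8 := by
  have h1 := S.mem d _ (Sf4 h (show (-1 : ℝ) ≤ 3 / 8 by norm_num))
  constructor <;> linarith [h1.1, h1.2]

theorem abs_pos_lt (d : D) {x : ℝ} (h : |x| ≤ 1) : |S.γ d (4 * Sf x (3 / 8)) / 8| < 1 / 8 := by
  have h1 := pos_mem (S := S) d h
  have h2 := S.lo d
  have h3 := S.hi d
  rw [abs_lt]
  constructor <;> linarith [h1.1, h1.2]

theorem pos_1 (d : D) (u : Disc) : (pos S d u).1.1 = S.γ d (4 * Sf u.1.1 (3 / 8)) / 8 :=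
  clp_of_abs (by linarith [abs_pos_lt (S := S) d (disc_abs1 u)])

theorem pos_2 (d : D) (u : Disc) : (pos S d u).1.2 = mu u.1.2 :=
  clp_of_abs (by linarith [abs_mu_le (disc_abs2 u)])

theorem pos_strictMonoOn (d : D) :
    StrictMonoOn (fun x => S.γ d (4 * Sf x (3 / 8)) / 8) (Icc (-1) 1) := by
  intro x hx y hy hxy
  have h1 := Sf_strictMono hx.1 hy.2 (show (-1 : ℝ) ≤ 3 / 8 by norm_num) hxy
  have h2 := S.mono d (show 4 * Sf x (3 / 8) < 4 * Sf y (3 / 8) by linarith)
  simp only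
  linarith

theorem isSq_pos (d : D) : IsSq (pos S d) := by
  have hc := S.cont d
  have h1 := abs_lt.1 (abs_pos_lt (S := S) d (x := -1) (by norm_num))
  have h2 := abs_lt.1 (abs_pos_lt (S := S) d (x := 1) (by norm_num))
  have h3 := abs_le.1 (abs_mu_le (y := -1) (by norm_num))
  have h4 := abs_le.1 (abs_mu_le (y := 1) (by norm_num))
  refine isSq_psq (by fun_prop) (by fun_prop) (pos_strictMonoOn d)
    (mu_strictMono.strictMonoOn _) ?_ ?_ ?_ ?_
  · linarith [h1.1]
  · linarith [h2.2]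
  · linarith [h3.1]
  · linarith [h4.2]

theorem pos_int (d : D) (u : Disc) : pos S d u ∈ int := by
  rw [mem_int_iff, pos_1, pos_2]
  exact ⟨by linarith [abs_pos_lt (S := S) d (disc_abs1 u)], by linarith [abs_mu_le (disc_abs2 u)]⟩

theorem pos_sep (d d' : D) (u v : Disc) (h : (pos S d u).1.1 = (pos S d' v).1.1) : d = d' := by
  by_contra hd
  rw [pos_1, pos_1] at h
  have h1 := pos_mem (S := S) d (disc_abs1 u)
  have h2 := pos_mem (S := S) d' (disc_abs1 v)
  have h3 := S.δ_pos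
  rcases S.sep d d' hd with h4 | h4
  · linarith [h1.2, h2.1]
  · linarith [h1.1, h2.2]

theorem isFam_pos : IsFam (pos S) where
  isSq := isSq_pos
  int := pos_int
  disj c d x y h := pos_sep c d x y (by rw [h])

/-! ### The morphism -/

variable (S) in
/-- The splitting morphism. -/
def psi0 : Q → Q := patch (fun d => vert (pos S d)) off (pc S)

theorem psi0_pos (d : D) (q : Q) : psi0 S (vert (pos S d) q) = pc S d q :=
  patch_box (fun d => (isFam_pos (S := S)).isBox d) (fun d d' => isFam_pos.vert_disj d d') _ _ d q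

theorem psi0_off {p : Q} (h : ∀ d q, vert (pos S d) q ≠ p) : psi0 S p = off p :=
  patch_off _ _ h

theorem pc_bd (d : D) (q : Q) (h : nm q.1 = 1) : pc S d q = off (vert (pos S d) q) := by
  have h' : |cx q| = 1 ∨ |cy q| = 1 := nm_eq_one_iff.1 h
  have h1 := hz_bd h' (abs_cz q)
  have e1 : cx (pc S d q) = cx (vert (pos S d) q) := by
    rw [cx_pc, h1]
    change _ = (pos S d q.1).1.1
    rw [pos_1]
    unfold lamf
    have h2 := abs_cz q
    have h3 : Sf (cx q) (-((1 + cz q) / 8 - 1)) = Sf (cx q) (3 / 8) :=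
      Sf_big (by linarith [(abs_le.1 h2).2])
    rw [h3]
    rfl
  have e2 : cy (pc S d q) = cy (vert (pos S d) q) := by
    rw [cy_pc]
    exact (pos_2 d q.1).symm
  refine Q_ext ?_ ?_ ?_ ?_
  · rw [e1, cx_off]
  · rw [e2, cy_off]
  · rw [cz_pc, cz_off, h1, hzi_off, ← e1, ← e2, cy_pc]
    rfl
  · rw [cw_pc, cw_off]
    rfl

theorem continuous_psi0 [Finite D] : Continuous (psi0 S) := by
  have h := continuous_patch (T := Unit) (fun d => (isFam_pos (S := S)).isBox d)
    (fun d d' => isFam_pos.vert_disj d d') (fun _ => off) (continuous_off.comp continuous_snd)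
    (fun _ => pc S) (fun d => (continuous_pc d).comp continuous_snd) (fun _ d q hq => pc_bd d q hq)
  exact h.comp (Continuous.prodMk_right ())

/-- The image of a piece lies over the part of the disc below the square, at small height; the
image of the complement lies near the bottom, off the squares. -/
theorem off_ne_pc {p q : Q} {d : D} (hp : ∀ q, vert (pos S d) q ≠ p) : off p ≠ pc S d q := by
  intro h
  have h1 := hz_off p
  rw [h, hz_pc] at h1
  have hx := congrArg cx h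
  have hy := congrArg cy h
  rw [cx_off, cx_pc, h1] at hx
  rw [cy_off, cy_pc] at hy
  apply hp (q.1, p.2)
  have h2 := abs_cz p
  refine Q_ext ?_ ?_ rfl rfl
  · change (pos S d q.1).1.1 = _
    rw [pos_1, hx]
    unfold lamf
    have h3 : Sf (cx q) (-((1 + cz p) / 8 - 1)) = Sf (cx q) (3 / 8) :=
      Sf_big (by linarith [(abs_le.1 h2).2])
    rw [h3]
    rfl
  · change (pos S d q.1).1.2 = _
    rw [pos_2, hy]
    rfl

theorem pc_ne_pc {p q : Q} {d d' : D} (h : d ≠ d') : pc S d p ≠ pc S d' q := by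
  intro he
  have hx := congrArg cx he
  rw [cx_pc, cx_pc] at hx
  unfold lamf at hx
  have h1 := S.mem d _ (Sf4 (abs_cx p) (show -1 ≤ -(hz (cx p) (cy p) (cz p)) by
    linarith [(hz_mem (x := cx p) (y := cy p) (abs_cz p)).2]))
  have h2 := S.mem d' _ (Sf4 (abs_cx q) (show -1 ≤ -(hz (cx q) (cy q) (cz q)) by
    linarith [(hz_mem (x := cx q) (y := cy q) (abs_cz q)).2]))
  have h3 := S.δ_pos
  rcases S.sep d d' h with h4 | h4
  · linarith [h1.2, h2.1]
  · linarith [h1.1, h2.2]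

theorem psi0_injective : Function.Injective (psi0 S) := by
  intro p q h
  by_cases hp : ∃ d r, vert (pos S d) r = p
  · obtain ⟨d, r, rfl⟩ := hp
    rw [psi0_pos] at h
    by_cases hq : ∃ d r, vert (pos S d) r = q
    · obtain ⟨d', r', rfl⟩ := hq
      rw [psi0_pos] at h
      by_cases hd : d = d'
      · subst hd
        rw [pc_injective d h]
      · exact absurd h (pc_ne_pc hd)
    · push Not at hq
      rw [psi0_off hq] at h
      exact absurd h.symm (off_ne_pc (hq d))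
  · push Not at hp
    rw [psi0_off hp] at h
    by_cases hq : ∃ d r, vert (pos S d) r = q
    · obtain ⟨d', r', rfl⟩ := hq
      rw [psi0_pos] at h
      exact absurd h (off_ne_pc (hp d'))
    · push Not at hq
      rw [psi0_off hq] at h
      exact off_injective h

theorem off_bd {p : Q} (h : nm p.1 = 1) : off p = p := by
  have h' : |cx p| = 1 ∨ |cy p| = 1 := nm_eq_one_iff.1 h
  have h2 := abs_cz p
  refine Q_ext (cx_off p) (cy_off p) ?_ (cw_off p)
  rw [cz_off]
  unfold mf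
  grind

theorem isMor_psi0 [Finite D] : IsMor (psi0 S) where
  cont := continuous_psi0
  inj := psi0_injective
  bd x y hx := by
    rw [psi0_off]
    · exact off_bd hx
    · intro d q hq
      have h1 := (isFam_pos (S := S)).isBox d |>.mem q
      rw [hq] at h1
      exact absurd h1 (not_mem_core.2 hx)

/-! ### The legs -/

theorem clp_gam (d : D) {t : ℝ} (h : |t| ≤ 8) : clp (S.γ d t) = S.γ d t :=
  clp_of_abs (gam_mem d h).le

theorem lev_psq (d : D) (x : Disc) : lev (psq (S.γ d) (fun t => t) x) = lev x := by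
  unfold lev
  have : (psq (S.γ d) (fun t => t) x).1.2 = x.1.2 := clp_of_abs (disc_abs2 x)
  rw [this]

theorem spec_beta2 (d : D) (x y : Disc) :
    psi0 S (vert (pos S d) (beta2 (x, y))) = beta2 (psq (S.γ d) (fun t => t) x, y) := by
  rw [psi0_pos]
  have h2 := lev_le x
  have h3 := abs_Yf_le (disc_abs1 y) (lev_ge x) h2
  have hx := disc_abs1 x
  have hx8 : |x.1.1 / 8| ≤ 1 / 8 := by
    rw [abs_div, abs_of_pos (show (0 : ℝ) < 8 by norm_num)]
    linarith
  have hg : |S.γ d x.1.1 / 8| ≤ 1 / 8 := by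
    have h5 := gam_mem (S := S) d (t := x.1.1) (by linarith)
    rw [abs_div, abs_of_pos (show (0 : ℝ) < 8 by norm_num)]
    linarith
  have hY : |Yf y.1.1 (lev x)| ≤ 3 / 4 := by linarith
  have c1 : cx (beta2 (x, y)) = x.1.1 / 8 := cx_beta2 _
  have c2 : cy (beta2 (x, y)) = Yf y.1.1 (lev x) := cy_beta2 _
  have c3 : cz (beta2 (x, y)) = lev x - max 0 (4 * |Yf y.1.1 (lev x)| - 1) := cz_beta2 _
  have hz' := (cz_mem (beta2 (x, y))).1
  have c1' : cx (beta2 (psq (S.γ d) (fun t => t) x, y)) = S.γ d x.1.1 / 8 := by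
    rw [cx_beta2]
    change clp (S.γ d x.1.1) / 8 = _
    rw [clp_gam d (by linarith)]
  have c2' : cy (beta2 (psq (S.γ d) (fun t => t) x, y)) = Yf y.1.1 (lev x) := by
    rw [cy_beta2]
    change Yf y.1.1 (lev (psq (S.γ d) (fun t => t) x)) = _
    rw [lev_psq]
  have c3' : cz (beta2 (psq (S.γ d) (fun t => t) x, y)) =
      lev x - max 0 (4 * |Yf y.1.1 (lev x)| - 1) := by
    rw [cz_beta2]
    change lev (psq (S.γ d) (fun t => t) x) - max 0 (4 * |Yf y.1.1
      (lev (psq (S.γ d) (fun t => t) x))| - 1) = _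
    rw [lev_psq]
  rw [c3] at hz'
  have e0 : hz (cx (beta2 (x, y))) (cy (beta2 (x, y))) (cz (beta2 (x, y))) =
      lev x - max 0 (4 * |Yf y.1.1 (lev x)| - 1) := by
    rw [c1, c2, c3]
    exact hz_arch hx8 hY hz'
  have e2 : cx (pc S d (beta2 (x, y))) = S.γ d x.1.1 / 8 := by
    rw [cx_pc, e0, c1]
    unfold lamf
    rw [Sf_small hx8]
    congr 2
    ring
  have e4 : cy (pc S d (beta2 (x, y))) = Yf y.1.1 (lev x) := by
    rw [cy_pc, c2, mu_eq hY]
  refine Q_ext ?_ ?_ ?_ ?_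
  · rw [e2, c1']
  · rw [e4, c2']
  · rw [cz_pc, e0, e2, ← cy_pc (S := S) d, e4, c3']
    exact hzi_arch hg hY hz'
  · rw [cw_pc, cw_beta2, cw_beta2]
    rfl

variable (S) in
/-- The positions of the parallel copies. -/
def fpos (d : D) : Disc → Disc := psq (fun t => S.γ d (4 * t) / 4) (fun t => t)

theorem fpos_1 (d : D) (y : Disc) : (fpos S d y).1.1 = S.γ d (4 * y.1.1) / 4 := by
  have h := disc_abs1 y
  have h1 := gam_mem (S := S) d (t := 4 * y.1.1) (by grind)
  exact clp_of_abs (by grind)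

theorem fpos_2 (d : D) (y : Disc) : (fpos S d y).1.2 = y.1.2 := clp_of_abs (disc_abs2 y)

theorem spec_beta1 (d : D) (x y : Disc) :
    psi0 S (vert (pos S d) (beta1 (x, y))) = beta1 (x, fpos S d y) := by
  rw [psi0_pos]
  have h1 := lev_ge x
  have h2 := lev_le x
  have hy := disc_abs1 y
  have h3 := abs_Yf_le hy h1 h2
  have hx := disc_abs1 x
  have hx8 : |x.1.1 / 8| ≤ 1 / 8 := by
    rw [abs_div, abs_of_pos (show (0 : ℝ) < 8 by norm_num)]
    linarith
  have hY : |Yf y.1.1 (lev x)| ≤ 1 := by linarith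
  have hg := gam_mem (S := S) d (t := 4 * y.1.1) (by
    rw [abs_mul, abs_of_pos (show (0 : ℝ) < 4 by norm_num)]
    linarith)
  have hg4 : |S.γ d (4 * y.1.1) / 4| ≤ 13 / 16 := by
    rw [abs_div, abs_of_pos (show (0 : ℝ) < 4 by norm_num)]
    linarith
  have hg8 : |S.γ d (4 * y.1.1) / 8| ≤ 1 := by
    rw [abs_div, abs_of_pos (show (0 : ℝ) < 8 by norm_num)]
    linarith
  have c1 : cx (beta1 (x, y)) = Yf y.1.1 (lev x) := cx_beta1 _
  have c2 : cy (beta1 (x, y)) = x.1.1 / 8 := cy_beta1 _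
  have c3 : cz (beta1 (x, y)) = max 0 (4 * |Yf y.1.1 (lev x)| - 1) - lev x := cz_beta1 _
  have c1' : cx (beta1 (x, fpos S d y)) = Yf (fpos S d y).1.1 (lev x) := cx_beta1 _
  have c2' : cy (beta1 (x, fpos S d y)) = x.1.1 / 8 := cy_beta1 _
  have c3' : cz (beta1 (x, fpos S d y)) =
    max 0 (4 * |Yf (fpos S d y).1.1 (lev x)| - 1) - lev x := cz_beta1 _
  have e3 : Yf (S.γ d (4 * y.1.1) / 4) (lev x) = S.γ d (4 * y.1.1) / 8 := by
    rw [Yf_mid hg4 h2]
    ring
  rw [fpos_1, e3] at c1' c3'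
  have e0 : hz (cx (beta1 (x, y))) (cy (beta1 (x, y))) (cz (beta1 (x, y))) = -lev x := by
    rw [c1, c2, c3]
    exact hz_u hx8 hY h2
  have e1 : cx (pc S d (beta1 (x, y))) = S.γ d (4 * y.1.1) / 8 := by
    rw [cx_pc, e0, c1]
    unfold lamf
    rw [neg_neg, Sf_Yf hy h1 h2]
  have e2 : cy (pc S d (beta1 (x, y))) = x.1.1 / 8 := by
    rw [cy_pc, c2, mu_eq (by linarith)]
  refine Q_ext ?_ ?_ ?_ ?_
  · rw [e1, c1']
  · rw [e2, c2']
  · rw [cz_pc, e0, e1, ← cy_pc (S := S) d, e2, c3']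
    exact hzi_u hx8 hg8 h2
  · rw [cw_pc, cw_beta1, cw_beta1]
    exact (fpos_2 (S := S) d y).symm

theorem cover_beta1 {p r : Q} (h : psi0 S p = beta1 r) :
    ∃ d r', p = vert (pos S d) (beta1 r') := by
  have hm : psi0 S p ∈ range beta1 := ⟨r, h.symm⟩
  rw [mem_range_beta1] at hm
  by_cases hp : ∃ d q, vert (pos S d) q = p
  · obtain ⟨d, q, rfl⟩ := hp
    rw [psi0_pos] at hm
    obtain ⟨h1, h2, h3⟩ := hm
    rw [cy_pc] at h1
    have hq : q ∈ range beta1 := by
      rw [mem_range_beta1]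
      have hl := abs_lamf (S := S) d (abs_cx q) (hz_mem (x := cx q) (y := cy q) (abs_cz q)).2
      rw [← cx_pc] at hl
      have hmu := mu_small h1
      rw [cz_pc] at h2 h3
      rw [hmu] at h1 h2 h3
      exact ⟨h1, cover_pc hl h1 (abs_cz q) h2 h3⟩
    obtain ⟨r', rfl⟩ := hq
    exact ⟨d, r', rfl⟩
  · push Not at hp
    rw [psi0_off hp] at hm
    obtain ⟨h1, h2, h3⟩ := hm
    rw [cy_off] at h1
    rw [cx_off, cz_off] at h2 h3
    exact (cover_off h1 (abs_cz p) h3).elim

end Vale.Agent.P215.Am.SplitMap
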