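import Vale.Agent.P215.Am.SplitMap

/-!
# P215, route A: splitting of two-legged pieces, second part

Existence of strips, and a planar homeomorphism which makes the pieces separated in both directions.
-/

noncomputable section

namespace Vale.Agent.P215.Am.SplitMap

open Vale.Agent.P215.H788 Vale.Agent.P215.Am Set Topology

/-! ### Existence of strips -/

theorem exists_pos_lt_all {ι : Type} [Finite ι] (h : ι → ℝ) (hh : ∀ i, 0 < h i) :
    ∃ δ : ℝ, 0 < δ ∧ ∀ i, δ ≤ h i := by
  rcases isEmpty_or_nonempty ι with hi | hi
  · exact ⟨1, one_pos, fun i => (hi.false i).elim⟩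
  · obtain ⟨i, hi⟩ := Finite.exists_min h
    exact ⟨h i, hh i, hi⟩

instance : Nonempty Disc := ⟨Disc.zero⟩

/-- The first coordinate of a square takes all the values of a compact interval. -/
theorem exists_range {q : Disc → Disc} (hq : Continuous q) : ∃ a b : ℝ, a ≤ b ∧
    range (fun u => (q u).1.1) = Icc a b := by
  have hc : Continuous fun u => (q u).1.1 := by fun_prop
  have h1 : IsCompact (range fun u => (q u).1.1) := isCompact_range hc
  have h2 : IsPreconnected (range fun u => (q u).1.1) := isPreconnected_range hc
  have h3 : (range fun u => (q u).1.1).Nonempty := range_nonempty _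
  obtain ⟨a, ha, hmin⟩ := h1.exists_isLeast h3
  obtain ⟨b, hb, hmax⟩ := h1.exists_isGreatest h3
  refine ⟨a, b, hmin hb, ?_⟩
  apply Subset.antisymm
  · intro x hx
    exact ⟨hmin hx, hmax hx⟩
  · exact h2.ordConnected.out ha hb

/-- **Existence of strips.** -/
theorem exists_strips {D : Type} [Finite D] {c : ℝ} (hc : 0 < c) (hc1 : c ≤ 1)
    (q : D → Disc → Disc) (hq : ∀ d, Continuous (q d)) (hi : ∀ d u, |(q d u).1.1| < 1)
    (hs : ∀ d d' x y, (q d x).1.1 = (q d' y).1.1 → d = d') :
    ∃ S : Strips D, (∀ d t, |t| ≤ 1 → |S.γ d (c * t)| < c) ∧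
      ∀ d u, ∃ t, |t| < 1 ∧ S.γ d (c * t) = c * (q d u).1.1 := by
  choose a b hab hr using fun d => exists_range (hq d)
  have hmem : ∀ d u, (q d u).1.1 ∈ Icc (a d) (b d) := fun d u => by
    rw [← hr d]
    exact ⟨u, rfl⟩
  have ha : ∀ d, |a d| < 1 := by
    intro d
    have : a d ∈ range fun u => (q d u).1.1 := by
      rw [hr d]; exact ⟨le_rfl, hab d⟩
    obtain ⟨u, hu⟩ := this
    rw [← hu]
    exact hi d u
  have hb : ∀ d, |b d| < 1 := by
    intro d
    have : b d ∈ range fun u => (q d u).1.1 := by
      rw [hr d]; exact ⟨hab d, le_rfl⟩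
    obtain ⟨u, hu⟩ := this
    rw [← hu]
    exact hi d u
  have hdis : ∀ d d', d ≠ d' → b d < a d' ∨ b d' < a d := by
    intro d d' hd
    by_contra h
    push Not at h
    have h1 : max (a d) (a d') ∈ range fun u => (q d u).1.1 := by
      rw [hr d]
      exact ⟨le_max_left _ _, max_le (hab d) h.1⟩
    have h2 : max (a d) (a d') ∈ range fun u => (q d' u).1.1 := by
      rw [hr d']
      exact ⟨le_max_right _ _, max_le h.2 (hab d')⟩
    obtain ⟨u, hu⟩ := h1
    obtain ⟨v, hv⟩ := h2
    exact hd (hs d d' u v (hu.trans hv.symm))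
  -- the size of the gaps
  obtain ⟨δ₁, hδ₁, h₁⟩ := exists_pos_lt_all (fun d => min (1 - |a d|) (1 - |b d|))
    (fun d => lt_min (by linarith [ha d]) (by linarith [hb d]))
  obtain ⟨δ₂, hδ₂, h₂⟩ := exists_pos_lt_all
    (fun e : D × D => if b e.1 < a e.2 then a e.2 - b e.1 else 1)
    (fun e => by
      split_ifs with h
      · linarith
      · exact one_pos)
  let δ := min δ₁ δ₂
  have hδ : 0 < δ := lt_min hδ₁ hδ₂
  have hδa : ∀ d, |a d| + δ ≤ 1 := by
    intro d
    have := (h₁ d).trans (min_le_left _ _)
    have h3 : δ ≤ δ₁ := min_le_left _ _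
    linarith
  have hδb : ∀ d, |b d| + δ ≤ 1 := by
    intro d
    have := (h₁ d).trans (min_le_right _ _)
    have h3 : δ ≤ δ₁ := min_le_left _ _
    linarith
  have hδd : ∀ d d', d ≠ d' → b d + δ ≤ a d' ∨ b d' + δ ≤ a d := by
    intro d d' hd
    have h3 : δ ≤ δ₂ := min_le_right _ _
    rcases hdis d d' hd with h | h
    · left
      have := h₂ (d, d')
      simp only [if_pos h] at this
      linarith
    · right
      have := h₂ (d', d)
      simp only [if_pos h] at this
      linarith
  -- the slope outside of the middle part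
  let e : ℝ := c * δ / 32
  have he : 0 < e := by positivity
  have hce : c * δ = 32 * e := by simp only [e]; ring
  let γ : D → ℝ → ℝ := fun d t =>
    c * ((a d + b d) / 2) + c * ((b d - a d) / 2) * clp (t / c) + e * t
  have hclp : ∀ t, |clp t| ≤ 1 := abs_clp
  have hclpm : Monotone clp := by
    intro s t hst
    unfold clp
    exact max_le_max le_rfl (min_le_min le_rfl hst)
  let S : Strips D :=
    { γ := γ
      P := fun d => c * a d - 8 * e
      R := fun d => c * b d + 8 * e
      δ := 16 * e
      δ_pos := by linarith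
      cont := fun d => by
        simp only [γ]
        fun_prop
      mono := fun d => by
        intro s t hst
        simp only [γ]
        have h4 : clp (s / c) ≤ clp (t / c) := hclpm (by gcongr)
        have h5 : 0 ≤ c * ((b d - a d) / 2) :=
          mul_nonneg hc.le (by linarith [hab d])
        have h6 := mul_le_mul_of_nonneg_left h4 h5
        nlinarith
      mem := fun d t ht => by
        simp only [γ]
        have h5 : 0 ≤ c * ((b d - a d) / 2) :=
          mul_nonneg hc.le (by linarith [hab d])
        have h6 := abs_le.1 (hclp (t / c))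
        have h7 := abs_le.1 ht
        have h8 := mul_le_mul_of_nonneg_left h6.2 h5
        have h9 := mul_le_mul_of_nonneg_left h6.1 h5
        constructor <;> nlinarith
      lo := fun d => by
        have h3 := hδa d
        have h4 := neg_abs_le (a d)
        have h5 : -(1 - δ) ≤ a d := by linarith
        have h6 := mul_le_mul_of_nonneg_left h5 hc.le
        nlinarith
      hi := fun d => by
        have h3 := hδb d
        have h4 := le_abs_self (b d)
        have h5 : b d ≤ 1 - δ := by linarith
        have h6 := mul_le_mul_of_nonneg_left h5 hc.le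
        nlinarith
      sep := fun d d' hd => by
        rcases hδd d d' hd with h | h
        · left
          have := mul_le_mul_of_nonneg_left h hc.le
          nlinarith
        · right
          have := mul_le_mul_of_nonneg_left h hc.le
          nlinarith }
  refine ⟨S, ?_, ?_⟩
  · intro d t ht
    have hm := S.mem d (c * t) (by
      rw [abs_mul, abs_of_pos hc]
      nlinarith [abs_nonneg t])
    change c * a d - 8 * e ≤ _ ∧ _ ≤ c * b d + 8 * e at hm
    have h3 := hδa d
    have h3' := hδb d
    have h4 := neg_abs_le (a d)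
    have h4' := le_abs_self (b d)
    have h5 : -(1 - δ) ≤ a d := by linarith
    have h5' : b d ≤ 1 - δ := by linarith
    have h6 := mul_le_mul_of_nonneg_left h5 hc.le
    have h6' := mul_le_mul_of_nonneg_left h5' hc.le
    rw [abs_lt]
    constructor <;> nlinarith
  · intro d u
    have hm := hmem d u
    have hcont : Continuous fun t => S.γ d (c * t) := (S.cont d).comp (by fun_prop)
    have e1 : S.γ d (c * 1) = c * b d + e * c := by
      change c * ((a d + b d) / 2) + c * ((b d - a d) / 2) * clp (c * 1 / c) + e * (c * 1) = _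
      rw [mul_one, div_self hc.ne', clp_of_abs (by norm_num)]
      ring
    have e2 : S.γ d (c * (-1)) = c * a d - e * c := by
      change c * ((a d + b d) / 2) + c * ((b d - a d) / 2) * clp (c * (-1) / c) + e * (c * (-1)) = _
      rw [mul_div_assoc, mul_comm c (-1 / c), div_mul_cancel₀ _ hc.ne', clp_of_abs (by norm_num)]
      ring
    have hec : 0 < e * c := mul_pos he hc
    obtain ⟨t, ht, hte⟩ := intermediate_value_Icc (show (-1 : ℝ) ≤ 1 by norm_num)
      hcont.continuousOn (show c * (q d u).1.1 ∈ Icc (S.γ d (c * (-1))) (S.γ d (c * 1)) by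
        rw [e1, e2]
        have h8 := mul_le_mul_of_nonneg_left hm.1 hc.le
        have h9 := mul_le_mul_of_nonneg_left hm.2 hc.le
        constructor <;> linarith)
    refine ⟨t, ?_, hte⟩
    have h8 := mul_le_mul_of_nonneg_left hm.1 hc.le
    have h9 := mul_le_mul_of_nonneg_left hm.2 hc.le
    rw [abs_lt]
    constructor
    · refine lt_of_le_of_ne ht.1 ?_
      rintro rfl
      simp only at hte
      rw [e2] at hte
      linarith
    · refine lt_of_le_of_ne ht.2 ?_
      rintro rfl
      simp only at hte
      rw [e1] at hte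
      linarith

end Vale.Agent.P215.Am.SplitMap
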