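import Vale.Agent.P215.Am.Init
import Vale.Agent.P215.Am.Geo

/-!
# P215, route A: from the initial system to a system of three-legged branches (S0)

The initial singular system of a capped grope (`initDarts` of `Init.lean`) has one piece for each
handle of the first stage; its leg at the first tip carries all handles of a second stage surface.
The first stage is split along this leg (`StartSplit`, local data), and becomes a union of
three-legged branches, one for each handle of the second stages.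
-/

noncomputable section

namespace Vale.Agent.P215.Am

open Vale.Agent.P215.H788 Vale.Agent.P215.H579 Set Topology

/-- **Splitting the outer stage**, local data.  The two-legged piece has the leg boxes `leg b`; the
leg `false` carries the two-legged pieces over the squares `h d`, `d ∈ D`, the leg boxes of which
carry darts over the squares `sq b m`, `m < M`; the leg `true` carries darts over the squares
`sq true m`.  The new pieces, over the squares `s d`, have three legs `L i`; their leg `0` is a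
parallel copy of the old leg `true`. -/
structure StartSplit (leg : Bool → Q → Q) (sq : Bool → ℕ → Disc → Disc) (M : ℕ)
    (L : Fin 3 → Q → Q) (ix : Bool → Fin 3) {D : Type} (h : D → Disc → Disc) where
  /-- the morphism -/
  ψ : Q → Q
  mor : IsMor ψ
  /-- the new branches -/
  s : D → Disc → Disc
  fam : IsFam s
  /-- the positions of the new branches in the fibre of the leg `true` -/
  f : D → Disc → Disc
  isXSq_f : ∀ d, IsXSq (f d)
  f_sep : ∀ d d' x y, (f d x).1.1 = (f d' y).1.1 → d = d'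
  /-- the positions of the darts on the new legs -/
  q : Fin 3 → ℕ → Disc → Disc
  isXSq_q : ∀ i m, m < M → IsXSq (q i m)
  q_sep : ∀ i m m', m < M → m' < M → ∀ x y, (q i m x).1.1 = (q i m' y).1.1 → m = m'
  spec_zero : ∀ d m, m < M → ∀ x y,
    ψ (vert (s d) (L 0 (q 0 m x, y))) = leg true (sq true m x, f d y)
  spec_ix : ∀ d b m, m < M → ∀ x y,
    ψ (vert (s d) (L (ix b) (q (ix b) m x, y))) = leg false (vert (h d) (leg b (sq b m x, y)))
  cover_zero : ∀ p m, m < M → ∀ x y, ψ p = leg true (sq true m x, y) →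
    ∃ d y', p = vert (s d) (L 0 (q 0 m x, y'))
  cover_ix : ∀ d p b m, m < M → ∀ x y,
    ψ p = leg false (vert (h d) (leg b (sq b m x, y))) →
    p = vert (s d) (L (ix b) (q (ix b) m x, y))

namespace Start

theorem rfD_fst (b : Bool) (a : Disc) : (rfD b a).1.1 = if b then a.1.1 else -a.1.1 := by
  cases b <;> simp [rfD]

theorem rfD_inj1 (b : Bool) {x y : Disc} (h : (rfD b x).1.1 = (rfD b y).1.1) :
    x.1.1 = y.1.1 := by
  rw [rfD_fst, rfD_fst] at h
  cases b <;> simpa using h

/-! ### Darts of the initial system -/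

section Init

variable (G : CappedGrope)

/-- The branches: the handles of the second stage surfaces. -/
abbrev Br : Type := Σ j : Fin G.genera.length, Fin (G.genera.get j)

/-- The index set of the darts of the initial system. -/
abbrev DI : Type := Fin G.plumbings.length × Bool

variable {G}

/-- The tip of a dart of the initial system. -/
def dtip (x : DI G) : Tip :=
  match x.2 with
  | false => (G.plumbings.get x.1).1
  | true => (G.plumbings.get x.1).2.1

/-- The sign of a dart of the initial system. -/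
def dsign (x : DI G) : Bool :=
  match x.2 with
  | false => true
  | true => (G.plumbings.get x.1).2.2

/-- The number of the square of a dart of the initial system. -/
def dnum (x : DI G) : ℕ :=
  match x.2 with
  | false => 2 * x.1
  | true => 2 * x.1 + 1

theorem dnum_lt (x : DI G) : dnum x < 2 * G.plumbings.length := by
  obtain ⟨k, b⟩ := x
  have := k.2
  cases b <;> simp only [dnum] <;> omega

theorem dnum_inj {x y : DI G} (h : dnum x = dnum y) : x = y := by
  obtain ⟨⟨k, hk⟩, b⟩ := x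
  obtain ⟨⟨l, hl⟩, b'⟩ := y
  cases b <;> cases b' <;> simp only [dnum] at h
  · obtain rfl : k = l := by omega
    rfl
  · omega
  · omega
  · obtain rfl : k = l := by omega
    rfl

theorem dtip_capped (x : DI G) : IsCapped G.genera (dtip x) := by
  obtain ⟨k, b⟩ := x
  have h := G.isCapped _ (List.get_mem G.plumbings k)
  cases b
  · exact h.1
  · exact h.2

variable (T : ThetaDatum G.L)

theorem initBox_eq (x : DI G) (p : Q) : initBox T x p =
    legT T (dtip x) (T.sq (dtip x).2.2 (dnum x) (rfD (dsign x) p.1), rfD (dsign x) p.2) := by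
  obtain ⟨k, b⟩ := x
  cases b <;> rfl

theorem legT_zero {t : Tip} (h : t.1 = 0) (p : Q) :
    legT T t p = vert (holeSq G t.2.1) (T.leg t.2.2 p) := by
  obtain ⟨a, b, c⟩ := t
  simp only at h
  subst h
  rfl

theorem legT_succ {t : Tip} {i : ℕ} (h : t.1 = i + 1) (p : Q) :
    legT T t p = vert (holeSq G i) (T.leg false (vert (T.sq false t.2.1) (T.leg t.2.2 p))) := by
  obtain ⟨a, b, c⟩ := t
  simp only at h
  subst h
  rfl

/-- The tip `t` belongs to the branch `v`. -/
def Over (t : Tip) (v : Br G) : Prop :=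
  (t.1 = 0 ∧ t.2.1 = v.1.1) ∨ (t.1 = v.1.1 + 1 ∧ t.2.1 = v.2.1)

theorem Over.unique {t : Tip} {v w : Br G} (hv : Over t v) (hw : Over t w) (h : t.1 ≠ 0) :
    v = w := by
  obtain ⟨⟨v1, hv1⟩, ⟨v2, hv2⟩⟩ := v
  obtain ⟨⟨w1, hw1⟩, ⟨w2, hw2⟩⟩ := w
  rcases hv with hv | hv
  · exact absurd hv.1 h
  rcases hw with hw | hw
  · exact absurd hw.1 h
  simp only at hv hw
  obtain rfl : v1 = w1 := by omega
  obtain rfl : v2 = w2 := by omega
  rfl

theorem capped_zero {t : Tip} (h : IsCapped G.genera t) (h0 : t.1 = 0) :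
    t.2.2 = true ∧ t.2.1 < G.genera.length := by
  obtain ⟨a, b, c⟩ := t
  simp only at h0
  subst h0
  refine ⟨?_, h.1⟩
  by_contra hc
  simp only [Bool.not_eq_true] at hc
  exact h.2 ⟨rfl, hc⟩

theorem capped_succ {t : Tip} (h : IsCapped G.genera t) {i : ℕ} (h0 : t.1 = i + 1) :
    ∃ hi : i < G.genera.length, t.2.1 < G.genera.get ⟨i, hi⟩ := by
  obtain ⟨a, b, c⟩ := t
  simp only at h0
  subst h0
  have h1 : b < G.genera.getD i 0 := h.1
  have hi : i < G.genera.length := by
    by_contra hi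
    rw [List.getD_eq_default _ _ (not_lt.1 hi)] at h1
    omega
  refine ⟨hi, ?_⟩
  rw [List.getD_eq_getElem _ _ hi] at h1
  exact h1

end Init

/-- The number of the leg of a tip. -/
def lno (ix : Bool → Fin 3) (t : Tip) : Fin 3 := if t.1 = 0 then 0 else ix t.2.2

/-! ### The pulled back system -/

section Global

variable {G : CappedGrope} {T : ThetaDatum G.L} {M : ℕ} (hM : 2 * G.plumbings.length ≤ M)
  {L : Fin 3 → Q → Q} (hL : IsLegs L) {ix : Bool → Fin 3}
  (hix0 : ∀ b, ix b ≠ 0) (hix : Function.Injective ix)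
  (hh : IsFam (fun j : Fin G.genera.length => holeSq G j))
  (A : ∀ j : Fin G.genera.length,
    StartSplit T.leg T.sq M L ix (fun k : Fin (G.genera.get j) => T.sq false k))

/-- The squares of the branches. -/
def sV (v : Br G) (x : Disc) : Disc := holeSq G v.1 ((A v.1).s v.2 x)

include hh in
theorem isFam_sV : IsFam (sV A) := hh.comp fun j => (A j).fam

/-- The index set of the boxes. -/
abbrev JI (G : CappedGrope) : Type := {xv : DI G × Br G // Over (dtip xv.1) xv.2}

/-- The position of a dart on the new leg. -/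
def qJ (i : JI G) (x : Disc) : Disc :=
  (A i.1.2.1).q (lno ix (dtip i.1.1)) (dnum i.1.1) (rfD (dsign i.1.1) x)

/-- The position of the new branch in the fibre. -/
def fJ (i : JI G) (y : Disc) : Disc :=
  rfD (dsign i.1.1) (if (dtip i.1.1).1 = 0 then (A i.1.2.1).f i.1.2.2 y else y)

/-- The total morphism. -/
def ψT : Q → Q := ins (fun j : Fin G.genera.length => vert (holeSq G j)) fun j => (A j).ψ

include hh in
theorem isMor_ψT : IsMor (ψT A) :=
  isMor_ins (fun j => hh.isBox j) (fun j k p q h => hh.vert_disj j k p q h) fun j => (A j).mor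

include hh in
theorem ψT_vert (j : Fin G.genera.length) (p : Q) :
    ψT A (vert (holeSq G j) p) = vert (holeSq G j) ((A j).ψ p) :=
  ins_box (fun j => hh.isBox j) (fun j k p q h => hh.vert_disj j k p q h) _ j p

include hh in
theorem ψT_cover {j : Fin G.genera.length} {p r : Q} (h : ψT A p = vert (holeSq G j) r) :
    ∃ q, p = vert (holeSq G j) q ∧ (A j).ψ q = r :=
  ins_cover (fun j => hh.isBox j) (fun j k p q h => hh.vert_disj j k p q h) _ h

include hM in
theorem dnum_lt' (x : DI G) : dnum x < M := (dnum_lt x).trans_le hM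

include hM in
theorem isSq_qJ (i : JI G) : IsSq (qJ A i) :=
  ((A i.1.2.1).isXSq_q _ _ (dnum_lt' hM _)).toIsSq.comp (isSq_rfD _)

theorem isSq_fJ (i : JI G) : IsSq (fJ A i) := by
  unfold fJ
  split_ifs with h
  · exact (isSq_rfD _).comp ((A i.1.2.1).isXSq_f _).toIsSq
  · exact isSq_rfD _

theorem fJ_inj1 (i : JI G) {x y : Disc} (h : (fJ A i x).1.1 = (fJ A i y).1.1) :
    x.1.1 = y.1.1 := by
  unfold fJ at h
  have h1 := rfD_inj1 _ h
  split_ifs at h1 with h2
  · exact ((A i.1.2.1).isXSq_f _).xinj _ _ h1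
  · exact h1

variable {D₀ : Darts (DI G)} (hbox : ∀ x p, D₀.box x p = initBox T x p)

/-- The index of the new branch and the box of `i` over a point. -/
def bJ (L : Fin 3 → Q → Q) (ix : Bool → Fin 3) (i : JI G) (p : Q) : Q :=
  vert (sV A i.1.2) (L (lno ix (dtip i.1.1)) (qJ A i p.1, p.2))

include hh hbox hM in
theorem spec_J (i : JI G) (x y : Disc) :
    ψT A (bJ A L ix i (x, y)) = D₀.box i.1.1 (x, fJ A i y) := by
  have hcap := dtip_capped i.1.1
  have hm := dnum_lt' hM i.1.1
  rw [hbox, initBox_eq]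
  have h1 : bJ A L ix i (x, y) = vert (holeSq G i.1.2.1) (vert ((A i.1.2.1).s i.1.2.2)
    (L (lno ix (dtip i.1.1)) (qJ A i x, y))) := rfl
  rw [h1, ψT_vert hh]
  rcases i.2 with ⟨h0, h2⟩ | ⟨h0, h2⟩
  · obtain ⟨ht, -⟩ := capped_zero hcap h0
    rw [legT_zero T h0, h2, ht]
    have h3 : lno ix (dtip i.1.1) = 0 := by rw [lno, if_pos h0]
    simp only [qJ, fJ, h3]
    rw [(A i.1.2.1).spec_zero _ _ hm, if_pos h0, rfD_rfD]
  · rw [legT_succ T h0, h2]
    have h4 : (dtip i.1.1).1 ≠ 0 := by omega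
    have h3 : lno ix (dtip i.1.1) = ix (dtip i.1.1).2.2 := by rw [lno, if_neg h4]
    simp only [qJ, fJ, h3]
    rw [(A i.1.2.1).spec_ix _ _ _ hm, if_neg h4, rfD_rfD]

include hh hbox hM in
theorem cover_J (x : DI G) (p q : Q) (h : ψT A p = D₀.box x q) :
    ∃ (i : JI G) (r : Q), i.1.1 = x ∧ p = bJ A L ix i r := by
  have hcap := dtip_capped x
  have hm := dnum_lt' hM x
  rw [hbox, initBox_eq] at h
  rcases Nat.eq_zero_or_pos (dtip x).1 with h0 | h0
  · obtain ⟨ht, hj⟩ := capped_zero hcap h0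
    rw [legT_zero T h0, ht] at h
    obtain ⟨p', rfl, h1⟩ := ψT_cover hh A (j := ⟨(dtip x).2.1, hj⟩) h
    obtain ⟨d, y', h2⟩ := (A _).cover_zero _ _ hm _ _ h1
    refine ⟨⟨(x, ⟨⟨(dtip x).2.1, hj⟩, d⟩), Or.inl ⟨h0, rfl⟩⟩, (q.1, y'), rfl, ?_⟩
    have h3 : lno ix (dtip x) = 0 := by rw [lno, if_pos h0]
    rw [h2]
    simp only [bJ, qJ, h3]
    rfl
  · obtain ⟨i, h0⟩ : ∃ i, (dtip x).1 = i + 1 := ⟨(dtip x).1 - 1, by omega⟩
    obtain ⟨hi, hk⟩ := capped_succ hcap h0
    rw [legT_succ T h0] at h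
    obtain ⟨p', rfl, h1⟩ := ψT_cover hh A (j := ⟨i, hi⟩) h
    have h2 := (A _).cover_ix ⟨(dtip x).2.1, hk⟩ _ _ _ hm _ _ h1
    refine ⟨⟨(x, ⟨⟨i, hi⟩, ⟨(dtip x).2.1, hk⟩⟩), Or.inr ⟨h0, rfl⟩⟩,
      (q.1, rfD (dsign x) q.2), rfl, ?_⟩
    have h3 : lno ix (dtip x) = ix (dtip x).2.2 := by rw [lno, if_neg (by omega)]
    rw [h2]
    simp only [bJ, qJ, h3]
    rfl

include hM hL hh in
theorem disj_J (i i' : JI G) (p q : Q) (h : bJ A L ix i p = bJ A L ix i' q) : i = i' := by
  have hfam := isFam_sV hh A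
  have h1 := hfam.vert_disj _ _ _ _ h
  obtain ⟨⟨x, v⟩, hi⟩ := i
  obtain ⟨⟨x', v'⟩, hi'⟩ := i'
  change v = v' at h1
  subst h1
  have h2 := vert_inj (hfam.isSq _).inj h
  have h3 := hL.disj _ _ _ _ h2
  rw [h3] at h2
  have h4 := congrArg Prod.fst ((hL.isBox _).inj h2)
  have h5 : ((A v.1).q (lno ix (dtip x)) (dnum x) (rfD (dsign x) p.1)).1.1 =
    ((A v.1).q (lno ix (dtip x')) (dnum x') (rfD (dsign x') q.1)).1.1 :=
    congrArg (fun z : Disc => z.1.1) h4
  rw [h3] at h5
  have h6 := (A v.1).q_sep _ _ _ (dnum_lt' hM x) (dnum_lt' hM x') _ _ h5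
  have h7 := dnum_inj h6
  subst h7
  rfl

/-- **The pull-back.** -/
def startPB : PullBack D₀ (JI G) where
  ψ := ψT A
  mor := isMor_ψT hh A
  foot i := i.1.1
  box := bJ A L ix
  f := fJ A
  isBox i := ((isFam_sV hh A).isBox _).comp ((hL.isBox _).comp_sq (isSq_qJ hM A i))
  isSq := isSq_fJ A
  disj := disj_J hM hL hh A
  spec := spec_J hM hh A hbox
  cover := cover_J hM hh A hbox

variable {Γ : Type} [Group Γ]

/-- The labelled system. -/
def startSys (t₀ : DI G → Γ) (ht₀ : ∀ x, t₀ (D₀.flip x) = (t₀ x)⁻¹) : LabSys Γ where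
  V := Br G
  K := (startPB hM hL hh A hbox).Idx
  fV := inferInstance
  dV := inferInstance
  fK := by classical infer_instance
  dK := by classical infer_instance
  vert k := k.1.1.1.2
  leg k := lno ix (dtip k.1.1.1.1)
  flip := (startPB hM hL hh A hbox).darts.flip
  flip_flip := (startPB hM hL hh A hbox).darts.flip_flip
  flip_ne := (startPB hM hL hh A hbox).darts.flip_ne
  t k := t₀ k.1.1.1.1
  t_flip k := by
    have h : k.1.2.1.1 = D₀.flip k.1.1.1.1 := k.2
    change t₀ k.1.2.1.1 = _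
    rw [h, ht₀]

/-- The positions. -/
def startPos (t₀ : DI G → Γ) (ht₀ : ∀ x, t₀ (D₀.flip x) = (t₀ x)⁻¹) :
    Pos L (startSys hM hL hh A hbox t₀ ht₀) where
  hL := hL
  s := sV A
  fam := isFam_sV hh A
  q k x := qJ A k.1.1 (fJ A k.1.2 x)
  isSq k := (isSq_qJ hM A _).comp (isSq_fJ A _)
  disj k l x y hv hl h := by
    refine (startPB hM hL hh A hbox).darts.disj k l (x, Disc.zero) (y, Disc.zero) ?_
    change vert (sV A k.1.1.1.2) (L (lno ix (dtip k.1.1.1.1)) (qJ A k.1.1 (fJ A k.1.2 x), _)) =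
      vert (sV A l.1.1.1.2) (L (lno ix (dtip l.1.1.1.1)) (qJ A l.1.1 (fJ A l.1.2 y), _))
    change k.1.1.1.2 = l.1.1.1.2 at hv
    change lno ix (dtip k.1.1.1.1) = lno ix (dtip l.1.1.1.1) at hl
    rw [hv, hl, h]

theorem fJ_sep {x : DI G} {v v' : Br G} (hv : Over (dtip x) v) (hv' : Over (dtip x) v')
    {a b : Disc} (h : (fJ A ⟨(x, v), hv⟩ a).1.1 = (fJ A ⟨(x, v'), hv'⟩ b).1.1) : v = v' := by
  by_cases h0 : (dtip x).1 = 0
  · have h1 : (if (dtip x).1 = 0 then (A v.1).f v.2 a else a).1.1 =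
        (if (dtip x).1 = 0 then (A v'.1).f v'.2 b else b).1.1 := rfD_inj1 _ h
    rw [if_pos h0, if_pos h0] at h1
    rcases hv with ⟨-, e1⟩ | ⟨e1, -⟩
    · rcases hv' with ⟨-, e2⟩ | ⟨e2, -⟩
      · obtain ⟨v1, v2⟩ := v
        obtain ⟨w1, w2⟩ := v'
        have e3 : v1 = w1 := Fin.ext (e1.symm.trans e2)
        subst e3
        have e4 : v2 = w2 := (A v1).f_sep _ _ _ _ h1
        rw [e4]
      · omega
    · omega
  · exact Over.unique hv hv' h0

theorem isSep_startPos (t₀ : DI G → Γ) (ht₀ : ∀ x, t₀ (D₀.flip x) = (t₀ x)⁻¹) :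
    (startPos hM hL hh A hbox t₀ ht₀).IsSep where
  isXSq k :=
    { toIsSq := (startPos hM hL hh A hbox t₀ ht₀).isSq k
      xinj := by
        intro u v h
        have h1 := ((A k.1.1.1.2.1).isXSq_q _ _ (dnum_lt' hM k.1.1.1.1)).xinj _ _ h
        exact fJ_inj1 A _ (rfD_inj1 _ h1)
      xint := fun u => ((A k.1.1.1.2.1).isXSq_q _ _ (dnum_lt' hM k.1.1.1.1)).xint _ }
  sep := by
    rintro ⟨⟨i, j⟩, hk⟩ ⟨⟨i', j'⟩, hk'⟩ x y hv hl h
    change i.1.2 = i'.1.2 at hv
    change lno ix (dtip i.1.1) = lno ix (dtip i'.1.1) at hl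
    change (qJ A i (fJ A j x)).1.1 = (qJ A i' (fJ A j' y)).1.1 at h
    have h0 : i = i' := by
      obtain ⟨⟨x, v⟩, hi⟩ := i
      obtain ⟨⟨x', v'⟩, hi'⟩ := i'
      simp only at hv hl
      subst hv
      simp only [qJ] at h
      rw [hl] at h
      have h6 := (A v.1).q_sep _ _ _ (dnum_lt' hM x) (dnum_lt' hM x') _ _ h
      have h7 := dnum_inj h6
      subst h7
      rfl
    subst h0
    have h1 := ((A i.1.2.1).isXSq_q _ _ (dnum_lt' hM i.1.1)).xinj _ _ h
    have h2 : (fJ A j x).1.1 = (fJ A j' y).1.1 := rfD_inj1 _ h1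
    have hf : j.1.1 = j'.1.1 := by
      have e1 : j.1.1 = D₀.flip i.1.1 := hk
      have e2 : j'.1.1 = D₀.flip i.1.1 := hk'
      rw [e1, e2]
    have h3 : j = j' := by
      obtain ⟨⟨z, v⟩, hj⟩ := j
      obtain ⟨⟨z', v'⟩, hj'⟩ := j'
      change z = z' at hf
      subst hf
      have e := fJ_sep A hj hj' (h2.trans rfl)
      subst e
      rfl
    subst h3
    rfl

include hM hL hh A hbox in
/-- **The initial system is a union of three-legged branches.** -/
theorem exists_start {F : Q → G.Thickening}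
    (hF : IsReal G.attach D₀ F) (c : Coc G.Thickening Γ) :
    ∃ S : LabSys Γ, RzSep G.attach c L S := by
  obtain ⟨t₀, ht₀⟩ := hF.exists_isLabel (c := c)
  refine ⟨startSys hM hL hh A hbox t₀ ht₀.flip, startPos hM hL hh A hbox t₀ ht₀.flip,
    F ∘ ψT A, isSep_startPos hM hL hh A hbox t₀ ht₀.flip, ?_, ?_⟩
  · have h := (startPB hM hL hh A hbox).isReal hF
    exact ⟨h.cont, h.boundary, h.glue, h.inj⟩
  · exact (startPB hM hL hh A hbox).isLabel hF ht₀

end Global

theorem isFam_holeSq (G : CappedGrope) :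
    IsFam (fun j : Fin G.genera.length => holeSq G j) where
  isSq j := (isSq_holeSq G (le_L_of (s := 0) j.2)).1
  int j := (isSq_holeSq G (le_L_of (s := 0) j.2)).2
  disj j k x y h := by
    have h1 : vert (holeSq G j) (x, Disc.zero) = vert (holeSq G k) (y, Disc.zero) := by
      simp only [vert, h]
    exact Fin.ext (hole_disj (le_L_of (s := 0) j.2) (le_L_of (s := 0) k.2) h1).1

end Start

/-- **The initial system is realized by a labelled system of three-legged branches**, if the outer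
stage can be split. -/
theorem exists_rzSep_start {G : CappedGrope} (T : ThetaDatum G.L) {L : Fin 3 → Q → Q}
    (hL : IsLegs L) {ix : Bool → Fin 3} {M : ℕ} (hM : 2 * G.plumbings.length ≤ M)
    (A : ∀ j : Fin G.genera.length, StartSplit T.leg T.sq M L ix
      (fun k : Fin (G.genera.get j) => T.sq false k))
    {Γ : Type} [Group Γ] (c : Coc G.Thickening Γ) :
    ∃ S : LabSys Γ, RzSep G.attach c L S :=
  Start.exists_start hM hL (Start.isFam_holeSq G) A (D₀ := initDarts T) (fun _ _ => rfl)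
    (isReal_init T) c

end Vale.Agent.P215.Am
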