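import Vale.Agent.P215.Am.Basic

/-!
# P215, route A: singular systems, labels, pull-back, the final step

* `Darts K`: disjoint boxes indexed by `K`, with a fixed point free involution of `K`;
* `IsReal e S F`: the continuous map `F : Q → X` realizes `S` over the attaching map `e`;
* `IsLabel c S F t`: the labels of the double points, for a path cocycle `c`;
* `PullBack S J`: a morphism of the cube which is transverse to the boxes of `S`;
  `PullBack.darts`, `PullBack.isReal`, `PullBack.isLabel`;
* `exists_framedDisc`: a realization with vertical boxes and trivial labels is a framed immersed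
  disc which kills `φ`.
-/

noncomputable section

namespace Vale.Agent.P215.Am

open Vale.Agent.P215.H788 Set Topology unitInterval

/-- Disjoint boxes, paired by a fixed point free involution. -/
structure Darts (K : Type) where
  /-- the involution -/
  flip : K → K
  flip_flip : ∀ k, flip (flip k) = k
  flip_ne : ∀ k, flip k ≠ k
  /-- the boxes -/
  box : K → Q → Q
  isBox : ∀ k, IsBox (box k)
  disj : ∀ k l p q, box k p = box l q → k = l

section Real

variable {X : Type} [TopologicalSpace X] (e : Circ × Disc → X) {K : Type} (S : Darts K)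
  (F : Q → X)

/-- `F` is a singular system with the boxes `S`. -/
structure IsReal : Prop where
  cont : Continuous F
  boundary : ∀ (z : Circ) (v : Disc), F (z.toDisc, v) = e (z, v)
  glue : ∀ k x y, F (S.box k (x, y)) = F (S.box (S.flip k) (y, x))
  inj : ∀ p q, F p = F q → p = q ∨ ∃ k x y, p = S.box k (x, y) ∧ q = S.box (S.flip k) (y, x)

end Real

/-! ### Contractibility of the cube -/

instance : ContractibleSpace Disc :=
  (convex_closedBall (0 : ℝ × ℝ) 1).contractibleSpace ⟨0, by simp⟩

instance : SimplyConnectedSpace Q := by infer_instance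

section Label

/-- The labels of the double points of a singular system. -/
def IsLabel {X : Type} [TopologicalSpace X] {Γ : Type} [Group Γ] (c : Coc X Γ) {K : Type}
    (S : Darts K) (F : Q → X) (t : K → Γ) : Prop :=
  ∃ h : Q → Γ, IsPot c F h ∧ ∀ k x y, h (S.box k (x, y)) = t k * h (S.box (S.flip k) (y, x))

variable {X : Type} [TopologicalSpace X] {e : Circ × Disc → X} {K : Type} {S : Darts K}
  {F : Q → X} {Γ : Type} [Group Γ] {c : Coc X Γ}

theorem IsReal.exists_isLabel (hF : IsReal e S F) : ∃ t : K → Γ, IsLabel c S F t := by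
  obtain ⟨h, hp, -⟩ := exists_isPot c F hF.cont (Disc.zero, Disc.zero) 1
  let o : Q := (Disc.zero, Disc.zero)
  refine ⟨fun k => h (S.box k o) * (h (S.box (S.flip k) o))⁻¹, h, hp, ?_⟩
  intro k x y
  have h1 : IsPot c (F ∘ S.box k) (h ∘ S.box k) := hp.comp hF.cont (S.isBox k).cont
  have h2 : IsPot c (F ∘ (S.box (S.flip k) ∘ Prod.swap)) (h ∘ (S.box (S.flip k) ∘ Prod.swap)) :=
    hp.comp hF.cont ((S.isBox _).cont.comp continuous_swap)
  have h3 : F ∘ (S.box (S.flip k) ∘ Prod.swap) = F ∘ S.box k := by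
    funext ⟨x, y⟩
    exact (hF.glue k x y).symm
  rw [h3] at h2
  have h4 := h2.unique (hF.cont.comp (S.isBox k).cont) h1 o (x, y)
  simp only [Function.comp_apply, Prod.swap] at h4
  change h (S.box k (x, y)) * (h (S.box (S.flip k) (y, x)))⁻¹ = h (S.box k o) *
    (h (S.box (S.flip k) o))⁻¹ at h4
  simp only
  rw [← h4, inv_mul_cancel_right]

theorem IsLabel.flip {t : K → Γ} (ht : IsLabel c S F t) (k : K) : t (S.flip k) = (t k)⁻¹ := by
  obtain ⟨h, -, h1⟩ := ht
  have h2 := h1 k Disc.zero Disc.zero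
  have h3 := h1 (S.flip k) Disc.zero Disc.zero
  rw [S.flip_flip, h2, ← mul_assoc, eq_comm, mul_eq_right] at h3
  exact eq_inv_of_mul_eq_one_left h3

end Label

/-! ### Pull-back -/

/-- A morphism which is transverse to the boxes of `S`. -/
structure PullBack {K : Type} (S : Darts K) (J : Type) where
  /-- the morphism -/
  ψ : Q → Q
  mor : IsMor ψ
  /-- the box of `S` over which a box lies -/
  foot : J → K
  /-- the boxes -/
  box : J → Q → Q
  /-- the position of the second factor -/
  f : J → Disc → Disc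
  isBox : ∀ j, IsBox (box j)
  isSq : ∀ j, IsSq (f j)
  disj : ∀ i j p q, box i p = box j q → i = j
  spec : ∀ j x y, ψ (box j (x, y)) = S.box (foot j) (x, f j y)
  cover : ∀ k p q, ψ p = S.box k q → ∃ j r, foot j = k ∧ p = box j r

namespace PullBack

variable {K : Type} {S : Darts K} {J : Type} (Ψ : PullBack S J)

/-- The index set of the new boxes. -/
abbrev Idx : Type := {ij : J × J // Ψ.foot ij.2 = S.flip (Ψ.foot ij.1)}

theorem f_disj {i j : J} (hij : Ψ.foot i = Ψ.foot j) {x y : Disc} (h : Ψ.f i x = Ψ.f j y) :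
    i = j := by
  have h1 := Ψ.spec i Disc.zero x
  have h2 := Ψ.spec j Disc.zero y
  rw [hij, h, ← h2] at h1
  exact Ψ.disj _ _ _ _ (Ψ.mor.inj h1)

/-- The new boxes. -/
def darts : Darts Ψ.Idx where
  flip ij := ⟨(ij.1.2, ij.1.1), by
    have h := ij.2
    simp only
    rw [h, S.flip_flip]⟩
  flip_flip _ := rfl
  flip_ne ij h := by
    have h1 := congrArg (fun z : Ψ.Idx => z.1.1) h
    simp only at h1
    have h2 := ij.2
    rw [h1] at h2
    exact S.flip_ne _ h2.symm
  box ij p := Ψ.box ij.1.1 (Ψ.f ij.1.2 p.1, p.2)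
  isBox ij := (Ψ.isBox ij.1.1).comp_sq (Ψ.isSq ij.1.2)
  disj := by
    rintro ⟨⟨i, j⟩, hij⟩ ⟨⟨i', j'⟩, hij'⟩ p q h
    simp only at h hij hij'
    have h1 := Ψ.disj _ _ _ _ h
    subst h1
    have h2 := (Ψ.isBox i).inj h
    simp only [Prod.mk.injEq] at h2
    have h3 := Ψ.f_disj (hij.trans hij'.symm) h2.1
    subst h3
    rfl

theorem darts_box (ij : Ψ.Idx) (p : Q) :
    Ψ.darts.box ij p = Ψ.box ij.1.1 (Ψ.f ij.1.2 p.1, p.2) := rfl

theorem spec' (ij : Ψ.Idx) (x y : Disc) :
    Ψ.ψ (Ψ.darts.box ij (x, y)) = S.box (Ψ.foot ij.1.1) (Ψ.f ij.1.2 x, Ψ.f ij.1.1 y) := by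
  rw [darts_box, Ψ.spec]

theorem spec_flip (ij : Ψ.Idx) (x y : Disc) :
    Ψ.ψ (Ψ.darts.box (Ψ.darts.flip ij) (y, x)) =
      S.box (S.flip (Ψ.foot ij.1.1)) (Ψ.f ij.1.1 y, Ψ.f ij.1.2 x) := by
  rw [spec']
  change S.box (Ψ.foot ij.1.2) (Ψ.f ij.1.1 y, Ψ.f ij.1.2 x) = _
  rw [ij.2]

variable {X : Type} [TopologicalSpace X] {e : Circ × Disc → X} {F : Q → X}

/-- **Pull-back of singular systems.** -/
theorem isReal (hF : IsReal e S F) : IsReal e Ψ.darts (F ∘ Ψ.ψ) where
  cont := hF.cont.comp Ψ.mor.cont
  boundary z v := by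
    rw [Function.comp_apply, Ψ.mor.bd _ _ (nm_circ z), hF.boundary]
  glue ij x y := by
    rw [Function.comp_apply, Function.comp_apply, spec', spec_flip, hF.glue]
  inj p q h := by
    rcases hF.inj _ _ h with h1 | ⟨k, x, y, h1, h2⟩
    · exact Or.inl (Ψ.mor.inj h1)
    · right
      obtain ⟨i, ⟨a, b⟩, hi, hp⟩ := Ψ.cover _ _ _ h1
      obtain ⟨j, ⟨a', b'⟩, hj, hq⟩ := Ψ.cover _ _ _ h2
      rw [hp, Ψ.spec, hi] at h1
      rw [hq, Ψ.spec, hj] at h2
      have h3 := (S.isBox k).inj h1
      have h4 := (S.isBox _).inj h2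
      simp only [Prod.mk.injEq] at h3 h4
      refine ⟨⟨(i, j), by simp only; rw [hi, hj]⟩, b', b, ?_, ?_⟩
      · rw [hp, darts_box]
        simp only
        rw [h3.1, h4.2]
      · rw [hq, darts_box]
        change Ψ.box j (a', b') = Ψ.box j (Ψ.f i b, b')
        rw [h4.1, h3.2]

/-- **The labels of the pulled back system.** -/
theorem isLabel {Γ : Type} [Group Γ] {c : Coc X Γ} (hF : IsReal e S F) {t : K → Γ}
    (ht : IsLabel c S F t) : IsLabel c Ψ.darts (F ∘ Ψ.ψ) (fun ij => t (Ψ.foot ij.1.1)) := by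
  obtain ⟨h, hp, h1⟩ := ht
  refine ⟨h ∘ Ψ.ψ, hp.comp hF.cont Ψ.mor.cont, ?_⟩
  intro ij x y
  rw [Function.comp_apply, Function.comp_apply, spec', spec_flip, h1]

end PullBack

/-! ### Push-off data -/

/-- The local data of the contraction with push-off of a piece with the leg boxes `β i` along the
legs `A`, `B`: the new disc `κ₀`, and the sheets `TA`, `TB` which replace the sheets through the
legs `A`, `B`.  The sheets `TA` and `TB` cross in `n` plumbings. -/
structure PushDatum {L : Type} (β : L → Q → Q) (A B : L) where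
  /-- the number of crossings -/
  n : ℕ
  n_pos : 0 < n
  /-- the new disc -/
  κ₀ : Q → Q
  mor : IsMor κ₀
  /-- the new sheet through the leg `A` -/
  TA : Q → Q
  /-- the new sheet through the leg `B` -/
  TB : Q → Q
  cont_TA : Continuous TA
  inj_TA : Function.Injective TA
  cont_TB : Continuous TB
  inj_TB : Function.Injective TB
  TA_bd : ∀ a x, nm x = 1 → TA (a, x) = β A (a, x)
  TB_bd : ∀ a x, nm x = 1 → TB (a, x) = β B (a, x)
  κ₀_TA : ∀ p q, κ₀ p ≠ TA q
  κ₀_TB : ∀ p q, κ₀ p ≠ TB q
  κ₀_miss : ∀ C, C ≠ A → C ≠ B → ∀ p q, κ₀ p ≠ β C q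
  TA_miss : ∀ C, C ≠ A → C ≠ B → ∀ p q, TA p ≠ β C q
  TB_miss : ∀ C, C ≠ A → C ≠ B → ∀ p q, TB p ≠ β C q
  /-- the positions of the crossings in the sheet `TA` -/
  f : Fin n → Disc → Disc
  /-- the positions of the crossings in the sheet `TB` -/
  f' : Fin n → Disc → Disc
  isSq_f : ∀ k, IsSq (f k)
  isSq_f' : ∀ k, IsSq (f' k)
  f_disj : ∀ k l x y, f k x = f l y → k = l
  f'_disj : ∀ k l x y, f' k x = f' l y → k = l
  cross : ∀ a x b y, TA (a, x) = TB (b, y) ↔ ∃ k, x = f k b ∧ y = f' k a

/-! ### The final step -/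

/-- **A realization with vertical boxes and trivial labels is a framed immersed disc whose double
point loops are killed.** -/
theorem exists_framedDisc {X : Type} [TopologicalSpace X] {e : Circ × Disc → X} {K : Type}
    [Finite K] {S : Darts K} {F : Q → X} (hF : IsReal e S F) (a : K → Disc → Disc)
    (ha : ∀ k x y, S.box k (x, y) = (a k x, y)) {x₀ : X} {Γ : Type} [Group Γ]
    (φ : FundamentalGroup X x₀ →* Γ) (ht : IsLabel (Coc.ofHom φ) S F (fun _ => 1)) :
    ∃ D : FramedDisc X e, D.Kills φ := by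
  classical
  obtain ⟨N, ⟨enc⟩⟩ := Finite.exists_equiv_fin K
  let T : Set K := {k | enc k < enc (S.flip k)}
  obtain ⟨n, ⟨num⟩⟩ := Finite.exists_equiv_fin T
  have hcont : ∀ k, Continuous (a k) := by
    intro k
    have h1 : a k = fun x => (S.box k (x, Disc.zero)).1 := by
      funext x
      rw [ha]
    rw [h1]
    exact continuous_fst.comp ((S.isBox k).cont.comp (by fun_prop))
  have hinj : ∀ k l u v, a k u = a l v → k = l ∧ u = v := by
    intro k l u v h
    have h1 : S.box k (u, Disc.zero) = S.box l (v, Disc.zero) := by rw [ha, ha, h]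
    have h2 := S.disj _ _ _ _ h1
    subst h2
    have h3 := (S.isBox k).inj h1
    simp only [Prod.mk.injEq, and_true] at h3
    exact ⟨rfl, h3⟩
  have hint : ∀ k u, ‖((a k u : Disc) : ℝ × ℝ)‖ < 1 := by
    intro k u
    have h1 := (S.isBox k).mem (u, Disc.zero)
    rw [ha] at h1
    exact h1
  have hdich : ∀ k, k ∈ T ∨ S.flip k ∈ T := by
    intro k
    rcases lt_or_ge (enc k) (enc (S.flip k)) with h | h
    · exact Or.inl h
    · right
      change enc (S.flip k) < enc (S.flip (S.flip k))
      rw [S.flip_flip]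
      refine lt_of_le_of_ne h ?_
      intro h2
      exact S.flip_ne k (enc.injective h2)
  let ix : Fin n → K := fun i => (num.symm i : T)
  have hix : ∀ i, ix i ∈ T := fun i => (num.symm i).2
  have hixinj : ∀ i j, ix i = ix j → i = j := by
    intro i j h
    exact num.symm.injective (Subtype.ext h)
  have hTflip : ∀ k l, k ∈ T → l ∈ T → k ≠ S.flip l := by
    rintro k l hk hl rfl
    change enc (S.flip l) < enc (S.flip (S.flip l)) at hk
    rw [S.flip_flip] at hk
    exact lt_asymm hk hl
  have hflipinj : ∀ k l, S.flip k = S.flip l → k = l := by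
    intro k l h
    rw [← S.flip_flip k, h, S.flip_flip]
  let D : FramedDisc X e :=
    { map := F
      continuous_map := hF.cont
      boundary := hF.boundary
      n := n
      a := fun i => a (ix i)
      b := fun i => a (S.flip (ix i))
      continuous_a := fun i => hcont _
      continuous_b := fun i => hcont _
      interior_a := fun i u => hint _ _
      interior_b := fun i u => hint _ _
      injective_a := by
        intro i j u v h
        obtain ⟨h1, h2⟩ := hinj _ _ _ _ h
        exact ⟨hixinj _ _ h1, h2⟩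
      injective_b := by
        intro i j u v h
        obtain ⟨h1, h2⟩ := hinj _ _ _ _ h
        exact ⟨hixinj _ _ (hflipinj _ _ h1), h2⟩
      disjoint_a_b := by
        intro i j u v h
        obtain ⟨h1, h2⟩ := hinj _ _ _ _ h
        exact hTflip _ _ (hix i) (hix j) h1
      plumb := by
        intro i u v
        rw [← ha, ← ha]
        exact hF.glue _ _ _
      injective_map := by
        intro p q h
        rcases hF.inj _ _ h with h1 | ⟨k, x, y, h1, h2⟩
        · exact Or.inl h1
        · right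
          rw [ha] at h1 h2
          rcases hdich k with hk | hk
          · refine ⟨num ⟨k, hk⟩, x, y, Or.inl ?_⟩
            have h3 : ix (num ⟨k, hk⟩) = k := by simp [ix]
            rw [h3]
            exact ⟨h1, h2⟩
          · refine ⟨num ⟨S.flip k, hk⟩, y, x, Or.inr ?_⟩
            have h3 : ix (num ⟨S.flip k, hk⟩) = S.flip k := by simp [ix]
            rw [h3, S.flip_flip]
            exact ⟨h2, h1⟩ }
  refine ⟨D, ?_⟩
  intro i c' l
  apply map_conj_eq_one
  obtain ⟨h, hp, h1⟩ := ht
  have h2 := hp hF.cont l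
  have h3 : h (D.fst i) = h (D.snd i) := by
    have h4 := h1 (ix i) Disc.zero Disc.zero
    rw [one_mul, ha, ha] at h4
    exact h4
  rw [h3, inv_mul_cancel] at h2
  rw [FramedDisc.doublePointLoop, Coc.cast]
  exact h2

end Vale.Agent.P215.Am
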