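import Vale.Agent.P215.Am.ThDefs

/-!
# P215, route A: the map of the cube to the handle block, values on the region `A`
-/

noncomputable section

namespace Vale.Agent.P215.Am.Th

theorem mu_nonneg {x y : ℝ} (hx1 : x ≤ 1) (hy1 : y ≤ 1) : 0 ≤ mu x y :=
  le_min (by linarith) (by linarith)

theorem le_of_mu (x y : ℝ) : x ≤ 1 - mu x y / 8 ∧ y ≤ 1 - mu x y / 16 := by
  have h1 : mu x y ≤ 8 * (1 - x) := min_le_left _ _
  have h2 : mu x y ≤ 16 * (1 - y) := min_le_right _ _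
  exact ⟨by linarith, by linarith⟩

theorem mu_cases (x y : ℝ) : x = 1 - mu x y / 8 ∨ y = 1 - mu x y / 16 := by
  rcases min_choice (8 * (1 - x)) (16 * (1 - y)) with h | h
  · left; rw [mu, h]; ring
  · right; rw [mu, h]; ring

theorem Kp_ge {y : ℝ} (hy : 0 ≤ y) (hy1 : y ≤ 1) : y ≤ Kp y := by
  unfold Kp KK
  have h1 : y ≤ max (min (2 * y) (y + 5 / 16)) (4 * y - 7 / 4) :=
    (le_min (by linarith) (by linarith)).trans (le_max_left _ _)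
  refine le_min (by linarith) (le_min ?_ ?_) <;> linarith

theorem Kp_le (y : ℝ) : Kp y ≤ 2 := min_le_left _ _

theorem B1_ge (x h : ℝ) : 1 ≤ B1 x h := by
  unfold B1
  have : max (-2) (min 2 (F1 ((3 + h) / 4) (4 * x - 1 - h))) ≤ 2 :=
    max_le (by norm_num) (min_le_left _ _)
  linarith

theorem B1_le (x h : ℝ) : B1 x h ≤ 3 := by
  unfold B1
  have : -2 ≤ max (-2) (min 2 (F1 ((3 + h) / 4) (4 * x - 1 - h))) := le_max_left _ _
  linarith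

theorem tp_ge {x y h : ℝ} (hx1 : x ≤ 1) (hy : 0 ≤ y) (hy1 : y ≤ 1)
    (hm : mu x y ≤ 1) : y / 2 ≤ tp (mu x y) x y h := by
  have h0 := mu_nonneg hx1 hy1
  have h1 := B1_ge x h
  have h2 := Kp_ge hy hy1
  unfold tp
  refine le_add_of_le_of_nonneg ((?_ : y / 2 ≤ _).trans (le_max_left _ _))
    (mul_nonneg h0 (by linarith))
  nlinarith

theorem tp_mem {x y h : ℝ} (hx : 0 ≤ x) (hx1 : x ≤ 1) (hy : 0 ≤ y) (hy1 : y ≤ 1)
    (hm : mu x y ≤ 1) (h0 : 3 / 4 ≤ h) (h1 : h ≤ 1) :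
    0 ≤ tp (mu x y) x y h ∧ tp (mu x y) x y h ≤ 3 := by
  refine ⟨by linarith [tp_ge (h := h) hx1 hy hy1 hm], ?_⟩
  have hm0 := mu_nonneg hx1 hy1
  have h2 := B1_le x h
  have h3 := Kp_le y
  obtain ⟨h4, h5⟩ := le_of_mu x y
  unfold tp
  have h6 : max (((1 - mu x y) * y + mu x y * Kp y) / 2) (2 * y - 3 / 2 + 5 * mu x y / 8) ≤ 1 :=
    max_le (by nlinarith) (by linarith)
  have h7 : mu x y * (B1 x h - 1) ≤ 2 := by nlinarith [B1_ge x h]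
  linarith

theorem G2_ge' {x h : ℝ} (hx : 0 ≤ x) (h1 : h ≤ 1) : x ≤ G2 x h :=
  le_min (by linarith) (by linarith)

theorem ts_ge {x y h : ℝ} (hx : 0 ≤ x) (hx1 : x ≤ 1) (hy1 : y ≤ 1) (h1 : h ≤ 1) :
    x / 2 ≤ ts (mu x y) x h := by
  have h0 := mu_nonneg hx1 hy1
  have h2 : x ≤ min 1 (G2 x h) := le_min hx1 (G2_ge' hx h1)
  refine (?_ : x / 2 ≤ _).trans (le_max_left _ _)
  nlinarith

theorem ts_mem {x y h : ℝ} (hx : 0 ≤ x) (hx1 : x ≤ 1) (hy : 0 ≤ y) (hy1 : y ≤ 1)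
    (hm : mu x y ≤ 1) (h0 : 3 / 4 ≤ h) (h1 : h ≤ 1) :
    0 ≤ ts (mu x y) x h ∧ ts (mu x y) x h ≤ 1 := by
  refine ⟨by linarith [ts_ge hx hx1 hy1 h1], ?_⟩
  have hm0 := mu_nonneg hx1 hy1
  obtain ⟨h4, h5⟩ := le_of_mu x y
  have h2 : min 1 (G2 x h) ≤ 1 := min_le_left _ _
  exact max_le (by nlinarith) (by linarith)

theorem tpts_root {x y h : ℝ} (hx : 0 ≤ x) (hx1 : x ≤ 1) (hy : 0 ≤ y) (hy1 : y ≤ 1)
    (hm : mu x y ≤ 1) (h0 : 3 / 4 ≤ h) (h1 : h ≤ 1) :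
    1 / 2 ≤ tp (mu x y) x y h ∨ 1 / 2 ≤ ts (mu x y) x h := by
  have hm0 := mu_nonneg hx1 hy1
  rcases mu_cases x y with h2 | h2
  · right
    refine (?_ : (1 : ℝ) / 2 ≤ _).trans (le_max_right _ _)
    linarith
  · left
    refine le_add_of_le_of_nonneg ((?_ : (1 : ℝ) / 2 ≤ _).trans (le_max_right _ _))
      (mul_nonneg hm0 (by linarith [B1_ge x h]))
    linarith

theorem tp_eq_zero {x y h : ℝ} (hx : 0 ≤ x) (hx1 : x ≤ 1) (hy : 0 ≤ y) (hy1 : y ≤ 1)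
    (hm : mu x y ≤ 1) (h0 : 3 / 4 ≤ h) (h1 : h ≤ 1) (e : tp (mu x y) x y h = 0) : y = 0 := by
  linarith [tp_ge (h := h) hx1 hy hy1 hm]

theorem ts_eq_zero {x y h : ℝ} (hx : 0 ≤ x) (hx1 : x ≤ 1) (hy : 0 ≤ y) (hy1 : y ≤ 1)
    (hm : mu x y ≤ 1) (h0 : 3 / 4 ≤ h) (h1 : h ≤ 1) (e : ts (mu x y) x h = 0) : x = 0 := by
  linarith [ts_ge hx hx1 hy1 h1]

theorem RA_x {y z : ℝ} (hy : 0 ≤ y) (hy1 : y ≤ 1) (hz : -1 ≤ z) (hz1 : z ≤ 1) :
    RA 1 y z = ((1, y / 2), (1, 1 / 2), z) := by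
  have h1 : mu 1 y = 0 := by
    unfold mu
    rw [min_eq_left (by linarith)]
    norm_num
  have h2 : tp 0 1 y (hA z) = y / 2 := by
    unfold tp
    rw [max_eq_left (by linarith)]
    ring
  have h3 : ts 0 1 (hA z) = 1 / 2 := by
    unfold ts
    rw [max_eq_left (by linarith)]
    ring
  unfold RA
  rw [h1, h2, h3, min_eq_left (by linarith), min_eq_left (by linarith)]

theorem RA_y {x z : ℝ} (hx : 0 ≤ x) (hx1 : x ≤ 1) (hz : -1 ≤ z) (hz1 : z ≤ 1) :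
    RA x 1 z = ((1, 1 / 2), (1, x / 2), z) := by
  have h1 : mu x 1 = 0 := by
    unfold mu
    rw [min_eq_right (by linarith)]
    norm_num
  have h2 : tp 0 x 1 (hA z) = 1 / 2 := by
    unfold tp
    rw [max_eq_left (by linarith)]
    ring
  have h3 : ts 0 x (hA z) = x / 2 := by
    unfold ts
    rw [max_eq_left (by linarith)]
    ring
  unfold RA
  rw [h1, h2, h3, min_eq_left (by norm_num), min_eq_left (by norm_num)]

end Vale.Agent.P215.Am.Th
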