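import Vale.Agent.P215.Am.ThH
import Vale.Agent.P215.Am.ThA2

/-!
# P215, route A: the map of the cube to the handle block, injectivity on the region `A`
-/

set_option linter.unusedVariables false

noncomputable section

namespace Vale.Agent.P215.Am.Th

namespace AI

/-- The denominator. -/
theorem F1_eq {x h : ℝ} (h0 : 3 / 4 ≤ h) (h1 : h ≤ 1) :
    F1 ((3 + h) / 4) (4 * x - 1 - h) =
      min (16 * (4 * x - 1 - h) - 4) (1 + (4 * x - 1 - h - 5 / 16) / (35 / 16 - h)) := by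
  unfold F1
  have : max (1 : ℝ) (83 / 16 - 4 * ((3 + h) / 4)) = 35 / 16 - h := by
    rw [max_eq_right (by linarith)]
    ring
  rw [this]

theorem F1_ge_two {x h : ℝ} (h0 : 3 / 4 ≤ h) (h1 : h ≤ 1) (hx : 7 / 8 ≤ x) :
    2 ≤ F1 ((3 + h) / 4) (4 * x - 1 - h) := by
  rw [F1_eq h0 h1]
  have hd : 0 < 35 / 16 - h := by linarith
  have h2 : 1 ≤ (4 * x - 1 - h - 5 / 16) / (35 / 16 - h) := by
    rw [le_div_iff₀ hd]
    linarith
  exact le_min (by linarith) (by linarith)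

theorem F1_lt_two {x h : ℝ} (h0 : 3 / 4 ≤ h) (h1 : h ≤ 1) (hx : x < 7 / 8) :
    F1 ((3 + h) / 4) (4 * x - 1 - h) < 2 := by
  rw [F1_eq h0 h1]
  have hd : 0 < 35 / 16 - h := by linarith
  have h2 : (4 * x - 1 - h - 5 / 16) / (35 / 16 - h) < 1 := by
    rw [div_lt_one hd]
    linarith
  exact (min_le_right _ _).trans_lt (by linarith)

theorem F1_ge_neg_two {x h : ℝ} (h0 : 3 / 4 ≤ h) (h1 : h ≤ 1) (hx : (h + 9 / 8) / 4 ≤ x) :
    -2 ≤ F1 ((3 + h) / 4) (4 * x - 1 - h) := by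
  rw [F1_eq h0 h1]
  have hd : 0 < 35 / 16 - h := by linarith
  have h2 : -3 ≤ (4 * x - 1 - h - 5 / 16) / (35 / 16 - h) := by
    rw [le_div_iff₀ hd]
    linarith
  exact le_min (by linarith) (by linarith)

theorem B1_right {x h : ℝ} (h0 : 3 / 4 ≤ h) (h1 : h ≤ 1) (hx : 7 / 8 ≤ x) : B1 x h = 1 := by
  unfold B1
  rw [min_eq_left (F1_ge_two h0 h1 hx), max_eq_right (by norm_num)]
  norm_num

theorem B1_antitone {x x' h : ℝ} (hx : x ≤ x') : B1 x' h ≤ B1 x h := by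
  unfold B1
  have h2 : F1 ((3 + h) / 4) (4 * x - 1 - h) ≤ F1 ((3 + h) / 4) (4 * x' - 1 - h) := by
    rcases hx.eq_or_lt with h3 | h3
    · rw [h3]
    · exact (F1_strictMono (by linarith)).le
  have h3 : max (-2) (min 2 (F1 ((3 + h) / 4) (4 * x - 1 - h))) ≤
      max (-2) (min 2 (F1 ((3 + h) / 4) (4 * x' - 1 - h))) :=
    max_le_max le_rfl (min_le_min le_rfl h2)
  linarith

theorem B1_one {x h : ℝ} (h0 : 3 / 4 ≤ h) (h1 : h ≤ 1) (e : B1 x h ≤ 1) : 7 / 8 ≤ x := by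
  by_contra hx
  push Not at hx
  have h2 := F1_lt_two h0 h1 hx
  unfold B1 at e
  have h3 : max (-2) (min 2 (F1 ((3 + h) / 4) (4 * x - 1 - h))) < 2 := by
    refine max_lt (by norm_num) ?_
    exact (min_le_right _ _).trans_lt h2
  linarith

theorem B1_strict {x x' h : ℝ} (h0 : 3 / 4 ≤ h) (h1 : h ≤ 1) (hx : (h + 9 / 8) / 4 ≤ x)
    (hxx : x < x') (hx' : x' ≤ 7 / 8) : B1 x' h < B1 x h := by
  have e1 := F1_ge_neg_two h0 h1 hx
  have e2 := F1_lt_two h0 h1 (hxx.trans_le hx')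
  have e3 : F1 ((3 + h) / 4) (4 * x - 1 - h) < F1 ((3 + h) / 4) (4 * x' - 1 - h) :=
    F1_strictMono (by linarith)
  unfold B1
  rw [min_eq_right e2.le, max_eq_right e1]
  have h3 : F1 ((3 + h) / 4) (4 * x - 1 - h) <
      max (-2) (min 2 (F1 ((3 + h) / 4) (4 * x' - 1 - h))) :=
    lt_of_lt_of_le (lt_min e2 e3) (le_max_right _ _)
  linarith

/-- `Kp` is increasing -/
theorem Kp_mono {y y' : ℝ} (h : y ≤ y') : Kp y ≤ Kp y' := by unfold Kp KK; grind

theorem Kp_strict {y y' : ℝ} (h : y < y') (h' : y' ≤ 15 / 16) : Kp y < Kp y' := by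
  unfold Kp KK; grind

theorem Kp_eq_two {y : ℝ} (h : 2 ≤ Kp y) : 15 / 16 ≤ y := by
  unfold Kp KK at h; grind

/-- The right part. -/
theorem ts_right {x m h : ℝ} (hm : 0 ≤ m) (hm1 : m ≤ 1) (hx1 : x ≤ 1) (e : x = 1 - m / 8) :
    ts m x h = (1 + m) / 2 := by
  unfold ts
  have h2 : min 1 (G2 x h) ≤ 1 := min_le_left _ _
  rw [max_eq_right]
  · rw [e]; ring
  · nlinarith

theorem tp_right_le {x y m h : ℝ} (h0 : 3 / 4 ≤ h) (h1 : h ≤ 1) (hm : 0 ≤ m) (hm1 : m ≤ 1)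
    (hy : 0 ≤ y) (hy1 : y ≤ 1 - m / 16) (hx : 7 / 8 ≤ x) : tp m x y h ≤ (1 + m) / 2 := by
  unfold tp
  rw [B1_right h0 h1 hx]
  have h3 := Kp_le y
  have h4 : max (((1 - m) * y + m * Kp y) / 2) (2 * y - 3 / 2 + 5 * m / 8) ≤ (1 + m) / 2 :=
    max_le (by nlinarith) (by linarith)
  linarith

/-- equality on the right part only at the corner -/
theorem tp_right_eq {x y m h : ℝ} (h0 : 3 / 4 ≤ h) (h1 : h ≤ 1) (hm : 0 ≤ m) (hm1 : m ≤ 1)
    (hy : 0 ≤ y) (hy1 : y ≤ 1 - m / 16) (hx : 7 / 8 ≤ x) (e : (1 + m) / 2 ≤ tp m x y h) :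
    y = 1 - m / 16 := by
  unfold tp at e
  rw [B1_right h0 h1 hx] at e
  have h3 := Kp_le y
  rcases le_total (((1 - m) * y + m * Kp y) / 2) (2 * y - 3 / 2 + 5 * m / 8) with h4 | h4
  · rw [max_eq_right h4] at e
    linarith
  · rw [max_eq_left h4] at e
    rcases hm1.eq_or_lt with h5 | h5
    · subst h5
      have := Kp_eq_two (by linarith : 2 ≤ Kp y)
      linarith
    · have h6 : (1 - m) * (1 - y) + m * (2 - Kp y) ≤ 0 := by nlinarith
      have h7 : 0 ≤ m * (2 - Kp y) := mul_nonneg hm (by linarith)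
      have h8 : (1 - m) * (1 - y) ≤ 0 := by linarith
      have h9 : 1 - y ≤ 0 := by
        by_contra h10
        push Not at h10
        have := mul_pos (by linarith : 0 < 1 - m) h10
        linarith
      linarith

theorem tp_right_strict {x m y y' h : ℝ} (h0 : 3 / 4 ≤ h) (h1 : h ≤ 1) (hm : 0 ≤ m)
    (hm1 : m ≤ 1) (hy : y < y') (hy1 : y' ≤ 1 - m / 16) : tp m x y h < tp m x y' h := by
  unfold tp
  have h2 : ((1 - m) * y + m * Kp y) / 2 < ((1 - m) * y' + m * Kp y') / 2 := by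
    rcases hm1.eq_or_lt with h5 | h5
    · subst h5
      have := Kp_strict hy (by linarith)
      linarith
    · have h6 := Kp_mono hy.le
      have h7 : (1 - m) * y < (1 - m) * y' := mul_lt_mul_of_pos_left hy (by linarith)
      nlinarith
  have h3 : max (((1 - m) * y + m * Kp y) / 2) (2 * y - 3 / 2 + 5 * m / 8) <
      max (((1 - m) * y' + m * Kp y') / 2) (2 * y' - 3 / 2 + 5 * m / 8) :=
    max_lt_max h2 (by linarith)
  linarith

/-- The top part. -/
theorem tp_top {x y m h : ℝ} (hm : 0 ≤ m) (hm1 : m ≤ 1) (hy : 0 ≤ y) (e : y = 1 - m / 16) :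
    tp m x y h = (1 - m) / 2 + m * B1 x h := by
  unfold tp
  have h3 := Kp_le y
  rw [max_eq_right]
  · rw [e]; ring
  · have : (1 - m) * y ≤ (1 - m) * 1 := mul_le_mul_of_nonneg_left (by linarith) (by linarith)
    nlinarith

theorem ts_top_le {x m h : ℝ} (hm : 0 ≤ m) (hm1 : m ≤ 1) (hx1 : x ≤ 1 - m / 8) :
    ts m x h ≤ (1 + m) / 2 := by
  unfold ts
  have h2 : min 1 (G2 x h) ≤ 1 := min_le_left _ _
  exact max_le (by nlinarith) (by linarith)

/-- `min 1 G2` is increasing. -/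
theorem G_mono {x x' h : ℝ} (hx : x ≤ x') : min 1 (G2 x h) ≤ min 1 (G2 x' h) := by
  unfold G2; grind

theorem G_half {x h : ℝ} (hx : 0 ≤ x) (hx1 : x ≤ 1) (h1 : h ≤ 1) : x / 2 ≤ min 1 (G2 x h) := by
  unfold G2; grind

theorem G_strict {x x' h : ℝ} (hx : x < x') (e : min 1 (G2 x h) < 1) :
    min 1 (G2 x h) < min 1 (G2 x' h) := by
  unfold G2 at *; grind

theorem G_one {x h : ℝ} (h0 : 3 / 4 ≤ h) (e : 1 ≤ min 1 (G2 x h)) : (h + 9 / 8) / 4 ≤ x := by
  unfold G2 at *; grind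

theorem ts_strict_x {x x' m h : ℝ} (hm : 0 ≤ m) (hm1 : m < 1) (hx : x < x') :
    ts m x h < ts m x' h := by
  unfold ts
  have h2 : (1 - m) * x / 2 + m * min 1 (G2 x h) < (1 - m) * x' / 2 + m * min 1 (G2 x' h) := by
    have h6 := G_mono (h := h) hx.le
    have h7 : (1 - m) * x < (1 - m) * x' := mul_lt_mul_of_pos_left hx (by linarith)
    nlinarith
  exact max_lt_max h2 (by linarith)

theorem ts_mono_m {x m m' h : ℝ} (hx : 0 ≤ x) (hx1 : x ≤ 1) (h1 : h ≤ 1) (hm : m ≤ m') :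
    ts m x h ≤ ts m' x h := by
  unfold ts
  have h2 := G_half hx hx1 h1
  exact max_le_max (by nlinarith) (by linarith)

/-- both points in the top part, `m < m'` -/
theorem top_lt {x x' m m' h : ℝ} (h0 : 3 / 4 ≤ h) (h1 : h ≤ 1) (hm : 0 ≤ m) (hm1 : m' ≤ 1)
    (hmm : m < m') (hx : 0 ≤ x) (hx1 : x ≤ 1) (hx' : 0 ≤ x') (hx1' : x' ≤ 1)
    (e1 : (1 - m) / 2 + m * B1 x h = (1 - m') / 2 + m' * B1 x' h)
    (e2 : ts m x h = ts m' x' h) : False := by
  have hB := B1_ge x' h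
  have h2 : x < x' := by
    by_contra h3
    push Not at h3
    have h4 := B1_antitone (h := h) h3
    have hB' := B1_ge x h
    nlinarith
  have h3 := ts_strict_x (h := h) hm (hmm.trans_le hm1) h2
  have h4 := ts_mono_m (m := m) (m' := m') hx' hx1' h1 hmm.le
  linarith

/-- both points in the top part, `m = m'` -/
theorem top_eq {x x' m h : ℝ} (h0 : 3 / 4 ≤ h) (h1 : h ≤ 1) (hm : 0 ≤ m) (hm1 : m ≤ 1)
    (hx : x < x') (hx1' : x' ≤ 1 - m / 8)
    (e1 : (1 - m) / 2 + m * B1 x h = (1 - m) / 2 + m * B1 x' h)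
    (e2 : ts m x h = ts m x' h) : False := by
  rcases hm1.eq_or_lt with h5 | h5
  · subst h5
    have e3 : B1 x h = B1 x' h := by linarith
    have hx' : x' ≤ 7 / 8 := by linarith
    by_cases h6 : min 1 (G2 x h) < 1
    · have h7 := G_strict hx h6
      unfold ts at e2
      have h8 : max ((1 - 1) * x / 2 + 1 * min 1 (G2 x h)) (2 * x - 3 / 2 + 3 * 1 / 4) <
          max ((1 - 1) * x' / 2 + 1 * min 1 (G2 x' h)) (2 * x' - 3 / 2 + 3 * 1 / 4) :=
        max_lt_max (by linarith) (by linarith)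
      linarith
    · push Not at h6
      have h7 := B1_strict h0 h1 (G_one h0 h6) hx hx'
      linarith
  · exact (ts_strict_x hm h5 hx).ne e2

/-- a top point with `ts = (1 + m)/2` and `tp = (1 + m)/2` is the corner -/
theorem top_corner {x m h : ℝ} (h0 : 3 / 4 ≤ h) (h1 : h ≤ 1) (hm : 0 ≤ m) (hm1 : m ≤ 1)
    (hx1 : x ≤ 1 - m / 8) (e1 : (1 - m) / 2 + m * B1 x h ≤ (1 + m) / 2)
    (e2 : (1 + m) / 2 ≤ ts m x h) : x = 1 - m / 8 := by
  unfold ts at e2
  have hg : min 1 (G2 x h) ≤ 1 := min_le_left _ _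
  rcases le_total (((1 - m) * x) / 2 + m * min 1 (G2 x h)) (2 * x - 3 / 2 + 3 * m / 4) with h4 | h4
  · rw [max_eq_right h4] at e2
    linarith
  · rw [max_eq_left h4] at e2
    rcases hm1.eq_or_lt with h5 | h5
    · subst h5
      have := B1_one h0 h1 (by linarith : B1 x h ≤ 1)
      linarith
    · have h7 : 0 ≤ m * (1 - min 1 (G2 x h)) := mul_nonneg hm (by linarith)
      have h8 : (1 - m) * (1 - x) ≤ 0 := by nlinarith
      have h9 : 1 - x ≤ 0 := by
        by_contra h10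
        push Not at h10
        have := mul_pos (by linarith : 0 < 1 - m) h10
        linarith
      linarith

/-- a right point and a top point -/
theorem right_top {x y x' y' m m' h : ℝ} (h0 : 3 / 4 ≤ h) (h1 : h ≤ 1) (hm : 0 ≤ m)
    (hm1 : m ≤ 1) (hm' : 0 ≤ m') (hm1' : m' ≤ 1) (hy : 0 ≤ y) (hy' : 0 ≤ y')
    (hy1 : y ≤ 1 - m / 16) (ex : x = 1 - m / 8) (hx1' : x' ≤ 1 - m' / 8) (ey : y' = 1 - m' / 16)
    (e1 : tp m x y h = tp m' x' y' h) (e2 : ts m x h = ts m' x' h) : x = x' ∧ y = y' := by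
  have hx : 7 / 8 ≤ x := by linarith
  have a1 := ts_right (h := h) hm hm1 (by linarith : x ≤ 1) ex
  have a2 := ts_top_le (h := h) hm' hm1' hx1'
  have a3 := tp_right_le h0 h1 hm hm1 hy hy1 hx
  have a4 := tp_top (x := x') (h := h) hm' hm1' hy' ey
  have hB := B1_ge x' h
  have a5 : (1 + m') / 2 ≤ tp m' x' y' h := by
    rw [a4]
    nlinarith
  have hmm : m = m' := by linarith
  subst hmm
  have b1 := tp_right_eq h0 h1 hm hm1 hy hy1 hx (by linarith)
  have b2 := top_corner h0 h1 hm hm1 hx1' (by linarith) (by linarith)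
  exact ⟨by rw [ex, b2], by rw [b1, ey]⟩

end AI

open AI

theorem tpts_inj {x y x' y' h : ℝ} (hx : 0 ≤ x) (hx1 : x ≤ 1) (hy : 0 ≤ y) (hy1 : y ≤ 1)
    (hm : mu x y ≤ 1) (h0 : 3 / 4 ≤ h) (h1 : h ≤ 1)
    (hx' : 0 ≤ x') (hx1' : x' ≤ 1) (hy' : 0 ≤ y') (hy1' : y' ≤ 1) (hm' : mu x' y' ≤ 1)
    (e1 : tp (mu x y) x y h = tp (mu x' y') x' y' h) (e2 : ts (mu x y) x h = ts (mu x' y') x' h) :
    x = x' ∧ y = y' := by
  have m0 := mu_nonneg hx1 hy1
  have m0' := mu_nonneg hx1' hy1'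
  obtain ⟨l1, l2⟩ := le_of_mu x y
  obtain ⟨l1', l2'⟩ := le_of_mu x' y'
  have c := mu_cases x y
  have c' := mu_cases x' y'
  generalize mu x y = m at *
  generalize mu x' y' = m' at *
  rcases c with c | c
  · rcases c' with c' | c'
    · have a1 := ts_right (h := h) m0 hm hx1 c
      have a2 := ts_right (h := h) m0' hm' hx1' c'
      have hmm : m = m' := by linarith
      subst hmm
      have hxx : x = x' := by rw [c, c']
      subst hxx
      refine ⟨rfl, ?_⟩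
      rcases lt_trichotomy y y' with h5 | h5 | h5
      · exact absurd e1 (tp_right_strict h0 h1 m0 hm h5 l2').ne
      · exact h5
      · exact absurd e1 (tp_right_strict h0 h1 m0 hm h5 l2).ne'
    · exact right_top h0 h1 m0 hm m0' hm' hy hy' l2 c l1' c' e1 e2
  · rcases c' with c' | c'
    · obtain ⟨r1, r2⟩ := right_top h0 h1 m0' hm' m0 hm hy' hy l2' c' l1 c e1.symm e2.symm
      exact ⟨r1.symm, r2.symm⟩
    · have a1 := tp_top (x := x) (h := h) m0 hm hy c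
      have a2 := tp_top (x := x') (h := h) m0' hm' hy' c'
      rw [a1, a2] at e1
      rcases lt_trichotomy m m' with h5 | h5 | h5
      · exact (top_lt h0 h1 m0 hm' h5 hx hx1 hx' hx1' e1 e2).elim
      · subst h5
        have hyy : y = y' := by rw [c, c']
        refine ⟨?_, hyy⟩
        rcases lt_trichotomy x x' with h6 | h6 | h6
        · exact (top_eq h0 h1 m0 hm h6 l1' e1 e2).elim
        · exact h6
        · exact (top_eq h0 h1 m0 hm h6 l1 e1.symm e2.symm).elim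
      · exact (top_lt h0 h1 m0' hm h5 hx' hx1' hx hx1 e1.symm e2.symm).elim

end Vale.Agent.P215.Am.Th
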