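import Vale.Agent.P215.Am.ThGlue

/-!
# P215, route A: continuity of the map on the quarter
-/

set_option linter.unusedVariables false

noncomputable section

namespace Vale.Agent.P215.Am.Th

section

variable {X : Type*} [TopologicalSpace X] {f g k l : X → ℝ}

theorem cont_F1 (hf : Continuous f) (hg : Continuous g) : Continuous fun p => F1 (f p) (g p) := by
  unfold F1
  have h : ∀ p, max 1 (83 / 16 - 4 * f p) ≠ 0 := fun p =>
    (lt_of_lt_of_le one_pos (le_max_left _ _)).ne'
  have h1 : Continuous fun p => (g p - 5 / 16) / max 1 (83 / 16 - 4 * f p) :=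
    Continuous.div (by fun_prop) (by fun_prop) h
  fun_prop

theorem cont_KK (hf : Continuous f) : Continuous fun p => KK (f p) := by
  unfold KK; fun_prop

theorem cont_F2 (hf : Continuous f) (hg : Continuous g) : Continuous fun p => F2 (f p) (g p) := by
  unfold F2
  have := cont_KK hg
  fun_prop

theorem cont_hz (hf : Continuous f) (hg : Continuous g) (hk : Continuous k) :
    Continuous fun p => hz (f p) (g p) (k p) := by
  unfold hz; fun_prop

theorem cont_rh (hf : Continuous f) (hg : Continuous g) : Continuous fun p => rh (f p) (g p) := by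
  unfold rh; fun_prop

theorem cont_sx (hf : Continuous f) (hg : Continuous g) : Continuous fun p => sx (f p) (g p) := by
  unfold sx; fun_prop

theorem cont_et (hf : Continuous f) (hg : Continuous g) : Continuous fun p => et (f p) (g p) := by
  unfold et; fun_prop

theorem cont_NN (hf : Continuous f) (hg : Continuous g) : Continuous fun p => NN (f p) (g p) := by
  unfold NN; fun_prop

theorem NN_ne (p q : ℝ) : NN p q ≠ 0 := by
  have : 1 ≤ NN p q := le_max_left _ _
  linarith

theorem cont_RU0 (hf : Continuous f) (hg : Continuous g) (hk : Continuous k) :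
    Continuous fun p => RU0 (f p) (g p) (k p) := by
  unfold RU0 sgm rr sg
  have h := cont_NN hf hg
  have h1 : Continuous fun p => f p / NN (f p) (g p) := hf.div h fun p => NN_ne _ _
  have h2 : Continuous fun p => g p / NN (f p) (g p) := hg.div h fun p => NN_ne _ _
  fun_prop

theorem cont_RU (hf : Continuous f) (hg : Continuous g) (hk : Continuous k) :
    Continuous fun p => RU (f p) (g p) (k p) := by
  unfold RU
  have h1 := cont_F1 (cont_sx hf hk) (cont_rh hf hk)
  exact cont_RU0 h1 (cont_F2 h1 (cont_et hg hk)) (cont_sx hf hk)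

theorem cont_G2 (hf : Continuous f) (hg : Continuous g) : Continuous fun p => G2 (f p) (g p) := by
  unfold G2; fun_prop

theorem cont_RW (hf : Continuous f) (hg : Continuous g) (hk : Continuous k) :
    Continuous fun p => RW (f p) (g p) (k p) := by
  unfold RW
  have h1 := cont_et hg hk
  have h2 := cont_G2 hf hk
  fun_prop

theorem cont_mu (hf : Continuous f) (hg : Continuous g) : Continuous fun p => mu (f p) (g p) := by
  unfold mu; fun_prop

theorem cont_Kp (hf : Continuous f) : Continuous fun p => Kp (f p) := by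
  unfold Kp KK; fun_prop

theorem cont_B1 (hf : Continuous f) (hg : Continuous g) : Continuous fun p => B1 (f p) (g p) := by
  unfold B1
  have h := cont_F1 (f := fun p => (3 + g p) / 4) (g := fun p => 4 * f p - 1 - g p)
    (by fun_prop) (by fun_prop)
  fun_prop

theorem cont_tp (hf : Continuous f) (hg : Continuous g) (hk : Continuous k) (hl : Continuous l) :
    Continuous fun p => tp (f p) (g p) (k p) (l p) := by
  unfold tp
  have h1 := cont_Kp hk
  have h2 := cont_B1 hg hl
  fun_prop

theorem cont_ts (hf : Continuous f) (hg : Continuous g) (hk : Continuous k) :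
    Continuous fun p => ts (f p) (g p) (k p) := by
  unfold ts
  have h1 := cont_G2 hg hk
  fun_prop

theorem cont_RA (hf : Continuous f) (hg : Continuous g) (hk : Continuous k) :
    Continuous fun p => RA (f p) (g p) (k p) := by
  unfold RA
  have h0 : Continuous fun p => hA (k p) := by unfold hA; fun_prop
  have h1 := cont_tp (cont_mu hf hg) hf hg h0
  have h2 := cont_ts (cont_mu hf hg) hf h0
  fun_prop

theorem cont_RI (hf : Continuous f) (hg : Continuous g) (hk : Continuous k) (f0 : ∀ p, 0 ≤ f p)
    (f1 : ∀ p, f p ≤ 7 / 8) (g0 : ∀ p, 0 ≤ g p) (g1 : ∀ p, g p ≤ 15 / 16)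
    (k0 : ∀ p, -1 ≤ k p) (k1 : ∀ p, k p ≤ 1) :
    Continuous fun p => RI (f p) (g p) (k p) := by
  unfold RI
  have h := cont_hz hf hg hk
  refine Continuous.if_le (cont_RU hf hg h) (cont_RW hf hg h) continuous_const (cont_rh hf h) ?_
  intro p hp
  refine RU_RW (f0 p) (f1 p) (g0 p) (g1 p) ?_ ?_ hp.symm
  · have := k0 p
    unfold hz; grind
  · have := k1 p
    unfold hz; grind

end

theorem continuous_TQ {X : Type*} [TopologicalSpace X] {f g k : X → ℝ} (hf : Continuous f)
    (hg : Continuous g) (hk : Continuous k) (f0 : ∀ p, 0 ≤ f p) (f1 : ∀ p, f p ≤ 1)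
    (g0 : ∀ p, 0 ≤ g p) (g1 : ∀ p, g p ≤ 1) (k0 : ∀ p, -1 ≤ k p) (k1 : ∀ p, k p ≤ 1) :
    Continuous fun p => TQ (f p) (g p) (k p) := by
  unfold TQ
  refine Continuous.if_le (cont_RA hf hg hk) ?_ (cont_mu hf hg) continuous_const ?_
  · refine cont_RI (f := fun p => min (f p) (7 / 8)) (g := fun p => min (g p) (15 / 16))
      (by fun_prop) (by fun_prop) hk (fun p => le_min (f0 p) (by norm_num))
      (fun p => min_le_right _ _) (fun p => le_min (g0 p) (by norm_num))
      (fun p => min_le_right _ _) k0 k1
  · intro p hp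
    have a0 := f0 p
    have a1 := f1 p
    have b0 := g0 p
    have b1 := g1 p
    have hc : (f p = 7 / 8 ∧ g p ≤ 15 / 16) ∨ (g p = 15 / 16 ∧ f p ≤ 7 / 8) := by
      unfold mu at hp; grind
    rcases hc with ⟨h1, h2⟩ | ⟨h1, h2⟩
    · rw [h1, min_self, min_eq_left h2]
      obtain ⟨h3, h4⟩ := RA_RI_x b0 h2 (k0 p) (k1 p)
      unfold RI
      rw [if_pos h3, h4]
    · rw [h1, min_self, min_eq_left h2]
      obtain ⟨h3, h4⟩ := RA_RI_y a0 h2 (k0 p) (k1 p)
      unfold RI
      split_ifs with h5
      · exact (h3 h5).symm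
      · exact (h4 (le_of_not_ge h5)).symm

end Vale.Agent.P215.Am.Th
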