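import Vale.Agent.P215.Am.BoxLib

/-!
# P215, route A: the map of the cube to the handle block, formulas

`P5 = (Φ, Ψ, r)`: `Φ`, `Ψ` are the positions of `p`, `q` in the square `[-1, 1]²`
(`ThPos.lean`), `r = v.1 - 2`.

`TQ x y z` is the map on the quarter `0 ≤ x, y ≤ 1`, `-1 ≤ z ≤ 1`; the whole map is obtained from it
by reflections: `Φ.2` is odd in `y`, `Ψ.2` is odd in `x`.

* region `A` (`x ≥ 7/8` or `y ≥ 15/16`): `RA x y z`;
* region `U` (`x ≤ 7/8`, `y ≤ 15/16`, `rh x h ≥ 1/8`): `RU x y h`;
* region `W` (`x ≤ 7/8`, `y ≤ 15/16`, `rh x h ≤ 1/8`): `RW x y h`;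

with the straightened height `h = hz x y z`.
-/

noncomputable section

namespace Vale.Agent.P215.Am.Th

/-- The type of the values. -/
abbrev P5 : Type := (ℝ × ℝ) × (ℝ × ℝ) × ℝ

/-- The straightened height. -/
def hz (x y z : ℝ) : ℝ := min (z + max 0 (max (4 * y - 1) (8 * x - 21 / 4))) (1 - (1 - z) / 8)

/-- The level with respect to the arch hanging from the top. -/
def rh (x h : ℝ) : ℝ := max 0 (4 * x - 1) - h

/-- The straightened coordinate `y`. -/
def et (y h : ℝ) : ℝ := max (min (2 * y) (y + 1 / 2 - min h (3 / 4) / 4)) (4 * y - 7 / 4)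

/-- The parameter along the arch hanging from the top. -/
def sx (x h : ℝ) : ℝ := min (2 * x) ((3 + h) / 4)

/-- The first coordinate around the arch hanging from the top. -/
def F1 (s r : ℝ) : ℝ := min (16 * r - 4) (1 + (r - 5 / 16) / max 1 (83 / 16 - 4 * s))

/-- A piecewise linear function. -/
def KK (e : ℝ) : ℝ := min (8 * e) ((14 + 8 * e) / 15)

/-- The second coordinate around the arch hanging from the top. -/
def F2 (p e : ℝ) : ℝ := max e (KK e - 7 / 8 * max 0 (-1 - p))

/-- A piecewise linear function. -/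
def sg (s : ℝ) : ℝ := min 3 (max (2 * s) (min (6 * s - 2) (4 * s - 3 / 4)))

/-- The norm of the coordinates around the arch. -/
def NN (p q : ℝ) : ℝ := max 1 (max |p| |q|)

/-- The position on the second circle for the parameter `s` at distance `t`. -/
def sgm (t s : ℝ) : ℝ := (1 - t) * s / 2 + t * sg s

/-- The third coordinate for the parameter `s` at distance `t`. -/
def rr (t s : ℝ) : ℝ := 1 - 2 * t * min 1 (16 * (1 - s))

/-- The values in the coordinates `p`, `q` around the arch, `s` along the arch. -/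
def RU0 (p q s : ℝ) : P5 :=
  ((p / NN p q, q / NN p q),
    (max (-1) (sgm (NN p q - 1) s - 2), min (sgm (NN p q - 1) s) 1), rr (NN p q - 1) s)

/-- The map on the region `U`. -/
def RU (x y h : ℝ) : P5 :=
  RU0 (F1 (sx x h) (rh x h)) (F2 (F1 (sx x h) (rh x h)) (et y h)) (sx x h)

/-- The second coordinate of `Ψ` on the region `W`. -/
def G2 (x h : ℝ) : ℝ := min (4 * x) (x + 23 / 32 - h / 4)

/-- The map on the region `W`. -/
def RW (x y h : ℝ) : P5 :=
  ((-1, et y h / 2), (min 1 (min (3 * h - 5 / 8) (2 * h - 1 / 2)), G2 x h), max (-1) (8 * h - 7))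

/-- The distance parameter on the region `A`. -/
def mu (x y : ℝ) : ℝ := min (8 * (1 - x)) (16 * (1 - y))

/-- The boundary value on the side `x = 7/8`. -/
def Kp (y : ℝ) : ℝ := min 2 (KK (max (min (2 * y) (y + 5 / 16)) (4 * y - 7 / 4)))

/-- The boundary value on the side `y = 15/16`. -/
def B1 (x h : ℝ) : ℝ := 2 - max (-2) (min 2 (F1 ((3 + h) / 4) (4 * x - 1 - h))) / 2

/-- The first position parameter on the region `A`, as a function of `m = mu x y`, `x`, `y`, `h`. -/
def tp (m x y h : ℝ) : ℝ :=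
  max (((1 - m) * y + m * Kp y) / 2) (2 * y - 3 / 2 + 5 * m / 8) + m * (B1 x h - 1)

/-- The second position parameter on the region `A`. -/
def ts (m x h : ℝ) : ℝ :=
  max (((1 - m) * x) / 2 + m * min 1 (G2 x h)) (2 * x - 3 / 2 + 3 * m / 4)

/-- The height on the region `A`. -/
def hA (z : ℝ) : ℝ := 1 - (1 - z) / 8

/-- The map on the region `A`. -/
def RA (x y z : ℝ) : P5 :=
  ((min 1 (2 - tp (mu x y) x y (hA z)), min (tp (mu x y) x y (hA z)) 1),
    (1, ts (mu x y) x (hA z)), z)

/-- The map on the complement of the region `A`. -/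
def RI (x y z : ℝ) : P5 :=
  if 1 / 8 ≤ rh x (hz x y z) then RU x y (hz x y z) else RW x y (hz x y z)

/-- **The map on the quarter.** -/
def TQ (x y z : ℝ) : P5 :=
  if mu x y ≤ 1 then RA x y z else RI (min x (7 / 8)) (min y (15 / 16)) z

end Vale.Agent.P215.Am.Th
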