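import Vale.Agent.P215.Am.ThDefs

/-!
# P215, route A: the interfaces of the three regions
-/

noncomputable section

namespace Vale.Agent.P215.Am.Th

theorem F1_eighth' {s : ℝ} : F1 s (1 / 8) = -2 := by
  have h1 : (1 : ℝ) ≤ max 1 (83 / 16 - 4 * s) := le_max_left _ _
  have h2 : (3 / 16 : ℝ) / max 1 (83 / 16 - 4 * s) ≤ 3 / 16 := by
    rw [div_le_iff₀ (by linarith)]
    nlinarith
  have h3 : (1 / 8 - 5 / 16 : ℝ) / max 1 (83 / 16 - 4 * s) =
      - ((3 / 16 : ℝ) / max 1 (83 / 16 - 4 * s)) := by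
    rw [← neg_div]; norm_num
  rw [F1, h3, min_eq_left (by linarith)]
  norm_num

theorem F2_neg_two' {e : ℝ} : F2 (-2) e = e := by
  have h1 : max (0 : ℝ) (-1 - -2) = 1 := by norm_num
  rw [F2, h1, KK]
  apply max_eq_left
  rcases le_total e (1 / 8) with h | h
  · have := min_le_left (8 * e) ((14 + 8 * e) / 15)
    linarith
  · have := min_le_right (8 * e) ((14 + 8 * e) / 15)
    linarith

theorem NN_two {p q : ℝ} (hp : |p| ≤ 2) (hq : |q| ≤ 2) (h : |p| = 2 ∨ |q| = 2) : NN p q = 2 := by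
  have h1 : max |p| |q| = 2 := by
    apply le_antisymm (max_le hp hq)
    rcases h with h | h
    · rw [← h]; exact le_max_left _ _
    · rw [← h]; exact le_max_right _ _
  rw [NN, h1]
  norm_num

theorem RU0_two {p q s : ℝ} (hp : |p| ≤ 2) (hq : |q| ≤ 2) (h : |p| = 2 ∨ |q| = 2) :
    RU0 p q s = ((p / 2, q / 2), (max (-1) (sg s - 2), min (sg s) 1),
      1 - 2 * min 1 (16 * (1 - s))) := by
  rw [RU0, NN_two hp hq h]
  have h1 : (2 : ℝ) - 1 = 1 := by norm_num
  rw [h1]
  have h2 : sgm 1 s = sg s := by rw [sgm]; ring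
  have h3 : rr 1 s = 1 - 2 * min 1 (16 * (1 - s)) := by rw [rr]; ring
  rw [h2, h3]

theorem et_bounds {y h : ℝ} (hy : 0 ≤ y) (hy1 : y ≤ 15 / 16) (h0 : -1 ≤ h) :
    0 ≤ et y h ∧ et y h ≤ 2 := by
  have hm : min h (3 / 4) ≤ 3 / 4 := min_le_right _ _
  have hm' : -1 ≤ min h (3 / 4) := le_min h0 (by norm_num)
  constructor
  · rw [et]
    refine le_max_of_le_left (le_min (by linarith) (by linarith))
  · rw [et]
    refine max_le ?_ (by linarith)
    exact (min_le_left _ _).trans (by linarith)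

theorem sg_three {s : ℝ} (h : 15 / 16 ≤ s) : sg s = 3 := by
  rw [sg, min_eq_left]
  refine le_max_of_le_right (le_min ?_ ?_) <;> linarith

/-- The three cases of the interface between the regions `U` and `W`. -/
theorem eighth_cases {x h : ℝ} (hr : rh x h = 1 / 8) :
    (x ≤ 1 / 4 ∧ h = -1 / 8 ∧ sx x h = 2 * x) ∨
    (1 / 4 ≤ x ∧ x ≤ 15 / 32 ∧ h = 4 * x - 9 / 8 ∧ sx x h = 2 * x) ∨
    (15 / 32 ≤ x ∧ h = 4 * x - 9 / 8 ∧ sx x h = x + 15 / 32) := by
  unfold rh at hr
  rcases le_total x (1 / 4) with h1 | h1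
  · left
    rw [max_eq_left (by linarith)] at hr
    refine ⟨h1, by linarith, ?_⟩
    rw [sx, min_eq_left (by linarith)]
  · rw [max_eq_right (by linarith)] at hr
    rcases le_total x (15 / 32) with h2 | h2
    · right; left
      refine ⟨h1, h2, by linarith, ?_⟩
      rw [sx, min_eq_left (by linarith)]
    · right; right
      refine ⟨h2, by linarith, ?_⟩
      rw [sx, min_eq_right (by linarith)]
      linarith

theorem RU_RW {x y h : ℝ} (hx : 0 ≤ x) (hx1 : x ≤ 7 / 8) (hy : 0 ≤ y)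
    (hy1 : y ≤ 15 / 16) (h0 : -1 ≤ h) (h1 : h ≤ 1) (hr : rh x h = 1 / 8) :
    RU x y h = RW x y h := by
  obtain ⟨he0, he2⟩ := et_bounds hy hy1 h0
  rw [RU, hr, F1_eighth', F2_neg_two', RU0_two (by norm_num) (by rw [abs_le]; constructor <;> linarith)
    (Or.inl (by norm_num)), RW]
  have e1 : max (-1) (sg (sx x h) - 2) = min 1 (min (3 * h - 5 / 8) (2 * h - 1 / 2)) := by
    rcases eighth_cases hr with ⟨h2, h3, h4⟩ | ⟨h2, h3, h4, h5⟩ | ⟨h2, h3, h4⟩
    · rw [h4, sg]
      subst h3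
      have a1 : min (6 * (2 * x) - 2) (4 * (2 * x) - 3 / 4) ≤ 2 * (2 * x) :=
        (min_le_left _ _).trans (by linarith)
      rw [max_eq_left a1, min_eq_right (by linarith), max_eq_left (by linarith)]
      norm_num
    · rw [h5, sg]
      have a1 : 2 * (2 * x) ≤ min (6 * (2 * x) - 2) (4 * (2 * x) - 3 / 4) :=
        le_min (by linarith) (by linarith)
      rw [max_eq_right a1]
      subst h4
      grind
    · rw [h4, sg_three (by linarith), max_eq_right (by linarith), min_eq_left]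
      · norm_num
      · exact le_min (by linarith) (by linarith)
  have e2 : min (sg (sx x h)) 1 = G2 x h := by
    rcases eighth_cases hr with ⟨h2, h3, h4⟩ | ⟨h2, h3, h4, h5⟩ | ⟨h2, h3, h4⟩
    · rw [h4, sg]
      subst h3
      have a1 : min (6 * (2 * x) - 2) (4 * (2 * x) - 3 / 4) ≤ 2 * (2 * x) :=
        (min_le_left _ _).trans (by linarith)
      rw [max_eq_left a1, min_eq_right (a := (3 : ℝ)) (by linarith), min_eq_left (by linarith), G2,
        min_eq_left (by linarith)]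
      ring
    · rw [h5, sg, G2]
      have a1 : 2 * (2 * x) ≤ min (6 * (2 * x) - 2) (4 * (2 * x) - 3 / 4) :=
        le_min (by linarith) (by linarith)
      rw [max_eq_right a1]
      subst h4
      grind
    · rw [h4, sg_three (by linarith), G2, min_eq_right (by norm_num), min_eq_right (by linarith), h3]
      ring
  have e3 : 1 - 2 * min 1 (16 * (1 - sx x h)) = max (-1) (8 * h - 7) := by
    rcases eighth_cases hr with ⟨h2, h3, h4⟩ | ⟨h2, h3, h4, h5⟩ | ⟨h2, h3, h4⟩
    · rw [h4, min_eq_left (by linarith), max_eq_left (by linarith)]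
      norm_num
    · rw [h5, min_eq_left (by linarith), max_eq_left (by linarith)]
      norm_num
    · rw [h4, h3]
      grind
  rw [e1, e2, e3]
  norm_num

theorem hA_mem {z : ℝ} (hz0 : -1 ≤ z) (hz1 : z ≤ 1) : 3 / 4 ≤ hA z ∧ hA z ≤ 1 := by
  unfold hA
  constructor <;> linarith

theorem hz_A' {x y z : ℝ} (h : 7 / 8 ≤ x ∨ 15 / 16 ≤ y) (h1 : -1 ≤ z) :
    hz x y z = hA z := by
  rw [hz, hA]
  apply min_eq_right
  have h2 : 4 * y - 1 ≤ max 0 (max (4 * y - 1) (8 * x - 21 / 4)) :=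
    le_max_of_le_right (le_max_left _ _)
  have h3 : 8 * x - 21 / 4 ≤ max 0 (max (4 * y - 1) (8 * x - 21 / 4)) :=
    le_max_of_le_right (le_max_right _ _)
  rcases h with h | h <;> linarith

theorem KK_ge {e : ℝ} (he : 0 ≤ e) (he2 : e ≤ 2) : e ≤ KK e :=
  le_min (by linarith) (by linarith)

theorem KK_le_two {e : ℝ} (he2 : e ≤ 2) : KK e ≤ 2 :=
  (min_le_right _ _).trans (by linarith)

theorem RA_RI_x {y z : ℝ} (hy : 0 ≤ y) (hy1 : y ≤ 15 / 16) (hz0 : -1 ≤ z) (hz1 : z ≤ 1) :
    1 / 8 ≤ rh (7 / 8) (hz (7 / 8) y z) ∧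
    RU (7 / 8) y (hz (7 / 8) y z) = RA (7 / 8) y z := by
  obtain ⟨k0, k1⟩ := hA_mem hz0 hz1
  have hh := hz_A' (x := 7 / 8) (y := y) (Or.inl le_rfl) hz0
  have hrh : rh (7 / 8) (hA z) = 5 / 2 - hA z := by
    rw [rh, max_eq_right (by norm_num)]; norm_num
  have hsx : sx (7 / 8) (hA z) = (3 + hA z) / 4 := by
    rw [sx, min_eq_right (by linarith)]
  have hF1 : F1 ((3 + hA z) / 4) (5 / 2 - hA z) = 2 := by
    rw [F1]
    have h1 : (83 / 16 - 4 * ((3 + hA z) / 4) : ℝ) = 5 / 2 - hA z - 5 / 16 := by ring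
    rw [h1, max_eq_right (by linarith), div_self (by linarith), min_eq_right (by linarith)]
    norm_num
  have hmu : mu (7 / 8) y = 1 := by
    rw [mu, min_eq_left (by linarith)]
    norm_num
  have hB1 : B1 (7 / 8) (hA z) = 1 := by
    rw [B1]
    have h1 : (4 * (7 / 8) - 1 - hA z : ℝ) = 5 / 2 - hA z := by ring
    rw [h1, hF1]
    norm_num
  obtain ⟨he0, he2⟩ := et_bounds hy hy1 (by linarith : (-1 : ℝ) ≤ hA z)
  have het : et y (hA z) = max (min (2 * y) (y + 5 / 16)) (4 * y - 7 / 4) := by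
    rw [et, min_eq_right k0]
    congr 2
    ring
  have hKp : Kp y = KK (et y (hA z)) := by
    rw [Kp, ← het, min_eq_right (KK_le_two he2)]
  have hK2 := KK_le_two he2
  have hKge := KK_ge he0 he2
  have hts : ts 1 (7 / 8) (hA z) = 1 := by
    rw [ts, max_eq_right]
    · norm_num
    · have := min_le_left 1 (G2 (7 / 8) (hA z))
      linarith
  have htp : tp 1 (7 / 8) y (hA z) = KK (et y (hA z)) / 2 := by
    rw [tp, hKp, hB1, max_eq_left]
    · ring
    · have h1 : 4 * y - 7 / 4 ≤ et y (hA z) := by rw [et]; exact le_max_right _ _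
      have h2 : (4 * y - 7 / 4) * 8 / 15 + 14 / 15 ≤ KK (et y (hA z)) := by
        rw [KK]
        apply le_min
        · have h3 : y / 1 ≤ et y (hA z) := by
            rw [het]
            exact le_max_of_le_left (le_min (by linarith) (by linarith))
          rcases le_total y (1 / 4) with h4 | h4
          · linarith
          · linarith
        · linarith
      linarith
  refine ⟨by rw [hh, hrh]; linarith, ?_⟩
  rw [hh, RU, hrh, hsx, hF1, RA, hmu]
  have hF2 : F2 2 (et y (hA z)) = KK (et y (hA z)) := by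
    rw [F2, max_eq_left (a := (0 : ℝ)) (by norm_num), mul_zero, sub_zero, max_eq_right hKge]
  rw [hF2, RU0_two (by norm_num) (by rw [abs_le]; constructor <;> linarith)
    (Or.inl (by norm_num)), sg_three (by linarith), hts, htp]
  have e3 : 1 - 2 * min 1 (16 * (1 - (3 + hA z) / 4)) = z := by
    have h1 : (16 * (1 - (3 + hA z) / 4) : ℝ) = (1 - z) / 2 := by rw [hA]; ring
    rw [h1, min_eq_right (by linarith)]
    ring
  have a1 : min 1 (2 - KK (et y (hA z)) / 2) = 1 := min_eq_left (by linarith)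
  have a2 : min (KK (et y (hA z)) / 2) 1 = KK (et y (hA z)) / 2 := min_eq_left (by linarith)
  have a3 : max (-1) ((3 : ℝ) - 2) = 1 := by norm_num
  have a4 : min (3 : ℝ) 1 = 1 := by norm_num
  rw [e3, a1, a2, a3, a4]
  norm_num

theorem B1_eq {x h : ℝ} (h1 : h ≤ 1) (hx1 : x ≤ 7 / 8) (hr : 1 / 8 ≤ 4 * x - 1 - h) :
    -2 ≤ F1 ((3 + h) / 4) (4 * x - 1 - h) ∧ F1 ((3 + h) / 4) (4 * x - 1 - h) ≤ 2 := by
  have e1 : (83 / 16 - 4 * ((3 + h) / 4) : ℝ) = 35 / 16 - h := by ring
  constructor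
  · rw [F1, e1, max_eq_right (by linarith)]
    apply le_min
    · linarith
    · have h2 : (-3 / 16 : ℝ) / (35 / 16 - h) ≤ (4 * x - 1 - h - 5 / 16) / (35 / 16 - h) := by
        apply div_le_div_of_nonneg_right <;> linarith
      have h3 : (-3 : ℝ) ≤ (-3 / 16 : ℝ) / (35 / 16 - h) := by
        rw [le_div_iff₀ (by linarith)]
        linarith
      linarith
  · rw [F1, e1, max_eq_right (by linarith)]
    refine (min_le_right _ _).trans ?_
    have h2 : (4 * x - 1 - h - 5 / 16) / (35 / 16 - h) ≤ 1 := by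
      rw [div_le_one (by linarith)]
      linarith
    linarith

theorem RA_RI_y {x z : ℝ} (hx : 0 ≤ x) (hx1 : x ≤ 7 / 8) (hz0 : -1 ≤ z) (hz1 : z ≤ 1) :
    (1 / 8 ≤ rh x (hz x (15 / 16) z) → RU x (15 / 16) (hz x (15 / 16) z) = RA x (15 / 16) z) ∧
    (rh x (hz x (15 / 16) z) ≤ 1 / 8 → RW x (15 / 16) (hz x (15 / 16) z) = RA x (15 / 16) z) := by
  obtain ⟨k0, k1⟩ := hA_mem hz0 hz1
  have hh := hz_A' (x := x) (y := 15 / 16) (Or.inr le_rfl) hz0
  have hmu : mu x (15 / 16) = 1 := by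
    rw [mu, min_eq_right (by linarith)]
    norm_num
  have het : et (15 / 16) (hA z) = 2 := by
    rw [et, min_eq_right k0, max_eq_right]
    · norm_num
    · refine (min_le_left _ _).trans (by norm_num)
  have hKK : KK 2 = 2 := by
    rw [KK, min_eq_right (by norm_num)]; norm_num
  have hKp : Kp (15 / 16) = 2 := by
    rw [Kp]
    have h1 : max (min (2 * (15 / 16)) (15 / 16 + 5 / 16)) (4 * (15 / 16) - 7 / 4) = (2 : ℝ) := by
      norm_num
    rw [h1, hKK, min_self]
  have htp : tp 1 x (15 / 16) (hA z) = B1 x (hA z) := by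
    rw [tp, hKp]
    norm_num
  have hzz : 8 * hA z - 7 = z := by rw [hA]; ring
  rw [hh, RU, RA, hmu, htp, het, RW, het]
  constructor
  · intro hr
    have hx2 : 1 / 8 ≤ 4 * x - 1 - hA z := by
      unfold rh at hr
      rcases le_total 0 (4 * x - 1) with h1 | h1
      · rwa [max_eq_right h1] at hr
      · rw [max_eq_left h1] at hr
        linarith
    have hrh : rh x (hA z) = 4 * x - 1 - hA z := by
      rw [rh, max_eq_right (by linarith)]
    have hsx : sx x (hA z) = (3 + hA z) / 4 := by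
      rw [sx, min_eq_right (by linarith)]
    obtain ⟨b1, b2⟩ := B1_eq k1 hx1 hx2
    rw [hrh, hsx]
    have hF2 : F2 (F1 ((3 + hA z) / 4) (4 * x - 1 - hA z)) 2 = 2 := by
      rw [F2, hKK, max_eq_left]
      have := le_max_left (0 : ℝ) (-1 - F1 ((3 + hA z) / 4) (4 * x - 1 - hA z))
      linarith
    rw [hF2, RU0_two (by rw [abs_le]; exact ⟨b1, b2⟩) (by norm_num) (Or.inr (by norm_num)),
      sg_three (by linarith)]
    have hB : B1 x (hA z) = 2 - F1 ((3 + hA z) / 4) (4 * x - 1 - hA z) / 2 := by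
      rw [B1, min_eq_right b2, max_eq_right b1]
    have hts : ts 1 x (hA z) = 1 := by
      rw [ts]
      have h1 : 1 ≤ G2 x (hA z) := le_min (by linarith) (by linarith)
      rw [min_eq_left h1, max_eq_left (by linarith)]
      ring
    have e3 : 1 - 2 * min 1 (16 * (1 - (3 + hA z) / 4)) = z := by
      have h1 : (16 * (1 - (3 + hA z) / 4) : ℝ) = (1 - z) / 2 := by rw [hA]; ring
      rw [h1, min_eq_right (by linarith)]
      ring
    have a1 : min 1 (2 - (2 - F1 ((3 + hA z) / 4) (4 * x - 1 - hA z) / 2)) =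
        F1 ((3 + hA z) / 4) (4 * x - 1 - hA z) / 2 := by
      rw [min_eq_right (by linarith)]; ring
    have a2 : min (2 - F1 ((3 + hA z) / 4) (4 * x - 1 - hA z) / 2) 1 = 1 :=
      min_eq_right (by linarith)
    have a3 : max (-1) ((3 : ℝ) - 2) = 1 := by norm_num
    have a4 : min (3 : ℝ) 1 = 1 := by norm_num
    rw [e3, hts, hB, a1, a2, a3, a4]
    norm_num
  · intro hr
    have hx2 : 4 * x - 1 - hA z ≤ 1 / 8 := by
      unfold rh at hr
      have := le_max_right 0 (4 * x - 1)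
      linarith
    have hF1 : F1 ((3 + hA z) / 4) (4 * x - 1 - hA z) ≤ -2 := by
      rw [F1]
      refine (min_le_left _ _).trans ?_
      linarith
    have hB : B1 x (hA z) = 3 := by
      rw [B1, min_eq_right (by linarith), max_eq_left hF1]
      norm_num
    have hG : G2 x (hA z) ≤ 1 := (min_le_right _ _).trans (by linarith)
    have hG' : 2 * x - 3 / 4 ≤ G2 x (hA z) := le_min (by linarith) (by linarith)
    have hts : ts 1 x (hA z) = G2 x (hA z) := by
      rw [ts, min_eq_right hG, max_eq_left (by linarith)]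
      ring
    rw [hB, hts, hzz, max_eq_right hz0]
    have e1 : min 1 (min (3 * hA z - 5 / 8) (2 * hA z - 1 / 2)) = 1 :=
      min_eq_left (le_min (by linarith) (by linarith))
    rw [e1]
    norm_num

end Vale.Agent.P215.Am.Th
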