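import Vale.Agent.P215.Am.ThDefs

set_option linter.unusedVariables false

noncomputable section

namespace Vale.Agent.P215.Am.Th

theorem hz_strictMono {x y z z' : ℝ} (h : z < z') : hz x y z < hz x y z' := by unfold hz; grind
theorem hz_le_one {x y z : ℝ} (h : z ≤ 1) : hz x y z ≤ 1 := by unfold hz; grind
theorem hz_ge {x y z : ℝ} (h : -1 ≤ z) : -1 ≤ hz x y z := by unfold hz; grind
theorem hz_A {x y z : ℝ} (h : 7 / 8 ≤ x ∨ 15 / 16 ≤ y) (h1 : -1 ≤ z) (h2 : z ≤ 1) :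
    hz x y z = hA z := by unfold hz hA; grind
/-- the box is narrow -/
theorem hz_box {x y z : ℝ} (h1 : -1 ≤ z) (h2 : z ≤ 1) (h3 : hz x y z < 3 / 4) :
    y ≤ (hz x y z + 2) / 4 ∧ x ≤ (hz x y z + 1) / 8 + 21 / 32 := by unfold hz at *; grind
theorem et_strictMono {y y' h : ℝ} (hy : y < y') : et y h < et y' h := by unfold et; grind
theorem et_nonneg {y h : ℝ} (hy : 0 ≤ y) (h1 : h ≤ 1) : 0 ≤ et y h := by unfold et; grind
theorem et_le_two {y h : ℝ} (hy : y ≤ 15 / 16) (h0 : -1 ≤ h) : et y h ≤ 2 := by unfold et; grind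
theorem et_le_one {y h : ℝ} (hy : y ≤ (h + 2) / 4) (h0 : -1 ≤ h) (h1 : h ≤ 3 / 4) :
    et y h ≤ 1 := by unfold et; grind
theorem et_eq_two {y h : ℝ} (hy : y ≤ 15 / 16) (h0 : -1 ≤ h) (h1 : h ≤ 1) (he : et y h = 2) :
    y = 15 / 16 := by unfold et at *; grind
theorem et_15 {h : ℝ} (h0 : -1 ≤ h) (h1 : 3/4 ≤ h) : et (15 / 16) h = 2 := by unfold et; grind
theorem et_zero_iff {y h : ℝ} (hy : 0 ≤ y) (h1 : h ≤ 1) (he : et y h = 0) : y = 0 := by
  unfold et at *; grind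
theorem sxrh_inj {x h x' h' : ℝ} (h0 : -1 ≤ h) (h0' : -1 ≤ h') (e1 : sx x h = sx x' h')
    (e2 : rh x h = rh x' h') : x = x' ∧ h = h' := by unfold sx rh at *; grind
theorem F1_strictMono {s r r' : ℝ} (h : r < r') : F1 s r < F1 s r' := by
  unfold F1
  have h1 : 0 < max 1 (83 / 16 - 4 * s) := by positivity
  have h2 : (r - 5 / 16) / max 1 (83 / 16 - 4 * s) < (r' - 5 / 16) / max 1 (83 / 16 - 4 * s) :=
    div_lt_div_of_pos_right (by linarith) h1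
  grind
theorem F2_strictMono {p e e' : ℝ} (h : e < e') : F2 p e < F2 p e' := by unfold F2 KK; grind
theorem F2_ge (p e : ℝ) : e ≤ F2 p e := by unfold F2; grind
theorem F2_le {p e : ℝ} (h : e ≤ 2) : F2 p e ≤ 2 := by unfold F2 KK; grind
theorem F2_eq_two {p e : ℝ} (h : e ≤ 2) (h2 : F2 p e = 2) : e = 2 := by unfold F2 KK at *; grind
theorem F2_two (p : ℝ) : F2 p 2 = 2 := by unfold F2 KK at *; grind
theorem F2_neg_two {e : ℝ} (h : 0 ≤ e) : F2 (-2) e = e := by unfold F2 KK at *; grind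
theorem F1_ge {s r : ℝ} (hs : s ≤ 1) (h2 : 1 / 8 ≤ r) : -2 ≤ F1 s r := by
  unfold F1
  have h1 : 0 < max 1 (83 / 16 - 4 * s) := by positivity
  have h3 : (-3) ≤ (r - 5 / 16) / max 1 (83 / 16 - 4 * s) := by
    rw [le_div_iff₀ h1]
    grind
  grind
theorem F1_eq_neg_two {s r : ℝ} (h : F1 s r = -2) (hs : s ≤ 1) (h2 : 1 / 8 ≤ r) : r = 1 / 8 := by
  unfold F1 at h
  have h1 : 0 < max 1 (83 / 16 - 4 * s) := by positivity
  have h3 : (-3 / 2) ≤ (r - 5 / 16) / max 1 (83 / 16 - 4 * s) := by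
    rw [le_div_iff₀ h1]
    grind
  grind
theorem F1_eighth {s : ℝ} (hs : s ≤ 1) : F1 s (1 / 8) = -2 := by
  unfold F1
  have h1 : 0 < max 1 (83 / 16 - 4 * s) := by positivity
  have h3 : (-3 / 2) ≤ ((1 / 8 : ℝ) - 5 / 16) / max 1 (83 / 16 - 4 * s) := by
    rw [le_div_iff₀ h1]
    grind
  grind
/-- in the range `F1 ≤ 2` -/
theorem F1_le {x y z : ℝ} (hx0 : 0 ≤ x) (hx : x ≤ 7 / 8) (hz1 : -1 ≤ z) (hz2 : z ≤ 1) :
    F1 (sx x (hz x y z)) (rh x (hz x y z)) ≤ 2 := by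
  have h0 := hz_ge (x := x) (y := y) hz1
  have h1 := hz_le_one (x := x) (y := y) hz2
  have h2 : hz x y z < 3 / 4 → x ≤ (hz x y z + 1) / 8 + 21 / 32 := fun h => (hz_box hz1 hz2 h).2
  generalize hz x y z = h at *
  unfold F1
  have h1 : 0 < max 1 (83 / 16 - 4 * sx x h) := by positivity
  refine (min_le_right _ _).trans ?_
  have h3 : (rh x h - 5 / 16) / max 1 (83 / 16 - 4 * sx x h) ≤ 1 := by
    rw [div_le_one h1]
    unfold rh sx
    grind
  linarith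
theorem F1_eq_two {x y z : ℝ} (hx0 : 0 ≤ x) (hx : x ≤ 7 / 8) (hz1 : -1 ≤ z) (hz2 : z ≤ 1)
    (hs : 15 / 16 ≤ sx x (hz x y z)) (hr : 1 / 8 ≤ rh x (hz x y z))
    (h : F1 (sx x (hz x y z)) (rh x (hz x y z)) = 2) : x = 7 / 8 := by
  have h0 := hz_ge (x := x) (y := y) hz1
  have h1 := hz_le_one (x := x) (y := y) hz2
  generalize hz x y z = k at *
  unfold F1 at h
  have h1 : 0 < max 1 (83 / 16 - 4 * sx x k) := by positivity
  have h2 : 2 ≤ 1 + (rh x k - 5 / 16) / max 1 (83 / 16 - 4 * sx x k) :=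
    h.symm.le.trans (min_le_right _ _)
  have h3 : 1 ≤ (rh x k - 5 / 16) / max 1 (83 / 16 - 4 * sx x k) := by linarith
  rw [le_div_iff₀ h1] at h3
  unfold rh sx at *
  grind

end Vale.Agent.P215.Am.Th
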