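import Vale.Agent.P215.Am.ThH

/-!
# P215, route A: the map of the cube to the handle block, the region `W`
-/

set_option linter.unusedVariables false

noncomputable section

namespace Vale.Agent.P215.Am.Th

open Vale.Agent.P215

/-- range of `G2` on `W` -/
theorem G2_mem {x h : ℝ} (hx : 0 ≤ x) (h1 : h ≤ 1) (hr : rh x h ≤ 1 / 8) :
    0 ≤ G2 x h ∧ G2 x h ≤ 1 := by
  unfold rh at hr
  unfold G2
  grind

theorem G2_eq_zero {x h : ℝ} (hx : 0 ≤ x) (h1 : h ≤ 1) (e : G2 x h = 0) : x = 0 := by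
  unfold G2 at e
  grind

theorem h_ge_of_W {x h : ℝ} (hr : rh x h ≤ 1 / 8) : -1 / 8 ≤ h := by
  unfold rh at hr
  grind

theorem G2_strictMono {x x' h : ℝ} (hx : x < x') : G2 x h < G2 x' h := by
  unfold G2
  grind

theorem RW_h_inj {h h' : ℝ}
    (e1 : min 1 (min (3 * h - 5 / 8) (2 * h - 1 / 2)) =
      min 1 (min (3 * h' - 5 / 8) (2 * h' - 1 / 2)))
    (e2 : max (-1) (8 * h - 7) = max (-1) (8 * h' - 7)) : h = h' := by
  grind

theorem RW_inj {x y z x' y' z' : ℝ} (hx : 0 ≤ x) (hx1 : x ≤ 7 / 8) (hy : 0 ≤ y)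
    (hy1 : y ≤ 15 / 16) (hz0 : -1 ≤ z) (hz1 : z ≤ 1) (hr : rh x (hz x y z) ≤ 1 / 8)
    (hx' : 0 ≤ x') (hx1' : x' ≤ 7 / 8) (hy' : 0 ≤ y')
    (hy1' : y' ≤ 15 / 16) (hz0' : -1 ≤ z') (hz1' : z' ≤ 1) (hr' : rh x' (hz x' y' z') ≤ 1 / 8)
    (h : RW x y (hz x y z) = RW x' y' (hz x' y' z')) : x = x' ∧ y = y' ∧ z = z' := by
  generalize e0 : hz x y z = k at h
  generalize e0' : hz x' y' z' = k' at h
  simp only [RW, Prod.mk.injEq, true_and] at h
  obtain ⟨h1, ⟨h2, h3⟩, h4⟩ := h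
  have e1 : k = k' := RW_h_inj h2 h4
  subst e1
  have e2 : x = x' := by
    rcases lt_trichotomy x x' with h5 | h5 | h5
    · exact absurd h3 (G2_strictMono h5).ne
    · exact h5
    · exact absurd h3 (G2_strictMono h5).ne'
  have e3 : y = y' := by
    rcases lt_trichotomy y y' with h5 | h5 | h5
    · have := et_strictMono (h := k) h5
      linarith
    · exact h5
    · have := et_strictMono (h := k) h5
      linarith
  subst e2
  subst e3
  refine ⟨rfl, rfl, ?_⟩
  rcases lt_trichotomy z z' with h5 | h5 | h5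
  · have := hz_strictMono (x := x) (y := y) h5
    linarith
  · exact h5
  · have := hz_strictMono (x := x) (y := y) h5
    linarith

end Vale.Agent.P215.Am.Th
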