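import Vale.Agent.P215.Am.ThU
import Vale.Agent.P215.Am.ThW
import Vale.Agent.P215.Am.ThA2
import Vale.Agent.P215.Am.ThGlue

/-!
# P215, route A: the map of the cube to the handle block, the values

The values of `TQ` lie in the (normalised) handle block or in one of the two slabs; the zero sets of
the second coordinates.
-/

noncomputable section

namespace Vale.Agent.P215.Am.Th

/-- The three cases for a point of the quarter. -/
theorem TQ_cases {x y z : ℝ} : (mu x y ≤ 1 ∧ TQ x y z = RA x y z) ∨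
    (x ≤ 7 / 8 ∧ y ≤ 15 / 16 ∧ 1 / 8 ≤ rh x (hz x y z) ∧ TQ x y z = RU x y (hz x y z)) ∨
    (x ≤ 7 / 8 ∧ y ≤ 15 / 16 ∧ rh x (hz x y z) ≤ 1 / 8 ∧ TQ x y z = RW x y (hz x y z)) := by
  by_cases h : mu x y ≤ 1
  · exact Or.inl ⟨h, if_pos h⟩
  · right
    have h1 : x ≤ 7 / 8 ∧ y ≤ 15 / 16 := by
      unfold mu at h
      push Not at h
      obtain ⟨h2, h3⟩ := lt_min_iff.1 h
      constructor <;> linarith
    have h2 : TQ x y z = RI x y z := by
      rw [TQ, if_neg h, min_eq_left h1.1, min_eq_left h1.2]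
    by_cases h3 : 1 / 8 ≤ rh x (hz x y z)
    · exact Or.inl ⟨h1.1, h1.2, h3, by rw [h2, RI, if_pos h3]⟩
    · exact Or.inr ⟨h1.1, h1.2, (not_le.1 h3).le, by rw [h2, RI, if_neg h3]⟩

/-- The predicate of `TQ_mem`. -/
def ValOK (P : P5) : Prop :=
  |P.1.1| ≤ 1 ∧ 0 ≤ P.1.2 ∧ P.1.2 ≤ 1 ∧
    |P.2.1.1| ≤ 1 ∧ 0 ≤ P.2.1.2 ∧ P.2.1.2 ≤ 1 ∧
    |P.2.2| ≤ 1 ∧
    ((P.2.1.1 = -1 ∧ P.2.1.2 ≤ 1 / 2 ∧ P.2.2 = 1) ∨
     (P.1.1 = -1 ∧ P.1.2 ≤ 1 / 2 ∧ P.2.2 = -1) ∨
     (max |P.1.1| P.1.2 = 1 ∧ max |P.2.1.1| P.2.1.2 = 1 ∧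
      ¬ (P.1.1 = 1 ∧ P.2.1.1 = 1 ∧ P.1.2 < 1 / 2 ∧
        P.2.1.2 < 1 / 2)))

theorem RA_OK {x y z : ℝ} (hx : 0 ≤ x) (hx1 : x ≤ 1) (hy : 0 ≤ y)
    (hy1 : y ≤ 1) (hz0 : -1 ≤ z) (hz1 : z ≤ 1) (hm : mu x y ≤ 1) : ValOK (RA x y z) := by
  obtain ⟨a0, a1⟩ := hA_mem hz0 hz1
  obtain ⟨b0, b1⟩ := tp_mem hx hx1 hy hy1 hm a0 a1
  obtain ⟨c0, c1⟩ := ts_mem hx hx1 hy hy1 hm a0 a1
  have d := tpts_root hx hx1 hy hy1 hm a0 a1
  unfold ValOK RA
  generalize tp (mu x y) x y (hA z) = p at *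
  generalize ts (mu x y) x (hA z) = s at *
  simp only
  refine ⟨abs_le.2 ⟨by grind, by grind⟩, by grind, by grind, by norm_num, c0, c1,
    abs_le.2 ⟨hz0, hz1⟩, Or.inr (Or.inr ⟨?_, ?_, ?_⟩)⟩
  · rcases le_total p 1 with h | h
    · rw [min_eq_left (by linarith : (1:ℝ) ≤ 2 - p), min_eq_left h, abs_one]
      exact max_eq_left h
    · rw [min_eq_right (by linarith : 2 - p ≤ (1:ℝ)), min_eq_right h]
      exact max_eq_right (abs_le.2 ⟨by linarith, by linarith⟩)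
  · rw [abs_one]
    exact max_eq_left c1
  · rintro ⟨-, -, h1, h2⟩
    rcases min_lt_iff.1 h1 with h3 | h3
    · rcases d with h4 | h4 <;> linarith
    · norm_num at h3

theorem RU0_OK {p q s : ℝ} (hp : |p| ≤ 2) (hq0 : 0 ≤ q) (hq : q ≤ 2) (hs : 0 ≤ s) (hs1 : s ≤ 1) :
    ValOK (RU0 p q s) := by
  obtain ⟨n1, n2⟩ := NN_mem hp (abs_le.2 ⟨by linarith, hq⟩)
  have t0 : 0 ≤ NN p q - 1 := by linarith
  have t1 : NN p q - 1 ≤ 1 := by linarith
  have g0 := sgm_nonneg t0 t1 hs hs1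
  have g1 := sgm_le t0 t1 hs1
  have r0 := rr_mem t0 t1 hs1
  have np : 0 < NN p q := by linarith
  have e1 : |p / NN p q| = |p| / NN p q := by rw [abs_div, abs_of_pos np]
  have e2 : |p| ≤ NN p q := (le_max_left _ _).trans (le_max_right _ _)
  have e3 : q ≤ NN p q := (le_abs_self q).trans ((le_max_right _ _).trans (le_max_right _ _))
  have e4 : |p| / NN p q ≤ 1 := (div_le_one np).2 e2
  have e5 : q / NN p q ≤ 1 := (div_le_one np).2 e3
  have e6 : 0 ≤ q / NN p q := div_nonneg hq0 np.le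
  unfold ValOK RU0
  simp only
  refine ⟨e1 ▸ e4, e6, e5, ?_, ?_, ?_, abs_le.2 r0, ?_⟩
  · rw [abs_le]
    constructor
    · exact le_max_left _ _
    · exact max_le (by norm_num) (by linarith)
  · exact le_min g0 zero_le_one
  · exact min_le_right _ _
  · rcases n1.eq_or_lt with h | h
    · left
      rw [← h, sub_self, sgm_zero, rr_zero]
      refine ⟨?_, ?_, rfl⟩
      · exact max_eq_left (by linarith)
      · exact (min_le_left _ _).trans (by linarith)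
    · right; right
      refine ⟨?_, ?_, ?_⟩
      · have h1 : NN p q = max |p| q := by
          unfold NN at h ⊢
          rw [abs_of_nonneg hq0] at h ⊢
          rcases max_choice (1 : ℝ) (max |p| q) with h2 | h2
          · rw [h2] at h
            exact absurd h (lt_irrefl _)
          · exact h2
        rw [e1, max_div_div_right np.le, ← h1, div_self np.ne']
      · generalize sgm (NN p q - 1) s = g at *
        grind
      · rintro ⟨-, h2, -, h4⟩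
        generalize sgm (NN p q - 1) s = g at *
        grind

theorem RW_OK {x y z : ℝ} (hx : 0 ≤ x) (hy : 0 ≤ y)
    (hy1 : y ≤ 15 / 16) (hz0 : -1 ≤ z) (hz1 : z ≤ 1) (hr : rh x (hz x y z) ≤ 1 / 8) :
    ValOK (RW x y (hz x y z)) := by
  have a0 := hz_ge (x := x) (y := y) hz0
  have a1 := hz_le_one (x := x) (y := y) hz1
  have b0 := et_nonneg hy a1
  have b1 := et_le_two hy1 a0
  obtain ⟨c0, c1⟩ := G2_mem hx a1 hr
  have d0 := h_ge_of_W hr
  have e : hz x y z < 3 / 4 → et y (hz x y z) ≤ 1 := fun h =>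
    et_le_one (hz_box hz0 hz1 h).1 a0 h.le
  unfold ValOK RW
  generalize hz x y z = h at *
  generalize et y h = e' at *
  generalize G2 x h = g at *
  simp only
  have f0 : -1 ≤ min 1 (min (3 * h - 5 / 8) (2 * h - 1 / 2)) :=
    le_min (by norm_num) (le_min (by linarith) (by linarith))
  have f1 : min 1 (min (3 * h - 5 / 8) (2 * h - 1 / 2)) ≤ 1 := min_le_left _ _
  refine ⟨by norm_num, by linarith, by linarith, abs_le.2 ⟨f0, f1⟩, c0, c1,
    abs_le.2 ⟨le_max_left _ _, max_le (by norm_num) (by linarith)⟩, ?_⟩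
  rcases lt_or_ge h (3 / 4) with h1 | h1
  · right; left
    exact ⟨trivial, by linarith [e h1], max_eq_left (by linarith)⟩
  · right; right
    have f2 : min 1 (min (3 * h - 5 / 8) (2 * h - 1 / 2)) = 1 :=
      min_eq_left (le_min (by linarith) (by linarith))
    rw [f2]
    refine ⟨?_, ?_, ?_⟩
    · rw [abs_neg, abs_one]
      exact max_eq_left (by linarith)
    · rw [abs_one]
      exact max_eq_left c1
    · rintro ⟨h2, -⟩
      norm_num at h2

/-- the value lies in the (normalised) handle block or in one of the two slabs -/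
theorem TQ_mem {x y z : ℝ} (hx : 0 ≤ x) (hx1 : x ≤ 1) (hy : 0 ≤ y)
    (hy1 : y ≤ 1) (hz0 : -1 ≤ z) (hz1 : z ≤ 1) :
    |(TQ x y z).1.1| ≤ 1 ∧ 0 ≤ (TQ x y z).1.2 ∧ (TQ x y z).1.2 ≤ 1 ∧
    |(TQ x y z).2.1.1| ≤ 1 ∧ 0 ≤ (TQ x y z).2.1.2 ∧ (TQ x y z).2.1.2 ≤ 1 ∧
    |(TQ x y z).2.2| ≤ 1 ∧
    (((TQ x y z).2.1.1 = -1 ∧ (TQ x y z).2.1.2 ≤ 1 / 2 ∧ (TQ x y z).2.2 = 1) ∨
     ((TQ x y z).1.1 = -1 ∧ (TQ x y z).1.2 ≤ 1 / 2 ∧ (TQ x y z).2.2 = -1) ∨
     (max |(TQ x y z).1.1| (TQ x y z).1.2 = 1 ∧ max |(TQ x y z).2.1.1| (TQ x y z).2.1.2 = 1 ∧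
      ¬ ((TQ x y z).1.1 = 1 ∧ (TQ x y z).2.1.1 = 1 ∧ (TQ x y z).1.2 < 1 / 2 ∧
        (TQ x y z).2.1.2 < 1 / 2))) := by
  change ValOK (TQ x y z)
  rcases TQ_cases (x := x) (y := y) (z := z) with ⟨h, e⟩ | ⟨h1, h2, h3, e⟩ | ⟨h1, h2, h3, e⟩
  · rw [e]
    exact RA_OK hx hx1 hy hy1 hz0 hz1 h
  · rw [e, RU]
    obtain ⟨s0, s1⟩ := sx_mem hx (hz_ge (x := x) (y := y) hz0) (hz_le_one hz1)
    obtain ⟨f0, f1⟩ := F2_et_mem (x := x) (p := F1 (sx x (hz x y z)) (rh x (hz x y z)))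
      hy h2 hz0 hz1
    exact RU0_OK (abs_F1_le hx h1 hz0 hz1 h3) f0 f1 s0 s1
  · rw [e]
    exact RW_OK hx hy h2 hz0 hz1 h3

theorem tp_zero {x h : ℝ} (hx1 : x ≤ 1) (hm : mu x 0 ≤ 1) (h1 : h ≤ 1) :
    tp (mu x 0) x 0 h = 0 := by
  have hx : 7 / 8 ≤ x := by
    unfold mu at hm
    rcases min_le_iff.1 hm with h2 | h2 <;> linarith
  have e1 : B1 x h = 1 := by
    unfold B1 F1
    have h2 : 0 < max 1 (83 / 16 - 4 * ((3 + h) / 4)) := by positivity
    have h3 : 1 ≤ (4 * x - 1 - h - 5 / 16) / max 1 (83 / 16 - 4 * ((3 + h) / 4)) := by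
      rw [le_div_iff₀ h2, one_mul]
      exact max_le (by linarith) (by linarith)
    grind
  have e2 : Kp 0 = 0 := by unfold Kp KK; norm_num
  have m0 := mu_nonneg hx1 zero_le_one
  unfold tp
  rw [e1, e2]
  simp only [mul_zero, add_zero, zero_div, sub_self]
  exact max_eq_left (by linarith)

theorem ts_zero {y h : ℝ} (hm : mu 0 y ≤ 1) (h1 : h ≤ 1) :
    ts (mu 0 y) 0 h = 0 := by
  have e1 : min 1 (G2 0 h) = 0 := by
    unfold G2
    rw [mul_zero, min_eq_left (by linarith : (0:ℝ) ≤ 0 + 23 / 32 - h / 4)]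
    norm_num
  unfold ts
  rw [e1]
  simp only [mul_zero, zero_div, zero_add]
  exact max_eq_left (by linarith)

theorem F2_nonneg_eq_zero {p e : ℝ} (he : 0 ≤ e) (h : F2 p e = 0) : e = 0 :=
  le_antisymm ((F2_ge p e).trans h.le) he

theorem F2_zero (p : ℝ) : F2 p 0 = 0 := by unfold F2 KK; grind

theorem et_zero {h : ℝ} (h1 : h ≤ 1) : et 0 h = 0 := by unfold et; grind

theorem TQ_fst_zero {x y z : ℝ} (hx : 0 ≤ x) (hx1 : x ≤ 1) (hy : 0 ≤ y)
    (hy1 : y ≤ 1) (hz0 : -1 ≤ z) (hz1 : z ≤ 1) : (TQ x y z).1.2 = 0 ↔ y = 0 := by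
  rcases TQ_cases (x := x) (y := y) (z := z) with ⟨h, e⟩ | ⟨h1, h2, h3, e⟩ | ⟨h1, h2, h3, e⟩
  · rw [e]
    obtain ⟨a0, a1⟩ := hA_mem hz0 hz1
    unfold RA
    simp only
    constructor
    · intro h4
      refine tp_eq_zero hx hx1 hy hy1 h a0 a1 ?_
      rcases min_choice (tp (mu x y) x y (hA z)) 1 with h5 | h5
      · rw [← h5, h4]
      · rw [h5] at h4
        norm_num at h4
    · rintro rfl
      rw [tp_zero hx1 h a1]
      norm_num
  · rw [e]
    obtain ⟨s0, s1⟩ := sx_mem hx (hz_ge (x := x) (y := y) hz0) (hz_le_one hz1)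
    obtain ⟨n1, -⟩ := NN_mem (abs_F1_le hx h1 hz0 hz1 h3)
      (abs_F2_le (x := x) (p := F1 (sx x (hz x y z)) (rh x (hz x y z))) hy h2 hz0 hz1)
    unfold RU RU0
    simp only
    have n0 : NN (F1 (sx x (hz x y z)) (rh x (hz x y z)))
      (F2 (F1 (sx x (hz x y z)) (rh x (hz x y z))) (et y (hz x y z))) ≠ 0 := by linarith
    rw [div_eq_zero_iff, or_iff_left n0]
    constructor
    · intro h4
      exact et_zero_iff hy (hz_le_one hz1) (F2_nonneg_eq_zero (et_nonneg hy (hz_le_one hz1)) h4)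
    · rintro rfl
      rw [et_zero (hz_le_one hz1), F2_zero]
  · rw [e]
    unfold RW
    simp only
    constructor
    · intro h4
      exact et_zero_iff hy (hz_le_one hz1) (by linarith)
    · rintro rfl
      rw [et_zero (hz_le_one hz1)]
      norm_num

theorem TQ_snd_zero {x y z : ℝ} (hx : 0 ≤ x) (hx1 : x ≤ 1) (hy : 0 ≤ y)
    (hy1 : y ≤ 1) (hz0 : -1 ≤ z) (hz1 : z ≤ 1) : (TQ x y z).2.1.2 = 0 ↔ x = 0 := by
  rcases TQ_cases (x := x) (y := y) (z := z) with ⟨h, e⟩ | ⟨h1, h2, h3, e⟩ | ⟨h1, h2, h3, e⟩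
  · rw [e]
    obtain ⟨a0, a1⟩ := hA_mem hz0 hz1
    unfold RA
    simp only
    constructor
    · exact ts_eq_zero hx hx1 hy hy1 h a0 a1
    · rintro rfl
      exact ts_zero h a1
  · rw [e]
    obtain ⟨s0, s1⟩ := sx_mem hx (hz_ge (x := x) (y := y) hz0) (hz_le_one hz1)
    obtain ⟨n1, n2⟩ := NN_mem (abs_F1_le hx h1 hz0 hz1 h3)
      (abs_F2_le (x := x) (p := F1 (sx x (hz x y z)) (rh x (hz x y z))) hy h2 hz0 hz1)
    unfold RU RU0
    simp only
    generalize NN (F1 (sx x (hz x y z)) (rh x (hz x y z)))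
      (F2 (F1 (sx x (hz x y z)) (rh x (hz x y z))) (et y (hz x y z))) = N at *
    have t0 : 0 ≤ N - 1 := by linarith
    have t1 : N - 1 ≤ 1 := by linarith
    have g0 := sgm_nonneg t0 t1 s0 s1
    constructor
    · intro h4
      have h5 : sgm (N - 1) (sx x (hz x y z)) = 0 := by
        rcases min_choice (sgm (N - 1) (sx x (hz x y z))) 1 with h5 | h5
        · rw [← h5, h4]
        · rw [h5] at h4
          norm_num at h4
      have h6 := sgm_eq_zero t0 t1 s0 s1 h5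
      have h7 := hz_ge (x := x) (y := y) hz0
      unfold sx at h6
      grind
    · rintro rfl
      have h5 : sx 0 (hz 0 y z) = 0 := by
        have h7 := hz_ge (x := 0) (y := y) hz0
        unfold sx
        rw [mul_zero]
        exact min_eq_left (by linarith)
      rw [h5]
      have h6 : sgm (N - 1) 0 = 0 := by unfold sgm sg; norm_num
      rw [h6]
      norm_num
  · rw [e]
    unfold RW
    simp only
    constructor
    · exact G2_eq_zero hx (hz_le_one hz1)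
    · rintro rfl
      have h7 := hz_le_one (x := 0) (y := y) hz1
      unfold G2
      rw [mul_zero]
      exact min_eq_left (by linarith)

end Vale.Agent.P215.Am.Th
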