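import Vale.Agent.P215.Am.ThDefs
import Vale.Agent.P215.Am.Beta

/-!
# P215, route A: values of `TQ` on the legs and on the boundary
-/

noncomputable section

namespace Vale.Agent.P215.Am.Th

open Vale.Agent.P215

theorem mu_gt {x y : ℝ} (hx : x < 7 / 8) (hy : y < 15 / 16) : ¬ mu x y ≤ 1 := by
  unfold mu
  rw [not_le, lt_min_iff]
  constructor <;> linarith

theorem F1_low {s r : ℝ} (h : r ≤ 5 / 16) : F1 s r = 16 * r - 4 := by
  unfold F1
  have h1 : (1 : ℝ) ≤ max 1 (83 / 16 - 4 * s) := le_max_left _ _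
  have h2 : 0 < max 1 (83 / 16 - 4 * s) := by linarith
  rw [min_eq_left]
  have h3 : 16 * (r - 5 / 16) ≤ (r - 5 / 16) / max 1 (83 / 16 - 4 * s) := by
    rw [le_div_iff₀ h2]
    nlinarith
  linarith

theorem TQ_beta1 {a b s : ℝ} (ha : 0 ≤ a) (ha1 : a ≤ 1) (hb : |b| ≤ 1) (hs : 0 ≤ s) (hs1 : s ≤ 1) :
    TQ (Yf s (1 / 4 + b / 16)) (a / 16)
      (max 0 (4 * Yf s (1 / 4 + b / 16) - 1) - (1 / 4 + b / 16)) = ((b, a), (-1, s / 2), 1) := by
  have hb1 : -1 ≤ b := (abs_le.1 hb).1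
  have hb2 : b ≤ 1 := (abs_le.1 hb).2
  generalize hr : 1 / 4 + b / 16 = r
  have hr1 : 3 / 16 ≤ r := by linarith
  have hr2 : r ≤ 5 / 16 := by linarith
  have hbr : b = 16 * r - 4 := by linarith
  generalize hx : Yf s r = x
  have hx0 : 0 ≤ x := by rw [← hx]; unfold Yf; grind
  have hx1 : x ≤ 1 / 2 + r / 4 := by rw [← hx]; unfold Yf; grind
  have hz : hz x (a / 16) (max 0 (4 * x - 1) - r) = max 0 (4 * x - 1) - r := by
    unfold hz; grind
  have hsx : sx x (max 0 (4 * x - 1) - r) = s := by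
    rw [← hx]; unfold sx Yf; grind
  have hrh : rh x (max 0 (4 * x - 1) - r) = r := by unfold rh; ring
  have het : et (a / 16) (max 0 (4 * x - 1) - r) = a / 8 := by unfold et; grind
  have hF2 : F2 b (a / 8) = a := by unfold F2 KK; grind
  have hN : NN b a = 1 := by unfold NN; grind
  unfold TQ
  rw [if_neg (mu_gt (by linarith) (by linarith)), min_eq_left (by linarith),
    min_eq_left (by linarith)]
  unfold RI
  rw [hz, hrh, if_pos (by linarith)]
  unfold RU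
  rw [hsx, hrh, het, F1_low hr2, ← hbr, hF2]
  unfold RU0
  rw [hN]
  unfold sgm rr
  simp only [Prod.mk.injEq]
  refine ⟨⟨by ring, by ring⟩, ⟨?_, ?_⟩, by ring⟩
  · rw [max_eq_left]; linarith
  · rw [min_eq_left] <;> linarith

theorem TQ_beta2 {a b s : ℝ} (ha : 0 ≤ a) (ha1 : a ≤ 1) (hb : |b| ≤ 1) (hs : 0 ≤ s) (hs1 : s ≤ 1) :
    TQ (a / 16) (Yf s (1 / 4 + b / 16))
      ((1 / 4 + b / 16) - max 0 (4 * Yf s (1 / 4 + b / 16) - 1)) =
      ((-1, s / 2), (b / 8, a / 4), -1) := by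
  have hb1 : -1 ≤ b := (abs_le.1 hb).1
  have hb2 : b ≤ 1 := (abs_le.1 hb).2
  generalize hr : 1 / 4 + b / 16 = r
  have hr1 : 3 / 16 ≤ r := by linarith
  have hr2 : r ≤ 5 / 16 := by linarith
  have hbr : b = 16 * r - 4 := by linarith
  generalize hx : Yf s r = y
  have hx0 : 0 ≤ y := by rw [← hx]; unfold Yf; grind
  have hx1 : y ≤ 1 / 2 + r / 4 := by rw [← hx]; unfold Yf; grind
  have hz : hz (a / 16) y (r - max 0 (4 * y - 1)) = r := by
    unfold hz; grind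
  have het : et y r = s := by
    rw [← hx]; unfold et Yf; grind
  have hrh : rh (a / 16) r = -r := by unfold rh; grind
  have hG : G2 (a / 16) r = a / 4 := by unfold G2; grind
  unfold TQ
  rw [if_neg (mu_gt (by linarith) (by linarith)), min_eq_left (by linarith),
    min_eq_left (by linarith)]
  unfold RI
  rw [hz, hrh, if_neg (by linarith)]
  unfold RW
  rw [het, hG]
  simp only [Prod.mk.injEq]
  refine ⟨trivial, ⟨?_, trivial⟩, ?_⟩ <;> grind

theorem TQ_x {y z : ℝ} (hy : 0 ≤ y) (hy1 : y ≤ 1) (hz : -1 ≤ z) (hz1 : z ≤ 1) :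
    TQ 1 y z = ((1, y / 2), (1, 1 / 2), z) := by
  have hm : mu 1 y = 0 := by unfold mu; grind
  unfold TQ
  rw [hm, if_pos zero_le_one]
  unfold RA
  rw [hm]
  unfold tp ts
  simp only [Prod.mk.injEq]
  refine ⟨⟨?_, ?_⟩, ⟨trivial, ?_⟩, trivial⟩ <;> grind

theorem TQ_y {x z : ℝ} (hx : 0 ≤ x) (hx1 : x ≤ 1) (hz : -1 ≤ z) (hz1 : z ≤ 1) :
    TQ x 1 z = ((1, 1 / 2), (1, x / 2), z) := by
  have hm : mu x 1 = 0 := by unfold mu; grind
  unfold TQ
  rw [hm, if_pos zero_le_one]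
  unfold RA
  rw [hm]
  unfold tp ts
  simp only [Prod.mk.injEq]
  refine ⟨⟨?_, ?_⟩, ⟨trivial, ?_⟩, trivial⟩ <;> grind

end Vale.Agent.P215.Am.Th
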