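import Vale.Agent.P215.Am.ThDefs

set_option linter.unusedVariables false

noncomputable section

namespace Vale.Agent.P215.Am.Th

theorem sg_le (s : ℝ) : sg s ≤ 3 := by unfold sg; grind
theorem sg_ge {s : ℝ} (hs : 0 ≤ s) (hs1 : s ≤ 1) : 2 * s ≤ sg s := by unfold sg; grind
theorem sg_eq {s : ℝ} (h : 15 / 16 ≤ s) : sg s = 3 := by unfold sg; grind
theorem sg_strictMono {s s' : ℝ} (h : s < s') (h' : s' ≤ 15 / 16) : sg s < sg s' := by
  unfold sg; grind
theorem sg_mono {s s' : ℝ} (h : s ≤ s') : sg s ≤ sg s' := by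
  unfold sg; grind
theorem sg_eq_three {s : ℝ} (h : sg s = 3) (hs : s ≤ 1) : 15 / 16 ≤ s := by unfold sg at h; grind

theorem sgm_rr_inj_aux {t s t' s' : ℝ} (ht : 0 ≤ t) (ht1 : t ≤ 1) (hs : 0 ≤ s) (hs1 : s ≤ 1)
    (ht' : 0 ≤ t') (ht1' : t' ≤ 1) (hs' : 0 ≤ s') (hs1' : s' ≤ 1) (hss : s ≤ s')
    (e1 : sgm t s = sgm t' s') (e2 : rr t s = rr t' s') : t = t' ∧ s = s' := by
  unfold sgm rr at *
  have a1 := sg_le s
  have a2 := sg_le s'
  have a3 := sg_ge hs hs1
  have a4 := sg_ge hs' hs1'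
  rcases le_total s (15 / 16) with h1 | h1
  · rw [min_eq_left (by linarith)] at e2
    rcases le_total s' (15 / 16) with h2 | h2
    · rw [min_eq_left (by linarith)] at e2
      have : t = t' := by linarith
      subst this
      refine ⟨rfl, ?_⟩
      rcases hss.eq_or_lt with h | h
      · exact h
      · exfalso
        have h3 : sg s < sg s' := sg_strictMono h h2
        rcases ht.eq_or_lt with h4 | h4
        · subst h4; linarith
        · nlinarith
    · rw [min_eq_right (by linarith)] at e2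
      rw [sg_eq h2] at *
      have h4 : t = t' * (16 * (1 - s')) := by linarith
      have h5 : t ≤ t' := by nlinarith
      have h6 : (1 - t) * s / 2 + t * sg s ≤ (1 - t) * s / 2 + t * 3 := by nlinarith
      have h7 : (1 - t) * s' / 2 + t * 3 ≤ (1 - t') * s' / 2 + t' * 3 := by nlinarith
      have h8 : (1 - t) * s ≥ (1 - t) * s' := by nlinarith
      rcases ht1.eq_or_lt with h9 | h9
      · subst h9
        have h10 : t' = 1 := by linarith
        subst h10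
        have : s' = 15 / 16 := by linarith
        refine ⟨rfl, ?_⟩
        have h11 : sg s = 3 := by linarith
        have := sg_eq_three h11 hs1
        linarith
      · have h10 : s ≥ s' := by
          by_contra hc
          push Not at hc
          nlinarith
        have h11 : s = s' := le_antisymm hss h10
        refine ⟨?_, h11⟩
        have h12 : s' = 15 / 16 := by linarith
        rw [h12] at h4
        linarith
  · have h2 : 15 / 16 ≤ s' := h1.trans hss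
    rw [min_eq_right (by linarith), min_eq_right (by linarith)] at e2
    rw [sg_eq h1, sg_eq h2] at *
    have h4 : t * (1 - s) = t' * (1 - s') := by linarith
    -- t ≤ t'
    have h5 : t ≤ t' := by
      by_contra hc
      push Not at hc
      nlinarith
    rcases h5.eq_or_lt with h6 | h6
    · subst h6
      refine ⟨rfl, ?_⟩
      rcases ht1.eq_or_lt with h7 | h7
      · subst h7; linarith
      · have : (1 - t) * (s' - s) = 0 := by linarith
        rcases mul_eq_zero.1 this with h | h <;> linarith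
    · exfalso
      nlinarith [mul_nonneg ht (sub_nonneg.2 hss), mul_pos (sub_pos.2 h6) (show (0:ℝ) < 3 - s / 2 by linarith)]

theorem sgm_rr_inj {t s t' s' : ℝ} (ht : 0 ≤ t) (ht1 : t ≤ 1) (hs : 0 ≤ s) (hs1 : s ≤ 1)
    (ht' : 0 ≤ t') (ht1' : t' ≤ 1) (hs' : 0 ≤ s') (hs1' : s' ≤ 1)
    (e1 : sgm t s = sgm t' s') (e2 : rr t s = rr t' s') : t = t' ∧ s = s' := by
  rcases le_total s s' with h | h
  · exact sgm_rr_inj_aux ht ht1 hs hs1 ht' ht1' hs' hs1' h e1 e2
  · obtain ⟨h1, h2⟩ := sgm_rr_inj_aux ht' ht1' hs' hs1' ht ht1 hs hs1 h e1.symm e2.symm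
    exact ⟨h1.symm, h2.symm⟩

theorem sgm_nonneg {t s : ℝ} (ht : 0 ≤ t) (ht1 : t ≤ 1) (hs : 0 ≤ s) (hs1 : s ≤ 1) :
    0 ≤ sgm t s := by
  have := sg_ge hs hs1
  unfold sgm
  have h1 : 0 ≤ (1 - t) * s := mul_nonneg (by linarith) hs
  have h2 : 0 ≤ t * sg s := mul_nonneg ht (by linarith)
  linarith
theorem sgm_le {t s : ℝ} (ht : 0 ≤ t) (ht1 : t ≤ 1) (hs1 : s ≤ 1) : sgm t s ≤ 3 := by
  have := sg_le s
  unfold sgm
  nlinarith
theorem sgm_eq_three {t s : ℝ} (ht : 0 ≤ t) (ht1 : t ≤ 1) (hs : 0 ≤ s) (hs1 : s ≤ 1)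
    (h : sgm t s = 3) : t = 1 ∧ 15 / 16 ≤ s := by
  have h1 := sg_le s
  unfold sgm at h
  have ht : t = 1 := by
    by_contra hc
    have : t < 1 := lt_of_le_of_ne ht1 hc
    nlinarith
  subst ht
  refine ⟨rfl, sg_eq_three ?_ hs1⟩
  linarith
theorem sgm_eq_zero {t s : ℝ} (ht : 0 ≤ t) (ht1 : t ≤ 1) (hs : 0 ≤ s) (hs1 : s ≤ 1)
    (h : sgm t s = 0) : s = 0 := by
  have h1 := sg_ge hs hs1
  unfold sgm at h
  by_contra hc
  have : 0 < s := lt_of_le_of_ne hs (Ne.symm hc)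
  nlinarith
theorem rr_mem {t s : ℝ} (ht : 0 ≤ t) (ht1 : t ≤ 1) (hs1 : s ≤ 1) :
    -1 ≤ rr t s ∧ rr t s ≤ 1 := by
  unfold rr
  have h1 : min 1 (16 * (1 - s)) ≤ 1 := min_le_left _ _
  have h2 : 0 ≤ min 1 (16 * (1 - s)) := by grind
  constructor <;> nlinarith
theorem rr_eq_neg_one {t s : ℝ} (ht : 0 ≤ t) (ht1 : t ≤ 1) (hs1 : s ≤ 1) (h : rr t s = -1) :
    t = 1 := by
  unfold rr at h
  have h1 : min 1 (16 * (1 - s)) ≤ 1 := min_le_left _ _
  have h2 : 0 ≤ min 1 (16 * (1 - s)) := by grind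
  nlinarith
theorem rr_zero (s : ℝ) : rr 0 s = 1 := by unfold rr; ring
theorem sgm_zero (s : ℝ) : sgm 0 s = s / 2 := by unfold sgm; ring
/-- `σ` determines the point of the circle -/
theorem sq_param_inj {a b : ℝ} (ha : 0 ≤ a) (ha3 : a ≤ 3) (hb : 0 ≤ b) (hb3 : b ≤ 3)
    (e1 : max (-1) (a - 2) = max (-1) (b - 2)) (e2 : min a 1 = min b 1) : a = b := by grind

theorem NN_mem {p q : ℝ} (hp : |p| ≤ 2) (hq : |q| ≤ 2) : 1 ≤ NN p q ∧ NN p q ≤ 2 := by
  unfold NN; grind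

theorem RU0_inj {p q s p' q' s' : ℝ} (hp : |p| ≤ 2) (hq : |q| ≤ 2) (hs : 0 ≤ s) (hs1 : s ≤ 1)
    (hp' : |p'| ≤ 2) (hq' : |q'| ≤ 2) (hs' : 0 ≤ s') (hs1' : s' ≤ 1)
    (h : RU0 p q s = RU0 p' q' s') : p = p' ∧ q = q' ∧ s = s' := by
  obtain ⟨n1, n2⟩ := NN_mem hp hq
  obtain ⟨n1', n2'⟩ := NN_mem hp' hq'
  unfold RU0 at h
  simp only [Prod.mk.injEq] at h
  obtain ⟨⟨h1, h2⟩, ⟨h3, h4⟩, h5⟩ := h
  have h6 := sq_param_inj (sgm_nonneg (by linarith) (by linarith) hs hs1)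
    (sgm_le (by linarith) (by linarith) hs1) (sgm_nonneg (by linarith) (by linarith) hs' hs1')
    (sgm_le (by linarith) (by linarith) hs1') h3 h4
  obtain ⟨h7, h8⟩ := sgm_rr_inj (by linarith) (by linarith) hs hs1 (by linarith) (by linarith)
    hs' hs1' h6 h5
  have h9 : NN p q = NN p' q' := by linarith
  rw [h9] at h1 h2
  have h10 : NN p' q' ≠ 0 := by linarith
  exact ⟨(div_left_inj' h10).1 h1, (div_left_inj' h10).1 h2, h8⟩

end Vale.Agent.P215.Am.Th
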