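import Vale.Agent.P215.Am.ThH
import Vale.Agent.P215.Am.ThS

/-!
# P215, route A: the map of the cube to the handle block, the region `U`
-/

noncomputable section

namespace Vale.Agent.P215.Am.Th

theorem sx_mem {x h : ℝ} (hx : 0 ≤ x) (h0 : -1 ≤ h) (h1 : h ≤ 1) : 0 ≤ sx x h ∧ sx x h ≤ 1 := by
  unfold sx; grind

theorem abs_F1_le {x y z : ℝ} (hx0 : 0 ≤ x) (hx : x ≤ 7 / 8) (hz1 : -1 ≤ z) (hz2 : z ≤ 1)
    (hr : 1 / 8 ≤ rh x (hz x y z)) : |F1 (sx x (hz x y z)) (rh x (hz x y z))| ≤ 2 :=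
  abs_le.2 ⟨F1_ge (sx_mem hx0 (hz_ge hz1) (hz_le_one hz2)).2 hr, F1_le hx0 hx hz1 hz2⟩

theorem F2_et_mem {x y z p : ℝ} (hy : 0 ≤ y) (hy1 : y ≤ 15 / 16) (hz1 : -1 ≤ z) (hz2 : z ≤ 1) :
    0 ≤ F2 p (et y (hz x y z)) ∧ F2 p (et y (hz x y z)) ≤ 2 :=
  ⟨(et_nonneg hy (hz_le_one hz2)).trans (F2_ge _ _), F2_le (et_le_two hy1 (hz_ge hz1))⟩

theorem abs_F2_le {x y z p : ℝ} (hy : 0 ≤ y) (hy1 : y ≤ 15 / 16) (hz1 : -1 ≤ z) (hz2 : z ≤ 1) :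
    |F2 p (et y (hz x y z))| ≤ 2 := by
  obtain ⟨h1, h2⟩ := F2_et_mem (x := x) (p := p) hy hy1 hz1 hz2
  exact abs_le.2 ⟨by linarith, h2⟩

theorem hz_inj {x y z z' : ℝ} (h : hz x y z = hz x y z') : z = z' := by
  rcases lt_trichotomy z z' with h1 | h1 | h1
  · exact absurd h (hz_strictMono h1).ne
  · exact h1
  · exact absurd h (hz_strictMono h1).ne'

theorem et_inj {y y' h : ℝ} (e : et y h = et y' h) : y = y' := by
  rcases lt_trichotomy y y' with h1 | h1 | h1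
  · exact absurd e (et_strictMono h1).ne
  · exact h1
  · exact absurd e (et_strictMono h1).ne'

theorem F1_inj {s r r' : ℝ} (e : F1 s r = F1 s r') : r = r' := by
  rcases lt_trichotomy r r' with h1 | h1 | h1
  · exact absurd e (F1_strictMono h1).ne
  · exact h1
  · exact absurd e (F1_strictMono h1).ne'

theorem F2_inj {p r r' : ℝ} (e : F2 p r = F2 p r') : r = r' := by
  rcases lt_trichotomy r r' with h1 | h1 | h1
  · exact absurd e (F2_strictMono h1).ne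
  · exact h1
  · exact absurd e (F2_strictMono h1).ne'

/-- **The map is injective on the region `U`.** -/
theorem RU_inj {x y z x' y' z' : ℝ} (hx : 0 ≤ x) (hx1 : x ≤ 7 / 8) (hy : 0 ≤ y)
    (hy1 : y ≤ 15 / 16) (hz0 : -1 ≤ z) (hz1 : z ≤ 1) (hr : 1 / 8 ≤ rh x (hz x y z))
    (hx' : 0 ≤ x') (hx1' : x' ≤ 7 / 8) (hy' : 0 ≤ y')
    (hy1' : y' ≤ 15 / 16) (hz0' : -1 ≤ z') (hz1' : z' ≤ 1) (hr' : 1 / 8 ≤ rh x' (hz x' y' z'))
    (h : RU x y (hz x y z) = RU x' y' (hz x' y' z')) : x = x' ∧ y = y' ∧ z = z' := by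
  have hs := sx_mem hx (hz_ge (x := x) (y := y) hz0) (hz_le_one hz1)
  have hs' := sx_mem hx' (hz_ge (x := x') (y := y') hz0') (hz_le_one hz1')
  unfold RU at h
  obtain ⟨e1, e2, e3⟩ := RU0_inj (abs_F1_le hx hx1 hz0 hz1 hr) (abs_F2_le hy hy1 hz0 hz1)
    hs.1 hs.2 (abs_F1_le hx' hx1' hz0' hz1' hr') (abs_F2_le hy' hy1' hz0' hz1') hs'.1 hs'.2 h
  rw [e1] at e2
  rw [e3] at e1
  obtain ⟨e5, e6⟩ := sxrh_inj (hz_ge hz0) (hz_ge hz0') e3 (F1_inj e1)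
  have e7 := F2_inj e2
  rw [e6] at e7
  have e8 := et_inj e7
  subst e5 e8
  exact ⟨rfl, rfl, hz_inj e6⟩

end Vale.Agent.P215.Am.Th
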