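import Vale.Agent.P215.Am.ThX
import Vale.Agent.P215.Am.ThU
import Vale.Agent.P215.Am.ThA

/-!
# P215, route A: the map of the cube to the handle block is injective on the quarter
-/

noncomputable section

namespace Vale.Agent.P215.Am.Th

/-- Outside of the region `A`. -/
theorem lt_of_mu {x y : ℝ} (h : ¬ mu x y ≤ 1) : x < 7 / 8 ∧ y < 15 / 16 := by
  push Not at h
  obtain ⟨h1, h2⟩ := lt_min_iff.1 h
  constructor <;> linarith

theorem TQ_A {x y z : ℝ} (h : mu x y ≤ 1) : TQ x y z = RA x y z := by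
  unfold TQ; rw [if_pos h]

theorem TQ_U {x y z : ℝ} (h : ¬ mu x y ≤ 1) (hr : 1 / 8 ≤ rh x (hz x y z)) :
    TQ x y z = RU x y (hz x y z) := by
  obtain ⟨h1, h2⟩ := lt_of_mu h
  unfold TQ RI
  rw [if_neg h, min_eq_left h1.le, min_eq_left h2.le, if_pos hr]

theorem TQ_W {x y z : ℝ} (h : ¬ mu x y ≤ 1) (hr : ¬ 1 / 8 ≤ rh x (hz x y z)) :
    TQ x y z = RW x y (hz x y z) := by
  obtain ⟨h1, h2⟩ := lt_of_mu h
  unfold TQ RI
  rw [if_neg h, min_eq_left h1.le, min_eq_left h2.le, if_neg hr]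

theorem tp_param_inj {a b : ℝ} (ha3 : a ≤ 3) (hb3 : b ≤ 3)
    (e1 : min 1 (2 - a) = min 1 (2 - b)) (e2 : min a 1 = min b 1) : a = b := by grind

theorem RA_inj {x y z x' y' z' : ℝ} (hx : 0 ≤ x) (hx1 : x ≤ 1) (hy : 0 ≤ y)
    (hy1 : y ≤ 1) (hz0 : -1 ≤ z) (hz1 : z ≤ 1)
    (hx' : 0 ≤ x') (hx1' : x' ≤ 1) (hy' : 0 ≤ y')
    (hy1' : y' ≤ 1) (hm : mu x y ≤ 1) (hm' : mu x' y' ≤ 1)
    (h : RA x y z = RA x' y' z') : x = x' ∧ y = y' ∧ z = z' := by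
  simp only [RA, Prod.mk.injEq, true_and] at h
  obtain ⟨⟨h1, h2⟩, h3, h4⟩ := h
  subst h4
  obtain ⟨a0, a1⟩ := hA_mem hz0 hz1
  have t1 := (tp_mem hx hx1 hy hy1 hm a0 a1).2
  have t2 := (tp_mem hx' hx1' hy' hy1' hm' a0 a1).2
  obtain ⟨h5, h6⟩ := tpts_inj hx hx1 hy hy1 hm a0 a1 hx' hx1' hy' hy1' hm'
    (tp_param_inj t1 t2 h1 h2) h3
  exact ⟨h5, h6, rfl⟩

/-- **The map is injective on the quarter.** -/
theorem TQ_inj {x y z x' y' z' : ℝ} (hx : 0 ≤ x) (hx1 : x ≤ 1) (hy : 0 ≤ y)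
    (hy1 : y ≤ 1) (hz0 : -1 ≤ z) (hz1 : z ≤ 1)
    (hx' : 0 ≤ x') (hx1' : x' ≤ 1) (hy' : 0 ≤ y')
    (hy1' : y' ≤ 1) (hz0' : -1 ≤ z') (hz1' : z' ≤ 1)
    (h : TQ x y z = TQ x' y' z') : x = x' ∧ y = y' ∧ z = z' := by
  by_cases hm : mu x y ≤ 1 <;> by_cases hm' : mu x' y' ≤ 1
  · rw [TQ_A hm, TQ_A hm'] at h
    exact RA_inj hx hx1 hy hy1 hz0 hz1 hx' hx1' hy' hy1' hm hm' h
  · exfalso
    obtain ⟨k1, k2⟩ := lt_of_mu hm'
    rw [TQ_A hm] at h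
    by_cases hr' : 1 / 8 ≤ rh x' (hz x' y' z')
    · rw [TQ_U hm' hr'] at h
      rcases RU_RA_cross hx' k1.le hy' k2.le hz0' hz1' hr' hx hx1 hy hy1 hz0 hz1 hm h.symm with
        h1 | h1 <;> linarith
    · rw [TQ_W hm' hr'] at h
      have h1 := RW_RA_cross hx' k1.le hy' k2.le hz0' hz1' (not_le.1 hr').le hx hx1 hy hy1 hz0 hz1
        hm h.symm
      linarith
  · exfalso
    obtain ⟨k1, k2⟩ := lt_of_mu hm
    rw [TQ_A hm'] at h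
    by_cases hr : 1 / 8 ≤ rh x (hz x y z)
    · rw [TQ_U hm hr] at h
      rcases RU_RA_cross hx k1.le hy k2.le hz0 hz1 hr hx' hx1' hy' hy1' hz0' hz1' hm' h with
        h1 | h1 <;> linarith
    · rw [TQ_W hm hr] at h
      have h1 := RW_RA_cross hx k1.le hy k2.le hz0 hz1 (not_le.1 hr).le hx' hx1' hy' hy1' hz0'
        hz1' hm' h
      linarith
  · obtain ⟨k1, k2⟩ := lt_of_mu hm
    obtain ⟨k1', k2'⟩ := lt_of_mu hm'
    by_cases hr : 1 / 8 ≤ rh x (hz x y z) <;> by_cases hr' : 1 / 8 ≤ rh x' (hz x' y' z')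
    · rw [TQ_U hm hr, TQ_U hm' hr'] at h
      exact RU_inj hx k1.le hy k2.le hz0 hz1 hr hx' k1'.le hy' k2'.le hz0' hz1' hr' h
    · rw [TQ_U hm hr, TQ_W hm' hr'] at h
      have h1 := RU_RW_cross hx k1.le hy k2.le hz0 hz1 hr hx' k1'.le hy' k2'.le hz0' hz1'
        (not_le.1 hr').le h
      rw [RU_RW hx k1.le hy k2.le (hz_ge hz0) (hz_le_one hz1) h1] at h
      exact RW_inj hx k1.le hy k2.le hz0 hz1 h1.le hx' k1'.le hy' k2'.le hz0' hz1'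
        (not_le.1 hr').le h
    · rw [TQ_W hm hr, TQ_U hm' hr'] at h
      have h1 := RU_RW_cross hx' k1'.le hy' k2'.le hz0' hz1' hr' hx k1.le hy k2.le hz0 hz1
        (not_le.1 hr).le h.symm
      rw [RU_RW hx' k1'.le hy' k2'.le (hz_ge hz0') (hz_le_one hz1') h1] at h
      exact RW_inj hx k1.le hy k2.le hz0 hz1 (not_le.1 hr).le hx' k1'.le hy' k2'.le hz0' hz1'
        h1.le h
    · rw [TQ_W hm hr, TQ_W hm' hr'] at h
      exact RW_inj hx k1.le hy k2.le hz0 hz1 (not_le.1 hr).le hx' k1'.le hy' k2'.le hz0' hz1'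
        (not_le.1 hr').le h

end Vale.Agent.P215.Am.Th
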