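import Vale.Agent.P215.Am.BoxLib
import Vale.Agent.P215.Am.TwoLeg
import Vale.Agent.P215.Am.InitDefs

/-!
# P215, route A: quarter turns of the legs

* `qturn : Disc → Disc`: a homeomorphism of the disc, the identity on the boundary, which is the
  rotation `(x, y) ↦ (y, -x)` on `‖·‖ ≤ 1/8`; it is a composition of three cut-off shears.
* `ThetaDatum.twist`: composition of a `ThetaDatum` with homeomorphisms of the leg discs.
-/

set_option linter.unusedVariables false

noncomputable section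

namespace Vale.Agent.P215.Am

open Vale.Agent.P215.H788 Vale.Agent.P215.H579 Set Topology

namespace Tw

/-- `t` for `|t| ≤ 1/4`, `0` for `|t| = 1`. -/
def cf (t : ℝ) : ℝ := max (-1 / 4) (min (1 / 4) t) - max (-1 / 4) (min (1 / 4) t) *
  (max 0 ((|t| - 1 / 4) * (4 / 3)))

/-- `1` for `|t| ≤ 1/4`, `0` for `|t| = 1`. -/
def ch (t : ℝ) : ℝ := min 1 ((1 - |t|) * (4 / 3))

theorem continuous_cf : Continuous cf := by unfold cf; fun_prop

theorem continuous_ch : Continuous ch := by unfold ch; fun_prop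

theorem cf_mid {t : ℝ} (h : |t| ≤ 1 / 4) : cf t = t := by
  have h' := abs_le.1 h
  unfold cf
  rw [max_eq_left (by linarith : (|t| - 1 / 4) * (4 / 3) ≤ 0), min_eq_right h'.2,
    max_eq_right (by linarith)]
  ring

theorem cf_end {t : ℝ} (h : |t| = 1) : cf t = 0 := by
  unfold cf
  rw [h, max_eq_right (by norm_num : (0 : ℝ) ≤ (1 - 1 / 4) * (4 / 3))]
  ring

theorem abs_cf {t : ℝ} (h : |t| ≤ 1) : |cf t| ≤ 1 / 4 := by
  unfold cf
  set m := max (-1 / 4) (min (1 / 4) t) with hm
  have h1 : -1 / 4 ≤ m := le_max_left _ _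
  have h2 : m ≤ 1 / 4 := max_le (by norm_num) (min_le_left _ _)
  set k := max 0 ((|t| - 1 / 4) * (4 / 3)) with hk
  have h3 : 0 ≤ k := le_max_left _ _
  have h4 : k ≤ 1 := max_le zero_le_one (by nlinarith)
  rw [abs_le]
  constructor <;> nlinarith

theorem ch_mid {t : ℝ} (h : |t| ≤ 1 / 4) : ch t = 1 := by
  unfold ch
  exact min_eq_left (by nlinarith)

theorem ch_end {t : ℝ} (h : |t| = 1) : ch t = 0 := by
  unfold ch
  rw [h]
  norm_num

theorem ch_lip (s t : ℝ) : |ch s - ch t| ≤ 4 / 3 * |s - t| := by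
  unfold ch
  have h1 : |min 1 ((1 - |s|) * (4 / 3)) - min 1 ((1 - |t|) * (4 / 3))| ≤
      |(1 - |s|) * (4 / 3) - (1 - |t|) * (4 / 3)| := by
    refine (abs_min_sub_min_le_max _ _ _ _).trans (max_le ?_ le_rfl)
    rw [sub_self, abs_zero]
    exact abs_nonneg _
  refine h1.trans ?_
  have h2 : (1 - |s|) * (4 / 3) - (1 - |t|) * (4 / 3) = -(4 / 3 * (|s| - |t|)) := by ring
  rw [h2, abs_neg, abs_mul, abs_of_nonneg (by norm_num : (0 : ℝ) ≤ 4 / 3)]
  exact mul_le_mul_of_nonneg_left (abs_abs_sub_abs_le_abs_sub s t) (by norm_num)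

theorem ch_le {t : ℝ} (h : |t| ≤ 1) : 0 ≤ ch t ∧ ch t ≤ (1 - |t|) * (4 / 3) :=
  ⟨le_min zero_le_one (mul_nonneg (by linarith) (by norm_num)), min_le_right _ _⟩

/-- The basic one-dimensional map `x ↦ x + k ch x`. -/
theorem shear_mem {k x : ℝ} (hk : |k| ≤ 1 / 4) (hx : |x| ≤ 1) : |x + k * ch x| ≤ 1 := by
  have h1 := ch_le hx
  have h2 : |k * ch x| ≤ 1 / 4 * ((1 - |x|) * (4 / 3)) := by
    rw [abs_mul, abs_of_nonneg h1.1]
    exact mul_le_mul hk h1.2 h1.1 (by norm_num)
  calc |x + k * ch x| ≤ |x| + |k * ch x| := abs_add_le _ _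
    _ ≤ 1 := by linarith

theorem shear_inj {k x y : ℝ} (hk : |k| ≤ 1 / 4) (h : x + k * ch x = y + k * ch y) : x = y := by
  have h1 : x - y = k * (ch y - ch x) := by linarith
  have h2 : |x - y| ≤ 1 / 4 * (4 / 3 * |y - x|) := by
    rw [h1, abs_mul]
    exact mul_le_mul hk (ch_lip y x) (abs_nonneg _) (by norm_num)
  rw [abs_sub_comm y x] at h2
  have h3 : |x - y| ≤ 0 := by
    have := abs_nonneg (x - y)
    linarith
  have h4 := abs_nonpos_iff.1 h3
  linarith

/-- Horizontal shear with cut-off. -/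
def shX (u : Disc) : Disc := dpt (u.1.1 + cf u.1.2 * ch u.1.1) u.1.2

/-- Vertical shear with cut-off. -/
def shY (u : Disc) : Disc := dpt u.1.1 (u.1.2 + -cf u.1.1 * ch u.1.2)

theorem continuous_shX : Continuous shX := by
  unfold shX
  have h1 := continuous_cf
  have h2 := continuous_ch
  refine Continuous.dpt ?_ (by fun_prop)
  exact (by fun_prop : Continuous fun u : Disc => u.1.1).add
    ((h1.comp (by fun_prop)).mul (h2.comp (by fun_prop)))

theorem continuous_shY : Continuous shY := by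
  unfold shY
  have h1 := continuous_cf
  have h2 := continuous_ch
  refine Continuous.dpt (by fun_prop) ?_
  exact (by fun_prop : Continuous fun u : Disc => u.1.2).add
    ((h1.comp (by fun_prop)).neg.mul (h2.comp (by fun_prop)))

theorem shX_1 (u : Disc) : (shX u).1.1 = u.1.1 + cf u.1.2 * ch u.1.1 :=
  dpt_1' (shear_mem (abs_cf (disc_abs2 u)) (disc_abs1 u))

theorem shX_2 (u : Disc) : (shX u).1.2 = u.1.2 := dpt_2' (disc_abs2 u)

theorem shY_1 (u : Disc) : (shY u).1.1 = u.1.1 := dpt_1' (disc_abs1 u)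

theorem shY_2 (u : Disc) : (shY u).1.2 = u.1.2 + -cf u.1.1 * ch u.1.2 :=
  dpt_2' (shear_mem (by rw [abs_neg]; exact abs_cf (disc_abs1 u)) (disc_abs2 u))

theorem shX_inj : Function.Injective shX := by
  intro u v h
  have h1 := congrArg (fun w : Disc => w.1.1) h
  have h2 := congrArg (fun w : Disc => w.1.2) h
  simp only [shX_1, shX_2] at h1 h2
  rw [h2] at h1
  exact disc_ext (shear_inj (abs_cf (disc_abs2 v)) h1) h2

theorem shY_inj : Function.Injective shY := by
  intro u v h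
  have h1 := congrArg (fun w : Disc => w.1.1) h
  have h2 := congrArg (fun w : Disc => w.1.2) h
  simp only [shY_1, shY_2] at h1 h2
  rw [h1] at h2
  exact disc_ext h1 (shear_inj (by rw [abs_neg]; exact abs_cf (disc_abs1 v)) h2)

theorem shX_bd {u : Disc} (h : nm u = 1) : shX u = u := by
  refine disc_ext ?_ (shX_2 u)
  rw [shX_1]
  rcases nm_eq_one_iff.1 h with h | h
  · rw [ch_end h]; ring
  · rw [cf_end h]; ring

theorem shY_bd {u : Disc} (h : nm u = 1) : shY u = u := by
  refine disc_ext (shY_1 u) ?_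
  rw [shY_2]
  rcases nm_eq_one_iff.1 h with h | h
  · rw [cf_end h]; ring
  · rw [ch_end h]; ring

end Tw

open Tw

/-- **The quarter turn**: the rotation `(x, y) ↦ (y, -x)` on `‖·‖ ≤ 1/8`, the identity on the
boundary. -/
def qturn (u : Disc) : Disc := shX (shY (shX u))

/-- The rotation `(x, y) ↦ (y, -x)`. -/
def rot (u : Disc) : Disc := dpt u.1.2 (-u.1.1)

theorem rot_1 (u : Disc) : (rot u).1.1 = u.1.2 := dpt_1' (disc_abs2 u)

theorem rot_2 (u : Disc) : (rot u).1.2 = -u.1.1 := dpt_2' (by rw [abs_neg]; exact disc_abs1 u)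

theorem continuous_qturn : Continuous qturn :=
  continuous_shX.comp (continuous_shY.comp continuous_shX)

theorem qturn_inj : Function.Injective qturn := shX_inj.comp (shY_inj.comp shX_inj)

theorem qturn_bd {u : Disc} (h : nm u = 1) : qturn u = u := by
  unfold qturn
  rw [shX_bd h, shY_bd h, shX_bd h]

theorem scl_1 {c : ℝ} (hc : |c| ≤ 1) (u : Disc) : (scl c u).1.1 = c * u.1.1 := by
  refine dpt_1' ?_
  rw [abs_mul]
  exact mul_le_one₀ hc (abs_nonneg _) (disc_abs1 u)

theorem scl_2 {c : ℝ} (hc : |c| ≤ 1) (u : Disc) : (scl c u).1.2 = c * u.1.2 := by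
  refine dpt_2' ?_
  rw [abs_mul]
  exact mul_le_one₀ hc (abs_nonneg _) (disc_abs2 u)

theorem qturn_scl (u : Disc) : qturn (scl (1 / 8) u) = scl (1 / 8) (rot u) := by
  have hc : |(1 / 8 : ℝ)| ≤ 1 := by rw [abs_of_nonneg] <;> norm_num
  have h1 := abs_le.1 (disc_abs1 u)
  have h2 := abs_le.1 (disc_abs2 u)
  have e1 := scl_1 hc u
  have e2 := scl_2 hc u
  set v := scl (1 / 8) u with hv
  have a1 : |v.1.1| ≤ 1 / 4 := by rw [e1, abs_le]; constructor <;> linarith
  have a2 : |v.1.2| ≤ 1 / 4 := by rw [e2, abs_le]; constructor <;> linarith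
  have s1 : (shX v).1.1 = v.1.1 + v.1.2 := by rw [shX_1, cf_mid a2, ch_mid a1]; ring
  have s2 : (shX v).1.2 = v.1.2 := shX_2 v
  have b1 : |(shX v).1.1| ≤ 1 / 4 := by rw [s1, e1, e2, abs_le]; constructor <;> linarith
  have t1 : (shY (shX v)).1.1 = v.1.1 + v.1.2 := by rw [shY_1, s1]
  have t2 : (shY (shX v)).1.2 = -v.1.1 := by
    rw [shY_2, cf_mid b1, s1, s2, ch_mid a2]; ring
  have c2 : |(shY (shX v)).1.2| ≤ 1 / 4 := by rw [t2, abs_neg]; exact a1
  have c1 : |(shY (shX v)).1.1| ≤ 1 / 4 := by rw [t1, ← s1]; exact b1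
  refine disc_ext ?_ ?_
  · unfold qturn
    rw [shX_1, cf_mid c2, ch_mid c1, t1, t2, e1, e2, scl_1 hc (rot u), rot_1]
    ring
  · unfold qturn
    rw [shX_2, t2, scl_2 hc (rot u), rot_2, e1]
    ring

/-- The map `h × id` of the cube. -/
theorem isMor_prod {h : Disc → Disc} (hc : Continuous h) (hi : Function.Injective h)
    (hb : ∀ x, nm x = 1 → h x = x) : IsMor (vert h) where
  cont := (hc.comp continuous_fst).prodMk continuous_snd
  inj := vert_inj hi
  bd x y hx := by
    change (h x, y) = (x, y)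
    rw [hb x hx]

/-- **Composition of a `ThetaDatum` with homeomorphisms of the leg discs.** -/
def ThetaDatum.twist {L : ℝ} (T : ThetaDatum L) (h : Bool → Disc → Disc)
    (hc : ∀ b, Continuous (h b)) (hi : ∀ b, Function.Injective (h b))
    (hb : ∀ b x, nm x = 1 → h b x = x) (sq' : Bool → ℕ → Disc → Disc)
    (isSq' : ∀ b (m : ℕ), 4 * (m : ℝ) + 4 ≤ L → IsSq (sq' b m))
    (int' : ∀ b (m : ℕ), 4 * (m : ℝ) + 4 ≤ L → ∀ a, sq' b m a ∈ int)
    (hsq : ∀ b (m : ℕ), 4 * (m : ℝ) + 4 ≤ L → ∀ a, h b (sq' b m a) = T.sq b m a) :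
    ThetaDatum L :=
  have hd : ∀ j k p q, T.leg j p = T.leg k q → j = k := by
    intro j k p q e
    rcases j <;> rcases k
    · rfl
    · exact absurd e.symm (T.disj _ _)
    · exact absurd e (T.disj _ _)
    · rfl
  have hm : IsMor (ins T.leg fun b => vert (h b)) :=
    isMor_ins T.isBox hd fun b => isMor_prod (hc b) (hi b) (hb b)
  { leg := T.leg
    isBox := T.isBox
    disj := T.disj
    θ := fun p => T.θ (ins T.leg (fun b => vert (h b)) p)
    cont := T.cont.comp hm.cont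
    inj := T.inj.comp hm.inj
    mem := fun p => T.mem _
    bd := by
      intro x v hx
      change T.θ (ins T.leg (fun b => vert (h b)) (x, v)) = _
      rw [hm.bd x v hx]
      exact T.bd x v hx
    g := fun b a => T.g b (h b a)
    leg_eq := by
      intro b a f
      change T.θ (ins T.leg (fun b => vert (h b)) (T.leg b (a, f))) = _
      rw [ins_box T.isBox hd]
      exact T.leg_eq b (h b a) f
    sq := sq'
    isSq := isSq'
    sq_int := int'
    sq_eq := by
      intro b m hL a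
      rw [hsq b m hL]
      exact T.sq_eq b m hL a
    cover := by
      intro b m hL p a f e
      have h1 := T.cover b m hL _ a f e
      obtain ⟨q, rfl, h2⟩ := ins_cover T.isBox hd _ h1
      congr 1
      simp only [vert, Prod.mk.injEq] at h2
      refine Prod.ext (hi b ?_) h2.2
      rw [h2.1, hsq b m hL] }

theorem isSq_scl' {c : ℝ} (hc : 0 < c) (hc1 : c ≤ 1) : IsSq (scl c) := by
  have h : scl c = psq (fun t => c * t) (fun t => c * t) := rfl
  rw [h]
  refine isSq_psq (by fun_prop) (by fun_prop) ?_ ?_ ?_ ?_ ?_ ?_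
  · intro s _ t _ hst
    exact mul_lt_mul_of_pos_left hst hc
  · intro s _ t _ hst
    exact mul_lt_mul_of_pos_left hst hc
  all_goals linarith

theorem scl_int {c : ℝ} (hc : 0 < c) (hc1 : c < 1) (a : Disc) : scl c a ∈ int := by
  have h : |c| ≤ 1 := by rw [abs_of_pos hc]; exact hc1.le
  have h1 := disc_abs1 a
  have h2 := disc_abs2 a
  rw [mem_int_iff, scl_1 h, scl_2 h, abs_mul, abs_mul, abs_of_pos hc]
  constructor <;> nlinarith [abs_nonneg a.1.1, abs_nonneg a.1.2]

/-- If all squares of a `ThetaDatum` are quarter turns of the squares `σ b m` scaled by `1/8`, there is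
a `ThetaDatum` with the same legs and the squares `σ b m` scaled by `1/8`. -/
theorem ThetaDatum.exists_turned {L : ℝ} (T : ThetaDatum L) (σ : Bool → ℕ → Disc → Disc)
    (hσ : ∀ b (m : ℕ), 4 * (m : ℝ) + 4 ≤ L → IsSq (σ b m))
    (hT : ∀ b (m : ℕ), 4 * (m : ℝ) + 4 ≤ L → ∀ a, T.sq b m a = scl (1 / 8) (rot (σ b m a))) :
    ∃ T' : ThetaDatum L, T'.leg = T.leg ∧ ∀ b m a, T'.sq b m a = scl (1 / 8) (σ b m a) := by
  refine ⟨T.twist (fun _ => qturn) (fun _ => continuous_qturn) (fun _ => qturn_inj)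
    (fun _ _ => qturn_bd) (fun b m a => scl (1 / 8) (σ b m a)) ?_ ?_ ?_, rfl, fun _ _ _ => rfl⟩
  · intro b m hm
    exact (isSq_scl' (by norm_num) (by norm_num)).comp (hσ b m hm)
  · intro b m hm a
    exact scl_int (by norm_num) (by norm_num) _
  · intro b m hm a
    rw [qturn_scl, hT b m hm]

end Vale.Agent.P215.Am
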