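import Vale.Agent.P215.Am.StartLocal
import Vale.Agent.P215.Am.Twist

/-!
# P215, route A: the normalised form of the local datum

`ThetaCore`: the local embedding in coordinates which do not depend on `L`: the two positions
`(p1, p2)` and `(q1, q2)` in the square `[-1, 1]²` and the fibre coordinate `r ∈ [-1, 1]`.
`posL L : [-1, 1]² → [0, L]²` maps the square `[-1/64, 1/64]²` to `[1, L - 1] × [1, 3]`, the segment
`{1} × [-1/2, 1/2]` to `{L} × [1, 3]` and the segment `{-1} × [-1/2, 1/2]` to `{0} × [1, 3]`.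

`ThetaCore.exists_datum`: the `ThetaDatum` with squares in the form required by `Start.lean`.
-/

noncomputable section

namespace Vale.Agent.P215.Am

open Vale.Agent.P215.H788 Vale.Agent.P215.H579 Set Topology

/-- The scale of a point of the square. -/
def posS (a b : ℝ) : ℝ := max (max |a| |b|) (1 / 64)

/-- The level: `0` on the square of size `1 / 64`, `1` on the boundary. -/
def posM (a b : ℝ) : ℝ := (posS a b - 1 / 64) * (64 / 63)

/-- The first coordinate of the position. -/
def posX (L a b : ℝ) : ℝ := L / 2 + a / posS a b * (L / 2 - 1 + posM a b)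

/-- The profile at the boundary. -/
def posV (L t : ℝ) : ℝ := 2 + 2 * t + (L - 4) * max 0 (2 * t - 1)

/-- The second coordinate of the position. -/
def posY (L a b : ℝ) : ℝ :=
  (1 - posM a b) * (2 + b / posS a b) + posM a b * posV L (b / posS a b)

theorem posS_pos (a b : ℝ) : 0 < posS a b := lt_of_lt_of_le (by norm_num) (le_max_right _ _)

theorem continuous_posS : Continuous fun u : ℝ × ℝ => posS u.1 u.2 := by
  unfold posS
  fun_prop

theorem continuous_posM : Continuous fun u : ℝ × ℝ => posM u.1 u.2 := by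
  have := continuous_posS
  unfold posM
  fun_prop

theorem continuous_posX (L : ℝ) : Continuous fun u : ℝ × ℝ => posX L u.1 u.2 := by
  have h1 := continuous_posS
  have h2 := continuous_posM
  unfold posX
  refine continuous_const.add (Continuous.mul ?_ (by fun_prop))
  exact continuous_fst.div h1 fun u => (posS_pos _ _).ne'

theorem continuous_posY (L : ℝ) : Continuous fun u : ℝ × ℝ => posY L u.1 u.2 := by
  have h1 := continuous_posS
  have h2 := continuous_posM
  have h3 : Continuous fun u : ℝ × ℝ => u.2 / posS u.1 u.2 :=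
    continuous_snd.div h1 fun u => (posS_pos _ _).ne'
  unfold posY posV
  fun_prop

theorem abs_div_posS (a b : ℝ) : |a / posS a b| ≤ 1 ∧ |b / posS a b| ≤ 1 := by
  have h := posS_pos a b
  have h1 : |a| ≤ posS a b := (le_max_left _ _).trans (le_max_left _ _)
  have h2 : |b| ≤ posS a b := (le_max_right _ _).trans (le_max_left _ _)
  rw [abs_div, abs_div, abs_of_pos h, div_le_one h, div_le_one h]
  exact ⟨h1, h2⟩

theorem posM_mem {a b : ℝ} (ha : |a| ≤ 1) (hb : |b| ≤ 1) : 0 ≤ posM a b ∧ posM a b ≤ 1 := by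
  have h1 : 1 / 64 ≤ posS a b := le_max_right _ _
  have h2 : posS a b ≤ 1 := max_le (max_le ha hb) (by norm_num)
  unfold posM
  constructor <;> linarith

/-- Outside of the small square, the normalised point is on the boundary. -/
theorem posS_bd {a b : ℝ} (h : 0 < posM a b) : |a / posS a b| = 1 ∨ |b / posS a b| = 1 := by
  have h0 := posS_pos a b
  have h1 : 1 / 64 < posS a b := by
    unfold posM at h
    linarith
  have h2 : posS a b = max |a| |b| := by
    unfold posS at h1 ⊢
    rcases max_choice (max |a| |b|) (1 / 64) with h3 | h3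
    · exact h3
    · rw [h3] at h1; exact absurd h1 (lt_irrefl _)
  rw [abs_div, abs_div, abs_of_pos h0, div_eq_one_iff_eq h0.ne', div_eq_one_iff_eq h0.ne']
  rcases max_choice |a| |b| with h3 | h3
  · left; rw [h2, h3]
  · right; rw [h2, h3]

theorem posV_mem {L t : ℝ} (hL : 4 ≤ L) (ht : |t| ≤ 1) : 0 ≤ posV L t ∧ posV L t ≤ L := by
  obtain ⟨h1, h2⟩ := abs_le.1 ht
  unfold posV
  rcases max_cases 0 (2 * t - 1) with ⟨h, h'⟩ | ⟨h, h'⟩ <;> rw [h] <;> constructor <;> nlinarith

theorem posV_strictMono {L : ℝ} (hL : 4 ≤ L) : StrictMono (posV L) := by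
  intro s t h
  unfold posV
  have h1 : max 0 (2 * s - 1) ≤ max 0 (2 * t - 1) := max_le_max le_rfl (by linarith)
  nlinarith

theorem posV_one {L : ℝ} : posV L 1 = L := by
  unfold posV; norm_num

theorem posV_neg_one {L : ℝ} : posV L (-1) = 0 := by
  unfold posV; norm_num

theorem posV_mid {L t : ℝ} (h : t ≤ 1 / 2) : posV L t = 2 + 2 * t := by
  unfold posV
  rw [max_eq_left (by linarith)]
  ring

/-- The gauge of the position. -/
def posG (L X Y : ℝ) : ℝ :=
  max 0 (max (|X - L / 2| - (L / 2 - 1)) (max (1 - Y) ((Y - 3) / (L - 3))))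

theorem posG_eq {L a b : ℝ} (hL : 4 ≤ L) (ha : |a| ≤ 1) (hb : |b| ≤ 1) :
    posG L (posX L a b) (posY L a b) = posM a b := by
  obtain ⟨hm0, hm1⟩ := posM_mem ha hb
  obtain ⟨h1, h2⟩ := abs_div_posS a b
  have hbd := @posS_bd a b
  unfold posX posY posG
  set m := posM a b with hm
  set A := a / posS a b with hA
  set B := b / posS a b with hB
  have e1 : |L / 2 + A * (L / 2 - 1 + m) - L / 2| = |A| * (L / 2 - 1 + m) := by
    rw [show L / 2 + A * (L / 2 - 1 + m) - L / 2 = A * (L / 2 - 1 + m) by ring, abs_mul,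
      abs_of_nonneg (by linarith : 0 ≤ L / 2 - 1 + m)]
  rw [e1]
  obtain ⟨hv0, hv1⟩ := posV_mem hL h2
  obtain ⟨hB1, hB2⟩ := abs_le.1 h2
  have u1 : |A| * (L / 2 - 1 + m) - (L / 2 - 1) ≤ m := by nlinarith
  have u2 : 1 - ((1 - m) * (2 + B) + m * posV L B) ≤ m := by nlinarith
  have u3 : ((1 - m) * (2 + B) + m * posV L B - 3) / (L - 3) ≤ m := by
    rw [div_le_iff₀ (by linarith)]
    nlinarith
  refine le_antisymm (max_le hm0 (max_le u1 (max_le u2 u3))) ?_
  rcases hm0.eq_or_lt with h | h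
  · rw [← h]; exact le_max_left _ _
  · rcases hbd h with h3 | h3
    · refine le_trans (le_trans ?_ (le_max_left _ _)) (le_max_right _ _)
      rw [h3]
      linarith
    · rcases (abs_eq (by norm_num)).1 h3 with h4 | h4
      · refine le_trans (le_trans (le_trans ?_ (le_max_right _ _)) (le_max_right _ _))
          (le_max_right _ _)
        rw [h4, posV_one, le_div_iff₀ (by linarith)]
        linarith
      · refine le_trans (le_trans (le_trans ?_ (le_max_left _ _)) (le_max_right _ _))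
          (le_max_right _ _)
        rw [h4, posV_neg_one]
        linarith

theorem pos_inj {L a b a' b' : ℝ} (hL : 4 ≤ L) (ha : |a| ≤ 1) (hb : |b| ≤ 1) (ha' : |a'| ≤ 1)
    (hb' : |b'| ≤ 1) (hX : posX L a b = posX L a' b') (hY : posY L a b = posY L a' b') :
    a = a' ∧ b = b' := by
  have hm : posM a b = posM a' b' := by
    rw [← posG_eq hL ha hb, ← posG_eq hL ha' hb', hX, hY]
  have hs : posS a b = posS a' b' := by
    unfold posM at hm
    linarith
  have h0 := posS_pos a' b'
  obtain ⟨hm0, hm1⟩ := posM_mem ha' hb'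
  have h1 : a / posS a b = a' / posS a' b' := by
    unfold posX at hX
    rw [hm] at hX
    have h2 : a / posS a b * (L / 2 - 1 + posM a' b') =
        a' / posS a' b' * (L / 2 - 1 + posM a' b') := by linarith
    exact mul_right_cancel₀ (by linarith : (L / 2 - 1 + posM a' b') ≠ 0) h2
  have h2 : b / posS a b = b' / posS a' b' := by
    unfold posY at hY
    rw [hm] at hY
    generalize b / posS a b = B at hY ⊢
    generalize b' / posS a' b' = B' at hY ⊢
    generalize posM a' b' = m at hY hm0 hm1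
    have hm' : m ∈ Icc (0 : ℝ) 1 := ⟨hm0, hm1⟩
    rcases lt_trichotomy B B' with h | h | h
    · have := lerp_lt hm' (by linarith : 2 + B < 2 + B') (posV_strictMono hL h)
      exact absurd hY this.ne
    · exact h
    · have := lerp_lt hm' (by linarith : 2 + B' < 2 + B) (posV_strictMono hL h)
      exact absurd hY this.ne'
  rw [hs, div_left_inj' h0.ne'] at h1 h2
  exact ⟨h1, h2⟩

theorem pos_mem {L a b : ℝ} (hL : 4 ≤ L) (ha : |a| ≤ 1) (hb : |b| ≤ 1) :
    (posX L a b, posY L a b) ∈ Sq L := by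
  obtain ⟨hm0, hm1⟩ := posM_mem ha hb
  obtain ⟨h1, h2⟩ := abs_div_posS a b
  obtain ⟨hv0, hv1⟩ := posV_mem hL h2
  obtain ⟨hA1, hA2⟩ := abs_le.1 h1
  obtain ⟨hB1, hB2⟩ := abs_le.1 h2
  simp only [Sq, mem_ofPred_eq, mem_Icc]
  unfold posX posY
  refine ⟨⟨?_, ?_⟩, ?_, ?_⟩ <;> nlinarith

/-- On the boundary. -/
theorem pos_of_bd {L a b : ℝ} (ha : |a| ≤ 1) (hb : |b| ≤ 1) (h : |a| = 1 ∨ |b| = 1) :
    posX L a b = L / 2 + a * (L / 2) ∧ posY L a b = posV L b := by
  have h1 : posS a b = 1 := by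
    unfold posS
    rcases h with h | h
    · rw [h, max_eq_left hb]; norm_num
    · rw [h, max_eq_right ha]; norm_num
  have h2 : posM a b = 1 := by unfold posM; rw [h1]; norm_num
  unfold posX posY
  rw [h1, h2]
  constructor <;> ring

theorem pos_mem_bdSq {L a b : ℝ} (hL : 4 ≤ L) (ha : |a| ≤ 1) (hb : |b| ≤ 1)
    (h : |a| = 1 ∨ |b| = 1) : (posX L a b, posY L a b) ∈ bdSq L := by
  refine ⟨pos_mem hL ha hb, ?_⟩
  obtain ⟨h1, h2⟩ := pos_of_bd (L := L) ha hb h
  simp only [h1, h2]
  rcases h with h | h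
  · rcases (abs_eq (by norm_num)).1 h with h | h
    · right; left; rw [h]; ring
    · left; rw [h]; ring
  · rcases (abs_eq (by norm_num)).1 h with h | h
    · right; right; right; rw [h, posV_one]
    · right; right; left; rw [h, posV_neg_one]

/-- In the small square. -/
theorem pos_small {L a b : ℝ} (ha : |a| ≤ 1) (hb : |b| ≤ 1) :
    posX L (a / 64) (b / 64) = L / 2 + a * (L / 2 - 1) ∧ posY L (a / 64) (b / 64) = 2 + b := by
  have h1 : posS (a / 64) (b / 64) = 1 / 64 := by
    unfold posS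
    refine max_eq_right (max_le ?_ ?_)
    · rw [abs_div, abs_of_pos (by norm_num : (0 : ℝ) < 64)]
      exact div_le_div_of_nonneg_right ha (by norm_num)
    · rw [abs_div, abs_of_pos (by norm_num : (0 : ℝ) < 64)]
      exact div_le_div_of_nonneg_right hb (by norm_num)
  have h2 : posM (a / 64) (b / 64) = 0 := by unfold posM; rw [h1]; norm_num
  unfold posX posY
  rw [h1, h2]
  constructor <;> ring

/-- **The normalised local datum.** -/
structure ThetaCore where
  /-- first position -/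
  p1 : Q → ℝ
  /-- first position -/
  p2 : Q → ℝ
  /-- second position -/
  q1 : Q → ℝ
  /-- second position -/
  q2 : Q → ℝ
  /-- fibre coordinate -/
  r : Q → ℝ
  cp1 : Continuous p1
  cp2 : Continuous p2
  cq1 : Continuous q1
  cq2 : Continuous q2
  cr : Continuous r
  ap1 : ∀ p, |p1 p| ≤ 1
  ap2 : ∀ p, |p2 p| ≤ 1
  aq1 : ∀ p, |q1 p| ≤ 1
  aq2 : ∀ p, |q2 p| ≤ 1
  ar : ∀ p, |r p| ≤ 1
  inj : ∀ p q, p1 p = p1 q → p2 p = p2 q → q1 p = q1 q → q2 p = q2 q → r p = r q →
    cw p = cw q → p = q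
  mem : ∀ p, ((|p1 p| = 1 ∨ |p2 p| = 1) ∧ (|q1 p| = 1 ∨ |q2 p| = 1) ∧
      ¬ (p1 p = 1 ∧ q1 p = 1 ∧ |p2 p| < 1 / 2 ∧ |q2 p| < 1 / 2)) ∨
    (q1 p = -1 ∧ |q2 p| ≤ 1 / 2 ∧ r p = 1) ∨ (p1 p = -1 ∧ |p2 p| ≤ 1 / 2 ∧ r p = -1)
  bd : ∀ p, nm p.1 = 1 → p1 p = 1 ∧ p2 p = cy p / 2 ∧ q1 p = 1 ∧ q2 p = cx p / 2 ∧ r p = cz p
  legF : ∀ a f, p1 (small (1 / 2) beta1 (a, f)) = a.1.2 ∧ p2 (small (1 / 2) beta1 (a, f)) = a.1.1 ∧
    q1 (small (1 / 2) beta1 (a, f)) = -1 ∧ q2 (small (1 / 2) beta1 (a, f)) = f.1.1 / 2 ∧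
    r (small (1 / 2) beta1 (a, f)) = 1
  legT : ∀ a f, p1 (small (1 / 2) beta2 (a, f)) = -1 ∧
    p2 (small (1 / 2) beta2 (a, f)) = f.1.1 / 2 ∧
    q1 (small (1 / 2) beta2 (a, f)) = a.1.2 / 8 ∧ q2 (small (1 / 2) beta2 (a, f)) = a.1.1 / 4 ∧
    r (small (1 / 2) beta2 (a, f)) = -1

/-- The leg boxes. -/
def betaB (b : Bool) : Q → Q := if b then beta2 else beta1

/-- The first coordinate of the squares, `-1 ≤ sqX ≤ 1`. -/
def sqX (L : ℝ) (m : ℕ) (t : ℝ) : ℝ := (4 * (m : ℝ) + 2 + t - L / 2) / (L / 2 - 1)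

theorem sqX_strictMono {L : ℝ} (hL : 4 ≤ L) (m : ℕ) : StrictMono (sqX L m) := by
  intro s t h
  unfold sqX
  exact div_lt_div_of_pos_right (by linarith) (by linarith)

theorem abs_sqX {L : ℝ} (hL : 4 ≤ L) {m : ℕ} (hm : 4 * (m : ℝ) + 4 ≤ L) {t : ℝ} (ht : |t| ≤ 1) :
    |sqX L m t| ≤ 1 := by
  have h0 : (0 : ℝ) ≤ m := Nat.cast_nonneg m
  obtain ⟨h1, h2⟩ := abs_le.1 ht
  unfold sqX
  rw [abs_div, abs_of_pos (by linarith : 0 < L / 2 - 1), div_le_one (by linarith), abs_le]
  constructor <;> linarith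

theorem sqX_sep {L : ℝ} (hL : 4 ≤ L) {m m' : ℕ} {s t : ℝ} (hs : |s| ≤ 1) (ht : |t| ≤ 1)
    (h : sqX L m s = sqX L m' t) : m = m' := by
  unfold sqX at h
  rw [div_left_inj' (by linarith : L / 2 - 1 ≠ 0)] at h
  obtain ⟨h1, h2⟩ := abs_le.1 hs
  obtain ⟨h3, h4⟩ := abs_le.1 ht
  rcases lt_trichotomy m m' with h5 | h5 | h5
  · have : (m : ℝ) + 1 ≤ m' := by exact_mod_cast h5
    linarith
  · exact h5
  · have : (m' : ℝ) + 1 ≤ m := by exact_mod_cast h5
    linarith

/-- The squares before the quarter turn. -/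
def sig (L : ℝ) (b : Bool) (m : ℕ) (u : Disc) : Disc :=
  if b then dpt (-sqX L m u.1.1) (u.1.2 / 2) else dpt (-sqX L m u.1.1 / 8) (u.1.2 / 8)

theorem sig_1 {L : ℝ} (hL : 4 ≤ L) (b : Bool) {m : ℕ} (hm : 4 * (m : ℝ) + 4 ≤ L) (u : Disc) :
    (sig L b m u).1.1 = if b then -sqX L m u.1.1 else -sqX L m u.1.1 / 8 := by
  have h := abs_sqX hL hm (disc_abs1 u)
  unfold sig
  cases b
  · simp only [Bool.false_eq_true, if_false]
    refine dpt_1' ?_
    rw [abs_div, abs_neg, abs_of_pos (by norm_num : (0 : ℝ) < 8)]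
    linarith
  · simp only [if_true]
    refine dpt_1' ?_
    rwa [abs_neg]

theorem sig_2 {L : ℝ} (b : Bool) (m : ℕ) (u : Disc) :
    (sig L b m u).1.2 = if b then u.1.2 / 2 else u.1.2 / 8 := by
  have h := disc_abs2 u
  unfold sig
  cases b
  · simp only [Bool.false_eq_true, if_false]
    refine dpt_2' ?_
    rw [abs_div, abs_of_pos (by norm_num : (0 : ℝ) < 8)]
    linarith
  · simp only [if_true]
    refine dpt_2' ?_
    rw [abs_div, abs_of_pos (by norm_num : (0 : ℝ) < 2)]
    linarith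

theorem continuous_sqX (L : ℝ) (m : ℕ) : Continuous (sqX L m) := by
  unfold sqX
  fun_prop

theorem isSq_sig {L : ℝ} (hL : 4 ≤ L) (b : Bool) {m : ℕ} (hm : 4 * (m : ℝ) + 4 ≤ L) :
    IsSq (sig L b m) := by
  have hX := sqX_strictMono hL m
  have hc := continuous_sqX L m
  have h1 := abs_le.1 (abs_sqX hL hm (t := 1) (by norm_num))
  have h2 := abs_le.1 (abs_sqX hL hm (t := -1) (by norm_num))
  have hr : IsSq (rfD false) := isSq_rfD false
  cases b
  · have h : IsSq (psq (fun t => sqX L m t / 8) fun t => t / 8) := by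
      refine isSq_psq (by fun_prop) (by fun_prop) ?_ ?_ ?_ ?_ ?_ ?_
      · intro s _ t _ hst
        exact div_lt_div_of_pos_right (hX hst) (by norm_num)
      · intro s _ t _ hst
        exact div_lt_div_of_pos_right hst (by norm_num)
      all_goals linarith
    have e : sig L false m = fun u => rfD false (psq (fun t => sqX L m t / 8) (fun t => t / 8) u) := by
      funext u
      have h3 := abs_sqX hL hm (disc_abs1 u)
      have h4 := disc_abs2 u
      apply disc_ext
      · rw [sig_1 hL _ hm]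
        simp only [rfD_false_1, psq, dpt_1, Bool.false_eq_true, if_false]
        rw [clp_of_abs]
        · ring
        · rw [abs_div, abs_of_pos (by norm_num : (0 : ℝ) < 8)]; linarith
      · rw [sig_2]
        simp only [rfD_false_2, psq, dpt_2, Bool.false_eq_true, if_false]
        rw [clp_of_abs]
        rw [abs_div, abs_of_pos (by norm_num : (0 : ℝ) < 8)]; linarith
    rw [e]
    exact hr.comp h
  · have h : IsSq (psq (fun t => sqX L m t) fun t => t / 2) := by
      refine isSq_psq (by fun_prop) (by fun_prop) ?_ ?_ ?_ ?_ ?_ ?_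
      · intro s _ t _ hst
        exact hX hst
      · intro s _ t _ hst
        exact div_lt_div_of_pos_right hst (by norm_num)
      all_goals linarith
    have e : sig L true m = fun u => rfD false (psq (fun t => sqX L m t) (fun t => t / 2) u) := by
      funext u
      have h3 := abs_sqX hL hm (disc_abs1 u)
      have h4 := disc_abs2 u
      apply disc_ext
      · rw [sig_1 hL _ hm]
        simp only [rfD_false_1, psq, dpt_1, if_true]
        rw [clp_of_abs h3]
      · rw [sig_2]
        simp only [rfD_false_2, psq, dpt_2, if_true]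
        rw [clp_of_abs]
        rw [abs_div, abs_of_pos (by norm_num : (0 : ℝ) < 2)]; linarith
    rw [e]
    exact hr.comp h

end Vale.Agent.P215.Am
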