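import Vale.Agent.P215.Am.ThC
import Vale.Agent.P215.Am.ThM
import Vale.Agent.P215.Am.ThM2
import Vale.Agent.P215.Am.ThXI
import Vale.Agent.P215.Am.ThetaPos

/-!
# P215, route A: the map of the cube to the handle block, reflections

The map `TQ` on the quarter is extended by reflections to the whole cube: `thetaCore`.
-/

noncomputable section

namespace Vale.Agent.P215.Am

open Vale.Agent.P215.H788 Set Topology

namespace Th

/-- The map of the quarter at the absolute values. -/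
def TA (p : Q) : P5 := TQ |cx p| |cy p| (cz p)

theorem continuous_TA : Continuous TA :=
  continuous_TQ (by fun_prop) (by fun_prop) (by fun_prop) (fun p => abs_nonneg _)
    (fun p => abs_cx p) (fun p => abs_nonneg _) (fun p => abs_cy p) (fun p => (cz_mem p).1)
    (fun p => (cz_mem p).2)

/-- `t` with the sign of `s`. -/
def sgn2 (s t : ℝ) : ℝ := if 0 ≤ s then t else -t

theorem continuous_sgn2 {X : Type*} [TopologicalSpace X] {f g : X → ℝ} (hf : Continuous f)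
    (hg : Continuous g) (h : ∀ p, f p = 0 → g p = 0) : Continuous fun p => sgn2 (f p) (g p) := by
  unfold sgn2
  refine Continuous.if_le hg hg.neg continuous_const hf ?_
  intro p hp
  rw [h p hp.symm, neg_zero]

theorem abs_sgn2 (s t : ℝ) : |sgn2 s t| = |t| := by
  unfold sgn2; split_ifs <;> simp

theorem sgn2_eq {s s' t t' : ℝ} (ht : 0 ≤ t) (ht' : 0 ≤ t') (h : sgn2 s t = sgn2 s' t') :
    t = t' := by
  unfold sgn2 at h; grind

theorem sgn2_inj {s s' t t' : ℝ} (ht : 0 ≤ t) (ht' : 0 ≤ t') (h0 : t = 0 → s = 0)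
    (h0' : t' = 0 → s' = 0) (ha : |s| = |s'|) (h : sgn2 s t = sgn2 s' t') : s = s' := by
  unfold sgn2 at h; grind

theorem TA_mem (p : Q) : |(TA p).1.1| ≤ 1 ∧ 0 ≤ (TA p).1.2 ∧ (TA p).1.2 ≤ 1 ∧
    |(TA p).2.1.1| ≤ 1 ∧ 0 ≤ (TA p).2.1.2 ∧ (TA p).2.1.2 ≤ 1 ∧
    |(TA p).2.2| ≤ 1 ∧
    (((TA p).2.1.1 = -1 ∧ (TA p).2.1.2 ≤ 1 / 2 ∧ (TA p).2.2 = 1) ∨
     ((TA p).1.1 = -1 ∧ (TA p).1.2 ≤ 1 / 2 ∧ (TA p).2.2 = -1) ∨
     (max |(TA p).1.1| (TA p).1.2 = 1 ∧ max |(TA p).2.1.1| (TA p).2.1.2 = 1 ∧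
      ¬ ((TA p).1.1 = 1 ∧ (TA p).2.1.1 = 1 ∧ (TA p).1.2 < 1 / 2 ∧
        (TA p).2.1.2 < 1 / 2))) :=
  TQ_mem (abs_nonneg (cx p)) (abs_cx p) (abs_nonneg (cy p)) (abs_cy p) (cz_mem p).1 (cz_mem p).2

theorem TA_fst_zero (p : Q) : (TA p).1.2 = 0 ↔ cy p = 0 := by
  rw [← abs_eq_zero (a := cy p)]
  exact TQ_fst_zero (abs_nonneg (cx p)) (abs_cx p) (abs_nonneg (cy p)) (abs_cy p) (cz_mem p).1
    (cz_mem p).2

theorem TA_snd_zero (p : Q) : (TA p).2.1.2 = 0 ↔ cx p = 0 := by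
  rw [← abs_eq_zero (a := cx p)]
  exact TQ_snd_zero (abs_nonneg (cx p)) (abs_cx p) (abs_nonneg (cy p)) (abs_cy p) (cz_mem p).1
    (cz_mem p).2

theorem abs_Yf (s r : ℝ) (hr : r ≤ 3 / 8) : |Yf s r| = Yf |s| r := by
  unfold Yf; grind

theorem Yf_nonneg_iff (s r : ℝ) (hr : r ≤ 3 / 8) : 0 ≤ Yf s r ↔ 0 ≤ s := by
  unfold Yf; grind

theorem scl_half_1 (u : Disc) : (scl (1 / 2) u).1.1 = u.1.1 / 2 := by
  rw [scl_1 (by rw [abs_of_nonneg] <;> norm_num) u]; ring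

theorem scl_half_2 (u : Disc) : (scl (1 / 2) u).1.2 = u.1.2 / 2 := by
  rw [scl_2 (by rw [abs_of_nonneg] <;> norm_num) u]; ring

theorem TA_inj {p q : Q} (hx : |cx p| = |cx q| → cx p = cx q) (hy : |cy p| = |cy q| → cy p = cy q)
    (hw : cw p = cw q) (h : TA p = TA q) : p = q := by
  obtain ⟨h1, h2, h3⟩ := TQ_inj (abs_nonneg (cx p)) (abs_cx p) (abs_nonneg (cy p)) (abs_cy p)
    (cz_mem p).1 (cz_mem p).2 (abs_nonneg (cx q)) (abs_cx q) (abs_nonneg (cy q)) (abs_cy q)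
    (cz_mem q).1 (cz_mem q).2 h
  exact Q_ext (hx h1) (hy h2) h3 hw

theorem TA_abs {p q : Q} (h : TA p = TA q) : |cx p| = |cx q| ∧ |cy p| = |cy q| ∧ cz p = cz q :=
  TQ_inj (abs_nonneg (cx p)) (abs_cx p) (abs_nonneg (cy p)) (abs_cy p)
    (cz_mem p).1 (cz_mem p).2 (abs_nonneg (cx q)) (abs_cx q) (abs_nonneg (cy q)) (abs_cy q)
    (cz_mem q).1 (cz_mem q).2 h

theorem TA_bd (p : Q) (h : nm p.1 = 1) :
    TA p = ((1, |cy p| / 2), (1, |cx p| / 2), cz p) := by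
  rcases nm_eq_one_iff.1 h with h | h
  · have h1 : |cx p| = 1 := h
    unfold TA
    rw [h1, TQ_x (abs_nonneg _) (abs_cy p) (cz_mem p).1 (cz_mem p).2]
  · have h1 : |cy p| = 1 := h
    unfold TA
    rw [h1, TQ_y (abs_nonneg _) (abs_cx p) (cz_mem p).1 (cz_mem p).2]

theorem sgn2_abs (s : ℝ) : sgn2 s |s| = s := by
  unfold sgn2; grind

theorem sgn2_abs_div (s c : ℝ) : sgn2 s (|s| / c) = s / c := by
  unfold sgn2
  split_ifs with h
  · rw [abs_of_nonneg h]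
  · rw [abs_of_neg (by linarith)]; ring

theorem TA_beta1 (a f : Disc) :
    TA (small (1 / 2) beta1 (a, f)) = ((a.1.2, |a.1.1|), (-1, |f.1.1| / 2), 1) := by
  have h1 : lev (scl (1 / 2) a) = 1 / 4 + a.1.2 / 16 := by
    unfold lev; rw [scl_half_2]; ring
  have ha := disc_abs2 a
  have h2 : (1 / 4 + a.1.2 / 16 : ℝ) ≤ 3 / 8 := by grind
  have h3 : |cy (small (1 / 2) beta1 (a, f))| = |a.1.1| / 16 := by
    have : cy (small (1 / 2) beta1 (a, f)) = a.1.1 / 16 := by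
      unfold small
      rw [cy_beta1]
      change (scl (1 / 2) a).1.1 / 8 = _
      rw [scl_half_1]; ring
    rw [this, abs_div, abs_of_pos (by norm_num : (0 : ℝ) < 16)]
  have h4 : |cx (small (1 / 2) beta1 (a, f))| = Yf |f.1.1| (1 / 4 + a.1.2 / 16) := by
    have : cx (small (1 / 2) beta1 (a, f)) = Yf f.1.1 (1 / 4 + a.1.2 / 16) := by
      unfold small
      rw [cx_beta1]
      change Yf f.1.1 (lev (scl (1 / 2) a)) = _
      rw [h1]
    rw [this, abs_Yf _ _ h2]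
  have h5 : cz (small (1 / 2) beta1 (a, f)) =
      max 0 (4 * Yf |f.1.1| (1 / 4 + a.1.2 / 16) - 1) - (1 / 4 + a.1.2 / 16) := by
    unfold small
    rw [cz_beta1]
    change max 0 (4 * |Yf f.1.1 (lev (scl (1 / 2) a))| - 1) - lev (scl (1 / 2) a) = _
    rw [h1, abs_Yf _ _ h2]
  unfold TA
  rw [h3, h4, h5]
  exact TQ_beta1 (abs_nonneg _) (disc_abs1 a) ha (abs_nonneg _) (disc_abs1 f)

theorem TA_beta2 (a f : Disc) :
    TA (small (1 / 2) beta2 (a, f)) = ((-1, |f.1.1| / 2), (a.1.2 / 8, |a.1.1| / 4), -1) := by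
  have h1 : lev (scl (1 / 2) a) = 1 / 4 + a.1.2 / 16 := by
    unfold lev; rw [scl_half_2]; ring
  have ha := disc_abs2 a
  have h2 : (1 / 4 + a.1.2 / 16 : ℝ) ≤ 3 / 8 := by grind
  have h3 : |cx (small (1 / 2) beta2 (a, f))| = |a.1.1| / 16 := by
    have : cx (small (1 / 2) beta2 (a, f)) = a.1.1 / 16 := by
      unfold small
      rw [cx_beta2]
      change (scl (1 / 2) a).1.1 / 8 = _
      rw [scl_half_1]; ring
    rw [this, abs_div, abs_of_pos (by norm_num : (0 : ℝ) < 16)]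
  have h4 : |cy (small (1 / 2) beta2 (a, f))| = Yf |f.1.1| (1 / 4 + a.1.2 / 16) := by
    have : cy (small (1 / 2) beta2 (a, f)) = Yf f.1.1 (1 / 4 + a.1.2 / 16) := by
      unfold small
      rw [cy_beta2]
      change Yf f.1.1 (lev (scl (1 / 2) a)) = _
      rw [h1]
    rw [this, abs_Yf _ _ h2]
  have h5 : cz (small (1 / 2) beta2 (a, f)) =
      (1 / 4 + a.1.2 / 16) - max 0 (4 * Yf |f.1.1| (1 / 4 + a.1.2 / 16) - 1) := by
    unfold small
    rw [cz_beta2]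
    change lev (scl (1 / 2) a) - max 0 (4 * |Yf f.1.1 (lev (scl (1 / 2) a))| - 1) = _
    rw [h1, abs_Yf _ _ h2]
  unfold TA
  rw [h3, h4, h5]
  exact TQ_beta2 (abs_nonneg _) (disc_abs1 a) ha (abs_nonneg _) (disc_abs1 f)

theorem sgn2_scale {s t : ℝ} (c : ℝ) (hs : 0 ≤ s ↔ 0 ≤ t) : sgn2 s (|t| / c) = t / c := by
  unfold sgn2
  split_ifs with h
  · rw [abs_of_nonneg (hs.1 h)]
  · rw [abs_of_neg (by
      by_contra hc
      exact h (hs.2 (by linarith)))]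
    ring

theorem cy_sb1 (a f : Disc) : 0 ≤ cy (small (1 / 2) beta1 (a, f)) ↔ 0 ≤ a.1.1 := by
  have : cy (small (1 / 2) beta1 (a, f)) = a.1.1 / 16 := by
    unfold small
    rw [cy_beta1]
    change (scl (1 / 2) a).1.1 / 8 = _
    rw [scl_half_1]; ring
  rw [this]; constructor <;> intro h <;> linarith

theorem cx_sb1 (a f : Disc) : 0 ≤ cx (small (1 / 2) beta1 (a, f)) ↔ 0 ≤ f.1.1 := by
  have : cx (small (1 / 2) beta1 (a, f)) = Yf f.1.1 (lev (scl (1 / 2) a)) := by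
    unfold small
    rw [cx_beta1]
    rfl
  rw [this, Yf_nonneg_iff _ _ (lev_le _)]

theorem cx_sb2 (a f : Disc) : 0 ≤ cx (small (1 / 2) beta2 (a, f)) ↔ 0 ≤ a.1.1 := by
  have : cx (small (1 / 2) beta2 (a, f)) = a.1.1 / 16 := by
    unfold small
    rw [cx_beta2]
    change (scl (1 / 2) a).1.1 / 8 = _
    rw [scl_half_1]; ring
  rw [this]; constructor <;> intro h <;> linarith

theorem cy_sb2 (a f : Disc) : 0 ≤ cy (small (1 / 2) beta2 (a, f)) ↔ 0 ≤ f.1.1 := by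
  have : cy (small (1 / 2) beta2 (a, f)) = Yf f.1.1 (lev (scl (1 / 2) a)) := by
    unfold small
    rw [cy_beta2]
    rfl
  rw [this, Yf_nonneg_iff _ _ (lev_le _)]

end Th

open Th

/-- **The map of the cube to the (normalised) handle block with its two slabs.** -/
def thetaCore : ThetaCore where
  p1 p := (TA p).1.1
  p2 p := sgn2 (cy p) (TA p).1.2
  q1 p := (TA p).2.1.1
  q2 p := sgn2 (cx p) (TA p).2.1.2
  r p := (TA p).2.2
  cp1 := by
    have := continuous_TA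
    fun_prop
  cp2 := by
    have := continuous_TA
    exact continuous_sgn2 (by fun_prop) (by fun_prop) fun p h => (TA_fst_zero p).2 h
  cq1 := by
    have := continuous_TA
    fun_prop
  cq2 := by
    have := continuous_TA
    exact continuous_sgn2 (by fun_prop) (by fun_prop) fun p h => (TA_snd_zero p).2 h
  cr := by
    have := continuous_TA
    fun_prop
  ap1 p := (TA_mem p).1
  ap2 p := by
    obtain ⟨h1, h2, h3, -⟩ := TA_mem p
    rw [abs_sgn2, abs_of_nonneg h2]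
    exact h3
  aq1 p := (TA_mem p).2.2.2.1
  aq2 p := by
    obtain ⟨-, -, -, -, h2, h3, -⟩ := TA_mem p
    rw [abs_sgn2, abs_of_nonneg h2]
    exact h3
  ar p := (TA_mem p).2.2.2.2.2.2.1
  inj p q h1 h2 h3 h4 h5 h6 := by
    obtain ⟨-, a1, -, -, a2, -⟩ := TA_mem p
    obtain ⟨-, b1, -, -, b2, -⟩ := TA_mem q
    have e1 := sgn2_eq a1 b1 h2
    have e2 := sgn2_eq a2 b2 h4
    have e : TA p = TA q := Prod.ext (Prod.ext h1 e1) (Prod.ext (Prod.ext h3 e2) h5)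
    obtain ⟨c1, c2, c3⟩ := TA_abs e
    exact Q_ext (sgn2_inj a2 b2 (TA_snd_zero p).1 (TA_snd_zero q).1 c1 h4)
      (sgn2_inj a1 b1 (TA_fst_zero p).1 (TA_fst_zero q).1 c2 h2) c3 h6
  mem p := by
    obtain ⟨h1, h2, h3, h4, h5, h6, h7, h8⟩ := TA_mem p
    simp only [abs_sgn2, abs_of_nonneg h2, abs_of_nonneg h5]
    rcases h8 with h8 | h8 | ⟨h8, h9, h10⟩
    · exact Or.inr (Or.inl h8)
    · exact Or.inr (Or.inr h8)
    · refine Or.inl ⟨?_, ?_, h10⟩
      · rcases max_choice |(TA p).1.1| (TA p).1.2 with h | h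
        · exact Or.inl (h.symm.trans h8)
        · exact Or.inr (h.symm.trans h8)
      · rcases max_choice |(TA p).2.1.1| (TA p).2.1.2 with h | h
        · exact Or.inl (h.symm.trans h9)
        · exact Or.inr (h.symm.trans h9)
  bd p h := by
    rw [TA_bd p h]
    exact ⟨rfl, sgn2_abs_div _ _, rfl, sgn2_abs_div _ _, rfl⟩
  legF a f := by
    rw [TA_beta1]
    refine ⟨rfl, ?_, rfl, ?_, rfl⟩
    · have := sgn2_scale 1 (cy_sb1 a f)
      simpa using this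
    · exact sgn2_scale 2 (cx_sb1 a f)
  legT a f := by
    rw [TA_beta2]
    refine ⟨rfl, ?_, rfl, ?_, rfl⟩
    · exact sgn2_scale 2 (cy_sb2 a f)
    · exact sgn2_scale 4 (cx_sb2 a f)

end Vale.Agent.P215.Am
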