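import Vale.Agent.P215.Am.ThH
import Vale.Agent.P215.Am.ThS
import Vale.Agent.P215.Am.ThW
import Vale.Agent.P215.Am.ThA2
import Vale.Agent.P215.Am.ThGlue

/-!
# P215, route A: the map of the cube to the handle block, different regions
-/

set_option linter.unusedVariables false

noncomputable section

namespace Vale.Agent.P215.Am.Th

open Vale.Agent.P215

/-- The parameters of a point of the region `U`. -/
theorem RU_data {x y z : ℝ} (hx : 0 ≤ x) (hx1 : x ≤ 7 / 8) (hy : 0 ≤ y)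
    (hy1 : y ≤ 15 / 16) (hz0 : -1 ≤ z) (hz1 : z ≤ 1) (hr : 1 / 8 ≤ rh x (hz x y z)) :
    ∃ p q s : ℝ, RU x y (hz x y z) = RU0 p q s ∧ -2 ≤ p ∧ p ≤ 2 ∧ 0 ≤ q ∧ q ≤ 2 ∧ 0 ≤ s ∧ s ≤ 1 ∧
      (p = -2 → rh x (hz x y z) = 1 / 8) ∧ (p = 2 → 15 / 16 ≤ s → x = 7 / 8) ∧
      (q = 2 → y = 15 / 16) := by
  have h0 := hz_ge (x := x) (y := y) hz0
  have h1 := hz_le_one (x := x) (y := y) hz1
  have s0 : 0 ≤ sx x (hz x y z) := by unfold sx; grind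
  have s1 : sx x (hz x y z) ≤ 1 := by unfold sx; grind
  have e0 := et_nonneg (h := hz x y z) hy h1
  have e1 := et_le_two (h := hz x y z) hy1 h0
  refine ⟨_, _, _, rfl, F1_ge s1 hr, F1_le hx hx1 hz0 hz1, e0.trans (F2_ge _ _), F2_le e1, s0, s1,
    fun h => F1_eq_neg_two h s1 hr, fun h h' => F1_eq_two hx hx1 hz0 hz1 h' hr h, fun h => ?_⟩
  exact et_eq_two hy1 h0 h1 (F2_eq_two e1 h)

theorem NN_two_cases {p q : ℝ} (hp : -2 ≤ p) (hp2 : p ≤ 2) (hq : 0 ≤ q) (hq2 : q ≤ 2)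
    (h : NN p q = 2) : p = -2 ∨ p = 2 ∨ q = 2 := by
  unfold NN at h; grind

theorem RU_RW_cross {x y z x' y' z' : ℝ} (hx : 0 ≤ x) (hx1 : x ≤ 7 / 8) (hy : 0 ≤ y)
    (hy1 : y ≤ 15 / 16) (hz0 : -1 ≤ z) (hz1 : z ≤ 1) (hr : 1 / 8 ≤ rh x (hz x y z))
    (hx' : 0 ≤ x') (hx1' : x' ≤ 7 / 8) (hy' : 0 ≤ y')
    (hy1' : y' ≤ 15 / 16) (hz0' : -1 ≤ z') (hz1' : z' ≤ 1) (hr' : rh x' (hz x' y' z') ≤ 1 / 8)
    (h : RU x y (hz x y z) = RW x' y' (hz x' y' z')) : rh x (hz x y z) = 1 / 8 := by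
  obtain ⟨p, q, s, e, p0, p1, q0, q1, s0, s1, c1, c2, c3⟩ := RU_data hx hx1 hy hy1 hz0 hz1 hr
  rw [e] at h
  obtain ⟨n1, n2⟩ := NN_mem (abs_le.2 ⟨p0, p1⟩) (abs_le.2 ⟨by linarith, q1⟩)
  generalize hz x' y' z' = k at h
  simp only [RU0, RW, Prod.mk.injEq] at h
  obtain ⟨⟨h1, h2⟩, ⟨h3, h4⟩, h5⟩ := h
  have hN : NN p q = 2 := by
    by_cases hk : min (3 * k - 5 / 8) (2 * k - 1 / 2) < 1
    · have hk' : k < 3 / 4 := by
        rcases min_lt_iff.1 hk with h | h <;> linarith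
      rw [max_eq_left (by linarith : 8 * k - 7 ≤ -1)] at h5
      have := rr_eq_neg_one (by linarith) (by linarith) s1 h5
      linarith
    · rw [min_eq_left (not_lt.1 hk)] at h3
      have h6 : sgm (NN p q - 1) s = 3 := by
        rcases max_choice (-1) (sgm (NN p q - 1) s - 2) with h7 | h7 <;> rw [h7] at h3 <;> linarith
      have := (sgm_eq_three (by linarith) (by linarith) s0 s1 h6).1
      linarith
  rw [hN] at h1
  exact c1 (by linarith)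

theorem tp_three {m x y h : ℝ} (h0 : tp m x y h ≤ 3) (h1 : min 1 (2 - tp m x y h) = -1) :
    min (tp m x y h) 1 = 1 := by
  have h2 : tp m x y h = 3 := by
    rcases min_choice 1 (2 - tp m x y h) with h | h <;> rw [h] at h1 <;> linarith
  rw [h2]
  norm_num

theorem RU_RA_cross {x y z x' y' z' : ℝ} (hx : 0 ≤ x) (hx1 : x ≤ 7 / 8) (hy : 0 ≤ y)
    (hy1 : y ≤ 15 / 16) (hz0 : -1 ≤ z) (hz1 : z ≤ 1) (hr : 1 / 8 ≤ rh x (hz x y z))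
    (hx' : 0 ≤ x') (hx1' : x' ≤ 1) (hy' : 0 ≤ y')
    (hy1' : y' ≤ 1) (hz0' : -1 ≤ z') (hz1' : z' ≤ 1) (hm' : mu x' y' ≤ 1)
    (h : RU x y (hz x y z) = RA x' y' z') : x = 7 / 8 ∨ y = 15 / 16 := by
  obtain ⟨p, q, s, e, p0, p1, q0, q1, s0, s1, c1, c2, c3⟩ := RU_data hx hx1 hy hy1 hz0 hz1 hr
  rw [e] at h
  obtain ⟨n1, n2⟩ := NN_mem (abs_le.2 ⟨p0, p1⟩) (abs_le.2 ⟨by linarith, q1⟩)
  obtain ⟨a0, a1⟩ := hA_mem hz0' hz1'
  have t1 := (tp_mem hx' hx1' hy' hy1' hm' a0 a1).2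
  simp only [RU0, RA, Prod.mk.injEq] at h
  obtain ⟨⟨h1, h2⟩, ⟨h3, h4⟩, h5⟩ := h
  have h6 : sgm (NN p q - 1) s = 3 := by
    rcases max_choice (-1) (sgm (NN p q - 1) s - 2) with h7 | h7 <;> rw [h7] at h3 <;> linarith
  obtain ⟨h7, h8⟩ := sgm_eq_three (by linarith) (by linarith) s0 s1 h6
  have hN : NN p q = 2 := by linarith
  rw [hN] at h1 h2
  rcases NN_two_cases p0 p1 q0 q1 hN with h9 | h9 | h9
  · right
    have h10 : min (tp (mu x' y') x' y' (hA z')) 1 = 1 := by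
      refine tp_three t1 ?_
      rw [← h1, h9]
      norm_num
    rw [h10] at h2
    exact c3 (by linarith)
  · exact Or.inl (c2 h9 h8)
  · exact Or.inr (c3 h9)

theorem RW_RA_cross {x y z x' y' z' : ℝ} (hx : 0 ≤ x) (hx1 : x ≤ 7 / 8) (hy : 0 ≤ y)
    (hy1 : y ≤ 15 / 16) (hz0 : -1 ≤ z) (hz1 : z ≤ 1) (hr : rh x (hz x y z) ≤ 1 / 8)
    (hx' : 0 ≤ x') (hx1' : x' ≤ 1) (hy' : 0 ≤ y')
    (hy1' : y' ≤ 1) (hz0' : -1 ≤ z') (hz1' : z' ≤ 1) (hm' : mu x' y' ≤ 1)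
    (h : RW x y (hz x y z) = RA x' y' z') : y = 15 / 16 := by
  obtain ⟨a0, a1⟩ := hA_mem hz0' hz1'
  have t1 := (tp_mem hx' hx1' hy' hy1' hm' a0 a1).2
  have k0 := hz_ge (x := x) (y := y) hz0
  have k1 := hz_le_one (x := x) (y := y) hz1
  simp only [RW, RA, Prod.mk.injEq] at h
  obtain ⟨⟨h1, h2⟩, ⟨h3, h4⟩, h5⟩ := h
  have h10 : min (tp (mu x' y') x' y' (hA z')) 1 = 1 := tp_three t1 h1.symm
  rw [h10] at h2
  exact et_eq_two hy1 k0 k1 (by linarith)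

end Vale.Agent.P215.Am.Th
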