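import Vale.Agent.P215.Am.Reposition

/-!
# P215, route A: from two legs to three legs

`T.L = ![sb true, sb false ∘ sb false, sb false ∘ sb true]` for two-leg data `T : TwoLeg`,
`sb k = small c (b k)`; the splittings, contractions and push-off data for these three legs.
-/

noncomputable section

namespace Vale.Agent.P215.Am

open Vale.Agent.P215.H788 Set Topology

theorem isBox_small {c : ℝ} (h0 : 0 < c) (h1 : c < 1) {B : Q → Q} (hB : IsBox B) :
    IsBox (small c B) :=
  hB.comp (isBox_vert (isSq_scl h0 h1) (scl_interior h0 h1))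

namespace TwoLeg

variable (T : TwoLeg)

/-- The legs of a two-leg piece. -/
def sb (k : Bool) : Q → Q := small T.c (T.b k)

theorem sb_eq (k : Bool) (x y : Disc) : T.sb k (x, y) = T.b k (scl T.c x, y) := rfl

theorem sb_eq' (k : Bool) (p : Q) : T.sb k p = T.b k (scl T.c p.1, p.2) := rfl

theorem isBox_sb (k : Bool) : IsBox (T.sb k) := isBox_small T.c_pos T.c_lt (T.isBox k)

theorem b_ne {k k' : Bool} {p q : Q} (h : T.b k p = T.b k' q) : k = k' := by
  cases k <;> cases k'
  · rfl
  · exact absurd h.symm (T.disj _ _)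
  · exact absurd h (T.disj _ _)
  · rfl

theorem sb_ne {k k' : Bool} {p q : Q} (h : T.sb k p = T.sb k' q) : k = k' := T.b_ne h

/-- The three legs. -/
def L : Fin 3 → Q → Q := ![T.sb true, fun p => T.sb false (T.sb false p),
  fun p => T.sb false (T.sb true p)]

/-- The number of an inner leg. -/
def lg (k : Bool) : Fin 3 := if k then 2 else 1

theorem L_zero : T.L 0 = T.sb true := rfl

theorem L_lg (k : Bool) : T.L (lg k) = fun p => T.sb false (T.sb k p) := by
  cases k <;> rfl

theorem lg_ne_zero (k : Bool) : lg k ≠ 0 := by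
  cases k <;> decide

theorem lg_inj {k k' : Bool} (h : lg k = lg k') : k = k' := by
  revert h
  cases k <;> cases k' <;> decide

theorem cases_leg (i : Fin 3) : i = 0 ∨ ∃ k, i = lg k := by
  fin_cases i
  · exact Or.inl rfl
  · exact Or.inr ⟨false, rfl⟩
  · exact Or.inr ⟨true, rfl⟩

theorem not_eq_of_ne {k k' : Bool} (h : k' ≠ k) : k' = !k := by
  revert h
  cases k <;> cases k' <;> decide

theorem isLegs : IsLegs T.L where
  isBox i := by
    rcases cases_leg i with rfl | ⟨k, rfl⟩
    · exact T.isBox_sb true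
    · rw [L_lg]
      exact (T.isBox_sb false).comp (T.isBox_sb k)
  disj i j p q h := by
    rcases cases_leg i with rfl | ⟨k, rfl⟩ <;> rcases cases_leg j with rfl | ⟨k', rfl⟩
    · rfl
    · rw [L_lg, L_zero] at h
      exact absurd (T.sb_ne h) (by decide)
    · rw [L_lg, L_zero] at h
      exact absurd (T.sb_ne h) (by decide)
    · rw [L_lg, L_lg] at h
      rw [T.sb_ne ((T.isBox_sb false).inj h)]

/-! ### Splitting along the leg `0` -/

section Split0

variable {T} {D : Type} [Finite D] {q : D → Disc → Disc} (S : Split2 (T.b true) (T.b false) T.c q)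
  {m : D → ℝ} {r : ℝ} (H : StripData T.c S.f m r)

/-- The thick copies of the leg `false`. -/
def B1 (d : D) (p : Q) : Q := vert (S.s d) (T.b false p)

/-- The thick copies of the inner legs. -/
def B2 (x : D × Bool) (p : Q) : Q := vert (S.s x.1) (T.sb false (T.b x.2 p))

variable (m r) in
/-- The new map on the thick copies of the leg `false`. -/
def G1 (d : D) (p : Q) : Q := T.b false (mvA T.c (S.f d) (m d) r p)

variable (m r) in
/-- The new map on the thick copies of the inner legs. -/
def G2 (x : D × Bool) (p : Q) : Q := T.sb false (T.b x.2 (mvB T.c (S.f x.1) (m x.1) r p))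

variable (m r) in
/-- The first modification. -/
def psi1 : Q → Q := patch (B1 S) S.ψ (G1 S m r)

variable (m r) in
/-- The second modification. -/
def psi2 : Q → Q := patch (B2 S) (psi1 S m r) (G2 S m r)

omit [Finite D] in
theorem isBox_B1 (d : D) : IsBox (B1 S d) := (S.fam.isBox d).comp (T.isBox false)

omit [Finite D] in
theorem B1_disj (d d' : D) (p q : Q) (h : B1 S d p = B1 S d' q) : d = d' :=
  S.fam.vert_disj _ _ _ _ h

omit [Finite D] in
theorem isBox_B2 (x : D × Bool) : IsBox (B2 S x) :=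
  (S.fam.isBox x.1).comp ((T.isBox_sb false).comp (T.isBox x.2))

omit [Finite D] in
theorem B2_disj (x y : D × Bool) (p q : Q) (h : B2 S x p = B2 S y q) : x = y := by
  obtain ⟨d, k⟩ := x
  obtain ⟨d', k'⟩ := y
  have h1 : d = d' := S.fam.vert_disj _ _ _ _ h
  subst h1
  have h2 := vert_inj (S.fam.isSq _).inj h
  have h3 : k = k' := T.b_ne ((T.isBox_sb false).inj h2)
  rw [h3]

include H

theorem isMor_psi1 : IsMor (psi1 S m r) := by
  refine isMor_patch (isBox_B1 S) (B1_disj S) S.mor ?_ ?_ ?_ ?_ ?_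
  · exact fun d => (T.isBox false).cont.comp (H.contA d)
  · exact fun d d' p q h => H.disjA _ _ _ _ ((T.isBox false).inj h)
  · exact fun d => (T.isBox false).inj.comp (H.injA d)
  · rintro d ⟨x, y⟩ hq
    simp only [G1, B1]
    rw [H.bdA d hq, S.spec_other]
  · intro d q p hp h
    obtain ⟨d', r', h1⟩ := S.cover_other _ _ h
    exact hp d' r' h1.symm

omit H [Finite D] in
theorem psi1_off {p : Q} (h : ∀ d q, B1 S d q ≠ p) : psi1 S m r p = S.ψ p := patch_off _ _ h

omit [Finite D] in
theorem psi1_small (d : D) (p : Q) : psi1 S m r (vert (S.s d) (T.sb false p)) =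
    T.sb false (p.1, wst (m d) r p.2) := by
  have h1 : vert (S.s d) (T.sb false p) = B1 S d (scl T.c p.1, p.2) := rfl
  rw [h1, psi1, patch_box (isBox_B1 S) (B1_disj S), G1, H.smallA d (nm_scl T.c_pos T.c_lt _)]
  rfl

omit [Finite D] in
theorem psi1_cover {k : Bool} {p Z : Q} (h : psi1 S m r p = T.sb false (T.b k Z)) :
    ∃ d y, p = B2 S (d, k) (Z.1, y) := by
  by_cases h1 : ∃ d r', B1 S d r' = p
  · obtain ⟨d, r1, rfl⟩ := h1
    rw [psi1, patch_box (isBox_B1 S) (B1_disj S), G1] at h
    have h2 : mvA T.c (S.f d) (m d) r r1 = (scl T.c (T.b k Z).1, (T.b k Z).2) :=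
      (T.isBox false).inj h
    have h3 : r1.1 = scl T.c (T.b k Z).1 := congrArg Prod.fst h2
    have h4 : nm r1.1 ≤ T.c := by
      rw [h3]
      exact nm_scl T.c_pos T.c_lt _
    rw [H.smallA d h4] at h2
    have h5 : wst (m d) r r1.2 = (T.b k Z).2 := congrArg Prod.snd h2
    obtain ⟨y, h6, -⟩ := (T.wprod k).cover (m := m d) (r := r) (a := (T.b k Z).1) (z := r1.2)
      H.r_pos (H.mr d) (p := Z) (by rw [h5])
    refine ⟨d, y, ?_⟩
    have h7 : r1 = (scl T.c (T.b k Z).1, r1.2) := Prod.ext h3 rfl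
    rw [h7]
    change vert (S.s d) (T.sb false ((T.b k Z).1, r1.2)) = vert (S.s d) (T.sb false (T.b k (Z.1, y)))
    rw [h6]
  · push Not at h1
    rw [psi1_off S h1] at h
    obtain ⟨d', r', h2⟩ := S.cover_other _ _ h
    exact absurd h2.symm (h1 d' r')

theorem isMor_psi2 : IsMor (psi2 S m r) := by
  refine isMor_patch (isBox_B2 S) (B2_disj S) (isMor_psi1 S H) ?_ ?_ ?_ ?_ ?_
  · exact fun x => (T.isBox_sb false).cont.comp ((T.isBox x.2).cont.comp (H.contB x.1))
  · rintro ⟨d, k⟩ ⟨d', k'⟩ p q h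
    have h1 := (T.isBox_sb false).inj h
    simp only at h1
    have h2 := T.b_ne h1
    subst h2
    have h3 := H.disjB _ _ _ _ ((T.isBox k).inj h1)
    rw [h3]
  · exact fun x => (T.isBox_sb false).inj.comp ((T.isBox x.2).inj.comp (H.injB x.1))
  · rintro ⟨d, k⟩ ⟨x, y⟩ hq
    simp only [G2, B2]
    rw [H.bdB d hq, psi1_small S H, (T.wprod k).comm H.r_pos (H.mr d)]
  · rintro ⟨d, k⟩ q p hp h
    obtain ⟨d', y, h1⟩ := psi1_cover S H h
    exact hp _ _ h1.symm

omit H [Finite D] in
theorem psi2_off {p : Q} (h : ∀ d q, B2 S d q ≠ p) : psi2 S m r p = psi1 S m r p :=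
  patch_off _ _ h

/-- Splitting along the leg `0`. -/
def legSplit0 : LegSplit T.L 0 q where
  ψ := psi2 S m r
  mor := isMor_psi2 S H
  s := S.s
  fam := S.fam
  g := S.g
  τ := S.τ
  f _ := S.f
  g_inj d := (S.inc_g d).inj
  g_τ := S.g_τ
  isXSq_τ := S.isXSq_τ
  isXSq_f _ _ := S.isXSq_f
  f_sep _ _ := S.f_sep
  spec_self d x y := by
    rw [L_zero]
    have h1 : ∀ (d' : D × Bool) (q' : Q), B2 S d' q' ≠ vert (S.s d) (T.sb true (x, y)) := by
      rintro ⟨d', k⟩ q' h
      have h1 : d' = d := S.fam.vert_disj _ _ _ _ h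
      subst h1
      exact absurd (T.sb_ne (vert_inj (S.fam.isSq _).inj h)) (by decide)
    have h2 : ∀ (d' : D) (q' : Q), B1 S d' q' ≠ vert (S.s d) (T.sb true (x, y)) := by
      intro d' q' h
      have h1 : d' = d := S.fam.vert_disj _ _ _ _ h
      subst h1
      have h3 : T.b false q' = T.b true (scl T.c x, y) := vert_inj (S.fam.isSq _).inj h
      exact absurd (T.b_ne h3) (by decide)
    rw [psi2_off S h1, psi1_off S h2]
    exact S.spec_self d x y
  spec_other j hj d x y := by
    rcases cases_leg j with rfl | ⟨k, rfl⟩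
    · exact absurd rfl hj
    · rw [L_lg]
      have h1 : vert (S.s d) (T.sb false (T.sb k (x, y))) = B2 S (d, k) (scl T.c x, y) := rfl
      simp only
      rw [h1, psi2, patch_box (isBox_B2 S) (B2_disj S), G2]
      simp only
      rw [H.smallB d (nm_scl T.c_pos T.c_lt _)]
      rfl
  cover_self d p x y h := by
    rw [L_zero] at h ⊢
    have h1 : ∀ (d' : D × Bool) (q' : Q), B2 S d' q' ≠ p := by
      rintro d' q' rfl
      rw [psi2, patch_box (isBox_B2 S) (B2_disj S), G2] at h
      exact absurd (T.sb_ne h) (by decide)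
    rw [psi2_off S h1] at h
    have h2 : ∀ (d' : D) (q' : Q), B1 S d' q' ≠ p := by
      rintro d' q' rfl
      rw [psi1, patch_box (isBox_B1 S) (B1_disj S), G1, sb_eq] at h
      exact absurd (T.b_ne h) (by decide)
    rw [psi1_off S h2] at h
    exact S.cover_self d p x y h
  cover_other j hj p r' h := by
    rcases cases_leg j with rfl | ⟨k, rfl⟩
    · exact absurd rfl hj
    · rw [L_lg] at h ⊢
      simp only at h ⊢
      by_cases h1 : ∃ x q', B2 S x q' = p
      · obtain ⟨⟨d, k'⟩, q', rfl⟩ := h1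
        rw [psi2, patch_box (isBox_B2 S) (B2_disj S), G2] at h
        simp only at h
        have h2 := (T.isBox_sb false).inj h
        rw [sb_eq'] at h2
        have h3 := T.b_ne h2
        subst h3
        have h4 := congrArg Prod.fst ((T.isBox k').inj h2)
        have h5 : q'.1 = scl T.c r'.1 := h4
        refine ⟨d, (r'.1, q'.2), ?_⟩
        have h6 : q' = (scl T.c r'.1, q'.2) := Prod.ext h5 rfl
        rw [h6]
        rfl
      · push Not at h1
        rw [psi2_off S h1, sb_eq'] at h
        obtain ⟨d, y, h2⟩ := psi1_cover S H h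
        exact absurd h2.symm (h1 _ _)

end Split0

/-! ### Splitting along the inner legs -/

section SplitI

variable {T} {D : Type} [Finite D] {q : D → Disc → Disc} {k : Bool}
  (I : Split2 (T.b k) (T.b !k) T.c q) (O : Split2 (T.b false) (T.b true) T.c I.s)
  {h : D → Disc → Disc} (hc : ∀ d, Continuous (h d)) (hi : ∀ d, Function.Injective (h d))
  (hb : ∀ d x, nm x = 1 → h d x = x) (hs : ∀ d x, h d (scl T.c x) = scl T.c (O.τ d x))

/-- The thick copies of the leg `false`. -/
def B3 (d : D) (p : Q) : Q := vert (O.s d) (T.b false p)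

/-- The re-centering map. -/
def thI (h : D → Disc → Disc) : Q → Q := ins (B3 I O) (fun d p => (h d p.1, p.2))

omit [Finite D] in
theorem isBox_B3 (d : D) : IsBox (B3 I O d) := (O.fam.isBox d).comp (T.isBox false)

omit [Finite D] in
theorem B3_disj (d d' : D) (p q : Q) (h : B3 I O d p = B3 I O d' q) : d = d' :=
  O.fam.vert_disj _ _ _ _ h

include hc hi hb in
theorem isMor_thI : IsMor (thI I O h) := by
  refine isMor_ins (isBox_B3 I O) (B3_disj I O) fun d => ?_
  refine ⟨((hc d).comp continuous_fst).prodMk continuous_snd, ?_, ?_⟩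
  · rintro ⟨x, y⟩ ⟨x', y'⟩ he
    simp only [Prod.mk.injEq] at he
    rw [hi d he.1, he.2]
  · intro x y hx
    simp only
    rw [hb d x hx]

/-- The inner splitting, inserted in the leg `false`. -/
def insI : Q → Q := ins (fun _ : Unit => T.sb false) (fun _ => I.ψ)

omit [Finite D] in
theorem isBox_sb' (_ : Unit) : IsBox ((fun _ : Unit => T.sb false) ()) := T.isBox_sb false

omit [Finite D] in
theorem isMor_insI : IsMor (insI I) :=
  isMor_ins (B := fun _ : Unit => T.sb false) (fun _ => T.isBox_sb false) (fun _ _ _ _ _ => rfl)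
    fun _ => I.mor

omit [Finite D] in
theorem insI_box (p : Q) : insI I (T.sb false p) = T.sb false (I.ψ p) :=
  ins_box (B := fun _ : Unit => T.sb false) (fun _ => T.isBox_sb false) (fun _ _ _ _ _ => rfl)
    (fun _ => I.ψ) () p

omit [Finite D] in
theorem insI_cover {p r : Q} (h : insI I p = T.sb false r) : ∃ p', p = T.sb false p' ∧ I.ψ p' = r :=
  ins_cover (B := fun _ : Unit => T.sb false) (fun _ => T.isBox_sb false) (fun _ _ _ _ _ => rfl)
    (fun _ => I.ψ) (j := ()) h

omit [Finite D] in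
theorem insI_true (p : Q) : insI I (T.sb true p) = T.sb true p :=
  ins_off _ fun _ _ h => absurd (T.sb_ne h) (by decide)

omit [Finite D] in
theorem insI_cover_true {p r : Q} (h : insI I p = T.sb true r) : p = T.sb true r := by
  by_cases h1 : ∃ p', T.sb false p' = p
  · obtain ⟨p', rfl⟩ := h1
    rw [insI_box] at h
    exact absurd (T.sb_ne h) (by decide)
  · push Not at h1
    have h2 : insI I p = p := ins_off _ fun _ p' => h1 p'
    rw [← h2, h]

include hs in
omit [Finite D] in
theorem thI_small (d : D) (p : Q) : thI I O h (vert (O.s d) (T.sb false p)) =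
    vert (O.s d) (T.sb false (O.τ d p.1, p.2)) := by
  have h1 : vert (O.s d) (T.sb false p) = B3 I O d (scl T.c p.1, p.2) := rfl
  rw [h1, thI, ins_box (isBox_B3 I O) (B3_disj I O)]
  simp only
  rw [hs]
  rfl

omit [Finite D] in
theorem thI_true (d : D) (p : Q) : thI I O h (vert (O.s d) (T.sb true p)) =
    vert (O.s d) (T.sb true p) := by
  refine ins_off _ fun d' p' he => ?_
  have h1 : d' = d := O.fam.vert_disj _ _ _ _ he
  subst h1
  have h3 : T.b false p' = T.b true (scl T.c p.1, p.2) := vert_inj (O.fam.isSq _).inj he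
  exact absurd (T.b_ne h3) (by decide)

include hs in
omit [Finite D] in
/-- The composite morphism on the leg `false` of a new piece. -/
theorem comp_spec (d : D) (p : Q) : insI I (O.ψ (thI I O h (vert (O.s d) (T.sb false p)))) =
    T.sb false (I.ψ (vert (I.s d) p)) := by
  rw [thI_small I O hs]
  have h1 := O.spec_self d (O.τ d p.1) p.2
  change O.ψ (vert (O.s d) (T.sb false (O.τ d p.1, p.2))) = T.sb false _ at h1
  rw [h1, insI_box, O.g_τ]
  rfl

include hi hs in
omit [Finite D] in
/-- The main cover statement. -/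
theorem comp_cover {d : D} {p r : Q} (h1 : O.ψ (thI I O h p) = T.sb false (vert (I.s d) r)) :
    p = vert (O.s d) (T.sb false r) := by
  have h2 : O.ψ (thI I O h p) = small T.c (T.b false) (I.s d r.1, r.2) := h1
  obtain ⟨r3, h3⟩ := O.cover_self d _ _ _ h2
  have h4 : thI I O h p = B3 I O d (scl T.c r3.1, r3.2) := h3
  obtain ⟨r4, rfl, h5⟩ := ins_cover (isBox_B3 I O) (B3_disj I O) _ h4
  rw [h3] at h2
  have h6 := O.spec_self d r3.1 r3.2
  change O.ψ (vert (O.s d) (small T.c (T.b false) r3)) = _ at h6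
  rw [h6] at h2
  have h7 := (isBox_small T.c_pos T.c_lt (T.isBox false)).inj h2
  simp only [Prod.mk.injEq] at h7
  rw [← O.g_τ] at h7
  have h8 := (O.inc_g d).inj h7.1
  simp only [Prod.mk.injEq] at h5
  rw [h8, ← hs] at h5
  have h9 := hi d h5.1
  have h10 : r4 = (scl T.c r.1, r.2) := Prod.ext h9 (h5.2.trans h7.2)
  rw [h10]
  rfl

variable (k) in
/-- Splitting along an inner leg. -/
def legSplitI : LegSplit T.L (lg k) q where
  ψ p := insI I (O.ψ (thI I O h p))
  mor := (isMor_insI I).comp (O.mor.comp (isMor_thI I O hc hi hb))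
  s := O.s
  fam := O.fam
  g := I.g
  τ := I.τ
  f j := if j = 0 then O.f else I.f
  g_inj d := (I.inc_g d).inj
  g_τ := I.g_τ
  isXSq_τ := I.isXSq_τ
  isXSq_f j _ d := by
    split_ifs
    · exact O.isXSq_f d
    · exact I.isXSq_f d
  f_sep j _ := by
    split_ifs
    · exact O.f_sep
    · exact I.f_sep
  spec_self d x y := by
    rw [L_lg]
    simp only
    rw [comp_spec I O hs]
    have h1 := I.spec_self d x y
    change I.ψ (vert (I.s d) (T.sb k (x, y))) = T.sb k (I.g d x, y) at h1
    rw [h1]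
  spec_other j hj d x y := by
    rcases cases_leg j with rfl | ⟨k', rfl⟩
    · rw [if_pos rfl, L_zero, thI_true]
      have h1 := O.spec_other d (scl T.c x) y
      change O.ψ (vert (O.s d) (T.sb true (x, y))) = T.sb true (x, O.f d y) at h1
      rw [h1, insI_true]
    · rw [if_neg (lg_ne_zero k'), L_lg]
      simp only
      have hk : k' = !k := not_eq_of_ne fun h => hj (by rw [h])
      subst hk
      rw [comp_spec I O hs]
      have h1 := I.spec_other d (scl T.c x) y
      change I.ψ (vert (I.s d) (T.sb (!k) (x, y))) = T.sb (!k) (x, I.f d y) at h1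
      rw [h1]
  cover_self d p x y he := by
    rw [L_lg] at he ⊢
    simp only at he ⊢
    obtain ⟨r1, h1, h2⟩ := insI_cover I he
    obtain ⟨r2, h3⟩ := I.cover_self d r1 x y h2
    rw [h3] at h1
    exact ⟨r2, comp_cover I O hi hs h1⟩
  cover_other j hj p r he := by
    rcases cases_leg j with rfl | ⟨k', rfl⟩
    · rw [L_zero] at he ⊢
      have h1 := insI_cover_true I he
      have h2 : O.ψ (thI I O h p) = T.b true (scl T.c r.1, r.2) := h1
      obtain ⟨d, r2, h3⟩ := O.cover_other _ _ h2
      rw [h3] at h2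
      have h4 := O.spec_other d r2.1 r2.2
      change O.ψ (vert (O.s d) (T.b true r2)) = _ at h4
      rw [h4] at h2
      have h5 := (T.isBox true).inj h2
      simp only [Prod.mk.injEq] at h5
      have h6 : r2 = (scl T.c r.1, r2.2) := Prod.ext h5.1 rfl
      rw [h6] at h3
      refine ⟨d, (r.1, r2.2), ?_⟩
      have h7 : ∀ (d' : D) (p' : Q), B3 I O d' p' ≠ p := by
        rintro d' p' rfl
        rw [thI, ins_box (isBox_B3 I O) (B3_disj I O)] at h3
        have h8 : d' = d := O.fam.vert_disj _ _ _ _ h3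
        subst h8
        exact absurd (T.b_ne (vert_inj (O.fam.isSq _).inj h3)) (by decide)
      rw [thI, ins_off _ h7] at h3
      exact h3
    · rw [L_lg] at he ⊢
      simp only at he ⊢
      have hk : k' = !k := not_eq_of_ne fun h => hj (by rw [h])
      subst hk
      obtain ⟨r1, h1, h2⟩ := insI_cover I he
      have h2' : I.ψ r1 = T.b (!k) (scl T.c r.1, r.2) := h2
      obtain ⟨d, r2, h3⟩ := I.cover_other r1 _ h2'
      rw [h3] at h2'
      have h4 := I.spec_other d r2.1 r2.2
      change I.ψ (vert (I.s d) (T.b (!k) r2)) = _ at h4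
      rw [h4] at h2'
      have h5 := (T.isBox (!k)).inj h2'
      simp only [Prod.mk.injEq] at h5
      have h6 : r2 = (scl T.c r.1, r2.2) := Prod.ext h5.1 rfl
      rw [h6] at h3
      rw [h3] at h1
      refine ⟨d, (r.1, r2.2), ?_⟩
      exact comp_cover I O hi hs h1

end SplitI

theorem IsInc.isXSq {s : Disc → Disc} (h : IsInc s) (h1 : IsSq s) (h2 : ∀ x, s x ∈ int) :
    IsXSq s where
  toIsSq := h1
  xinj _ _ he := h.fst_inj he
  xint u := (mem_int_iff.1 (h2 u)).1

theorem inc_of_comp {g τ s : Disc → Disc} (hg : IsInc g) (hs : IsInc s)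
    (h : ∀ x, g (τ x) = s x) : IsInc τ where
  fst u v := by rw [← hg.fst, h, h, hs.fst]
  snd u v := by rw [← hg.snd, h, h, hs.snd]

/-- **All leg splittings.** -/
theorem exists_legSplit (i : Fin 3) {D : Type} [Finite D] [Nonempty D] (q : D → Disc → Disc)
    (hq : ∀ d, IsXSq (q d)) (hs : ∀ d d' x y, (q d x).1.1 = (q d' y).1.1 → d = d') :
    Nonempty (LegSplit T.L i q) := by
  rcases cases_leg i with rfl | ⟨k, rfl⟩
  · obtain ⟨S⟩ := T.split true q hq hs
    obtain ⟨m, r, hr, hm, hmm⟩ := exists_mstrips D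
    exact ⟨legSplit0 S (m := m) (r := r) ⟨T.c_pos, T.c_lt, fun d => (S.isXSq_f d).cont, S.inc_f,
      S.f_snd, S.f_sep, hr, hm, hmm⟩⟩
  · obtain ⟨I⟩ := T.split k q hq hs
    obtain ⟨O⟩ := T.split false I.s
      (fun d => IsInc.isXSq (I.inc_s d) (I.fam.isSq d) (I.fam.int d)) I.sep_s
    have h1 : ∀ d, IsInc (O.τ d) := fun d => inc_of_comp (O.inc_g d) (I.inc_s d) (O.g_τ d)
    choose h hc hi hb hh using fun d =>
      exists_recenter T.c_pos T.c_lt (O.isXSq_τ d).cont (h1 d)
    exact ⟨legSplitI k I O hc hi hb hh⟩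

/-! ### Contractions -/

section Contract

variable {T}

/-- Contraction along the leg `0`. -/
def legContract0 (C : Contract2 (T.sb true) (T.sb false)) : LegContract T.L 0 where
  ψ := C.ψ
  mor := C.mor
  E := C.E
  finE := C.finE
  s := C.s
  fam := C.fam
  r _ x := x
  isSq_r _ := IsSq.id
  surj_r _ x := ⟨x, rfl⟩
  int_r _ _ h := h
  f := C.f
  isSq_f := C.isSq_f
  spec := C.spec
  cover p r' h := C.cover p r' h
  miss j hj p r' := by
    rcases cases_leg j with rfl | ⟨k, rfl⟩
    · exact absurd rfl hj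
    · rw [L_lg]
      exact C.miss _ _

variable {k : Bool} (O : Contract2 (T.sb false) (T.sb true)) (I : Contract2 (T.sb k) (T.sb !k))

/-- The inner contraction, inserted in the leg `false`. -/
def insC : Q → Q := ins (fun _ : Unit => T.sb false) (fun _ => I.ψ)

theorem isMor_insC : IsMor (insC I) :=
  isMor_ins (B := fun _ : Unit => T.sb false) (fun _ => T.isBox_sb false) (fun _ _ _ _ _ => rfl)
    fun _ => I.mor

theorem insC_box (p : Q) : insC I (T.sb false p) = T.sb false (I.ψ p) :=
  ins_box (B := fun _ : Unit => T.sb false) (fun _ => T.isBox_sb false) (fun _ _ _ _ _ => rfl)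
    (fun _ => I.ψ) () p

theorem insC_cover {p r : Q} (h : insC I p = T.sb false r) : ∃ p', p = T.sb false p' ∧ I.ψ p' = r :=
  ins_cover (B := fun _ : Unit => T.sb false) (fun _ => T.isBox_sb false) (fun _ _ _ _ _ => rfl)
    (fun _ => I.ψ) (j := ()) h

theorem insC_off {p : Q} (h : ∀ p', T.sb false p' ≠ p) : insC I p = p := ins_off _ fun _ p' => h p'

theorem insC_cover_true {p r : Q} (h : insC I p = T.sb true r) : p = T.sb true r := by
  by_cases h1 : ∃ p', T.sb false p' = p
  · obtain ⟨p', rfl⟩ := h1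
    rw [insC_box] at h
    exact absurd (T.sb_ne h) (by decide)
  · push Not at h1
    rw [← insC_off I h1, h]

/-- Contraction along an inner leg. -/
def legContractI : LegContract T.L (lg k) where
  ψ p := insC I (O.ψ p)
  mor := (isMor_insC I).comp O.mor
  E := O.E × I.E
  finE := by
    have := O.finE
    have := I.finE
    infer_instance
  s c x := O.s c.1 (I.s c.2 x)
  fam := O.fam.comp_prod I.fam
  r _ x := x
  isSq_r _ := IsSq.id
  surj_r _ x := ⟨x, rfl⟩
  int_r _ _ h := h
  f c x := I.f c.2 (O.f c.1 x)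
  isSq_f c := (I.isSq_f c.2).comp (O.isSq_f c.1)
  spec c x y := by
    have h1 := O.spec c.1 (I.s c.2 x) y
    have h2 : vert (fun x => O.s c.1 (I.s c.2 x)) (x, y) = vert (O.s c.1) (I.s c.2 x, y) := rfl
    rw [h2, h1, insC_box, L_lg]
    have h3 := I.spec c.2 x (O.f c.1 y)
    change I.ψ (I.s c.2 x, O.f c.1 y) = _ at h3
    rw [h3]
  cover p r' h := by
    rw [L_lg] at h
    obtain ⟨r1, h1, h2⟩ := insC_cover I h
    obtain ⟨c', q', rfl⟩ := I.cover _ _ h2
    obtain ⟨c, q, rfl⟩ := O.cover _ _ h1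
    have h3 := O.spec c q.1 q.2
    change O.ψ (vert (O.s c) q) = _ at h3
    rw [h3] at h1
    have h4 := (T.isBox_sb false).inj h1
    have h5 : q.1 = I.s c' q'.1 := congrArg Prod.fst h4
    refine ⟨(c, c'), (q'.1, q.2), ?_⟩
    have h6 : q = (I.s c' q'.1, q.2) := Prod.ext h5 rfl
    rw [h6]
    rfl
  miss j hj p r' h := by
    rcases cases_leg j with rfl | ⟨k', rfl⟩
    · rw [L_zero] at h
      exact O.miss _ _ (insC_cover_true I h)
    · rw [L_lg] at h
      have hk : k' = !k := not_eq_of_ne fun h => hj (by rw [h])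
      subst hk
      obtain ⟨r1, -, h2⟩ := insC_cover I h
      exact I.miss _ _ h2

end Contract

/-- **All leg contractions.** -/
theorem exists_legContract (i : Fin 3) : Nonempty (LegContract T.L i) := by
  rcases cases_leg i with rfl | ⟨k, rfl⟩
  · obtain ⟨C⟩ := T.contract true
    exact ⟨legContract0 C⟩
  · obtain ⟨O⟩ := T.contract false
    obtain ⟨I⟩ := T.contract k
    exact ⟨legContractI O I⟩

/-! ### Push-off data -/

end TwoLeg

/-- The symmetric push-off datum. -/
def PushDatum.symm {L : Type} {β : L → Q → Q} {A B : L} (P : PushDatum β A B) :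
    PushDatum β B A where
  n := P.n
  n_pos := P.n_pos
  κ₀ := P.κ₀
  mor := P.mor
  TA := P.TB
  TB := P.TA
  cont_TA := P.cont_TB
  inj_TA := P.inj_TB
  cont_TB := P.cont_TA
  inj_TB := P.inj_TA
  TA_bd := P.TB_bd
  TB_bd := P.TA_bd
  κ₀_TA := P.κ₀_TB
  κ₀_TB := P.κ₀_TA
  κ₀_miss C h1 h2 := P.κ₀_miss C h2 h1
  TA_miss C h1 h2 := P.TB_miss C h2 h1
  TB_miss C h1 h2 := P.TA_miss C h2 h1
  f := P.f'
  f' := P.f
  isSq_f := P.isSq_f'
  isSq_f' := P.isSq_f
  f_disj := P.f'_disj
  f'_disj := P.f_disj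
  cross a x b y := by
    rw [eq_comm, P.cross]
    exact exists_congr fun k => and_comm

namespace TwoLeg

section Push

variable {T : TwoLeg}

/-- Push-off for the two inner legs. -/
def pushI (P : PushDatum T.sb true false) (O : Contract2 (T.sb false) (T.sb true)) :
    PushDatum T.L (lg true) (lg false) where
  n := P.n
  n_pos := P.n_pos
  κ₀ p := ins (fun _ : Unit => T.sb false) (fun _ => P.κ₀) (O.ψ p)
  mor := (isMor_ins (B := fun _ : Unit => T.sb false) (fun _ => T.isBox_sb false)
    (fun _ _ _ _ _ => rfl) fun _ => P.mor).comp O.mor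
  TA p := T.sb false (P.TA p)
  TB p := T.sb false (P.TB p)
  cont_TA := (T.isBox_sb false).cont.comp P.cont_TA
  inj_TA := (T.isBox_sb false).inj.comp P.inj_TA
  cont_TB := (T.isBox_sb false).cont.comp P.cont_TB
  inj_TB := (T.isBox_sb false).inj.comp P.inj_TB
  TA_bd a x hx := by rw [P.TA_bd a x hx, L_lg]
  TB_bd a x hx := by rw [P.TB_bd a x hx, L_lg]
  κ₀_TA p q h := by
    obtain ⟨r, -, h1⟩ := ins_cover (B := fun _ : Unit => T.sb false) (fun _ => T.isBox_sb false)
      (fun _ _ _ _ _ => rfl) (fun _ => P.κ₀) (j := ()) h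
    exact P.κ₀_TA _ _ h1
  κ₀_TB p q h := by
    obtain ⟨r, -, h1⟩ := ins_cover (B := fun _ : Unit => T.sb false) (fun _ => T.isBox_sb false)
      (fun _ _ _ _ _ => rfl) (fun _ => P.κ₀) (j := ()) h
    exact P.κ₀_TB _ _ h1
  κ₀_miss C h1 h2 p q h := by
    rcases cases_leg C with rfl | ⟨k, rfl⟩
    · rw [L_zero] at h
      by_cases h3 : ∃ p', T.sb false p' = O.ψ p
      · obtain ⟨p', h4⟩ := h3
        rw [← h4] at h
        have h5 := ins_box (B := fun _ : Unit => T.sb false) (fun _ => T.isBox_sb false)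
          (fun _ _ _ _ _ => rfl) (fun _ => P.κ₀) () p'
        rw [h5] at h
        exact absurd (T.sb_ne h) (by decide)
      · push Not at h3
        rw [ins_off _ fun _ p' => h3 p'] at h
        exact O.miss _ _ h
    · cases k
      · exact h2 rfl
      · exact h1 rfl
  TA_miss C h1 h2 p q h := by
    rcases cases_leg C with rfl | ⟨k, rfl⟩
    · rw [L_zero] at h
      exact absurd (T.sb_ne h) (by decide)
    · cases k
      · exact h2 rfl
      · exact h1 rfl
  TB_miss C h1 h2 p q h := by
    rcases cases_leg C with rfl | ⟨k, rfl⟩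
    · rw [L_zero] at h
      exact absurd (T.sb_ne h) (by decide)
    · cases k
      · exact h2 rfl
      · exact h1 rfl
  f := P.f
  f' := P.f'
  isSq_f := P.isSq_f
  isSq_f' := P.isSq_f'
  f_disj := P.f_disj
  f'_disj := P.f'_disj
  cross a x b y := by
    rw [← P.cross]
    exact (T.isBox_sb false).inj.eq_iff

/-- Push-off for the leg `0` and an inner leg. -/
def pushO (P : PushDatum T.sb true false) (hP : ∀ p, P.TB p = T.sb false p) (k : Bool)
    (I : Contract2 (T.sb k) (T.sb !k)) {N : ℕ} (e : Fin N ≃ Fin P.n × I.E) :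
    PushDatum T.L 0 (lg k) where
  n := N
  n_pos := by
    obtain ⟨c⟩ := I.neE
    have h := e.symm (⟨0, P.n_pos⟩, c)
    exact lt_of_le_of_lt (Nat.zero_le _) h.2
  κ₀ := P.κ₀
  mor := P.mor
  TA p := insC I (P.TA p)
  TB p := T.sb false (T.sb k p)
  cont_TA := (isMor_insC I).cont.comp P.cont_TA
  inj_TA := (isMor_insC I).inj.comp P.inj_TA
  cont_TB := (T.isBox_sb false).cont.comp (T.isBox_sb k).cont
  inj_TB := (T.isBox_sb false).inj.comp (T.isBox_sb k).inj
  TA_bd a x hx := by
    rw [P.TA_bd a x hx, L_zero]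
    exact insC_off I fun p' h => absurd (T.sb_ne h) (by decide)
  TB_bd a x _ := by rw [L_lg]
  κ₀_TA p q h := by
    by_cases h1 : ∃ r, T.sb false r = P.TA q
    · obtain ⟨r, h1⟩ := h1
      rw [← h1, insC_box, ← hP] at h
      exact P.κ₀_TB _ _ h
    · push Not at h1
      rw [insC_off I h1] at h
      exact P.κ₀_TA _ _ h
  κ₀_TB p q h := by
    rw [← hP] at h
    exact P.κ₀_TB _ _ h
  κ₀_miss C h1 h2 p q h := by
    rcases cases_leg C with rfl | ⟨k', rfl⟩
    · exact h1 rfl
    · rw [L_lg] at h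
      simp only at h
      rw [← hP] at h
      exact P.κ₀_TB _ _ h
  TA_miss C h1 h2 p q h := by
    rcases cases_leg C with rfl | ⟨k', rfl⟩
    · exact h1 rfl
    · rw [L_lg] at h
      have hk : k' = !k := not_eq_of_ne fun h => h2 (by rw [h])
      subst hk
      obtain ⟨r1, -, h3⟩ := insC_cover I h
      exact I.miss _ _ h3
  TB_miss C h1 h2 p q h := by
    rcases cases_leg C with rfl | ⟨k', rfl⟩
    · exact h1 rfl
    · rw [L_lg] at h
      have h3 := T.sb_ne ((T.isBox_sb false).inj h)
      exact h2 (by rw [h3])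
  f j x := P.f (e j).1 (I.s (e j).2 x)
  f' j x := I.f (e j).2 (P.f' (e j).1 x)
  isSq_f j := (P.isSq_f _).comp (I.fam.isSq _)
  isSq_f' j := (I.isSq_f _).comp (P.isSq_f' _)
  f_disj j l x y h := by
    have h1 : (e j).1 = (e l).1 := P.f_disj _ _ _ _ h
    rw [h1] at h
    have h2 : (e j).2 = (e l).2 := I.fam.disj _ _ _ _ ((P.isSq_f _).inj h)
    exact e.injective (Prod.ext h1 h2)
  f'_disj j l x y h := by
    have h1 : (e j).2 = (e l).2 := by
      have h2 := I.spec (e j).2 Disc.zero (P.f' (e j).1 x)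
      have h3 := I.spec (e l).2 Disc.zero (P.f' (e l).1 y)
      rw [h, ← h3] at h2
      exact I.fam.vert_disj _ _ _ _ (I.mor.inj h2)
    rw [h1] at h
    have h2 : (e j).1 = (e l).1 := P.f'_disj _ _ _ _ ((I.isSq_f _).inj h)
    exact e.injective (Prod.ext h2 h1)
  cross a x b y := by
    constructor
    · intro h
      obtain ⟨r1, h1, h2⟩ := insC_cover I h
      obtain ⟨c, ⟨x', y'⟩, rfl⟩ := I.cover _ _ h2
      rw [I.spec] at h2
      have h3 := (T.isBox_sb k).inj h2
      simp only [Prod.mk.injEq] at h3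
      rw [← hP] at h1
      obtain ⟨j, h4, h5⟩ := (P.cross a x (I.s c x') y').1 h1
      refine ⟨e.symm (j, c), ?_, ?_⟩
      · rw [Equiv.apply_symm_apply, h4, h3.1]
      · rw [Equiv.apply_symm_apply, ← h3.2, h5]
    · rintro ⟨j, rfl, rfl⟩
      have h1 := (P.cross a (P.f (e j).1 (I.s (e j).2 b)) (I.s (e j).2 b) (P.f' (e j).1 a)).2
        ⟨_, rfl, rfl⟩
      rw [h1, hP, insC_box]
      have h2 := I.spec (e j).2 b (P.f' (e j).1 a)
      change I.ψ (I.s (e j).2 b, P.f' (e j).1 a) = _ at h2
      rw [h2]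

end Push

variable (T : TwoLeg)

/-- **All push-off data.** -/
theorem exists_pushDatum (A B : Fin 3) (hAB : A ≠ B) : Nonempty (PushDatum T.L A B) := by
  obtain ⟨P, hP⟩ := T.push
  change ∀ p, P.TB p = T.sb false p at hP
  have h0 : ∀ k, Nonempty (PushDatum T.L 0 (lg k)) := by
    intro k
    obtain ⟨I⟩ := T.contract k
    have := I.finE
    obtain ⟨N, ⟨e⟩⟩ := Finite.exists_equiv_fin (Fin P.n × I.E)
    exact ⟨pushO P hP k I e.symm⟩
  rcases cases_leg A with rfl | ⟨k, rfl⟩ <;> rcases cases_leg B with rfl | ⟨k', rfl⟩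
  · exact absurd rfl hAB
  · exact h0 k'
  · obtain ⟨R⟩ := h0 k
    exact ⟨R.symm⟩
  · obtain ⟨O⟩ := T.contract false
    have hR : PushDatum T.L (lg true) (lg false) := pushI P O
    cases k <;> cases k'
    · exact absurd rfl hAB
    · exact ⟨hR.symm⟩
    · exact ⟨hR⟩
    · exact absurd rfl hAB

end TwoLeg

end Vale.Agent.P215.Am
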