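import Vale.Agent.P215.Am.Sys

/-!
# P215, route A: vertical boxes and insertion
-/

noncomputable section

namespace Vale.Agent.P215.Am

open Vale.Agent.P215.H788 Set Topology unitInterval

/-- The vertical box over a little square. -/
def vert (s : Disc → Disc) (p : Q) : Q := (s p.1, p.2)

theorem vert_inj {s : Disc → Disc} (hs : Function.Injective s) : Function.Injective (vert s) := by
  intro p q h
  simp only [vert, Prod.mk.injEq] at h
  exact Prod.ext (hs h.1) h.2

theorem vert_vert (s s' : Disc → Disc) (p : Q) : vert s (vert s' p) = vert (fun x => s (s' x)) p :=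
  rfl

/-! ### Insertion -/

section Ins

variable {J : Type} {B : J → Q → Q} (hB : ∀ j, IsBox (B j))
  (hd : ∀ j k p q, B j p = B k q → j = k)

/-- Insertion of the maps `ψ j` in the boxes `B j`. -/
def ins (B : J → Q → Q) (ψ : J → Q → Q) : Q → Q := patch B id (fun j q => B j (ψ j q))

include hB hd

theorem ins_box (ψ : J → Q → Q) (j : J) (q : Q) : ins B ψ (B j q) = B j (ψ j q) :=
  patch_box hB hd _ _ j q

omit hB hd in
theorem ins_off (ψ : J → Q → Q) {p : Q} (h : ∀ j q, B j q ≠ p) : ins B ψ p = p :=
  patch_off _ _ h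

/-- A point is mapped into a box if and only if it lies in the box. -/
theorem ins_cover (ψ : J → Q → Q) {p : Q} {j : J} {r : Q} (h : ins B ψ p = B j r) :
    ∃ q, p = B j q ∧ ψ j q = r := by
  by_cases h1 : ∃ k q, B k q = p
  · obtain ⟨k, q, rfl⟩ := h1
    rw [ins_box hB hd] at h
    have h2 := hd _ _ _ _ h
    subst h2
    exact ⟨q, rfl, (hB k).inj h⟩
  · push Not at h1
    rw [ins_off ψ h1] at h
    exact absurd h.symm (h1 j r)

theorem isMor_ins [Finite J] {ψ : J → Q → Q} (hψ : ∀ j, IsMor (ψ j)) : IsMor (ins B ψ) where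
  cont := by
    have h := continuous_patch (T := Unit) hB hd (fun _ => (id : Q → Q))
      continuous_snd (fun _ j q => B j (ψ j q))
      (fun j => ((hB j).cont.comp (hψ j).cont).comp continuous_snd)
      (fun _ j q hq => by
        obtain ⟨x, y⟩ := q
        simp only [id]
        rw [(hψ j).bd x y hq])
    exact h.comp (Continuous.prodMk_right ())
  inj := by
    intro p q h
    by_cases h1 : ∃ k r, B k r = p
    · obtain ⟨k, r, rfl⟩ := h1
      rw [ins_box hB hd] at h
      obtain ⟨r', rfl, h2⟩ := ins_cover hB hd ψ h.symm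
      rw [(hψ k).inj h2]
    · push Not at h1
      rw [ins_off ψ h1] at h
      by_cases h3 : ∃ k r, B k r = q
      · obtain ⟨k, r, rfl⟩ := h3
        rw [ins_box hB hd] at h
        exact absurd h.symm (h1 _ _)
      · push Not at h3
        rw [ins_off ψ h3] at h
        exact h
  bd x y hx := by
    refine ins_off ψ ?_
    intro j q hq
    have h1 := (hB j).mem q
    rw [hq] at h1
    exact absurd h1 (not_mem_core.2 hx)

end Ins

/-- A family of disjoint little squares in the interior of the disc. -/
structure IsFam {C : Type} (s : C → Disc → Disc) : Prop where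
  isSq : ∀ c, IsSq (s c)
  int : ∀ c x, s c x ∈ int
  disj : ∀ c d x y, s c x = s d y → c = d

namespace IsFam

variable {C : Type} {s : C → Disc → Disc} (hs : IsFam s)

include hs

theorem isBox (c : C) : IsBox (vert (s c)) := isBox_vert (hs.isSq c) (hs.int c)

theorem vert_disj (c d : C) (p q : Q) (h : vert (s c) p = vert (s d) q) : c = d := by
  simp only [vert, Prod.mk.injEq] at h
  exact hs.disj _ _ _ _ h.1

theorem comp {C' : C → Type} {s' : ∀ c, C' c → Disc → Disc} (hs' : ∀ c, IsFam (s' c)) :
    IsFam (fun (c : Σ c, C' c) x => s c.1 (s' c.1 c.2 x)) where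
  isSq c := (hs.isSq c.1).comp ((hs' c.1).isSq c.2)
  int c x := hs.int _ _
  disj := by
    rintro ⟨c, c'⟩ ⟨d, d'⟩ x y h
    simp only at h
    have h1 := hs.disj _ _ _ _ h
    subst h1
    have h2 := (hs' c).disj _ _ _ _ ((hs.isSq c).inj h)
    rw [h2]

theorem comp_prod {C' : Type} {s' : C' → Disc → Disc} (hs' : IsFam s') :
    IsFam (fun (c : C × C') x => s c.1 (s' c.2 x)) where
  isSq c := (hs.isSq c.1).comp (hs'.isSq c.2)
  int c x := hs.int _ _
  disj := by
    rintro ⟨c, c'⟩ ⟨d, d'⟩ x y h
    simp only at h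
    have h1 := hs.disj _ _ _ _ h
    subst h1
    have h2 := hs'.disj _ _ _ _ ((hs.isSq c).inj h)
    rw [h2]

end IsFam

end Vale.Agent.P215.Am
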