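import Vale.Agent.P215.Am.Port

/-!
# P215, route A: walks in 3-port graphs

A walk from `x` is a list of legs.  `wEnd` is its end, `wVal` the product of its labels, `Red`
says that it is reduced (it never goes back at once), and `Far M x` says that no walk of length at
most `M` from `x` can be continued by a non-trivial reduced walk of length at most `M` with trivial
value.
-/

namespace Vale.Agent.P215.Am

variable {Γ : Type} [Group Γ] {T : Types Γ} (P : Port T)

namespace Port

/-- The label of the dart on the leg `l` of `x`. -/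
def lab (x : P.X) (l : Fin 3) : Γ := T.t (P.dart x l)

/-- The end of a walk. -/
def wEnd : P.X → List (Fin 3) → P.X
  | x, [] => x
  | x, l :: ls => wEnd (P.nb x l) ls

/-- The product of the labels of a walk. -/
def wVal : P.X → List (Fin 3) → Γ
  | _, [] => 1
  | x, l :: ls => P.lab x l * wVal (P.nb x l) ls

/-- The walk is reduced. -/
def Red : P.X → List (Fin 3) → Prop
  | _, [] => True
  | _, [_] => True
  | x, l :: l' :: ls => l' ≠ P.bk x l ∧ Red (P.nb x l) (l' :: ls)

/-- No reduced walk of length at most `M` which starts at the end of a reduced walk of length at most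
`M` from `x` has the trivial value. -/
def Far (M : ℕ) (x : P.X) : Prop :=
  ∀ u, P.Red x u → u.length ≤ M → ∀ w, w ≠ [] → P.Red (P.wEnd x u) w → w.length ≤ M →
    P.wVal (P.wEnd x u) w ≠ 1

variable {P}

@[simp] theorem wEnd_nil (x : P.X) : P.wEnd x [] = x := rfl

@[simp] theorem wEnd_cons (x : P.X) (l : Fin 3) (ls : List (Fin 3)) :
    P.wEnd x (l :: ls) = P.wEnd (P.nb x l) ls := rfl

@[simp] theorem wVal_nil (x : P.X) : P.wVal x [] = 1 := rfl

@[simp] theorem wVal_cons (x : P.X) (l : Fin 3) (ls : List (Fin 3)) :
    P.wVal x (l :: ls) = P.lab x l * P.wVal (P.nb x l) ls := rfl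

theorem wEnd_append (x : P.X) (u w : List (Fin 3)) :
    P.wEnd x (u ++ w) = P.wEnd (P.wEnd x u) w := by
  induction u generalizing x with
  | nil => rfl
  | cons l u ih => exact ih _

theorem wVal_append (x : P.X) (u w : List (Fin 3)) :
    P.wVal x (u ++ w) = P.wVal x u * P.wVal (P.wEnd x u) w := by
  induction u generalizing x with
  | nil => simp
  | cons l u ih => simp [ih, mul_assoc]

@[simp] theorem red_nil (x : P.X) : P.Red x [] := trivial

@[simp] theorem red_singleton (x : P.X) (l : Fin 3) : P.Red x [l] := trivial

theorem red_cons_cons {x : P.X} {l l' : Fin 3} {ls : List (Fin 3)} :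
    P.Red x (l :: l' :: ls) ↔ l' ≠ P.bk x l ∧ P.Red (P.nb x l) (l' :: ls) := Iff.rfl

theorem Red.tail {x : P.X} {l : Fin 3} {ls : List (Fin 3)} (h : P.Red x (l :: ls)) :
    P.Red (P.nb x l) ls := by
  cases ls with
  | nil => trivial
  | cons l' ls => exact h.2

theorem Red.left {x : P.X} {u w : List (Fin 3)} (h : P.Red x (u ++ w)) : P.Red x u := by
  induction u generalizing x with
  | nil => trivial
  | cons l u ih =>
    cases u with
    | nil => trivial
    | cons l' u => exact ⟨h.1, ih h.2⟩

theorem Red.right {x : P.X} {u w : List (Fin 3)} (h : P.Red x (u ++ w)) :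
    P.Red (P.wEnd x u) w := by
  induction u generalizing x with
  | nil => exact h
  | cons l u ih => exact ih h.tail

theorem lab_bk (x : P.X) (l : Fin 3) : P.lab (P.nb x l) (P.bk x l) = (P.lab x l)⁻¹ := by
  rw [lab, dart_bk, T.t_flip]; rfl

end Port

end Vale.Agent.P215.Am
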